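import Mathlib

/-!
Elementary nonexistence of positive supersolutions of the Lane-Emden system:
every dimension when `p * q ≤ 1`, and every exponent when `n = 2`. Solutions are only required
to be continuous, and `C²` off the origin.
-/

open InnerProductSpace Laplacian Filter Topology Set Metric Real

namespace Vale.Agent.P100.Super

variable {E : Type*} [NormedAddCommGroup E] [InnerProductSpace ℝ E] [FiniteDimensional ℝ E]

theorem second_dir {f : E → ℝ} {x : E} (hf : ContDiffAt ℝ 2 f x) (w : E) :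
    iteratedFDeriv ℝ 2 f x ![w, w] = deriv (deriv (fun t : ℝ => f (x + t • w))) 0 := by
  have h1 : ∀ᶠ y in 𝓝 x, DifferentiableAt ℝ f y :=
    (hf.eventually (by simp)).mono fun y hy => hy.differentiableAt (by simp)
  have hline : ∀ t : ℝ, HasDerivAt (fun t : ℝ => x + t • w) w t := fun t => by
    simpa using ((hasDerivAt_id t).smul_const w).const_add x
  have hcont : Tendsto (fun t : ℝ => x + t • w) (𝓝 0) (𝓝 x) := by
    simpa using (hline 0).continuousAt.tendsto
  have h2 : deriv (fun t : ℝ => f (x + t • w)) =ᶠ[𝓝 0] fun t => fderiv ℝ f (x + t • w) w := by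
    filter_upwards [hcont.eventually h1] with t ht
    exact (ht.hasFDerivAt.comp_hasDerivAt t (hline t)).deriv
  have hd : DifferentiableAt ℝ (fderiv ℝ f) x :=
    (hf.fderiv_right (m := 1) (by norm_num)).differentiableAt (by simp)
  have h3 : HasDerivAt (fun t : ℝ => fderiv ℝ f (x + t • w) w) (fderiv ℝ (fderiv ℝ f) x w w) 0 := by
    have hF : HasFDerivAt (fun y => fderiv ℝ f y w)
        ((ContinuousLinearMap.apply ℝ ℝ w).comp (fderiv ℝ (fderiv ℝ f) x)) x :=
      (ContinuousLinearMap.apply ℝ ℝ w).hasFDerivAt.comp x hd.hasFDerivAt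
    have := hF.comp_hasDerivAt_of_eq (0 : ℝ) (hline 0) (by simp)
    simpa [Function.comp_def] using this
  rw [iteratedFDeriv_two_apply, h2.deriv_eq, h3.deriv]
  simp

theorem lap_eq_sum {f : E → ℝ} {x : E} (hf : ContDiffAt ℝ 2 f x) {ι : Type*} [Fintype ι]
    (b : OrthonormalBasis ι ℝ E) :
    Δ f x = ∑ i, deriv (deriv (fun t : ℝ => f (x + t • b i))) 0 := by
  rw [laplacian_eq_iteratedFDeriv_orthonormalBasis f b]
  exact Finset.sum_congr rfl fun i _ => second_dir hf (b i)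

theorem deriv2_nonneg_of_isLocalMin {g : ℝ → ℝ} (hc : ContinuousAt g 0) (h : IsLocalMin g 0) :
    0 ≤ deriv (deriv g) 0 := by
  by_contra hneg
  rw [not_le] at hneg
  have hmax : IsLocalMax g 0 := isLocalMax_of_deriv_deriv_neg hneg h.deriv_eq_zero hc
  have heq : g =ᶠ[𝓝 0] fun _ => g 0 := by
    filter_upwards [h, hmax] with t h1 h2
    exact le_antisymm h2 h1
  have h3 : deriv g =ᶠ[𝓝 0] fun _ => (0 : ℝ) := by
    have := heq.deriv
    simpa using this
  rw [h3.deriv_eq] at hneg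
  simp at hneg

theorem lap_nonneg_of_isLocalMin {f : E → ℝ} {x : E} (hf : ContDiffAt ℝ 2 f x)
    (h : IsLocalMin f x) : 0 ≤ Δ f x := by
  rw [lap_eq_sum hf (stdOrthonormalBasis ℝ E)]
  refine Finset.sum_nonneg fun i _ => deriv2_nonneg_of_isLocalMin ?_ ?_
  · exact hf.continuousAt.comp_of_eq (by fun_prop) (by simp)
  · have hcont : Tendsto (fun t : ℝ => x + t • stdOrthonormalBasis ℝ E i) (𝓝 0) (𝓝 x) := by
      have : ContinuousAt (fun t : ℝ => x + t • stdOrthonormalBasis ℝ E i) 0 := by fun_prop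
      simpa using this.tendsto
    exact (hcont.eventually h).mono fun t ht => by simpa using ht

/-- Minimum principle for strictly superharmonic functions. -/
theorem min_principle {K U : Set E} (hK : IsCompact K) (hU : IsOpen U) (hUK : U ⊆ K)
    {f : E → ℝ} (hc : ContinuousOn f K)
    (hd : ∀ x ∈ U, ContDiffAt ℝ 2 f x) (hlap : ∀ x ∈ U, Δ f x < 0)
    {m : ℝ} (hb : ∀ x ∈ K, x ∉ U → m ≤ f x) : ∀ x ∈ K, m ≤ f x := by
  intro x hx
  obtain ⟨z, hz, hmin⟩ := hK.exists_isMinOn ⟨x, hx⟩ hc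
  by_cases hzU : z ∈ U
  · have hl : IsLocalMin f z :=
      hmin.isLocalMin (mem_of_superset (hU.mem_nhds hzU) hUK)
    exact absurd (lap_nonneg_of_isLocalMin (hd z hzU) hl) (not_le.2 (hlap z hzU))
  · exact (hb z hz hzU).trans (hmin hx)

/-- Laplacian of a radial function `x ↦ h (‖x‖ ^ 2)`. -/
theorem lap_radial {h : ℝ → ℝ} {x : E} (hh : ContDiffAt ℝ 2 h (‖x‖ ^ 2)) :
    Δ (fun y : E => h (‖y‖ ^ 2)) x = 4 * ‖x‖ ^ 2 * deriv (deriv h) (‖x‖ ^ 2)
      + 2 * (Module.finrank ℝ E) * deriv h (‖x‖ ^ 2) := by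
  have hf : ContDiffAt ℝ 2 (fun y : E => h (‖y‖ ^ 2)) x :=
    hh.comp x (contDiffAt_id.norm_sq ℝ)
  have hkey : ∀ w : E, deriv (deriv (fun t : ℝ => h (‖x + t • w‖ ^ 2))) 0
      = 4 * inner ℝ x w ^ 2 * deriv (deriv h) (‖x‖ ^ 2) + 2 * ‖w‖ ^ 2 * deriv h (‖x‖ ^ 2) := by
    intro w
    set r : ℝ → ℝ := fun t => ‖x + t • w‖ ^ 2 with hr
    have hrd : ∀ t : ℝ, HasDerivAt r (2 * inner ℝ x w + 2 * t * ‖w‖ ^ 2) t := by
      intro t
      have e : r = fun t => ‖x‖ ^ 2 + t * (2 * inner ℝ x w) + t ^ 2 * ‖w‖ ^ 2 := by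
        funext s
        simp only [hr, norm_add_sq_real, inner_smul_right, norm_smul, Real.norm_eq_abs,
          mul_pow, sq_abs]
        ring
      rw [e]
      have := (((hasDerivAt_id t).mul_const (2 * inner ℝ x w)).const_add (‖x‖ ^ 2)).add
        ((hasDerivAt_pow 2 t).mul_const (‖w‖ ^ 2))
      exact this.congr_deriv (by simp)
    have hr0 : r 0 = ‖x‖ ^ 2 := by simp [hr]
    have h1 : ∀ᶠ s in 𝓝 (‖x‖ ^ 2), DifferentiableAt ℝ h s :=
      (hh.eventually (by simp)).mono fun y hy => hy.differentiableAt (by simp)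
    have hrc : Tendsto r (𝓝 0) (𝓝 (‖x‖ ^ 2)) := hr0 ▸ (hrd 0).continuousAt.tendsto
    have h2 : deriv (fun t : ℝ => h (r t)) =ᶠ[𝓝 0]
        fun t => deriv h (r t) * (2 * inner ℝ x w + 2 * t * ‖w‖ ^ 2) := by
      filter_upwards [hrc.eventually h1] with t ht
      exact (ht.hasDerivAt.comp t (hrd t)).deriv
    have hdd : DifferentiableAt ℝ (deriv h) (‖x‖ ^ 2) := by
      have := ((hh.fderiv_right (m := 1) (by norm_num)).differentiableAt (by simp)).clm_apply
        (differentiableAt_const (1 : ℝ))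
      simpa only [fderiv_apply_one_eq_deriv] using this
    have hA : HasDerivAt (fun t => deriv h (r t))
        (deriv (deriv h) (‖x‖ ^ 2) * (2 * inner ℝ x w + 2 * 0 * ‖w‖ ^ 2)) 0 :=
      hdd.hasDerivAt.comp_of_eq (0 : ℝ) (hrd 0) hr0.symm
    have hB : HasDerivAt (fun t : ℝ => 2 * inner ℝ x w + 2 * t * ‖w‖ ^ 2) (2 * ‖w‖ ^ 2) 0 := by
      have := (((hasDerivAt_id (0 : ℝ)).const_mul 2).mul_const (‖w‖ ^ 2)).const_add
        (2 * inner ℝ x w)
      exact this.congr_deriv (by simp)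
    rw [h2.deriv_eq, (hA.fun_mul hB).deriv, hr0]
    ring
  rw [lap_eq_sum hf (stdOrthonormalBasis ℝ E), Finset.sum_congr rfl fun i _ => hkey _,
    Finset.sum_add_distrib, ← Finset.sum_mul, ← Finset.sum_mul, ← Finset.mul_sum, ← Finset.mul_sum]
  have hsum : ∑ i, inner ℝ x (stdOrthonormalBasis ℝ E i) ^ 2 = ‖x‖ ^ 2 := by
    rw [← (stdOrthonormalBasis ℝ E).sum_sq_norm_inner_left x]
    exact Finset.sum_congr rfl fun i _ => by rw [Real.norm_eq_abs, sq_abs]
  rw [hsum]
  simp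

theorem lap_norm_sq (x : E) :
    Δ (fun y : E => ‖y‖ ^ 2) x = 2 * Module.finrank ℝ E := by
  have := lap_radial (h := fun s : ℝ => s) (x := x) contDiffAt_id
  simpa [Function.comp_def, deriv_id''] using this

theorem lap_rpow {x : E} (hx : x ≠ 0) (a : ℝ) :
    Δ (fun y : E => (‖y‖ ^ 2) ^ a) x
      = a * (4 * (a - 1) + 2 * Module.finrank ℝ E) * (‖x‖ ^ 2) ^ (a - 1) := by
  have hs : 0 < ‖x‖ ^ 2 := by positivity
  have h1 : deriv (fun s : ℝ => s ^ a) =ᶠ[𝓝 (‖x‖ ^ 2)] fun s => a * s ^ (a - 1) := by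
    filter_upwards [eventually_gt_nhds hs] with s hs'
    exact (Real.hasDerivAt_rpow_const (Or.inl hs'.ne')).deriv
  rw [lap_radial (h := fun s : ℝ => s ^ a) (Real.contDiffAt_rpow_const_of_ne hs.ne'), h1.deriv_eq,
    ((Real.hasDerivAt_rpow_const (Or.inl hs.ne')).const_mul a).deriv, h1.eq_of_nhds]
  have e : (‖x‖ ^ 2) ^ (a - 1 - 1) * ‖x‖ ^ 2 = (‖x‖ ^ 2) ^ (a - 1) := by
    rw [Real.rpow_sub_one hs.ne' (a - 1), div_mul_cancel₀ _ hs.ne']
  linear_combination 4 * a * (a - 1) * e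

theorem lap_log {x : E} (hx : x ≠ 0) :
    Δ (fun y : E => Real.log (‖y‖ ^ 2)) x
      = (2 * Module.finrank ℝ E - 4) / ‖x‖ ^ 2 := by
  have hs : ‖x‖ ^ 2 ≠ 0 := by positivity
  rw [lap_radial (h := Real.log) (Real.contDiffAt_log.2 hs), Real.deriv_log', deriv_inv]
  have hn : ‖x‖ ≠ 0 := norm_ne_zero_iff.2 hx
  field_simp
  ring

/-- The minimum principle holds across an isolated point in dimension at least two. -/
theorem min_principle_puncture {K U : Set E} (hn : 2 ≤ Module.finrank ℝ E) (hK : IsCompact K)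
    (hU : IsOpen U) (hUK : U ⊆ K) {f : E → ℝ} (hc : ContinuousOn f K)
    (hd : ∀ x ∈ U, x ≠ 0 → ContDiffAt ℝ 2 f x) (hlap : ∀ x ∈ U, x ≠ 0 → Δ f x < 0)
    {m : ℝ} (hb : ∀ x ∈ K, x ∉ U → m ≤ f x) : ∀ x ∈ K, m ≤ f x := by
  obtain ⟨D, hD1, hKD⟩ := hK.isBounded.subset_closedBall_lt 1 (0 : E)
  have hD : ∀ x ∈ K, ‖x‖ ≤ D := fun x hx => by simpa using hKD hx
  have hlog : ∀ y : E, y ≠ 0 → ContDiffAt ℝ 2 (fun y : E => Real.log (‖y‖ ^ 2)) y := fun y hy =>
    (Real.contDiffAt_log.2 (by positivity)).comp y (contDiffAt_id.norm_sq ℝ)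
  have main : ∀ x ∈ K, x ≠ 0 → m ≤ f x := by
    intro x hx hx0
    refine le_of_forall_pos_le_add fun η hη => ?_
    set L : ℝ := Real.log (D ^ 2) with hLdef
    have hxp : 0 < ‖x‖ := norm_pos_iff.2 hx0
    have hLx : 0 ≤ L - Real.log (‖x‖ ^ 2) :=
      sub_nonneg.2 (Real.log_le_log (by positivity) (pow_le_pow_left₀ (norm_nonneg x) (hD x hx) 2))
    set ε : ℝ := η / (L - Real.log (‖x‖ ^ 2) + 1) with hεdef
    have hε : 0 < ε := by positivity
    obtain ⟨z, hz, hzmin⟩ := hK.exists_isMinOn ⟨x, hx⟩ hc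
    set A : ℝ := L - (m - f z) / ε with hA
    set δ : ℝ := min (‖x‖ / 2) (Real.exp (A / 2)) with hδdef
    have hδ : 0 < δ := lt_min (by linarith) (Real.exp_pos _)
    have hδx : δ < ‖x‖ := (min_le_left _ _).trans_lt (by linarith)
    have hne : ∀ y : E, δ ≤ ‖y‖ → y ≠ 0 := fun y hy h => by
      rw [h, norm_zero] at hy; linarith
    have hmain := min_principle (U := U ∩ {y : E | δ < ‖y‖})
      (hK.inter_right (isClosed_le continuous_const continuous_norm : IsClosed {y : E | δ ≤ ‖y‖}))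
      (hU.inter (isOpen_lt continuous_const continuous_norm))
      (inter_subset_inter hUK fun y (hy : δ < ‖y‖) => hy.le)
      (f := fun y => f y + (ε * L + (-ε) • Real.log (‖y‖ ^ 2))) ?_ ?_ ?_ (m := m) ?_ x ⟨hx, hδx.le⟩
    · simp only [smul_eq_mul] at hmain
      have : ε * (L - Real.log (‖x‖ ^ 2)) ≤ η := by
        rw [hεdef, div_mul_eq_mul_div, div_le_iff₀ (by positivity)]
        nlinarith
      linarith
    · refine (hc.mono inter_subset_left).add (continuousOn_const.add ?_)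
      intro y hy
      exact ((hlog y (hne y hy.2)).continuousAt.const_smul (-ε)).continuousWithinAt
    · intro y hy
      exact (hd y hy.1 (hne y (le_of_lt hy.2))).add
        (contDiffAt_const.add ((hlog y (hne y (le_of_lt hy.2))).const_smul (-ε)))
    · intro y hy
      have hy0 := hne y (le_of_lt hy.2)
      have h2 : ContDiffAt ℝ 2 (fun y : E => (-ε) • Real.log (‖y‖ ^ 2)) y :=
        (hlog y hy0).const_smul (-ε)
      have e1 : Δ (fun y => f y + (ε * L + (-ε) • Real.log (‖y‖ ^ 2))) y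
          = Δ f y + (-ε) • Δ (fun y : E => Real.log (‖y‖ ^ 2)) y := by
        have h3 : Δ (fun _ : E => ε * L) y = 0 := by
          rw [lap_eq_sum contDiffAt_const (stdOrthonormalBasis ℝ E)]
          simp
        rw [show Δ (fun y => f y + (ε * L + (-ε) • Real.log (‖y‖ ^ 2))) y = _ from
          (hd y hy.1 hy0).laplacian_add (contDiffAt_const.add h2),
          ← laplacian_smul (-ε) (hlog y hy0)]
        rw [show Δ (fun y : E => ε * L + (-ε) • Real.log (‖y‖ ^ 2)) y = _ from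
          contDiffAt_const.laplacian_add h2, h3, zero_add]
        rfl
      rw [e1, lap_log hy0, smul_eq_mul]
      have h4 : (0 : ℝ) ≤ (2 * (Module.finrank ℝ E : ℝ) - 4) / ‖y‖ ^ 2 := by
        have : (2 : ℝ) ≤ Module.finrank ℝ E := by exact_mod_cast hn
        exact div_nonneg (by linarith) (sq_nonneg _)
      nlinarith [hlap y hy.1 hy0]
    · intro y hy hyU
      simp only [smul_eq_mul]
      have hy0 := norm_pos_iff.2 (hne y hy.2)
      have hLy : Real.log (‖y‖ ^ 2) ≤ L :=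
        Real.log_le_log (by positivity) (pow_le_pow_left₀ (norm_nonneg y) (hD y hy.1) 2)
      by_cases hyU' : y ∈ U
      · have h1 : ‖y‖ = δ := le_antisymm (not_lt.1 fun h => hyU ⟨hyU', h⟩) hy.2
        have h2 : Real.log δ ≤ A / 2 :=
          (Real.log_le_log hδ (min_le_right _ _)).trans_eq (Real.log_exp _)
        have h3 : Real.log (‖y‖ ^ 2) = 2 * Real.log δ := by
          rw [h1, Real.log_pow]; push_cast; ring
        have h4 : ε * A = ε * L - (m - f z) := by
          rw [hA, mul_sub, mul_div_cancel₀ _ hε.ne']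
        have h5 : f z ≤ f y := hzmin hy.1
        nlinarith [mul_le_mul_of_nonneg_left h2 hε.le]
      · nlinarith [hb y hy.1 hyU']
  intro x hx
  by_cases hxU : x ∈ U
  · by_cases hx0 : x = 0
    · subst hx0
      have : Nontrivial E := Module.nontrivial_of_finrank_pos (R := ℝ) (by omega)
      have : (𝓝[≠] (0 : E)).NeBot := Module.punctured_nhds_neBot ℝ E 0
      refine ge_of_tendsto ((hc.continuousAt (mem_of_superset (hU.mem_nhds hxU) hUK)).tendsto.mono_left
        (nhdsWithin_le_nhds (s := {(0 : E)}ᶜ))) ?_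
      filter_upwards [nhdsWithin_le_nhds (hU.mem_nhds hxU), self_mem_nhdsWithin] with y hy hy0
      exact main y (hUK hy) hy0
    · exact main x hx hx0
  · exact hb x hx hxU

/-- Positive strictly superharmonic functions dominate a negative power outside a ball. -/
theorem exterior_bound {f : E → ℝ} (hfc : Continuous f) (hf : ContDiffOn ℝ 2 f {(0 : E)}ᶜ)
    (hpos : ∀ x, 0 < f x) (hlap : ∀ x, x ≠ 0 → Δ f x < 0) {a : ℝ} (ha : 0 < a) (han : (Module.finrank ℝ E : ℝ) ≤ 2 * (a + 1))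
    {R : ℝ} (hR : 0 < R) {m : ℝ} (hm0 : 0 ≤ m) (hm : ∀ z : E, ‖z‖ ≤ R → m ≤ f z)
    {x : E} (hx : R ≤ ‖x‖) : m * (R ^ 2 / ‖x‖ ^ 2) ^ a ≤ f x := by
  set φ : E → ℝ := fun y => (‖y‖ ^ 2) ^ (-a)
  set C : ℝ := m * (R ^ 2) ^ a
  have hC : 0 ≤ C := by positivity
  have hx0 : 0 < ‖x‖ := lt_of_lt_of_le hR hx
  have hrw : m * (R ^ 2 / ‖x‖ ^ 2) ^ a = C * φ x := by
    simp only [C, φ, Real.div_rpow (sq_nonneg R) (sq_nonneg ‖x‖), Real.rpow_neg (sq_nonneg ‖x‖)]
    ring
  rw [hrw]
  have key : ∀ T : ℝ, ‖x‖ ≤ T → C * φ x ≤ f x + C * (T ^ 2) ^ (-a) := by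
    intro T hT
    have hfd : ∀ y : E, y ≠ 0 → ContDiffAt ℝ 2 φ y := fun y hy =>
      (Real.contDiffAt_rpow_const_of_ne (by positivity)).comp y (contDiffAt_id.norm_sq ℝ)
    have hcl : IsClosed {y : E | R ≤ ‖y‖} := isClosed_le continuous_const continuous_norm
    have hK : IsCompact (closedBall (0 : E) T ∩ {y : E | R ≤ ‖y‖}) :=
      (isCompact_closedBall _ _).inter_right hcl
    have hne : ∀ y : E, R ≤ ‖y‖ → y ≠ 0 := fun y hy h => by
      rw [h, norm_zero] at hy; exact absurd hR (not_lt.2 hy)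
    have hmain := min_principle (U := ball (0 : E) T ∩ {y : E | R < ‖y‖}) hK
      (isOpen_ball.inter (isOpen_lt continuous_const continuous_norm))
      (inter_subset_inter ball_subset_closedBall fun y (hy : R < ‖y‖) => hy.le)
      (f := fun y => f y + (-C) • φ y) ?_ ?_ ?_ (m := -(C * (T ^ 2) ^ (-a))) ?_ x
      ⟨by simpa using hT, hx⟩
    · simp only [smul_eq_mul] at hmain; linarith
    · intro y hy
      exact ((hfc.continuousAt).add
        ((hfd y (hne y hy.2)).continuousAt.const_smul (-C))).continuousWithinAt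
    · intro y hy
      exact (hf.contDiffAt (isOpen_compl_singleton.mem_nhds (hne y (le_of_lt hy.2)))).add ((hfd y (hne y (le_of_lt hy.2))).const_smul (-C))
    · intro y hy
      have hy0 := hne y (le_of_lt hy.2)
      have e1 : Δ (fun y => f y + (-C) • φ y) y = Δ f y + (-C) • Δ φ y := by
        rw [← laplacian_smul (-C) (hfd y hy0)]
        exact (hf.contDiffAt (isOpen_compl_singleton.mem_nhds hy0)).laplacian_add ((hfd y hy0).const_smul (-C))
      rw [e1, lap_rpow hy0, smul_eq_mul]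
      have hpw : 0 ≤ (‖y‖ ^ 2) ^ (-a - 1) := by positivity
      have : 0 ≤ -a * (4 * (-a - 1) + 2 * Module.finrank ℝ E) := by nlinarith
      nlinarith [hlap y hy0, mul_nonneg hC (mul_nonneg this hpw)]
    · intro y hy hyU
      simp only [smul_eq_mul]
      by_cases hyT : ‖y‖ < T
      · have : ‖y‖ = R := le_antisymm (not_lt.1 fun h => hyU ⟨by simpa using hyT, h⟩) hy.2
        have e2 : C * φ y = m := by
          simp only [C, φ, this, Real.rpow_neg (sq_nonneg R)]
          field_simp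
        have : 0 ≤ C * (T ^ 2) ^ (-a) := by positivity
        linarith [hm y (le_of_eq ‹‖y‖ = R›)]
      · have : ‖y‖ = T := le_antisymm (by simpa using hy.1) (not_lt.1 hyT)
        simp only [φ, this]
        linarith [hpos y]
  have hlim : Tendsto (fun T : ℝ => f x + C * (T ^ 2) ^ (-a)) atTop (𝓝 (f x + C * 0)) :=
    (((tendsto_rpow_neg_atTop ha).comp (tendsto_pow_atTop two_ne_zero)).const_mul C).const_add _
  have := ge_of_tendsto hlim ((eventually_ge_atTop ‖x‖).mono key)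
  simpa using this

/-- Interior gain from a lower bound on the right hand side. -/
theorem interior_gain (hn : 2 ≤ Module.finrank ℝ E) {u : E → ℝ} (huc : Continuous u)
    (hu : ContDiffOn ℝ 2 u {(0 : E)}ᶜ) (hpos : ∀ x, 0 < u x) {R B : ℝ}
    (hR : 0 < R) (hB : 0 < B) (hlap : ∀ y : E, y ≠ 0 → ‖y‖ ≤ 2 * R → Δ u y ≤ -B) {x : E} (hx : ‖x‖ ≤ R) :
    3 * B * R ^ 2 / (4 * (Module.finrank ℝ E + 1)) ≤ u x := by
  set c : ℝ := B / (4 * (Module.finrank ℝ E + 1)) with hc
  have hc0 : 0 < c := by positivity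
  have hq : ContDiff ℝ 2 (fun y : E => ‖y‖ ^ 2) := contDiff_id.norm_sq ℝ
  have hmain := min_principle_puncture hn (isCompact_closedBall (0 : E) (2 * R)) isOpen_ball
    ball_subset_closedBall (f := fun y => u y + c • ‖y‖ ^ 2) ?_ ?_ ?_
    (m := c * (2 * R) ^ 2) ?_ x (by simpa using hx.trans (by linarith))
  · simp only [smul_eq_mul] at hmain
    have h2 : c * ‖x‖ ^ 2 ≤ c * R ^ 2 := by gcongr
    have h3 : 3 * B * R ^ 2 / (4 * (Module.finrank ℝ E + 1)) = c * (2 * R) ^ 2 - c * R ^ 2 := by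
      rw [hc]; ring
    linarith
  · exact (huc.add (hq.continuous.const_smul c)).continuousOn
  · exact fun y _ hy0 => (hu.contDiffAt (isOpen_compl_singleton.mem_nhds hy0)).add (hq.contDiffAt.const_smul c)
  · intro y hy hy0
    have e1 : Δ (fun y => u y + c • ‖y‖ ^ 2) y = Δ u y + c • Δ (fun y : E => ‖y‖ ^ 2) y := by
      rw [← laplacian_smul c hq.contDiffAt]
      exact (hu.contDiffAt (isOpen_compl_singleton.mem_nhds hy0)).laplacian_add (hq.contDiffAt.const_smul c)
    rw [e1, lap_norm_sq, smul_eq_mul]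
    have h4 : c * (2 * Module.finrank ℝ E) < B := by
      rw [hc, div_mul_eq_mul_div, div_lt_iff₀ (by positivity)]
      have hn : (0 : ℝ) ≤ Module.finrank ℝ E := Nat.cast_nonneg _
      nlinarith
    have := hlap y hy0 (le_of_lt (by simpa using hy))
    linarith
  · intro y hy hy'
    have : ‖y‖ = 2 * R := le_antisymm (by simpa using hy) (by simpa using hy')
    simp only [smul_eq_mul, this]
    linarith [hpos y]

/-- The gain inequality between the ball minima. -/
theorem gain (hn : 2 ≤ Module.finrank ℝ E) {u v : E → ℝ} (huc : Continuous u) (hvc : Continuous v)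
    (hu : ContDiffOn ℝ 2 u {(0 : E)}ᶜ) (hv : ContDiffOn ℝ 2 v {(0 : E)}ᶜ)
    (hup : ∀ x, 0 < u x) (hvp : ∀ x, 0 < v x) (hvl : ∀ x, x ≠ 0 → Δ v x < 0) {p : ℝ} (hp : 0 < p)
    (hul : ∀ x, x ≠ 0 → Δ u x ≤ -(v x) ^ p) {R : ℝ} (hR : 0 < R) {b : ℝ} (hb : 0 < b)
    (hbv : ∀ z : E, ‖z‖ ≤ R → b ≤ v z) {x : E} (hx : ‖x‖ ≤ R) :
    3 / (4 * (Module.finrank ℝ E + 1)) * ((1 / 4 : ℝ) ^ (Module.finrank ℝ E + 1 : ℝ)) ^ p
      * R ^ 2 * b ^ p ≤ u x := by
  set a : ℝ := Module.finrank ℝ E + 1 with ha'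
  have ha : 0 < a := by positivity
  have hlow : ∀ y : E, ‖y‖ ≤ 2 * R → (1 / 4 : ℝ) ^ a * b ≤ v y := by
    intro y hy
    have hk : (1 / 4 : ℝ) ^ a ≤ 1 :=
      Real.rpow_le_one (by norm_num) (by norm_num) ha.le
    rcases le_total ‖y‖ R with h | h
    · exact le_trans (mul_le_of_le_one_left hb.le hk) (hbv y h)
    · have han : (Module.finrank ℝ E : ℝ) ≤ 2 * (a + 1) := by
        have : (0 : ℝ) ≤ Module.finrank ℝ E := Nat.cast_nonneg _
        linarith
      refine le_trans ?_ (exterior_bound hvc hv hvp hvl ha han hR hb.le hbv h)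
      rw [mul_comm b]
      have hy0 : 0 < ‖y‖ := lt_of_lt_of_le hR h
      refine mul_le_mul_of_nonneg_right (Real.rpow_le_rpow (by norm_num) ?_ ha.le) hb.le
      rw [div_le_div_iff₀ (by norm_num) (by positivity)]
      nlinarith
  have := interior_gain hn huc hu hup hR (B := ((1 / 4 : ℝ) ^ a * b) ^ p) (by positivity)
    (fun y hy0 hy => (hul y hy0).trans (neg_le_neg (Real.rpow_le_rpow (by positivity) (hlow y hy) hp.le))) hx
  rw [Real.mul_rpow (by positivity) hb.le] at this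
  refine le_trans (le_of_eq ?_) this
  rw [ha']
  ring

/-- The two gain inequalities composed: a ball minimum of `u` obeys a power inequality. -/
theorem ball_min_ineq (hn : 2 ≤ Module.finrank ℝ E) {u v : E → ℝ} {p q : ℝ} (hp : 0 < p)
    (hq : 0 < q) (huc : Continuous u) (hvc : Continuous v) (hu : ContDiffOn ℝ 2 u {(0 : E)}ᶜ)
    (hv : ContDiffOn ℝ 2 v {(0 : E)}ᶜ) (hup : ∀ x, 0 < u x) (hvp : ∀ x, 0 < v x)
    (hul : ∀ x, x ≠ 0 → Δ u x ≤ -(v x) ^ p) (hvl : ∀ x, x ≠ 0 → Δ v x ≤ -(u x) ^ q) :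
    ∃ K : ℝ, 0 < K ∧ ∀ R : ℝ, 0 < R → ∃ a : E, ‖a‖ ≤ R ∧ (∀ z : E, ‖z‖ ≤ R → u a ≤ u z) ∧
      K * R ^ (2 + 2 * p) * u a ^ (p * q) ≤ u a := by
  have hu' : ∀ x, x ≠ 0 → Δ u x < 0 := fun x hx =>
    lt_of_le_of_lt (hul x hx) (neg_neg_of_pos (Real.rpow_pos_of_pos (hvp x) p))
  have hv' : ∀ x, x ≠ 0 → Δ v x < 0 := fun x hx =>
    lt_of_le_of_lt (hvl x hx) (neg_neg_of_pos (Real.rpow_pos_of_pos (hup x) q))
  set κ : ℝ := (1 / 4 : ℝ) ^ (Module.finrank ℝ E + 1 : ℝ)
  set c : ℝ := 3 / (4 * (Module.finrank ℝ E + 1))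
  have hκ : 0 < κ := by positivity
  have hc : 0 < c := by positivity
  refine ⟨c * κ ^ p * (c * κ ^ q) ^ p, by positivity, fun R hR => ?_⟩
  obtain ⟨xu, hxu, hxu'⟩ := (isCompact_closedBall (0 : E) R).exists_isMinOn
    ⟨0, by simpa using hR.le⟩ huc.continuousOn
  obtain ⟨xv, hxv, hxv'⟩ := (isCompact_closedBall (0 : E) R).exists_isMinOn
    ⟨0, by simpa using hR.le⟩ hvc.continuousOn
  have hxu0 : ‖xu‖ ≤ R := by simpa using hxu
  have hxv0 : ‖xv‖ ≤ R := by simpa using hxv
  refine ⟨xu, hxu0, fun z hz => hxu' (by simpa using hz), ?_⟩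
  have g1 : c * κ ^ p * R ^ 2 * v xv ^ p ≤ u xu :=
    gain hn huc hvc hu hv hup hvp hv' hp hul hR (hvp xv) (fun z hz => hxv' (by simpa using hz)) hxu0
  have g2 : c * κ ^ q * R ^ 2 * u xu ^ q ≤ v xv :=
    gain hn hvc huc hv hu hvp hup hu' hq hvl hR (hup xu) (fun z hz => hxu' (by simpa using hz)) hxv0
  have hux := hup xu
  have g4 : (c * κ ^ q) ^ p * R ^ (2 * p) * u xu ^ (p * q) ≤ v xv ^ p := by
    have h2 : R ^ (2 * p) = (R ^ 2) ^ p := by
      rw [Real.rpow_mul hR.le, Real.rpow_two]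
    rw [h2, mul_comm p q, Real.rpow_mul hux.le, ← Real.mul_rpow (by positivity) (by positivity),
      ← Real.mul_rpow (by positivity) (by positivity)]
    exact Real.rpow_le_rpow (by positivity) g2 hp.le
  refine le_trans (le_of_eq ?_) ((mul_le_mul_of_nonneg_left g4
    (by positivity : 0 ≤ c * κ ^ p * R ^ 2)).trans g1)
  rw [Real.rpow_add hR, Real.rpow_two]
  ring

/-- No positive supersolutions on the whole space when `p * q ≤ 1`, in any dimension. -/
theorem no_supersolution_mul_le_one (hn : 2 ≤ Module.finrank ℝ E) {u v : E → ℝ} {p q : ℝ}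
    (hp : 0 < p) (hq : 0 < q) (hpq : p * q ≤ 1) (huc : Continuous u) (hvc : Continuous v)
    (hu : ContDiffOn ℝ 2 u {(0 : E)}ᶜ) (hv : ContDiffOn ℝ 2 v {(0 : E)}ᶜ)
    (hup : ∀ x, 0 < u x) (hvp : ∀ x, 0 < v x)
    (hul : ∀ x, x ≠ 0 → Δ u x ≤ -(v x) ^ p) (hvl : ∀ x, x ≠ 0 → Δ v x ≤ -(u x) ^ q) : False := by
  obtain ⟨K, hK, hkey⟩ := ball_min_ineq (by omega) hp hq huc hvc hu hv hup hvp hul hvl
  have hev : ∀ᶠ R : ℝ in atTop, K * R ^ (2 + 2 * p) ≤ u 0 ^ (1 - p * q) := by
    filter_upwards [eventually_gt_atTop 0] with R hR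
    obtain ⟨a, ha, hmin, h⟩ := hkey R hR
    have h6 : K * R ^ (2 + 2 * p) ≤ u a ^ (1 - p * q) := by
      rw [Real.rpow_sub (hup a), Real.rpow_one, le_div_iff₀ (Real.rpow_pos_of_pos (hup a) _)]
      exact h
    exact h6.trans (Real.rpow_le_rpow (hup a).le (hmin 0 (by simpa using hR.le)) (by linarith))
  have ht : Tendsto (fun R : ℝ => K * R ^ (2 + 2 * p)) atTop atTop :=
    (tendsto_rpow_atTop (by positivity)).const_mul_atTop hK
  obtain ⟨R, h1, h2⟩ := (hev.and (ht.eventually_gt_atTop (u 0 ^ (1 - p * q)))).exists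
  linarith

/-- No positive supersolutions below the exponent of Serrin type, `(n - 2) (p q - 1) < 2 (p + 1)`. -/
theorem no_supersolution_exponent {u v : E → ℝ} {p q : ℝ} (hp : 0 < p) (hq : 0 < q)
    (hn : 3 ≤ Module.finrank ℝ E) (hpq : 1 < p * q)
    (hexp : ((Module.finrank ℝ E : ℝ) - 2) * (p * q - 1) < 2 * (p + 1))
    (huc : Continuous u) (hvc : Continuous v) (hu : ContDiffOn ℝ 2 u {(0 : E)}ᶜ)
    (hv : ContDiffOn ℝ 2 v {(0 : E)}ᶜ) (hup : ∀ x, 0 < u x) (hvp : ∀ x, 0 < v x)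
    (hul : ∀ x, x ≠ 0 → Δ u x ≤ -(v x) ^ p) (hvl : ∀ x, x ≠ 0 → Δ v x ≤ -(u x) ^ q) : False := by
  obtain ⟨K, hK, hkey⟩ := ball_min_ineq (by omega) hp hq huc hvc hu hv hup hvp hul hvl
  obtain ⟨a1, -, hmin1, -⟩ := hkey 1 one_pos
  set N : ℝ := (Module.finrank ℝ E : ℝ) with hN0
  have hN : 3 ≤ N := by rw [hN0]; exact_mod_cast hn
  have hu' : ∀ x, x ≠ 0 → Δ u x < 0 := fun x hx =>
    lt_of_le_of_lt (hul x hx) (neg_neg_of_pos (Real.rpow_pos_of_pos (hvp x) p))
  set e : ℝ := 2 * (p + 1) - (N - 2) * (p * q - 1)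
  have hev : ∀ᶠ R : ℝ in atTop, K * u a1 ^ (p * q - 1) * R ^ e ≤ 1 := by
    filter_upwards [eventually_ge_atTop 1] with R hR1
    have hR : 0 < R := by linarith
    obtain ⟨a, ha, hmin, h⟩ := hkey R hR
    have hlow : u a1 * R ^ (-(N - 2)) ≤ u a := by
      rcases le_total ‖a‖ 1 with h1 | h1
      · refine le_trans (mul_le_of_le_one_right (hup a1).le ?_) (hmin1 a h1)
        exact Real.rpow_le_one_of_one_le_of_nonpos hR1 (by linarith)
      · refine le_trans ?_ (exterior_bound huc hu hup hu' (a := (N - 2) / 2) (by linarith)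
          (by linarith) one_pos (hup a1).le hmin1 h1)
        refine mul_le_mul_of_nonneg_left ?_ (hup a1).le
        have ha0 : 0 < ‖a‖ := by linarith
        rw [one_pow, one_div, Real.inv_rpow (sq_nonneg _), ← Real.rpow_neg (sq_nonneg _),
          ← Real.rpow_two, ← Real.rpow_mul (norm_nonneg a)]
        rw [show 2 * -((N - 2) / 2) = -(N - 2) by ring]
        exact Real.rpow_le_rpow_of_nonpos ha0 ha (by linarith)
    have hua := hup a
    have h5 : K * R ^ (2 + 2 * p) * u a ^ (p * q - 1) ≤ 1 := by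
      rw [Real.rpow_sub hua, Real.rpow_one, ← mul_div_assoc, div_le_iff₀ hua]
      linarith
    refine le_trans (le_of_eq ?_) ((mul_le_mul_of_nonneg_left (Real.rpow_le_rpow
      (mul_pos (hup a1) (Real.rpow_pos_of_pos hR _)).le hlow (by linarith : 0 ≤ p * q - 1))
      (by positivity)).trans h5)
    rw [Real.mul_rpow (hup a1).le (Real.rpow_pos_of_pos hR _).le, ← Real.rpow_mul hR.le,
      show e = (2 + 2 * p) + -(N - 2) * (p * q - 1) by simp only [e]; ring, Real.rpow_add hR]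
    ring
  have hc : 0 < K * u a1 ^ (p * q - 1) := mul_pos hK (Real.rpow_pos_of_pos (hup a1) _)
  have ht : Tendsto (fun R : ℝ => K * u a1 ^ (p * q - 1) * R ^ e) atTop atTop :=
    (tendsto_rpow_atTop (by simp only [e]; linarith)).const_mul_atTop hc
  obtain ⟨R, h1, h2⟩ := (hev.and (ht.eventually_gt_atTop 1)).exists
  linarith

/-- No positive supersolution in dimension two. -/
theorem no_supersolution_dim_two (hn : Module.finrank ℝ E = 2) {u : E → ℝ} (huc : Continuous u)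
    (hu : ContDiffOn ℝ 2 u {(0 : E)}ᶜ) (hup : ∀ x, 0 < u x)
    (hlap : ∀ x, x ≠ 0 → Δ u x < 0) : False := by
  have : Nontrivial E := Module.nontrivial_of_finrank_pos (R := ℝ) (by omega)
  obtain ⟨x0, hx0, hmin'⟩ := (isCompact_sphere (0 : E) 1).exists_isMinOn
    (NormedSpace.sphere_nonempty.2 zero_le_one) huc.continuousOn
  set m : ℝ := u x0
  have hx00 : x0 ≠ 0 := fun h => by simp [h] at hx0
  have hmin : ∀ x ∈ closedBall (0 : E) 1, m ≤ u x :=
    min_principle_puncture hn.ge (isCompact_closedBall _ _) isOpen_ball ball_subset_closedBall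
      huc.continuousOn (fun x _ hx => hu.contDiffAt (isOpen_compl_singleton.mem_nhds hx))
      (fun x _ hx => hlap x hx) (fun x hx hx' => hmin' (by
        simp only [mem_closedBall, mem_ball, not_lt] at hx hx'
        simpa using le_antisymm hx hx'))
  have hlog : ∀ y : E, y ≠ 0 → ContDiffAt ℝ 2 (fun y : E => Real.log (‖y‖ ^ 2)) y := fun y hy =>
    (Real.contDiffAt_log.2 (by positivity)).comp y (contDiffAt_id.norm_sq ℝ)
  have hglob : ∀ x : E, m ≤ u x := by
    intro x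
    rcases le_total ‖x‖ 1 with h | h
    · exact hmin x (by simpa using h)
    refine le_of_forall_pos_le_add fun δ hδ => ?_
    set ε : ℝ := δ / (Real.log (‖x‖ ^ 2) + 1)
    have hl0 : 0 ≤ Real.log (‖x‖ ^ 2) := Real.log_nonneg (one_le_pow₀ h)
    have hε : 0 < ε := by positivity
    set T : ℝ := max ‖x‖ (Real.exp (m / (2 * ε))) with hT
    have hT1 : 1 ≤ T := h.trans (le_max_left _ _)
    have hK : IsCompact (closedBall (0 : E) T ∩ {y : E | 1 ≤ ‖y‖}) :=
      (isCompact_closedBall _ _).inter_right (isClosed_le continuous_const continuous_norm)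
    have hne : ∀ y : E, 1 ≤ ‖y‖ → y ≠ 0 := fun y hy h0 => by
      rw [h0, norm_zero] at hy; exact absurd hy (by norm_num)
    have hmain := min_principle (U := ball (0 : E) T ∩ {y : E | 1 < ‖y‖}) hK
      (isOpen_ball.inter (isOpen_lt continuous_const continuous_norm))
      (inter_subset_inter ball_subset_closedBall fun y (hy : 1 < ‖y‖) => hy.le)
      (f := fun y => u y + ε • Real.log (‖y‖ ^ 2)) ?_ ?_ ?_ (m := m) ?_ x
      ⟨by simp [hT], h⟩
    · simp only [smul_eq_mul] at hmain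
      have : ε * Real.log (‖x‖ ^ 2) ≤ δ := by
        rw [div_mul_eq_mul_div, div_le_iff₀ (by positivity)]
        nlinarith
      linarith
    · intro y hy
      exact ((huc.continuousAt).add
        ((hlog y (hne y hy.2)).continuousAt.const_smul ε)).continuousWithinAt
    · intro y hy
      exact (hu.contDiffAt (isOpen_compl_singleton.mem_nhds (hne y (le_of_lt hy.2)))).add ((hlog y (hne y (le_of_lt hy.2))).const_smul ε)
    · intro y hy
      have hy0 := hne y (le_of_lt hy.2)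
      have e1 : Δ (fun y => u y + ε • Real.log (‖y‖ ^ 2)) y
          = Δ u y + ε • Δ (fun y : E => Real.log (‖y‖ ^ 2)) y := by
        rw [← laplacian_smul ε (hlog y hy0)]
        exact (hu.contDiffAt (isOpen_compl_singleton.mem_nhds hy0)).laplacian_add ((hlog y hy0).const_smul ε)
      rw [e1, lap_log hy0, smul_eq_mul]
      have : (2 * (Module.finrank ℝ E : ℝ) - 4) / ‖y‖ ^ 2 ≤ 0 :=
        div_nonpos_of_nonpos_of_nonneg (by
          have : (Module.finrank ℝ E : ℝ) ≤ 2 := by exact_mod_cast hn.le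
          linarith) (sq_nonneg _)
      nlinarith [hlap y hy0]
    · intro y hy hyU
      simp only [smul_eq_mul]
      by_cases hyT : ‖y‖ < T
      · have h1 : ‖y‖ = 1 := le_antisymm (not_lt.1 fun h' => hyU ⟨by simpa using hyT, h'⟩) hy.2
        rw [h1]
        simpa using hmin y (by simp [h1])
      · have h1 : ‖y‖ = T := le_antisymm (by simpa using hy.1) (not_lt.1 hyT)
        rw [h1, Real.log_pow]
        have h2 : m / (2 * ε) ≤ Real.log T := by
          rw [Real.le_log_iff_exp_le (by linarith)]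
          exact le_max_right _ _
        rw [div_le_iff₀ (by positivity)] at h2
        push_cast
        nlinarith [hup y]
  exact absurd (lap_nonneg_of_isLocalMin (hu.contDiffAt (isOpen_compl_singleton.mem_nhds hx00))
    (IsMinOn.isLocalMin (s := Set.univ) (fun z _ => hglob z) Filter.univ_mem))
    (not_le.2 (hlap x0 hx00))

end Vale.Agent.P100.Super
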