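import Mathlib
import Vale.Agent.P100.Super

/-!
# Comparison of the components for the Lane-Emden system

For a positive entire solution of `-Δu = v^p`, `-Δv = u^q` with `q ≤ p` and `1 < p`, Souplet's
inequality `v^(p+1)/(p+1) ≤ u^(q+1)/(q+1)`, proved with smooth weighted ball averages. The
solution may be `C²` on the whole space (any `n`), or only off the origin and continuous (`n ≥ 3`).
-/

open MeasureTheory Filter Topology
open scoped InnerProductSpace

namespace Vale.Agent.P100

variable {n : ℕ}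


/-- weight `(1-|y|²)₊³` -/
noncomputable def avgW (y : (EuclideanSpace ℝ (Fin n))) : ℝ := max (1 - ‖y‖ ^ 2) 0 ^ 3

/-- potential of the weight, `∇ avgPot = -avgW • y` -/
noncomputable def avgPot (y : (EuclideanSpace ℝ (Fin n))) : ℝ := max (1 - ‖y‖ ^ 2) 0 ^ 4 / 8

/-- weighted average over the ball of radius `R` (up to the constant `∫ avgW`) -/
noncomputable def avg (f : (EuclideanSpace ℝ (Fin n)) → ℝ) (x : (EuclideanSpace ℝ (Fin n))) (R : ℝ) : ℝ := ∫ y, f (x + R • y) * avgW y

/-- Composition of a function with the positive part. -/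
theorem hasDerivAt_comp_pos {g g' : ℝ → ℝ} (hg : ∀ s, HasDerivAt g (g' s) s) (h0 : g' 0 = 0)
    (t : ℝ) : HasDerivAt (fun s => g (max s 0)) (g' (max t 0)) t := by
  rcases lt_trichotomy t 0 with ht | ht | ht
  · rw [max_eq_right ht.le, h0]
    refine (hasDerivAt_const t (g 0)).congr_of_eventuallyEq ?_
    filter_upwards [Iio_mem_nhds ht] with s hs using by rw [max_eq_right (le_of_lt hs)]
  · subst ht
    rw [max_self, h0]
    have hl : (fun s => g s - g 0) =o[𝓝 (0 : ℝ)] fun s => s := by
      have := (hg 0)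
      rw [h0, hasDerivAt_iff_isLittleO] at this
      simpa using this
    rw [hasDerivAt_iff_isLittleO]
    have hc : Tendsto (fun s : ℝ => max s 0) (𝓝 0) (𝓝 0) := by
      have : Continuous fun s : ℝ => max s 0 := by fun_prop
      simpa using this.tendsto 0
    have h2 : (fun s : ℝ => max s 0) =O[𝓝 (0 : ℝ)] fun s => s := by
      refine Asymptotics.IsBigO.of_bound 1 (Eventually.of_forall fun s => ?_)
      simp only [Real.norm_eq_abs, one_mul]
      rcases le_total s 0 with h | h
      · rw [max_eq_right h]; simp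
      · rw [max_eq_left h]
    simpa [Function.comp_def] using (hl.comp_tendsto hc).trans_isBigO h2
  · rw [max_eq_left ht.le]
    refine (hg t).congr_of_eventuallyEq ?_
    filter_upwards [Ioi_mem_nhds ht] with s hs using by rw [max_eq_left (le_of_lt hs)]

theorem continuous_avgW : Continuous (avgW : (EuclideanSpace ℝ (Fin n)) → ℝ) := by unfold avgW; fun_prop

theorem continuous_avgPot : Continuous (avgPot : (EuclideanSpace ℝ (Fin n)) → ℝ) := by unfold avgPot; fun_prop

theorem avgW_nonneg (y : (EuclideanSpace ℝ (Fin n))) : 0 ≤ avgW y := by unfold avgW; positivity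

theorem avgPot_nonneg (y : (EuclideanSpace ℝ (Fin n))) : 0 ≤ avgPot y := by unfold avgPot; positivity

theorem avgW_eq_zero {y : (EuclideanSpace ℝ (Fin n))} (hy : 1 ≤ ‖y‖) : avgW y = 0 := by
  have : max (1 - ‖y‖ ^ 2) 0 = 0 := max_eq_right (by nlinarith)
  simp [avgW, this]

theorem avgPot_eq_zero {y : (EuclideanSpace ℝ (Fin n))} (hy : 1 ≤ ‖y‖) : avgPot y = 0 := by
  have : max (1 - ‖y‖ ^ 2) 0 = 0 := max_eq_right (by nlinarith)
  simp [avgPot, this]

theorem hasCompactSupport_avgW : HasCompactSupport (avgW : (EuclideanSpace ℝ (Fin n)) → ℝ) :=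
  HasCompactSupport.intro (isCompact_closedBall (0 : (EuclideanSpace ℝ (Fin n))) 1) fun y hy => avgW_eq_zero (by
    simp only [Metric.mem_closedBall, dist_zero_right, not_le] at hy; exact hy.le)

theorem hasCompactSupport_avgPot : HasCompactSupport (avgPot : (EuclideanSpace ℝ (Fin n)) → ℝ) :=
  HasCompactSupport.intro (isCompact_closedBall (0 : (EuclideanSpace ℝ (Fin n))) 1) fun y hy => avgPot_eq_zero (by
    simp only [Metric.mem_closedBall, dist_zero_right, not_le] at hy; exact hy.le)

theorem integrable_mul_avgW {g : (EuclideanSpace ℝ (Fin n)) → ℝ} (hg : Continuous g) :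
    Integrable fun y => g y * avgW y :=
  (hg.mul continuous_avgW).integrable_of_hasCompactSupport hasCompactSupport_avgW.mul_left

theorem integrable_mul_avgPot {g : (EuclideanSpace ℝ (Fin n)) → ℝ} (hg : Continuous g) :
    Integrable fun y => g y * avgPot y :=
  (hg.mul continuous_avgPot).integrable_of_hasCompactSupport hasCompactSupport_avgPot.mul_left

theorem integral_avgW_pos : 0 < ∫ y : (EuclideanSpace ℝ (Fin n)), avgW y :=
  continuous_avgW.integral_pos_of_hasCompactSupport_nonneg_nonzero hasCompactSupport_avgW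
    avgW_nonneg (x := 0) (by simp [avgW])

theorem integral_avgPot_pos : 0 < ∫ y : (EuclideanSpace ℝ (Fin n)), avgPot y :=
  continuous_avgPot.integral_pos_of_hasCompactSupport_nonneg_nonzero hasCompactSupport_avgPot
    avgPot_nonneg (x := 0) (by simp [avgPot])

theorem hasFDerivAt_avgPot (y : (EuclideanSpace ℝ (Fin n))) :
    HasFDerivAt avgPot (-(avgW y) • innerSL ℝ y) y := by
  have h1 := hasDerivAt_comp_pos (g := fun s => s ^ 4 / 8) (g' := fun s => s ^ 3 / 2)
    (fun s => by
      have := (hasDerivAt_pow 4 s).div_const (8 : ℝ)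
      refine this.congr_deriv ?_
      norm_num
      ring) (by norm_num) (1 - ‖y‖ ^ 2)
  have h2 := (hasStrictFDerivAt_norm_sq y).hasFDerivAt.const_sub (1 : ℝ)
  refine (h1.comp_hasFDerivAt y h2).congr_fderiv ?_
  ext z
  simp [avgW]
  ring

theorem fderiv_avgPot (y z : (EuclideanSpace ℝ (Fin n))) : fderiv ℝ avgPot y z = -(avgW y) * ⟪y, z⟫_ℝ := by
  rw [(hasFDerivAt_avgPot y).fderiv]; simp

/-- second derivative in one direction -/
noncomputable def dd (f : (EuclideanSpace ℝ (Fin n)) → ℝ) (x e : (EuclideanSpace ℝ (Fin n))) : ℝ := fderiv ℝ (fderiv ℝ f) x e e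

/-- the standard basis -/
noncomputable def stdB : OrthonormalBasis (Fin n) ℝ (EuclideanSpace ℝ (Fin n)) := EuclideanSpace.basisFun (Fin n) ℝ

theorem laplacian_eq_sum_dd (f : (EuclideanSpace ℝ (Fin n)) → ℝ) (x : (EuclideanSpace ℝ (Fin n))) :
    Laplacian.laplacian f x = ∑ i, dd f x (stdB i) := by
  rw [InnerProductSpace.laplacian_eq_iteratedFDeriv_orthonormalBasis f (stdB (n := n))]
  simp [iteratedFDeriv_two_apply, dd]

theorem continuous_laplacian {f : (EuclideanSpace ℝ (Fin n)) → ℝ} (hf : ContDiff ℝ 2 f) :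
    Continuous (Laplacian.laplacian f : (EuclideanSpace ℝ (Fin n)) → ℝ) := by
  have : (Laplacian.laplacian f : (EuclideanSpace ℝ (Fin n)) → ℝ) = fun x => ∑ i, dd f x (stdB i) :=
    funext (laplacian_eq_sum_dd f)
  rw [this]
  have h := (hf.fderiv_right (m := 1) le_rfl).continuous_fderiv one_ne_zero
  unfold dd
  fun_prop

/-- Derivative of the ball average: `R` times the Laplacian averaged against the potential. -/
theorem hasDerivAt_avg {f : (EuclideanSpace ℝ (Fin n)) → ℝ} (hf : ContDiff ℝ 2 f) (x : (EuclideanSpace ℝ (Fin n))) (R : ℝ) :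
    HasDerivAt (avg f x) (R * ∫ y, Laplacian.laplacian f (x + R • y) * avgPot y) R := by
  have hf1 : ContDiff ℝ 1 (fderiv ℝ f) := hf.fderiv_right le_rfl
  have hd : Differentiable ℝ f := hf.differentiable (by norm_num)
  have hc : Continuous fun a : ℝ × (EuclideanSpace ℝ (Fin n)) => fderiv ℝ f (x + a.1 • a.2) a.2 := by
    have := hf1.continuous
    fun_prop
  obtain ⟨C, hC⟩ := ((isCompact_closedBall R 1).prod (isCompact_closedBall (0 : (EuclideanSpace ℝ (Fin n))) 1))
    |>.exists_bound_of_continuousOn hc.continuousOn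
  have key : HasDerivAt (avg f x) (∫ y, fderiv ℝ f (x + R • y) y * avgW y) R := by
    refine (hasDerivAt_integral_of_dominated_loc_of_deriv_le (μ := volume)
      (F := fun (r : ℝ) (y : (EuclideanSpace ℝ (Fin n))) => f (x + r • y) * avgW y)
      (F' := fun (r : ℝ) (y : (EuclideanSpace ℝ (Fin n))) => fderiv ℝ f (x + r • y) y * avgW y)
      (bound := fun y => C * avgW y) (Metric.ball_mem_nhds R one_pos) ?_ ?_ ?_ ?_ ?_ ?_).2
    · filter_upwards with r
      exact (integrable_mul_avgW (by fun_prop)).aestronglyMeasurable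
    · exact integrable_mul_avgW (by fun_prop)
    · exact (integrable_mul_avgW (hc.comp (continuous_const.prodMk continuous_id))
        ).aestronglyMeasurable
    · filter_upwards with y r hr
      rw [norm_mul, Real.norm_of_nonneg (avgW_nonneg y)]
      by_cases hy : ‖y‖ ≤ 1
      · exact mul_le_mul_of_nonneg_right
          (hC (r, y) ⟨Metric.ball_subset_closedBall hr, by simpa using hy⟩) (avgW_nonneg y)
      · simp [avgW_eq_zero (le_of_not_ge hy)]
    · exact integrable_mul_avgW continuous_const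
    · filter_upwards with y r _
      have h1 : HasDerivAt (fun s : ℝ => x + s • y) y r := by
        simpa using ((hasDerivAt_id r).smul_const y).const_add x
      exact ((hd (x + r • y)).hasFDerivAt.comp_hasDerivAt r h1).mul_const _
  refine key.congr_deriv ?_
  have hsec : ∀ (e y : (EuclideanSpace ℝ (Fin n))), HasFDerivAt (fun z => fderiv ℝ f (x + R • z) e)
      (R • (ContinuousLinearMap.apply ℝ ℝ e).comp (fderiv ℝ (fderiv ℝ f) (x + R • y))) y := by
    intro e y
    have h1 : HasFDerivAt (fun z : (EuclideanSpace ℝ (Fin n)) => x + R • z) (R • ContinuousLinearMap.id ℝ (EuclideanSpace ℝ (Fin n))) y :=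
      ((hasFDerivAt_id y).const_smul R).const_add x
    have h2 := (hf1.differentiable one_ne_zero (x + R • y)).hasFDerivAt
    refine (((ContinuousLinearMap.apply ℝ ℝ e).hasFDerivAt).comp y (h2.comp y h1)).congr_fderiv ?_
    ext z
    simp
  have hibp : ∀ i, ∫ y, fderiv ℝ f (x + R • y) (stdB i) * (⟪stdB i, y⟫_ℝ * avgW y)
      = R * ∫ y, dd f (x + R • y) (stdB i) * avgPot y := by
    intro i
    have hcd : Continuous fun y : (EuclideanSpace ℝ (Fin n)) => fderiv ℝ f (x + R • y) (stdB i) := by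
      have := hf1.continuous
      fun_prop
    have hcdd : Continuous fun y : (EuclideanSpace ℝ (Fin n)) => dd f (x + R • y) (stdB i) := by
      have := hf1.continuous_fderiv one_ne_zero
      unfold dd
      fun_prop
    have e1 : ∀ y, fderiv ℝ (fun z => fderiv ℝ f (x + R • z) (stdB i)) y (stdB i)
        = R * dd f (x + R • y) (stdB i) := fun y => by
      rw [(hsec (stdB i) y).fderiv]; simp [dd]
    have e2 : ∀ y : (EuclideanSpace ℝ (Fin n)), fderiv ℝ avgPot y (stdB i) = -(⟪stdB i, y⟫_ℝ * avgW y) := fun y => by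
      rw [fderiv_avgPot, real_inner_comm]; ring
    have h := integral_mul_fderiv_eq_neg_fderiv_mul_of_integrable (μ := (volume : Measure (EuclideanSpace ℝ (Fin n))))
      (f := fun y => fderiv ℝ f (x + R • y) (stdB i)) (g := avgPot) (v := stdB i)
      (by simp only [e1]; exact integrable_mul_avgPot (continuous_const.mul hcdd))
      (by
        simp only [e2]
        have : Continuous fun y : (EuclideanSpace ℝ (Fin n)) => -(fderiv ℝ f (x + R • y) (stdB i) * ⟪stdB i, y⟫_ℝ) := by
          fun_prop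
        exact (integrable_mul_avgW this).congr (Eventually.of_forall fun y => by ring))
      (integrable_mul_avgPot hcd)
      (fun y _ => (hsec (stdB i) y).differentiableAt)
      (fun y _ => (hasFDerivAt_avgPot y).differentiableAt)
    simp only [e1, e2, mul_neg, integral_neg, neg_inj] at h
    rw [h, ← integral_const_mul]
    simp [mul_assoc]
  have hsplit : ∀ y : (EuclideanSpace ℝ (Fin n)), fderiv ℝ f (x + R • y) y * avgW y
      = ∑ i, fderiv ℝ f (x + R • y) (stdB i) * (⟪stdB i, y⟫_ℝ * avgW y) := by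
    intro y
    conv_lhs => arg 1; arg 2; rw [← (stdB (n := n)).sum_repr' y]
    rw [map_sum, Finset.sum_mul]
    refine Finset.sum_congr rfl fun i _ => ?_
    rw [map_smul, smul_eq_mul]; ring
  have hci : ∀ i, Integrable fun y : (EuclideanSpace ℝ (Fin n)) =>
      fderiv ℝ f (x + R • y) (stdB i) * (⟪stdB i, y⟫_ℝ * avgW y) := fun i => by
    have : Continuous fun y : (EuclideanSpace ℝ (Fin n)) => fderiv ℝ f (x + R • y) (stdB i) * ⟪stdB i, y⟫_ℝ := by
      have := hf1.continuous
      fun_prop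
    exact (integrable_mul_avgW this).congr (Eventually.of_forall fun y => by ring)
  simp only [hsplit, laplacian_eq_sum_dd]
  rw [integral_finsetSum _ fun i _ => hci i]
  simp only [hibp, ← Finset.mul_sum, Finset.sum_mul]
  rw [integral_finsetSum _ fun i _ => integrable_mul_avgPot (by
    have := hf1.continuous_fderiv one_ne_zero
    unfold dd
    fun_prop)]

theorem avg_monotoneOn {f : (EuclideanSpace ℝ (Fin n)) → ℝ} (hf : ContDiff ℝ 2 f)
    (hs : ∀ x, 0 ≤ Laplacian.laplacian f x) (x : (EuclideanSpace ℝ (Fin n))) :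
    MonotoneOn (avg f x) (Set.Ici 0) := by
  refine monotoneOn_of_hasDerivWithinAt_nonneg (convex_Ici 0)
    (fun R _ => (hasDerivAt_avg hf x R).continuousAt.continuousWithinAt)
    (fun R _ => (hasDerivAt_avg hf x R).hasDerivWithinAt) ?_
  intro R hR
  rw [interior_Ici] at hR
  exact mul_nonneg hR.le (integral_nonneg fun y => mul_nonneg (hs _) (avgPot_nonneg y))

theorem avg_zero (f : (EuclideanSpace ℝ (Fin n)) → ℝ) (x : (EuclideanSpace ℝ (Fin n))) : avg f x 0 = f x * ∫ y : (EuclideanSpace ℝ (Fin n)), avgW y := by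
  simp [avg, integral_const_mul]

/-- The potential average at radius `R` controls the average at radius `R/2`. -/
theorem avg_half_le {v : (EuclideanSpace ℝ (Fin n)) → ℝ} (hv : Continuous v) (hv0 : ∀ x, 0 ≤ v x) (x : (EuclideanSpace ℝ (Fin n))) (R : ℝ) :
    avg v x (R / 2) ≤ 2 ^ n * (2048 / 81) * ∫ y, v (x + R • y) * avgPot y := by
  have h := Measure.integral_comp_smul_of_nonneg (volume : Measure (EuclideanSpace ℝ (Fin n)))
    (fun y => v (x + (R / 2) • y) * avgW y) 2 (hR := two_pos.le)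
  simp only [smul_smul, div_mul_cancel₀ R (two_ne_zero' ℝ), finrank_euclideanSpace_fin,
    smul_eq_mul] at h
  have h2 : avg v x (R / 2) = 2 ^ n * ∫ y, v (x + R • y) * avgW ((2 : ℝ) • y) := by
    rw [h, ← mul_assoc, mul_inv_cancel₀ (pow_ne_zero _ two_ne_zero), one_mul]; rfl
  rw [h2, mul_assoc (2 ^ n : ℝ), ← integral_const_mul (2048 / 81 : ℝ)]
  refine mul_le_mul_of_nonneg_left (integral_mono_of_nonneg (Eventually.of_forall fun y =>
    mul_nonneg (hv0 _) (avgW_nonneg _)) ((integrable_mul_avgPot (by fun_prop)).const_mul _)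
    (Eventually.of_forall fun y => ?_)) (by positivity)
  simp only
  rw [mul_left_comm]
  refine mul_le_mul_of_nonneg_left ?_ (hv0 _)
  have hn : ‖(2 : ℝ) • y‖ = 2 * ‖y‖ := by rw [norm_smul]; simp
  rcases le_or_gt 1 (2 * ‖y‖) with hy | hy
  · rw [avgW_eq_zero (hn ▸ hy)]; have := avgPot_nonneg y; positivity
  · have h3 : avgW ((2 : ℝ) • y) ≤ 1 := by
      apply pow_le_one₀ (le_max_right _ _)
      rw [hn]
      exact max_le (by nlinarith [norm_nonneg y]) zero_le_one
    have h4 : (3 / 4 : ℝ) ≤ max (1 - ‖y‖ ^ 2) 0 :=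
      le_trans (by nlinarith [norm_nonneg y]) (le_max_left _ _)
    have h5 := pow_le_pow_left₀ (by norm_num) h4 4
    simp only [avgPot]
    linarith

/-- If the averages of `v` stayed above a positive constant, positive superharmonic functions with
`-ΔU ≥ c₀ v^p` on large balls (`p > 1`) and bounded value at the centre could not exist. -/
theorem exists_avg_lt {v : (EuclideanSpace ℝ (Fin n)) → ℝ} {p A c₀ : ℝ} (hp : 1 < p) (hc₀ : 0 < c₀) (hv : Continuous v)
    (hv0 : ∀ x, 0 ≤ v x) (x : (EuclideanSpace ℝ (Fin n)))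
    (H : ∀ ρ : ℝ, ∃ u : (EuclideanSpace ℝ (Fin n)) → ℝ, ContDiff ℝ 2 u ∧ (∀ y, 0 ≤ u y) ∧ u x ≤ A ∧
      (∀ y, Laplacian.laplacian u y ≤ 0) ∧
      ∀ y, ‖y - x‖ ≤ ρ → Laplacian.laplacian u y ≤ -(c₀ * (v y) ^ p))
    {ε : ℝ} (hε : 0 < ε) (R₁ : ℝ) :
    ∃ R, R₁ ≤ R ∧ 0 ≤ R ∧ avg v x R < ε := by
  by_contra hcon
  push Not at hcon
  set P := ∫ y : (EuclideanSpace ℝ (Fin n)), avgPot y
  have hP : 0 < P := integral_avgPot_pos
  set K := ε / (2 ^ n * (2048 / 81)) / P with hK
  have hK0 : 0 < K := by positivity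
  set c := c₀ * (K ^ p * P) with hc
  have hc0 : 0 < c := by positivity
  have hvp : Continuous fun z => (v z) ^ p := hv.rpow_const fun _ => Or.inr (by linarith)
  set S := 2 * max R₁ 0
  have hS : 0 ≤ S := by positivity
  have hlow : ∀ R : ℝ, S ≤ R → c ≤ c₀ * ∫ y, (v (x + R • y)) ^ p * avgPot y := by
    intro R hR
    refine mul_le_mul_of_nonneg_left ?_ hc₀.le
    have h1 : ε / (2 ^ n * (2048 / 81)) ≤ ∫ y, v (x + R • y) * avgPot y := by
      rw [div_le_iff₀' (by positivity)]
      have h3 := le_max_left R₁ 0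
      have h4 := le_max_right R₁ 0
      exact (hcon (R / 2) (by simp only [S] at hR; linarith) (by linarith)).trans
        (avg_half_le hv hv0 x R)
    have ht : ∀ t : ℝ, 0 ≤ t → K ^ p + p * K ^ (p - 1) * (t - K) ≤ t ^ p := by
      intro t ht
      have hs : -1 ≤ t / K - 1 := by have := div_nonneg ht hK0.le; linarith
      have := one_add_mul_self_le_rpow_one_add hs hp.le
      rw [add_sub_cancel, Real.div_rpow ht hK0.le, le_div_iff₀ (Real.rpow_pos_of_pos hK0 p)] at this
      have e : K ^ p = K ^ (p - 1) * K := by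
        rw [← Real.rpow_add_one hK0.ne']; ring_nf
      refine le_trans (le_of_eq ?_) this
      rw [e]; field_simp
    have i1 := integrable_mul_avgPot (g := fun y : (EuclideanSpace ℝ (Fin n)) => v (x + R • y)) (by fun_prop)
    have i2 := integrable_mul_avgPot (g := fun y : (EuclideanSpace ℝ (Fin n)) => (v (x + R • y)) ^ p)
      (hvp.comp (f := fun y : (EuclideanSpace ℝ (Fin n)) => x + R • y) (by fun_prop))
    have i3 : Integrable fun y : (EuclideanSpace ℝ (Fin n)) => avgPot y :=
      continuous_avgPot.integrable_of_hasCompactSupport hasCompactSupport_avgPot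
    have i4 : Integrable fun y : (EuclideanSpace ℝ (Fin n)) => (K ^ p - p * K ^ (p - 1) * K) * avgPot y +
        p * K ^ (p - 1) * (v (x + R • y) * avgPot y) := (i3.const_mul _).add (i1.const_mul _)
    have h2 := integral_mono i4 i2 fun y => by
      have := mul_le_mul_of_nonneg_right (ht _ (hv0 (x + R • y))) (avgPot_nonneg y)
      simp only
      linarith
    rw [integral_add (i3.const_mul _) (i1.const_mul _), integral_const_mul, integral_const_mul] at h2
    have hKP : K * P = ε / (2 ^ n * (2048 / 81)) := by rw [hK]; field_simp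
    have hp0 : 0 ≤ p * K ^ (p - 1) := by positivity
    have := mul_le_mul_of_nonneg_left h1 hp0
    rw [← hKP] at this
    nlinarith [h2, this]
  set T := max 0 (A * ∫ y : (EuclideanSpace ℝ (Fin n)), avgW y) + 1 with hT
  set R₀ := Real.sqrt (S ^ 2 + 2 * T / c) with hR₀
  have hT0 : 0 < T := by positivity
  have hS0 : S ≤ R₀ := by
    rw [hR₀]
    calc S = Real.sqrt (S ^ 2) := (Real.sqrt_sq hS).symm
      _ ≤ _ := Real.sqrt_le_sqrt (by have : 0 < 2 * T / c := by positivity
                                     linarith)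
  obtain ⟨u, hu, hu0, huA, hsup, hbig⟩ := H R₀
  have hd := fun R => hasDerivAt_avg hu x R
  have hmono : AntitoneOn (avg u x) (Set.Ici 0) := by
    refine antitoneOn_of_hasDerivWithinAt_nonpos (convex_Ici 0)
      (fun R _ => (hd R).continuousAt.continuousWithinAt)
      (fun R _ => (hd R).hasDerivWithinAt) ?_
    intro R hR
    rw [interior_Ici] at hR
    exact mul_nonpos_of_nonneg_of_nonpos (le_of_lt hR) (integral_nonpos fun y =>
      mul_nonpos_of_nonpos_of_nonneg (hsup _) (avgPot_nonneg y))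
  have hanti : AntitoneOn (fun R => avg u x R + c / 2 * R ^ 2) (Set.Icc S R₀) := by
    refine antitoneOn_of_hasDerivWithinAt_nonpos (convex_Icc S R₀)
      (fun R _ => ((hd R).add ((hasDerivAt_pow 2 R).const_mul (c / 2))
        ).continuousAt.continuousWithinAt)
      (fun R _ => ((hd R).add ((hasDerivAt_pow 2 R).const_mul (c / 2))
        ).hasDerivWithinAt) ?_
    intro R hR
    rw [interior_Icc] at hR
    have hR0 : 0 ≤ R := hS.trans hR.1.le
    have i2 := integrable_mul_avgPot (g := fun y : (EuclideanSpace ℝ (Fin n)) => (v (x + R • y)) ^ p)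
      (hvp.comp (f := fun y : (EuclideanSpace ℝ (Fin n)) => x + R • y) (by fun_prop))
    have hle : (∫ y, Laplacian.laplacian u (x + R • y) * avgPot y)
        ≤ ∫ y, -(c₀ * ((v (x + R • y)) ^ p * avgPot y)) := by
      refine integral_mono (integrable_mul_avgPot ((continuous_laplacian hu).comp (by fun_prop)))
        (i2.const_mul c₀).neg fun y => ?_
      rcases le_or_gt ‖y‖ 1 with hy | hy
      · have hin : ‖x + R • y - x‖ ≤ R₀ := by
          rw [add_sub_cancel_left, norm_smul, Real.norm_of_nonneg hR0]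
          calc R * ‖y‖ ≤ R * 1 := mul_le_mul_of_nonneg_left hy hR0
            _ ≤ R₀ := by linarith [hR.2]
        have := mul_le_mul_of_nonneg_right (hbig _ hin) (avgPot_nonneg y)
        simp only
        linarith
      · simp [avgPot_eq_zero hy.le]
    rw [integral_neg, integral_const_mul] at hle
    have := mul_le_mul_of_nonneg_left (hle.trans (neg_le_neg (hlow R hR.1.le))) hR0
    norm_num
    linarith
  have h1 := hanti (Set.left_mem_Icc.2 hS0) (Set.right_mem_Icc.2 hS0) hS0
  have h2 := hmono (Set.mem_Ici.2 le_rfl) (Set.mem_Ici.2 hS) hS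
  rw [avg_zero] at h2
  have h3 : 0 ≤ avg u x R₀ := integral_nonneg fun y => mul_nonneg (hu0 _) (avgW_nonneg y)
  have h4 : u x * ∫ y : (EuclideanSpace ℝ (Fin n)), avgW y ≤ T - 1 := by
    rw [hT, add_sub_cancel_right]
    exact (mul_le_mul_of_nonneg_right huA integral_avgW_pos.le).trans (le_max_right _ _)
  have h5 : c / 2 * R₀ ^ 2 = c / 2 * S ^ 2 + T := by
    rw [hR₀, Real.sq_sqrt (by positivity)]
    field_simp
  simp only at h1
  linarith

/-- Second derivative of a composition, in one direction. -/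
theorem dd_comp {g g' g'' : ℝ → ℝ} {w : (EuclideanSpace ℝ (Fin n)) → ℝ} {S : Set ℝ} {x : (EuclideanSpace ℝ (Fin n))} (hw : ContDiffAt ℝ 2 w x)
    (hS : IsOpen S) (hx : w x ∈ S) (hg : ∀ t ∈ S, HasDerivAt g (g' t) t)
    (hg' : ∀ t ∈ S, HasDerivAt g' (g'' t) t) (e : (EuclideanSpace ℝ (Fin n))) :
    dd (fun z => g (w z)) x e = g'' (w x) * (fderiv ℝ w x e) ^ 2 + g' (w x) * dd w x e := by
  have h1 : fderiv ℝ (fun z => g (w z)) =ᶠ[𝓝 x] fun z => g' (w z) • fderiv ℝ w z := by
    filter_upwards [hw.eventually (by simp), hw.continuousAt.eventually_mem (hS.mem_nhds hx)]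
      with z hz hzS
    exact ((hg _ hzS).comp_hasFDerivAt z (hz.differentiableAt (by simp)).hasFDerivAt).fderiv
  have h2 : HasFDerivAt (fun z => g' (w z)) (g'' (w x) • fderiv ℝ w x) x :=
    (hg' _ hx).comp_hasFDerivAt x (hw.differentiableAt (by simp)).hasFDerivAt
  have h3 := ((hw.fderiv_right (m := 1) le_rfl).differentiableAt one_ne_zero).hasFDerivAt
  unfold dd
  rw [h1.fderiv_eq, (h2.fun_smul h3).fderiv]
  simp
  ring

/-- Laplacian of a composition. -/
theorem laplacian_comp {g g' g'' : ℝ → ℝ} {w : (EuclideanSpace ℝ (Fin n)) → ℝ} {S : Set ℝ} {x : (EuclideanSpace ℝ (Fin n))}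
    (hw : ContDiffAt ℝ 2 w x) (hS : IsOpen S) (hx : w x ∈ S)
    (hg : ∀ t ∈ S, HasDerivAt g (g' t) t) (hg' : ∀ t ∈ S, HasDerivAt g' (g'' t) t) :
    Laplacian.laplacian (fun z => g (w z)) x =
      g'' (w x) * ∑ i, (fderiv ℝ w x (stdB i)) ^ 2 + g' (w x) * Laplacian.laplacian w x := by
  simp only [laplacian_eq_sum_dd, dd_comp hw hS hx hg hg', Finset.sum_add_distrib, Finset.mul_sum]

/-- smooth convex substitute for the positive part -/
noncomputable def hPos (t : ℝ) : ℝ := max t 0 - Real.arctan (max t 0)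

theorem hPos_deriv (t : ℝ) :
    HasDerivAt hPos (max t 0 ^ 2 / (1 + max t 0 ^ 2)) t := by
  refine hasDerivAt_comp_pos (g := fun s => s - Real.arctan s) (g' := fun s => s ^ 2 / (1 + s ^ 2))
    (fun s => ((hasDerivAt_id s).sub (Real.hasDerivAt_arctan s)).congr_deriv ?_) (by norm_num) t
  have : (0 : ℝ) < 1 + s ^ 2 := by positivity
  field_simp
  ring

theorem hPos_deriv2 (t : ℝ) :
    HasDerivAt (fun t => max t 0 ^ 2 / (1 + max t 0 ^ 2))
      (2 * max t 0 / (1 + max t 0 ^ 2) ^ 2) t := by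
  refine hasDerivAt_comp_pos (g := fun s => s ^ 2 / (1 + s ^ 2))
    (g' := fun s => 2 * s / (1 + s ^ 2) ^ 2)
    (fun s => ((hasDerivAt_pow 2 s).div ((hasDerivAt_pow 2 s).const_add 1)
      (by positivity)).congr_deriv ?_) (by norm_num) t
  norm_num
  ring

theorem contDiff_hPos : ContDiff ℝ 2 hPos := by
  rw [show (2 : WithTop ℕ∞) = 1 + 1 from rfl, contDiff_succ_iff_deriv]
  refine ⟨fun t => (hPos_deriv t).differentiableAt, by simp, ?_⟩
  rw [show deriv hPos = fun t => max t 0 ^ 2 / (1 + max t 0 ^ 2) from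
    funext fun t => (hPos_deriv t).deriv, contDiff_one_iff_deriv]
  refine ⟨fun t => (hPos_deriv2 t).differentiableAt, ?_⟩
  rw [show deriv (fun t : ℝ => max t 0 ^ 2 / (1 + max t 0 ^ 2)) = _ from
    funext fun t => (hPos_deriv2 t).deriv]
  exact Continuous.div (by fun_prop) (by fun_prop) fun t => by positivity

/-- A subharmonic function below `v` is nonpositive if averages of `v` are not bounded below. -/
theorem nonpos_of_subharmonic {f v : (EuclideanSpace ℝ (Fin n)) → ℝ} (hf : ContDiff ℝ 2 f) (hv : Continuous v)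
    (hfv : ∀ z, f z ≤ v z) (hfs : ∀ z, 0 ≤ Laplacian.laplacian f z) (x : (EuclideanSpace ℝ (Fin n)))
    (hsmall : ∀ ε > 0, ∃ R, 0 ≤ R ∧ avg v x R < ε) : f x ≤ 0 := by
  by_contra hc
  push Not at hc
  obtain ⟨R, hR, hlt⟩ := hsmall _ (mul_pos hc (integral_avgW_pos (n := n)))
  have h1 := avg_monotoneOn hf hfs x (Set.mem_Ici.2 le_rfl) (Set.mem_Ici.2 hR) hR
  rw [avg_zero] at h1
  have h2 : avg f x R ≤ avg v x R :=
    integral_mono (integrable_mul_avgW (hf.continuous.comp (by fun_prop)))
      (integrable_mul_avgW (by fun_prop)) fun y =>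
        mul_le_mul_of_nonneg_right (hfv _) (avgW_nonneg y)
  linarith

theorem laplacian_hPos_comp {w : (EuclideanSpace ℝ (Fin n)) → ℝ} {z : (EuclideanSpace ℝ (Fin n))} (hw : ContDiffAt ℝ 2 w z)
    (hs : 0 < w z → 0 ≤ Laplacian.laplacian w z) :
    0 ≤ Laplacian.laplacian (fun y => hPos (w y)) z := by
  rw [laplacian_comp hw isOpen_univ trivial (fun t _ => hPos_deriv t) (fun t _ => hPos_deriv2 t)]
  refine add_nonneg (mul_nonneg (by positivity) (Finset.sum_nonneg fun i _ => sq_nonneg _)) ?_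
  rcases le_or_gt (w z) 0 with h | h
  · simp [max_eq_right h]
  · exact mul_nonneg (by positivity) (hs h)

theorem hPos_le (t : ℝ) : hPos t ≤ max t 0 := by
  have : 0 ≤ Real.arctan (max t 0) := Real.arctan_nonneg.2 (le_max_right _ _)
  unfold hPos
  linarith

theorem le_of_hPos_nonpos {t : ℝ} (h : hPos t ≤ 0) : t ≤ 0 := by
  by_contra hc
  push Not at hc
  have h1 := Real.lt_tan (Real.arctan_pos.2 hc) (Real.arctan_lt_pi_div_two _)
  rw [Real.tan_arctan] at h1
  simp only [hPos, max_eq_left hc.le] at h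
  linarith

/-- the difference `v - l u^s` used for the comparison -/
noncomputable def gap (p q : ℝ) (u v : (EuclideanSpace ℝ (Fin n)) → ℝ) (z : (EuclideanSpace ℝ (Fin n))) : ℝ :=
  v z - ((p + 1) / (q + 1)) ^ (1 / (p + 1)) * (u z) ^ ((q + 1) / (p + 1))

theorem gap_le {p q : ℝ} (hp : 0 < p + 1) (hq : 0 < q + 1) {u v : (EuclideanSpace ℝ (Fin n)) → ℝ} {z : (EuclideanSpace ℝ (Fin n))}
    (hu : 0 ≤ u z) : gap p q u v z ≤ v z := by
  have : 0 ≤ ((p + 1) / (q + 1)) ^ (1 / (p + 1)) * (u z) ^ ((q + 1) / (p + 1)) := by positivity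
  unfold gap
  linarith

theorem contDiffAt_gap {p q : ℝ} {u v : (EuclideanSpace ℝ (Fin n)) → ℝ} {z : (EuclideanSpace ℝ (Fin n))} (hu : ContDiffAt ℝ 2 u z)
    (hv : ContDiffAt ℝ 2 v z) (hu0 : u z ≠ 0) : ContDiffAt ℝ 2 (gap p q u v) z :=
  hv.sub (contDiffAt_const.mul (hu.rpow_const_of_ne hu0))

theorem le_of_gap_nonpos {p q : ℝ} (hp : 0 < p + 1) (hq : 0 < q + 1) {u v : (EuclideanSpace ℝ (Fin n)) → ℝ} {x : (EuclideanSpace ℝ (Fin n))}
    (hu : 0 < u x) (hv : 0 < v x) (h : gap p q u v x ≤ 0) :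
    (v x) ^ (p + 1) / (p + 1) ≤ (u x) ^ (q + 1) / (q + 1) := by
  set l := ((p + 1) / (q + 1)) ^ (1 / (p + 1)) with hl
  have hl0 : 0 < l := by positivity
  have hlp : l ^ (p + 1) = (p + 1) / (q + 1) := by
    rw [hl, ← Real.rpow_mul (by positivity), one_div, inv_mul_cancel₀ hp.ne', Real.rpow_one]
  have hle : v x ≤ l * (u x) ^ ((q + 1) / (p + 1)) := by unfold gap at h; linarith
  have h := Real.rpow_le_rpow hv.le hle hp.le
  rw [Real.mul_rpow hl0.le (Real.rpow_nonneg hu.le _), hlp, ← Real.rpow_mul hu.le,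
    show (q + 1) / (p + 1) * (p + 1) = q + 1 by field_simp] at h
  calc (v x) ^ (p + 1) / (p + 1) ≤ (p + 1) / (q + 1) * (u x) ^ (q + 1) / (p + 1) := by gcongr
    _ = (u x) ^ (q + 1) / (q + 1) := by field_simp

/-- The gap is subharmonic where it is positive. -/
theorem laplacian_gap_nonneg {p q : ℝ} (hq : 0 < q) (hqp : q ≤ p) {u v : (EuclideanSpace ℝ (Fin n)) → ℝ} {z : (EuclideanSpace ℝ (Fin n))}
    (hu : ContDiffAt ℝ 2 u z) (hv : ContDiffAt ℝ 2 v z) (hu0 : 0 < u z)
    (equ : Laplacian.laplacian u z = -(v z) ^ p) (eqv : Laplacian.laplacian v z = -(u z) ^ q)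
    (hz : 0 < gap p q u v z) : 0 ≤ Laplacian.laplacian (gap p q u v) z := by
  have hp1 : 0 < p + 1 := by linarith
  have hq1 : 0 < q + 1 := by linarith
  set s := (q + 1) / (p + 1) with hs
  have hs0 : 0 < s := by positivity
  have hs1 : s ≤ 1 := (div_le_one hp1).2 (by linarith)
  set l := ((p + 1) / (q + 1)) ^ (1 / (p + 1)) with hl
  have hl0 : 0 < l := by positivity
  have hlp : l ^ (p + 1) = (p + 1) / (q + 1) := by
    rw [hl, ← Real.rpow_mul (by positivity), one_div, inv_mul_cancel₀ hp1.ne', Real.rpow_one]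
  have hus : ContDiffAt ℝ 2 (fun y => (u y) ^ s) z := hu.rpow_const_of_ne hu0.ne'
  have hLs : Laplacian.laplacian (fun y => (u y) ^ s) z ≤
      s * (u z) ^ (s - 1) * Laplacian.laplacian u z := by
    rw [laplacian_comp hu (g := fun t => t ^ s) (g' := fun t => s * t ^ (s - 1))
      (g'' := fun t => s * ((s - 1) * t ^ (s - 1 - 1))) isOpen_Ioi (Set.mem_Ioi.2 hu0)
      (fun t ht => Real.hasDerivAt_rpow_const (Or.inl (ne_of_gt ht)))
      (fun t ht => (Real.hasDerivAt_rpow_const (Or.inl (ne_of_gt ht))).const_mul s)]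
    have : s * ((s - 1) * (u z) ^ (s - 1 - 1)) ≤ 0 :=
      mul_nonpos_of_nonneg_of_nonpos hs0.le
        (mul_nonpos_of_nonpos_of_nonneg (by linarith) (Real.rpow_nonneg hu0.le _))
    have := mul_nonpos_of_nonpos_of_nonneg this
      (Finset.sum_nonneg fun i (_ : i ∈ Finset.univ) => sq_nonneg (fderiv ℝ u z (stdB i)))
    linarith
  have hlin : Laplacian.laplacian (gap p q u v) z = Laplacian.laplacian v z
      - l * Laplacian.laplacian (fun y => (u y) ^ s) z := by
    have e : gap p q u v = v + (-l) • fun y => (u y) ^ s := by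
      ext; simp [gap, hl, hs]; ring
    rw [e, hv.laplacian_add (f₂ := (-l) • fun y => (u y) ^ s) (hus.const_smul (-l)),
      InnerProductSpace.laplacian_smul (-l) hus]
    simp
    ring
  have hvz : l * (u z) ^ s ≤ v z := by simp only [gap, ← hl, ← hs] at hz; linarith
  have hpow : l ^ p * (u z) ^ (s * p) ≤ (v z) ^ p := by
    rw [Real.rpow_mul hu0.le, ← Real.mul_rpow hl0.le (Real.rpow_nonneg hu0.le _)]
    exact Real.rpow_le_rpow (by positivity) hvz (by linarith)
  have hexp : s * (u z) ^ (s - 1) * l * (l ^ p * (u z) ^ (s * p)) = (u z) ^ q := by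
    have e1 : (u z) ^ (s - 1) * (u z) ^ (s * p) = (u z) ^ q := by
      rw [← Real.rpow_add hu0]
      congr 1
      rw [hs]; field_simp; ring
    have e2 : l * l ^ p = (p + 1) / (q + 1) := by
      rw [mul_comm, ← Real.rpow_add_one hl0.ne', hlp]
    calc s * (u z) ^ (s - 1) * l * (l ^ p * (u z) ^ (s * p))
        = s * (l * l ^ p) * ((u z) ^ (s - 1) * (u z) ^ (s * p)) := by ring
      _ = (u z) ^ q := by rw [e1, e2, hs]; field_simp
  rw [hlin, eqv]
  rw [equ] at hLs
  have h1 := mul_le_mul_of_nonneg_left hpow (show 0 ≤ s * (u z) ^ (s - 1) * l by positivity)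
  have h2 := mul_le_mul_of_nonneg_left hLs hl0.le
  rw [hexp] at h1
  linarith

/-- Souplet's comparison of the two components of a `C²` entire solution. -/
theorem souplet_comparison {p q : ℝ} (hq : 0 < q) (hqp : q ≤ p) (hp : 1 < p) (u v : (EuclideanSpace ℝ (Fin n)) → ℝ)
    (hu : ContDiff ℝ 2 u) (hv : ContDiff ℝ 2 v) (hu0 : ∀ x, 0 < u x) (hv0 : ∀ x, 0 < v x)
    (equ : ∀ x, Laplacian.laplacian u x = -(v x) ^ p)
    (eqv : ∀ x, Laplacian.laplacian v x = -(u x) ^ q) :
    ∀ x, (v x) ^ (p + 1) / (p + 1) ≤ (u x) ^ (q + 1) / (q + 1) := fun x => by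
  have hw : ∀ z, ContDiffAt ℝ 2 (gap p q u v) z := fun z =>
    contDiffAt_gap hu.contDiffAt hv.contDiffAt (hu0 z).ne'
  refine le_of_gap_nonpos (by linarith) (by linarith) (hu0 x) (hv0 x) (le_of_hPos_nonpos ?_)
  refine nonpos_of_subharmonic (f := fun y => hPos (gap p q u v y))
    (contDiff_hPos.comp (contDiff_iff_contDiffAt.2 hw)) hv.continuous
    (fun z => (hPos_le _).trans (max_le (gap_le (by linarith) (by linarith) (hu0 z).le) (hv0 z).le))
    (fun z => laplacian_hPos_comp (hw z) (laplacian_gap_nonneg hq hqp hu.contDiffAt hv.contDiffAt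
      (hu0 z) (equ z) (eqv z))) x fun ε hε => ?_
  obtain ⟨R, -, hR, hlt⟩ := exists_avg_lt (A := u x) hp one_pos hv.continuous
    (fun z => (hv0 z).le) x (fun _ => ⟨u, hu, fun y => (hu0 y).le, le_rfl, fun y => by
      have := Real.rpow_nonneg (hv0 y).le p
      rw [equ]; linarith, fun y _ => by rw [equ, one_mul]⟩) hε 0
  exact ⟨R, hR, hlt⟩

/-! ### The punctured setting -/

/-- the harmonic function `|x|^(2-n)` -/
noncomputable def newton (y : (EuclideanSpace ℝ (Fin n))) : ℝ := (‖y‖ ^ 2) ^ ((2 - (n : ℝ)) / 2)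

theorem newton_nonneg (y : (EuclideanSpace ℝ (Fin n))) : 0 ≤ newton y := by unfold newton; positivity

theorem contDiffAt_newton {y : (EuclideanSpace ℝ (Fin n))} (hy : y ≠ 0) : ContDiffAt ℝ 2 newton y :=
  (contDiffAt_id.norm_sq ℝ).rpow_const_of_ne (by simpa using hy)

theorem laplacian_newton {y : (EuclideanSpace ℝ (Fin n))} (hy : y ≠ 0) : Laplacian.laplacian (newton : (EuclideanSpace ℝ (Fin n)) → ℝ) y = 0 := by
  unfold newton
  rw [Super.lap_rpow hy, finrank_euclideanSpace_fin]
  ring

theorem newton_le_one (hn : 3 ≤ n) {y : (EuclideanSpace ℝ (Fin n))} (hy : 1 ≤ ‖y‖) : newton y ≤ 1 :=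
  Real.rpow_le_one_of_one_le_of_nonpos (one_le_pow₀ hy) (by
    have : (3 : ℝ) ≤ n := by exact_mod_cast hn
    linarith)

theorem newton_large (hn : 3 ≤ n) (M : ℝ) :
    ∀ᶠ y in 𝓝 (0 : (EuclideanSpace ℝ (Fin n))), y ≠ 0 → M ≤ newton y := by
  have ha : (2 - (n : ℝ)) / 2 < 0 := by
    have : (3 : ℝ) ≤ n := by exact_mod_cast hn
    linarith
  set M' := max M 1
  have hM' : 0 < M' := lt_of_lt_of_le one_pos (le_max_right _ _)
  have hev : ∀ᶠ y in 𝓝 (0 : (EuclideanSpace ℝ (Fin n))), ‖y‖ ^ 2 < M' ^ ((2 - (n : ℝ)) / 2)⁻¹ := by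
    have : Tendsto (fun y : (EuclideanSpace ℝ (Fin n)) => ‖y‖ ^ 2) (𝓝 0) (𝓝 0) := by
      have hc : Continuous fun y : (EuclideanSpace ℝ (Fin n)) => ‖y‖ ^ 2 := by fun_prop
      simpa using hc.tendsto 0
    exact this.eventually_lt_const (by positivity)
  filter_upwards [hev] with y hy hy0
  have h1 := Real.rpow_le_rpow_of_nonpos (by positivity : 0 < ‖y‖ ^ 2) hy.le ha.le
  rw [← Real.rpow_mul hM'.le, inv_mul_cancel₀ ha.ne, Real.rpow_one] at h1
  exact (le_max_left M 1).trans h1

/-- smooth concave truncation at height `M` -/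
noncomputable def cap (M t : ℝ) : ℝ := M - hPos (M - t)

theorem cap_deriv (M t : ℝ) :
    HasDerivAt (cap M) (max (M - t) 0 ^ 2 / (1 + max (M - t) 0 ^ 2)) t := by
  have h := ((hPos_deriv (M - t)).comp t ((hasDerivAt_id t).const_sub M)).const_sub M
  exact h.congr_deriv (by ring)

theorem cap_deriv2 (M t : ℝ) :
    HasDerivAt (fun t => max (M - t) 0 ^ 2 / (1 + max (M - t) 0 ^ 2))
      (-(2 * max (M - t) 0 / (1 + max (M - t) 0 ^ 2) ^ 2)) t := by
  have h := (hPos_deriv2 (M - t)).comp t ((hasDerivAt_id t).const_sub M)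
  exact h.congr_deriv (by ring)

theorem cap_eq {M t : ℝ} (h : M ≤ t) : cap M t = M := by
  simp [cap, hPos, max_eq_right (sub_nonpos.2 h)]

theorem cap_nonneg {M t : ℝ} (hM : 0 ≤ M) (ht : 0 ≤ t) : 0 ≤ cap M t := by
  have := hPos_le (M - t)
  have : max (M - t) 0 ≤ M := max_le (by linarith) hM
  unfold cap
  linarith

theorem cap_le (M t : ℝ) : cap M t ≤ t + 2 := by
  have h1 : Real.arctan (max (M - t) 0) < Real.pi / 2 := Real.arctan_lt_pi_div_two _
  have h2 := le_max_left (M - t) 0
  have h3 := Real.pi_le_four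
  unfold cap hPos
  linarith

theorem contDiff_cap (M : ℝ) : ContDiff ℝ 2 (cap M) :=
  contDiff_const.sub (contDiff_hPos.comp (contDiff_const.sub contDiff_id))

theorem exists_bound {u : (EuclideanSpace ℝ (Fin n)) → ℝ} (hu : Continuous u) (r : ℝ) :
    ∃ C, 0 ≤ C ∧ ∀ y, ‖y‖ ≤ r → u y ≤ C := by
  obtain ⟨C, hC⟩ := (isCompact_closedBall (0 : (EuclideanSpace ℝ (Fin n))) r).exists_bound_of_continuousOn hu.continuousOn
  exact ⟨max C 0, le_max_right _ _, fun y hy => ((Real.le_norm_self _).trans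
    (hC y (by simpa using hy))).trans (le_max_left _ _)⟩

/-- Truncation of `u + |x|^(2-n)`: a `C²` superharmonic substitute for `u`. -/
theorem exists_trunc (hn : 3 ≤ n) {p : ℝ} (hp : 1 < p) {u v v' : (EuclideanSpace ℝ (Fin n)) → ℝ} (huc : Continuous u)
    (hu : ∀ y ≠ 0, ContDiffAt ℝ 2 u y) (hu0 : ∀ y, 0 ≤ u y) (hv : ∀ y, 0 ≤ v y)
    (hv'0 : ∀ y, 0 ≤ v' y) (hv' : ∀ y, v' y ≤ v y) (hv'1 : ∀ y, ‖y‖ ≤ 1 → v' y = 0)
    (equ : ∀ y ≠ 0, Laplacian.laplacian u y ≤ -(v y) ^ p) {x : (EuclideanSpace ℝ (Fin n))} (hx : x ≠ 0) (ρ : ℝ) :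
    ∃ U : (EuclideanSpace ℝ (Fin n)) → ℝ, ContDiff ℝ 2 U ∧ (∀ y, 0 ≤ U y) ∧ U x ≤ u x + newton x + 2 ∧
      (∀ y, Laplacian.laplacian U y ≤ 0) ∧
      ∀ y, ‖y - x‖ ≤ ρ → Laplacian.laplacian U y ≤ -(1 / 2 * (v' y) ^ p) := by
  obtain ⟨C, hC0, hC⟩ := exists_bound huc (‖x‖ + ρ)
  set M := C + 2 with hM
  set U := fun y : (EuclideanSpace ℝ (Fin n)) => if y = 0 then M else cap M (u y + newton y) with hU
  have hU0 : U =ᶠ[𝓝 0] fun _ => M := by
    filter_upwards [newton_large hn M] with y hy
    by_cases h : y = 0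
    · simp [hU, h]
    · simp only [hU, h, if_false]
      exact cap_eq (by have := hu0 y; linarith [hy h])
  have hne : ∀ y : (EuclideanSpace ℝ (Fin n)), y ≠ 0 → U =ᶠ[𝓝 y] fun z => cap M (u z + newton z) := fun y hy => by
    filter_upwards [eventually_ne_nhds hy] with z hz using if_neg hz
  have hcd : ∀ y : (EuclideanSpace ℝ (Fin n)), y ≠ 0 → ContDiffAt ℝ 2 (fun z => u z + newton z) y := fun y hy =>
    (hu y hy).add (contDiffAt_newton hy)
  have hlap : ∀ y, Laplacian.laplacian U y ≤ 0 ∧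
      (‖y - x‖ ≤ ρ → Laplacian.laplacian U y ≤ -(1 / 2 * (v' y) ^ p)) := by
    intro y
    by_cases hy : y = 0
    · subst hy
      rw [(InnerProductSpace.laplacian_congr_nhds hU0).self_of_nhds]
      simp [hv'1 0, Real.zero_rpow (by linarith : p ≠ 0)]
    rw [(InnerProductSpace.laplacian_congr_nhds (hne y hy)).self_of_nhds,
      laplacian_comp (hcd y hy) isOpen_univ trivial (fun t _ => cap_deriv M t)
        (fun t _ => cap_deriv2 M t)]
    set m := max (M - (u y + newton y)) 0
    set W := ∑ i, (fderiv ℝ (fun z => u z + newton z) y (stdB i)) ^ 2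
    have hW : 0 ≤ W := Finset.sum_nonneg fun i _ => sq_nonneg _
    have hm : 0 ≤ m := le_max_right _ _
    have hA : -(2 * m / (1 + m ^ 2) ^ 2) * W ≤ 0 :=
      mul_nonpos_of_nonpos_of_nonneg (neg_nonpos.2 (by positivity)) hW
    have hadd : Laplacian.laplacian (fun z => u z + newton z) y = Laplacian.laplacian u y := by
      rw [show (fun z => u z + newton z) = u + newton from rfl,
        (hu y hy).laplacian_add (contDiffAt_newton hy), laplacian_newton hy, add_zero]
    rw [hadd]
    have hL := equ y hy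
    have hvp := Real.rpow_nonneg (hv y) p
    have hq : 0 ≤ m ^ 2 / (1 + m ^ 2) := by positivity
    have hB : m ^ 2 / (1 + m ^ 2) * Laplacian.laplacian u y ≤ 0 :=
      mul_nonpos_of_nonneg_of_nonpos hq (by linarith)
    refine ⟨by linarith, fun hyρ => ?_⟩
    rcases le_or_gt ‖y‖ 1 with h1 | h1
    · rw [hv'1 y h1, Real.zero_rpow (by linarith : p ≠ 0)]
      linarith
    have h2 : u y ≤ C := hC y (by have := norm_le_norm_add_norm_sub' y x; linarith)
    have h3 := newton_le_one hn h1.le
    have hm1 : 1 ≤ m := le_max_of_le_left (by linarith)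
    have hhalf : 1 / 2 ≤ m ^ 2 / (1 + m ^ 2) := by
      rw [div_le_div_iff₀ two_pos (by positivity)]; nlinarith
    have h4 := Real.rpow_le_rpow (hv'0 y) (hv' y) (by linarith : (0 : ℝ) ≤ p)
    have h5 := Real.rpow_nonneg (hv'0 y) p
    nlinarith
  refine ⟨U, contDiff_iff_contDiffAt.2 fun y => ?_, fun y => ?_, ?_, fun y => (hlap y).1,
    fun y => (hlap y).2⟩
  · by_cases hy : y = 0
    · subst hy; exact contDiffAt_const.congr_of_eventuallyEq hU0
    · exact (((contDiff_cap M).contDiffAt).comp y (hcd y hy)).congr_of_eventuallyEq (hne y hy)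
  · by_cases hy : y = 0
    · simp only [hU, hy, if_true]; linarith
    · simp only [hU, hy, if_false]
      exact cap_nonneg (by linarith) (by have := hu0 y; have := newton_nonneg y; linarith)
  · simp only [hU, hx, if_false]
    exact cap_le _ _

/-- The averages of `v` are not bounded below, for supersolutions on the punctured space. -/
theorem exists_avg_lt_punctured (hn : 3 ≤ n) {p : ℝ} (hp : 1 < p) {u v : (EuclideanSpace ℝ (Fin n)) → ℝ}
    (huc : Continuous u) (hvc : Continuous v) (hu : ∀ y ≠ 0, ContDiffAt ℝ 2 u y)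
    (hu0 : ∀ y, 0 ≤ u y) (hv0 : ∀ y, 0 ≤ v y)
    (equ : ∀ y ≠ 0, Laplacian.laplacian u y ≤ -(v y) ^ p) {x : (EuclideanSpace ℝ (Fin n))} (hx : x ≠ 0) {ε : ℝ}
    (hε : 0 < ε) : ∃ R, 0 ≤ R ∧ avg v x R < ε := by
  set η := fun y : (EuclideanSpace ℝ (Fin n)) => min (max (‖y‖ - 1) 0) 1 with hη
  set v' := fun y => η y * v y with hv'
  set k := fun y => v y - v' y with hk
  have hη0 : ∀ y, 0 ≤ η y := fun y => le_min (le_max_right _ _) zero_le_one
  have hη1 : ∀ y, η y ≤ 1 := fun y => min_le_right _ _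
  have hv'c : Continuous v' := by simp only [hv', hη]; fun_prop
  have hkc : Continuous k := hvc.sub hv'c
  have hk0 : ∀ y, 0 ≤ k y := fun y =>
    sub_nonneg.2 (mul_le_of_le_one_left (hv0 y) (hη1 y))
  have hks : HasCompactSupport k :=
    HasCompactSupport.intro (isCompact_closedBall (0 : (EuclideanSpace ℝ (Fin n))) 2) fun y hy => by
      simp only [Metric.mem_closedBall, dist_zero_right, not_le] at hy
      have : η y = 1 := min_eq_right (le_max_of_le_left (by linarith))
      simp [hk, hv', this]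
  set R₁ := 2 * (∫ y, k y) / ε + 1 with hR₁
  have hI : 0 ≤ ∫ y, k y := integral_nonneg hk0
  obtain ⟨R, hR, -, hlt⟩ := exists_avg_lt (v := v') hp one_half_pos hv'c
    (fun y => mul_nonneg (hη0 y) (hv0 y)) x
    (exists_trunc hn hp huc hu hu0 hv0 (fun y => mul_nonneg (hη0 y) (hv0 y))
      (fun y => mul_le_of_le_one_left (hv0 y) (hη1 y))
      (fun y hy => by simp [hη, max_eq_right (sub_nonpos.2 hy)]) equ hx)
    (half_pos hε) R₁
  have hR1 : 1 ≤ R := le_trans (by
    have : 0 ≤ 2 * (∫ y, k y) / ε := by positivity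
    linarith) hR
  have hR0 : 0 < R := by linarith
  refine ⟨R, hR0.le, ?_⟩
  have e1 : avg v x R = avg v' x R + avg k x R := by
    unfold avg
    rw [← integral_add (integrable_mul_avgW (by fun_prop)) (integrable_mul_avgW (by fun_prop))]
    simp only [hk]
    congr 1
    ext y
    ring
  have hint : Integrable fun z : (EuclideanSpace ℝ (Fin n)) => k (x + z) :=
    (hkc.comp (by fun_prop)).integrable_of_hasCompactSupport
      (hks.comp_homeomorph (Homeomorph.addLeft x))
  have e2 : avg k x R ≤ (R ^ n)⁻¹ * ∫ y, k y := by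
    calc avg k x R ≤ ∫ y, k (x + R • y) := by
          refine integral_mono_of_nonneg (Eventually.of_forall fun y =>
            mul_nonneg (hk0 _) (avgW_nonneg y)) (hint.comp_smul hR0.ne')
            (Eventually.of_forall fun y => mul_le_of_le_one_right (hk0 _) ?_)
          exact pow_le_one₀ (le_max_right _ _) (max_le (by nlinarith [norm_nonneg y]) zero_le_one)
      _ = (R ^ n)⁻¹ * ∫ y, k y := by
          rw [Measure.integral_comp_smul_of_nonneg (μ := (volume : Measure (EuclideanSpace ℝ (Fin n))))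
            (f := fun z => k (x + z)) R (hR := hR0.le), finrank_euclideanSpace_fin, smul_eq_mul,
            integral_add_left_eq_self (μ := (volume : Measure (EuclideanSpace ℝ (Fin n)))) k x]
  have e3 : (R ^ n)⁻¹ * ∫ y, k y < ε / 2 := by
    rw [inv_mul_lt_iff₀ (by positivity)]
    have h1 : R ≤ R ^ n := le_self_pow₀ hR1 (by omega)
    have h2 : 2 * (∫ y, k y) / ε + 1 ≤ R ^ n := hR.trans h1
    rw [div_add_one hε.ne', div_le_iff₀ hε] at h2
    linarith
  linarith

/-- Souplet's comparison for solutions that are `C²` off the origin and continuous at it. -/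
theorem souplet_comparison_punctured (hn : 3 ≤ n) {p q : ℝ} (hq : 0 < q) (hqp : q ≤ p)
    (hp : 1 < p) (u v : (EuclideanSpace ℝ (Fin n)) → ℝ) (huc : Continuous u) (hvc : Continuous v)
    (hu : ContDiffOn ℝ 2 u {0}ᶜ) (hv : ContDiffOn ℝ 2 v {0}ᶜ) (hu0 : ∀ x, 0 < u x)
    (hv0 : ∀ x, 0 < v x) (equ : ∀ x ≠ 0, Laplacian.laplacian u x = -(v x) ^ p)
    (eqv : ∀ x ≠ 0, Laplacian.laplacian v x = -(u x) ^ q) :
    ∀ x, (v x) ^ (p + 1) / (p + 1) ≤ (u x) ^ (q + 1) / (q + 1) := by
  have hp1 : 0 < p + 1 := by linarith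
  have hq1 : 0 < q + 1 := by linarith
  have hu' : ∀ y ≠ 0, ContDiffAt ℝ 2 u y := fun y hy =>
    hu.contDiffAt (isOpen_compl_singleton.mem_nhds hy)
  have hv' : ∀ y ≠ 0, ContDiffAt ℝ 2 v y := fun y hy =>
    hv.contDiffAt (isOpen_compl_singleton.mem_nhds hy)
  have key : ∀ x ≠ 0, gap p q u v x ≤ 0 := by
    intro x hx
    refine le_of_forall_pos_le_add fun δ hδ => ?_
    set ε := δ / (newton x + 1)
    have hε : 0 < ε := by have := newton_nonneg x; positivity
    set f := fun y : (EuclideanSpace ℝ (Fin n)) => if y = 0 then 0 else hPos (gap p q u v y - ε * newton y) with hf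
    obtain ⟨C, hC0, hC⟩ := exists_bound hvc 1
    have hf0 : f =ᶠ[𝓝 0] fun _ => 0 := by
      filter_upwards [newton_large hn (C / ε), Metric.closedBall_mem_nhds (0 : (EuclideanSpace ℝ (Fin n))) one_pos]
        with y hy hy1
      by_cases h : y = 0
      · simp [hf, h]
      · have h1 := (gap_le (v := v) hp1 hq1 (hu0 y).le).trans (hC y (by simpa using hy1))
        have h2 := mul_le_mul_of_nonneg_left (hy h) hε.le
        rw [mul_div_cancel₀ C hε.ne'] at h2
        simp only [hf, h, if_false, hPos, max_eq_right (show gap p q u v y - ε * newton y ≤ 0 by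
          linarith), Real.arctan_zero, sub_zero]
    have hne : ∀ y : (EuclideanSpace ℝ (Fin n)), y ≠ 0 → f =ᶠ[𝓝 y] fun z => hPos (gap p q u v z - ε * newton z) :=
      fun y hy => by filter_upwards [eventually_ne_nhds hy] with z hz using if_neg hz
    have hcd : ∀ y : (EuclideanSpace ℝ (Fin n)), y ≠ 0 → ContDiffAt ℝ 2 (fun z => gap p q u v z - ε * newton z) y :=
      fun y hy => (contDiffAt_gap (hu' y hy) (hv' y hy) (hu0 y).ne').sub
        (contDiffAt_const.mul (contDiffAt_newton hy))
    have hfx : f x ≤ 0 := by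
      refine nonpos_of_subharmonic (contDiff_iff_contDiffAt.2 fun y => ?_) hvc (fun y => ?_)
        (fun y => ?_) x fun e he => exists_avg_lt_punctured hn hp huc hvc hu'
          (fun y => (hu0 y).le) (fun y => (hv0 y).le) (fun y hy => (equ y hy).le) hx he
      · by_cases hy : y = 0
        · subst hy; exact contDiffAt_const.congr_of_eventuallyEq hf0
        · exact ((contDiff_hPos.contDiffAt).comp y (hcd y hy)).congr_of_eventuallyEq (hne y hy)
      · by_cases hy : y = 0
        · simp only [hf, hy, if_true]; exact (hv0 0).le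
        · simp only [hf, hy, if_false]
          refine (hPos_le _).trans (max_le ?_ (hv0 y).le)
          have := gap_le (v := v) hp1 hq1 (hu0 y).le
          have := mul_nonneg hε.le (newton_nonneg y)
          linarith
      · by_cases hy : y = 0
        · subst hy
          rw [(InnerProductSpace.laplacian_congr_nhds hf0).self_of_nhds]
          simp
        · rw [(InnerProductSpace.laplacian_congr_nhds (hne y hy)).self_of_nhds]
          refine laplacian_hPos_comp (hcd y hy) fun hz => ?_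
          have h1 := laplacian_gap_nonneg hq hqp (hu' y hy) (hv' y hy) (hu0 y) (equ y hy)
            (eqv y hy) (by have := mul_nonneg hε.le (newton_nonneg y); linarith)
          have e : (fun z => gap p q u v z - ε * newton z) = gap p q u v + (-ε) • newton := by
            ext; simp; ring
          rw [e, (contDiffAt_gap (hu' y hy) (hv' y hy) (hu0 y).ne').laplacian_add
              (f₂ := (-ε) • newton) ((contDiffAt_newton hy).const_smul (-ε)),
            InnerProductSpace.laplacian_smul (-ε) (contDiffAt_newton hy), laplacian_newton hy]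
          simpa using h1
    simp only [hf, hx, if_false] at hfx
    have := le_of_hPos_nonpos hfx
    have : ε * newton x ≤ δ := by
      rw [div_mul_eq_mul_div, div_le_iff₀ (by have := newton_nonneg x; linarith)]
      nlinarith
    linarith
  intro x
  by_cases hx : x = 0
  · subst hx
    have : Nontrivial (EuclideanSpace ℝ (Fin n)) := Module.nontrivial_of_finrank_pos (R := ℝ)
      (by rw [finrank_euclideanSpace_fin]; omega)
    have := Module.punctured_nhds_neBot ℝ (EuclideanSpace ℝ (Fin n)) (0 : (EuclideanSpace ℝ (Fin n)))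
    have hc : Continuous fun y => (u y) ^ (q + 1) / (q + 1) - (v y) ^ (p + 1) / (p + 1) :=
      ((huc.rpow_const fun _ => Or.inr hq1.le).div_const _).sub
        ((hvc.rpow_const fun _ => Or.inr hp1.le).div_const _)
    have hsub : ({(0 : (EuclideanSpace ℝ (Fin n)))}ᶜ : Set (EuclideanSpace ℝ (Fin n))) ⊆
        {y | (0 : ℝ) ≤ (u y) ^ (q + 1) / (q + 1) - (v y) ^ (p + 1) / (p + 1)} := fun y hy =>
      sub_nonneg.2 (le_of_gap_nonpos hp1 hq1 (hu0 y) (hv0 y) (key y hy))
    exact sub_nonneg.1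
      ((isClosed_le continuous_const hc).closure_subset_iff.2 hsub (dense_compl_singleton (0 : (EuclideanSpace ℝ (Fin n))) 0))
  · exact le_of_gap_nonpos hp1 hq1 (hu0 x) (hv0 x) (key x hx)

end Vale.Agent.P100
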