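import Mathlib

/-!
# Pointwise certificates for the Lane–Emden system

In the variables `a = ∇ log u`, `b = ∇ log v`, `P = v ^ p / u`, `Q = u ^ q / v` and the Hessians
`H`, `K` of `log u`, `log v`, the divergence of `w ∑ c_j F_j` (`w = u ^ lam * v ^ mu`, fourteen
cubic fields `F_j`) is `w` times the algebraic expression `rowR`.
A certificate says that this expression dominates the quartic norm `nrm`.
-/

open Finset

namespace Vale.Agent.P100

variable {n : ℕ}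

/-- Euclidean product of coordinate vectors. -/
def dotv (a b : Fin n → ℝ) : ℝ := ∑ i, a i * b i

/-- Matrix times vector. -/
def mulv (H : Fin n → Fin n → ℝ) (a : Fin n → ℝ) (i : Fin n) : ℝ := ∑ j, H i j * a j

/-- Frobenius product. -/
def frob (H K : Fin n → Fin n → ℝ) : ℝ := ∑ i, ∑ j, H i j * K i j

/-- The fourteen fields:
`Ha, Hb, Ka, Kb, (|a|², a·b, |b|², P, Q) × (a, b)`. -/
def fld (a b : Fin n → ℝ) (P Q : ℝ) (H K : Fin n → Fin n → ℝ) : Fin 14 → Fin n → ℝ :=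
  ![mulv H a, mulv H b, mulv K a, mulv K b,
    fun i => dotv a a * a i, fun i => dotv a a * b i,
    fun i => dotv a b * a i, fun i => dotv a b * b i,
    fun i => dotv b b * a i, fun i => dotv b b * b i,
    fun i => P * a i, fun i => P * b i, fun i => Q * a i, fun i => Q * b i]

/-- The gradient of the Laplacian of `log u`. -/
def gradLapU (p : ℝ) (a b : Fin n → ℝ) (P : ℝ) (H : Fin n → Fin n → ℝ) (i : Fin n) : ℝ :=
  -(2 * mulv H a i) - P * (p * b i - a i)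

/-- The gradient of the Laplacian of `log v`. -/
def gradLapV (q : ℝ) (a b : Fin n → ℝ) (Q : ℝ) (K : Fin n → Fin n → ℝ) (i : Fin n) : ℝ :=
  -(2 * mulv K b i) - Q * (q * a i - b i)

/-- The divergences of the fourteen fields, the Laplacians being `-(|a|² + P)`, `-(|b|² + Q)`. -/
def divT (p q : ℝ) (a b : Fin n → ℝ) (P Q : ℝ) (H K : Fin n → Fin n → ℝ) : Fin 14 → ℝ :=
  ![dotv (gradLapU p a b P H) a + frob H H,
    dotv (gradLapU p a b P H) b + frob H K,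
    dotv (gradLapV q a b Q K) a + frob K H,
    dotv (gradLapV q a b Q K) b + frob K K,
    dotv a a * -(dotv a a + P) + 2 * dotv (mulv H a) a,
    dotv a a * -(dotv b b + Q) + 2 * dotv (mulv H a) b,
    dotv a b * -(dotv a a + P) + (dotv (mulv H b) a + dotv (mulv K a) a),
    dotv a b * -(dotv b b + Q) + (dotv (mulv H b) b + dotv (mulv K a) b),
    dotv b b * -(dotv a a + P) + 2 * dotv (mulv K b) a,
    dotv b b * -(dotv b b + Q) + 2 * dotv (mulv K b) b,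
    P * -(dotv a a + P) + P * (p * dotv b a - dotv a a),
    P * -(dotv b b + Q) + P * (p * dotv b b - dotv a b),
    Q * -(dotv a a + P) + Q * (q * dotv a a - dotv b a),
    Q * -(dotv b b + Q) + Q * (q * dotv a b - dotv b b)]

/-- `div (w ∑ c_j F_j) / w`. -/
def rowR (p q lam mu : ℝ) (c : Fin 14 → ℝ) (a b : Fin n → ℝ) (P Q : ℝ)
    (H K : Fin n → Fin n → ℝ) : ℝ :=
  ∑ j, c j * (divT p q a b P Q H K j + ∑ i, (lam * a i + mu * b i) * fld a b P Q H K j i)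

/-- The contribution of coefficients depending on `z = P / Q = v ^ (p + 1) / u ^ (q + 1)`. -/
noncomputable def rowZ (p q lam mu : ℝ) (c : Fin 14 → ℝ → ℝ) (a b : Fin n → ℝ) (P Q : ℝ)
    (H K : Fin n → Fin n → ℝ) : ℝ :=
  ∑ j, (c j (P / Q) *
      (divT p q a b P Q H K j + ∑ i, (lam * a i + mu * b i) * fld a b P Q H K j i) +
    deriv (c j) (P / Q) * (P / Q) *
      ∑ i, ((p + 1) * b i - (q + 1) * a i) * fld a b P Q H K j i)

/-- The quartic norm. -/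
def nrm (a b : Fin n → ℝ) (P Q : ℝ) (H K : Fin n → Fin n → ℝ) : ℝ :=
  dotv a a ^ 2 + dotv b b ^ 2 + P ^ 2 + Q ^ 2 + frob H H + frob K K

/-- A certificate with weight `u ^ lam * v ^ mu`, `lam = -2 r₁ + 2 q r₂`, `mu = 2 p r₁ - 2 r₂`,
on the cone `P ≤ κ Q`. -/
structure Cert (n : ℕ) (p q κ r₁ r₂ : ℝ) (c : Fin 14 → ℝ) (ε : ℝ) : Prop where
  eps_pos : 0 < ε
  r₁_nonneg : 0 ≤ r₁
  r₂_nonneg : 0 ≤ r₂
  bound : ∀ (a b : Fin n → ℝ) (P Q : ℝ) (H K : Fin n → Fin n → ℝ),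
    (∀ i j, H i j = H j i) → (∀ i j, K i j = K j i) →
    ∑ i, H i i = -(dotv a a + P) → ∑ i, K i i = -(dotv b b + Q) →
    0 < P → 0 < Q → P ≤ κ * Q →
    ε * nrm a b P Q H K ≤
      rowR p q (-2 * r₁ + 2 * q * r₂) (2 * p * r₁ - 2 * r₂) c a b P Q H K

/-- The algebraic data `(a, b, P, Q, H, K)`. -/
abbrev Data (n : ℕ) : Type :=
  (Fin n → ℝ) × (Fin n → ℝ) × ℝ × ℝ × (Fin n → Fin n → ℝ) × (Fin n → Fin n → ℝ)

/-- A certificate with coefficients `c_j (z)`, `z = P / Q`, bounding an arbitrary continuous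
quartic quantity `M` that dominates `P ^ 2`, `Q ^ 2` and controls the flux. -/
structure CertZ (n : ℕ) (p q κ r₁ r₂ : ℝ) (c : Fin 14 → ℝ → ℝ) (M : Data n → ℝ) (ε G : ℝ) :
    Prop where
  eps_pos : 0 < ε
  flux_nonneg : 0 ≤ G
  r₁_nonneg : 0 ≤ r₁
  r₂_nonneg : 0 ≤ r₂
  smooth : ∀ j, ContDiff ℝ 1 (c j)
  cont : Continuous M
  sqP : ∀ a b P Q H K, P ^ 2 ≤ M (a, b, P, Q, H, K)
  sqQ : ∀ a b P Q H K, Q ^ 2 ≤ M (a, b, P, Q, H, K)
  flux : ∀ (a b : Fin n → ℝ) (P Q : ℝ) (H K : Fin n → Fin n → ℝ), 0 < P → 0 < Q → P ≤ κ * Q →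
    ∀ i, |∑ j, c j (P / Q) * fld a b P Q H K j i| ≤ G * M (a, b, P, Q, H, K) ^ (3 / 4 : ℝ)
  bound : ∀ (a b : Fin n → ℝ) (P Q : ℝ) (H K : Fin n → Fin n → ℝ),
    (∀ i j, H i j = H j i) → (∀ i j, K i j = K j i) →
    ∑ i, H i i = -(dotv a a + P) → ∑ i, K i i = -(dotv b b + Q) →
    0 < P → 0 < Q → P ≤ κ * Q →
    ε * M (a, b, P, Q, H, K) ≤
      rowZ p q (-2 * r₁ + 2 * q * r₂) (2 * p * r₁ - 2 * r₂) c a b P Q H K

end Vale.Agent.P100
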