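import Vale.Agent.P100.WeakHess

/-!
# Integral identities for the vector fields `w g ∇V` and `w (∇²U) ∇V`, `w = exp W`

Both identities are stated on an open set `Ω`, against a `C¹` test function supported in `Ω`,
and need `U, V` only of class `C²`.
-/

open MeasureTheory Filter Set Topology

namespace Vale.Agent.P100

variable {E : Type*} [NormedAddCommGroup E] [NormedSpace ℝ E] [FiniteDimensional ℝ E]
  [MeasurableSpace E] [BorelSpace E] {μ : Measure E} [μ.IsAddHaarMeasure]
  {ι : Type*} [Fintype ι] {Ω : Set E}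

omit [MeasurableSpace E] [BorelSpace E] [FiniteDimensional ℝ E] in
/-- A `C¹` function on `Ω`, cut off by a test function supported in `Ω`, is `C¹`. -/
lemma contDiff_test_mul (hΩ : IsOpen Ω) {φ f : E → ℝ} (hφ : ContDiff ℝ 1 φ)
    (hsub : tsupport φ ⊆ Ω) (hf : ContDiffOn ℝ 1 f Ω) : ContDiff ℝ 1 fun x => φ x * f x := by
  refine contDiff_iff_contDiffAt.2 fun x => ?_
  by_cases hx : x ∈ tsupport φ
  · exact hφ.contDiffAt.mul (hf.contDiffAt (hΩ.mem_nhds (hsub hx)))
  · refine contDiffAt_const (c := (0 : ℝ)).congr_of_eventuallyEq ?_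
    filter_upwards [notMem_tsupport_iff_eventuallyEq.1 hx] with y hy
    simp [hy]

omit [MeasurableSpace E] [BorelSpace E] [FiniteDimensional ℝ E] in
lemma fderiv_test_mul {φ f : E → ℝ} (hΩ : IsOpen Ω) (hφ : ContDiff ℝ 1 φ)
    (hsub : tsupport φ ⊆ Ω) (hf : ContDiffOn ℝ 1 f Ω) (x v : E) :
    fderiv ℝ (fun y => φ y * f y) x v = φ x * fderiv ℝ f x v + fderiv ℝ φ x v * f x := by
  by_cases hx : x ∈ Ω
  · rw [fderiv_fun_mul (hφ.differentiable one_ne_zero x)
      ((hf.contDiffAt (hΩ.mem_nhds hx)).differentiableAt one_ne_zero)]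
    simp [mul_comm]
  · have hx' : x ∉ tsupport φ := fun h => hx (hsub h)
    have h1 := notMem_tsupport_iff_eventuallyEq.1 hx'
    have h2 : (fun y => φ y * f y) =ᶠ[𝓝 x] fun _ => (0 : ℝ) := by
      filter_upwards [h1] with y hy
      simp [hy]
    rw [h2.fderiv_eq, h1.fderiv_eq]
    simp [image_eq_zero_of_notMem_tsupport hx']

omit [μ.IsAddHaarMeasure] in
omit [NormedSpace ℝ E] [FiniteDimensional ℝ E] in
/-- Integrability of a function continuous on `Ω` times a test function supported in `Ω`. -/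
lemma integrable_test_mul [IsFiniteMeasureOnCompacts μ] (hΩ : IsOpen Ω) {φ f : E → ℝ}
    (hφ : Continuous φ) (hφc : HasCompactSupport φ) (hsub : tsupport φ ⊆ Ω)
    (hf : ContinuousOn f Ω) : Integrable (fun x => φ x * f x) μ := by
  refine Continuous.integrable_of_hasCompactSupport ?_ hφc.mul_right
  refine continuous_iff_continuousAt.2 fun x => ?_
  by_cases hx : x ∈ tsupport φ
  · exact hφ.continuousAt.mul (hf.continuousAt (hΩ.mem_nhds (hsub hx)))
  · refine (continuousAt_const (y := (0 : ℝ))).congr ?_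
    filter_upwards [notMem_tsupport_iff_eventuallyEq.1 hx] with y hy
    simp [hy]

omit [μ.IsAddHaarMeasure] in
lemma integrable_deriv_mul [IsFiniteMeasureOnCompacts μ] (hΩ : IsOpen Ω) {φ f : E → ℝ}
    (hφ : ContDiff ℝ 1 φ) (hφc : HasCompactSupport φ) (hsub : tsupport φ ⊆ Ω)
    (hf : ContinuousOn f Ω) (v : E) : Integrable (fun x => fderiv ℝ φ x v * f x) μ :=
  integrable_test_mul hΩ ((hφ.continuous_fderiv one_ne_zero).clm_apply continuous_const)
    (hφc.fderiv_apply (𝕜 := ℝ) v) ((tsupport_fderiv_apply_subset ℝ v).trans hsub) hf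

omit [FiniteDimensional ℝ E] [MeasurableSpace E] [BorelSpace E] in
lemma hasD2 {U : E → ℝ} (hΩ : IsOpen Ω) (hU : ContDiffOn ℝ 2 U Ω) {x : E} (hx : x ∈ Ω)
    (a v : E) : fderiv ℝ (fun y => fderiv ℝ U y a) x v = fderiv ℝ (fderiv ℝ U) x v a := by
  have hd : DifferentiableAt ℝ (fderiv ℝ U) x :=
    ((hU.contDiffAt (hΩ.mem_nhds hx)).fderiv_right (m := 1) (by norm_num)).differentiableAt
      one_ne_zero
  simp [fderiv_clm_apply hd (differentiableAt_const _)]

/-- Identity for the field `w g ∇V`, `w = exp W`. -/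
theorem grad_field (hΩ : IsOpen Ω) (e : ι → E) {φ V W g : E → ℝ} (hφ : ContDiff ℝ 1 φ)
    (hφc : HasCompactSupport φ) (hsub : tsupport φ ⊆ Ω) (hV : ContDiffOn ℝ 2 V Ω)
    (hW : ContDiffOn ℝ 1 W Ω) (hg : ContDiffOn ℝ 1 g Ω) :
    ∫ x, φ x * (Real.exp (W x) *
        (g x * (∑ i, fderiv ℝ (fderiv ℝ V) x (e i) (e i)) +
          (∑ i, fderiv ℝ g x (e i) * fderiv ℝ V x (e i)) +
          g x * (∑ i, fderiv ℝ W x (e i) * fderiv ℝ V x (e i)))) ∂μ =
      -∫ x, Real.exp (W x) * g x * ∑ i, fderiv ℝ φ x (e i) * fderiv ℝ V x (e i) ∂μ := by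
  have hdV : ∀ v, ContDiffOn ℝ 1 (fun y => fderiv ℝ V y v) Ω := fun v =>
    (hV.fderiv_of_isOpen hΩ (by norm_num)).clm_apply contDiffOn_const
  let G : ι → E → ℝ := fun i x => Real.exp (W x) * g x * fderiv ℝ V x (e i)
  have hG : ∀ i, ContDiffOn ℝ 1 (G i) Ω := fun i => (hW.exp.mul hg).mul (hdV _)
  have hzero : ∀ i, ∫ x, φ x * fderiv ℝ (G i) x (e i) ∂μ + ∫ x, fderiv ℝ φ x (e i) * G i x ∂μ
      = 0 := by
    intro i
    have hc := contDiff_test_mul hΩ hφ hsub (hG i)
    have hd : Continuous fun x => fderiv ℝ (fun y => φ y * G i y) x (e i) :=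
      (hc.continuous_fderiv one_ne_zero).clm_apply continuous_const
    have hcs : HasCompactSupport fun y => φ y * G i y := hφc.mul_right
    have := integral_mul_fderiv_eq_neg_fderiv_mul_of_integrable (μ := μ) (v := e i)
      (f := fun _ => (1 : ℝ)) (g := fun y => φ y * G i y) (by simp)
      (by simpa using hd.integrable_of_hasCompactSupport (hcs.fderiv_apply (𝕜 := ℝ) (e i)))
      (by simpa using hc.continuous.integrable_of_hasCompactSupport hcs)
      (fun x _ => differentiableAt_const _) (fun x _ => hc.differentiable one_ne_zero x)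
    simp only [fderiv_test_mul hΩ hφ hsub (hG i)] at this
    rw [← integral_add (integrable_test_mul hΩ hφ.continuous hφc hsub
      (((hG i).continuousOn_fderiv_of_isOpen hΩ le_rfl).clm_apply continuousOn_const))
      (integrable_deriv_mul hΩ hφ hφc hsub (hG i).continuousOn _)]
    simpa using this
  have e1 : ∀ i, Integrable (fun x => φ x * fderiv ℝ (G i) x (e i)) μ := fun i =>
    integrable_test_mul hΩ hφ.continuous hφc hsub
      (((hG i).continuousOn_fderiv_of_isOpen hΩ le_rfl).clm_apply continuousOn_const)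
  have e2 : ∀ i, Integrable (fun x => fderiv ℝ φ x (e i) * G i x) μ := fun i =>
    integrable_deriv_mul hΩ hφ hφc hsub (hG i).continuousOn _
  calc ∫ x, φ x * (Real.exp (W x) *
        (g x * (∑ i, fderiv ℝ (fderiv ℝ V) x (e i) (e i)) +
          (∑ i, fderiv ℝ g x (e i) * fderiv ℝ V x (e i)) +
          g x * (∑ i, fderiv ℝ W x (e i) * fderiv ℝ V x (e i)))) ∂μ
      = ∫ x, ∑ i, φ x * fderiv ℝ (G i) x (e i) ∂μ := by
        congr 1; ext x
        by_cases hx : x ∈ Ω
        · have hn := hΩ.mem_nhds hx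
          have dW : DifferentiableAt ℝ W x := (hW.contDiffAt hn).differentiableAt one_ne_zero
          have dg : DifferentiableAt ℝ g x := (hg.contDiffAt hn).differentiableAt one_ne_zero
          rw [← Finset.mul_sum]
          congr 1
          have : ∀ i, fderiv ℝ (G i) x (e i) = Real.exp (W x) *
              (g x * fderiv ℝ (fderiv ℝ V) x (e i) (e i) +
                fderiv ℝ g x (e i) * fderiv ℝ V x (e i) +
                g x * (fderiv ℝ W x (e i) * fderiv ℝ V x (e i))) := by
            intro i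
            have dV : DifferentiableAt ℝ (fun y => fderiv ℝ V y (e i)) x :=
              ((hdV _).contDiffAt hn).differentiableAt one_ne_zero
            simp only [G]
            rw [fderiv_fun_mul (dW.exp.fun_mul dg) dV, fderiv_fun_mul dW.exp dg, fderiv_exp dW]
            simp [hasD2 hΩ hV hx]
            ring
          simp only [this, ← Finset.mul_sum, Finset.sum_add_distrib]
        · simp [image_eq_zero_of_notMem_tsupport fun h => hx (hsub h)]
    _ = ∑ i, ∫ x, φ x * fderiv ℝ (G i) x (e i) ∂μ := integral_finsetSum _ fun i _ => e1 i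
    _ = -∑ i, ∫ x, fderiv ℝ φ x (e i) * G i x ∂μ := by
        rw [← Finset.sum_neg_distrib]
        exact Finset.sum_congr rfl fun i _ => eq_neg_of_add_eq_zero_left (hzero i)
    _ = _ := by
        rw [← integral_finsetSum _ fun i _ => e2 i]
        congr 2; ext x
        rw [Finset.mul_sum]
        exact Finset.sum_congr rfl fun i _ => by simp only [G]; ring

/-- Identity for the field `w (∇²U) ∇V`, `w = exp W`, where `f` is the Laplacian of `U`. -/
theorem hess_field (hΩ : IsOpen Ω) (e : ι → E) {φ U V W f : E → ℝ} (hφ : ContDiff ℝ 1 φ)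
    (hφc : HasCompactSupport φ) (hsub : tsupport φ ⊆ Ω) (hU : ContDiffOn ℝ 2 U Ω)
    (hV : ContDiffOn ℝ 2 V Ω) (hW : ContDiffOn ℝ 1 W Ω)
    (hfU : ∀ x ∈ Ω, f x = ∑ i, fderiv ℝ (fderiv ℝ U) x (e i) (e i))
    (hf : ContDiffOn ℝ 1 f Ω) :
    ∫ x, φ x * (Real.exp (W x) *
        ((∑ j, fderiv ℝ f x (e j) * fderiv ℝ V x (e j)) +
          (∑ i, ∑ j, fderiv ℝ (fderiv ℝ U) x (e i) (e j) * fderiv ℝ (fderiv ℝ V) x (e i) (e j)) +
          ∑ i, ∑ j, fderiv ℝ (fderiv ℝ U) x (e i) (e j) *
            (fderiv ℝ W x (e i) * fderiv ℝ V x (e j)))) ∂μ =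
      -∫ x, Real.exp (W x) * ∑ i, ∑ j, fderiv ℝ (fderiv ℝ U) x (e i) (e j) *
          (fderiv ℝ φ x (e i) * fderiv ℝ V x (e j)) ∂μ := by
  have hdV : ∀ v, ContDiffOn ℝ 1 (fun y => fderiv ℝ V y v) Ω := fun v =>
    (hV.fderiv_of_isOpen hΩ (by norm_num)).clm_apply contDiffOn_const
  let G : ι → E → ℝ := fun j x => Real.exp (W x) * fderiv ℝ V x (e j)
  have hG : ∀ j, ContDiffOn ℝ 1 (G j) Ω := fun j => hW.exp.mul (hdV _)
  let D := fun x i j => fderiv ℝ (fderiv ℝ U) x (e i) (e j)
  have hD : ∀ i j, ContinuousOn (fun x => D x i j) Ω := fun i j =>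
    (((hU.fderiv_of_isOpen hΩ (m := 1) (by norm_num)).continuousOn_fderiv_of_isOpen hΩ
      le_rfl).clm_apply continuousOn_const).clm_apply continuousOn_const
  have hdG : ∀ i j, ContinuousOn (fun x => fderiv ℝ (G j) x (e i)) Ω := fun i j =>
    ((hG j).continuousOn_fderiv_of_isOpen hΩ le_rfl).clm_apply continuousOn_const
  have key := weak_hessian (μ := μ) hΩ e hU hfU hf (fun j x => φ x * G j x)
    (fun j => contDiff_test_mul hΩ hφ hsub (hG j)) (fun j => hφc.mul_right)
    (fun j => (tsupport_mul_subset_left).trans hsub)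
  simp only [fderiv_test_mul hΩ hφ hsub (hG _), mul_add, Finset.sum_add_distrib] at key
  have i1 : Integrable (fun x => φ x * ∑ i, ∑ j, D x i j * fderiv ℝ (G j) x (e i)) μ :=
    integrable_test_mul hΩ hφ.continuous hφc hsub
      (continuousOn_finsetSum _ fun i _ => continuousOn_finsetSum _ fun j _ =>
        (hD i j).mul (hdG i j))
  have i2 : Integrable (fun x => ∑ i, ∑ j, D x i j * (fderiv ℝ φ x (e i) * G j x)) μ := by
    refine integrable_finsetSum _ fun i _ => integrable_finsetSum _ fun j _ => ?_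
    have := integrable_deriv_mul (μ := μ) hΩ hφ hφc hsub ((hD i j).mul (hG j).continuousOn) (e i)
    refine this.congr (ae_of_all _ fun x => ?_)
    simp; ring
  have i3 : Integrable (fun x => φ x * ∑ j, fderiv ℝ f x (e j) * G j x) μ :=
    integrable_test_mul hΩ hφ.continuous hφc hsub
      (continuousOn_finsetSum _ fun j _ =>
        (((hf.continuousOn_fderiv_of_isOpen hΩ le_rfl).clm_apply continuousOn_const)).mul
          (hG j).continuousOn)
  have kl : ∫ x, φ x * ∑ i, ∑ j, D x i j * fderiv ℝ (G j) x (e i) ∂μ +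
      ∫ x, ∑ i, ∑ j, D x i j * (fderiv ℝ φ x (e i) * G j x) ∂μ =
      -∫ x, φ x * ∑ j, fderiv ℝ f x (e j) * G j x ∂μ := by
    rw [← integral_add i1 i2]
    calc ∫ x, φ x * ∑ i, ∑ j, D x i j * fderiv ℝ (G j) x (e i) +
          ∑ i, ∑ j, D x i j * (fderiv ℝ φ x (e i) * G j x) ∂μ
        = _ := by
          congr 1; ext x
          simp only [Finset.mul_sum]
          congr 1
          exact Finset.sum_congr rfl fun i _ => Finset.sum_congr rfl fun j _ => by
            simp only [D]; ring
      _ = _ := key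
      _ = _ := by
          congr 2; ext x
          simp only [Finset.mul_sum]
          exact Finset.sum_congr rfl fun j _ => by ring
  calc ∫ x, φ x * (Real.exp (W x) *
        ((∑ j, fderiv ℝ f x (e j) * fderiv ℝ V x (e j)) +
          (∑ i, ∑ j, fderiv ℝ (fderiv ℝ U) x (e i) (e j) * fderiv ℝ (fderiv ℝ V) x (e i) (e j)) +
          ∑ i, ∑ j, fderiv ℝ (fderiv ℝ U) x (e i) (e j) *
            (fderiv ℝ W x (e i) * fderiv ℝ V x (e j)))) ∂μ
      = ∫ x, (φ x * ∑ j, fderiv ℝ f x (e j) * G j x) +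
          φ x * ∑ i, ∑ j, D x i j * fderiv ℝ (G j) x (e i) ∂μ := by
        congr 1; ext x
        by_cases hx : x ∈ Ω
        · have hn := hΩ.mem_nhds hx
          have dW : DifferentiableAt ℝ W x := (hW.contDiffAt hn).differentiableAt one_ne_zero
          have hGd : ∀ i j, fderiv ℝ (G j) x (e i) = Real.exp (W x) *
              (fderiv ℝ (fderiv ℝ V) x (e i) (e j) +
                fderiv ℝ W x (e i) * fderiv ℝ V x (e j)) := by
            intro i j
            have dV : DifferentiableAt ℝ (fun y => fderiv ℝ V y (e j)) x :=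
              ((hdV _).contDiffAt hn).differentiableAt one_ne_zero
            simp only [G]
            rw [fderiv_fun_mul dW.exp dV, fderiv_exp dW]
            simp [hasD2 hΩ hV hx]
            ring
          simp only [hGd, D, G]
          rw [← mul_add]
          congr 1
          simp only [mul_add, Finset.mul_sum, Finset.sum_add_distrib]
          simp only [mul_left_comm (Real.exp (W x))]
          ring
        · simp [image_eq_zero_of_notMem_tsupport fun h => hx (hsub h)]
    _ = -∫ x, ∑ i, ∑ j, D x i j * (fderiv ℝ φ x (e i) * G j x) ∂μ := by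
        rw [integral_add i3 i1]; linarith
    _ = _ := by
        congr 2; ext x
        simp only [Finset.mul_sum]
        exact Finset.sum_congr rfl fun i _ => Finset.sum_congr rfl fun j _ => by
          simp only [D, G]; ring

end Vale.Agent.P100
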