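import Mathlib
import Vale.Agent.P100.Cert
import Vale.Agent.P100.Fields

/-!
# From a pointwise certificate to a local energy bound

If a certificate exists then, with `d = 4 (1 + r₁ + r₂)`, every solution satisfies
`∫ η ^ k w N ≤ C ∫ |∇η| ^ d` with a constant independent of the solution.
-/

open MeasureTheory Filter Set Topology Laplacian

namespace Vale.Agent.P100

/-! ## Algebra -/

theorem nrm_nonneg {n : ℕ} (a b : Fin n → ℝ) (P Q : ℝ) (H K : Fin n → Fin n → ℝ) :
    0 ≤ nrm a b P Q H K := by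
  have h : ∀ X : Fin n → Fin n → ℝ, 0 ≤ frob X X := fun X =>
    Finset.sum_nonneg fun i _ => Finset.sum_nonneg fun j _ => mul_self_nonneg _
  have := h H
  have := h K
  unfold nrm
  positivity

theorem sq_dotv_le_nrm {n : ℕ} (a b : Fin n → ℝ) (P Q : ℝ) (H K : Fin n → Fin n → ℝ) :
    dotv a a ^ 2 ≤ nrm a b P Q H K ∧ dotv b b ^ 2 ≤ nrm a b P Q H K ∧
      P ^ 2 ≤ nrm a b P Q H K ∧ Q ^ 2 ≤ nrm a b P Q H K ∧
      frob H H ≤ nrm a b P Q H K ∧ frob K K ≤ nrm a b P Q H K := by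
  have h : ∀ X : Fin n → Fin n → ℝ, 0 ≤ frob X X := fun X =>
    Finset.sum_nonneg fun i _ => Finset.sum_nonneg fun j _ => mul_self_nonneg _
  have := h H
  have := h K
  unfold nrm
  refine ⟨?_, ?_, ?_, ?_, ?_, ?_⟩ <;>
    nlinarith [sq_nonneg (dotv a a), sq_nonneg (dotv b b), sq_nonneg P, sq_nonneg Q]

/-- The fields are cubic. -/
theorem abs_fld_le {n : ℕ} (a b : Fin n → ℝ) (P Q : ℝ) (H K : Fin n → Fin n → ℝ) (j : Fin 14)
    (i : Fin n) : |fld a b P Q H K j i| ≤ (n + 1) * nrm a b P Q H K ^ (3 / 4 : ℝ) := by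
  set N := nrm a b P Q H K with hNdef
  have hN : 0 ≤ N := nrm_nonneg a b P Q H K
  obtain ⟨hA, hB, hP, hQ, hH, hK⟩ := sq_dotv_le_nrm a b P Q H K
  set s : ℝ := N ^ (1 / 4 : ℝ) with hsdef
  have hs : 0 ≤ s := Real.rpow_nonneg hN _
  have h4 : s ^ 4 = N := by
    rw [hsdef, ← Real.rpow_natCast, ← Real.rpow_mul hN]; norm_num
  have h3 : N ^ (3 / 4 : ℝ) = s ^ 3 := by
    rw [hsdef, ← Real.rpow_natCast, ← Real.rpow_mul hN]; norm_num
  have two : ∀ x : ℝ, x ^ 2 ≤ N → |x| ≤ s ^ 2 := fun x hx =>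
    abs_le_of_sq_le_sq (by nlinarith [h4, hx]) (by positivity)
  have one : ∀ (v : Fin n → ℝ) l, dotv v v ^ 2 ≤ N → |v l| ≤ s := by
    intro v l hv
    have h1 : v l * v l ≤ dotv v v :=
      Finset.single_le_sum (f := fun t => v t * v t) (fun t _ => mul_self_nonneg _)
        (Finset.mem_univ l)
    have h2 : dotv v v ≤ s ^ 2 := (le_abs_self _).trans (two _ hv)
    exact abs_le_of_sq_le_sq (by nlinarith) hs
  have mat : ∀ (X : Fin n → Fin n → ℝ) l m, frob X X ≤ N → |X l m| ≤ s ^ 2 := by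
    intro X l m hX
    refine two _ (le_trans ?_ hX)
    rw [sq]
    exact le_trans (Finset.single_le_sum (f := fun t => X l t * X l t)
      (fun t _ => mul_self_nonneg _) (Finset.mem_univ m))
      (Finset.single_le_sum (f := fun u => ∑ t, X u t * X u t)
        (fun u _ => Finset.sum_nonneg fun t _ => mul_self_nonneg _) (Finset.mem_univ l))
  have bigmul : ∀ (X : Fin n → Fin n → ℝ) (v : Fin n → ℝ), frob X X ≤ N → dotv v v ^ 2 ≤ N →
      |mulv X v i| ≤ (n + 1) * s ^ 3 := by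
    intro X v hX hv
    refine (Finset.abs_sum_le_sum_abs _ _).trans ?_
    refine le_trans (Finset.sum_le_sum (g := fun _ => s ^ 3) fun t _ => ?_) ?_
    · rw [abs_mul, show s ^ 3 = s ^ 2 * s by ring]
      exact mul_le_mul (mat X i t hX) (one v t hv) (abs_nonneg _) (by positivity)
    · simp only [Finset.sum_const, Finset.card_univ, Fintype.card_fin, nsmul_eq_mul]
      nlinarith [pow_nonneg hs 3]
  have scal : ∀ (g : ℝ) (v : Fin n → ℝ), |g| ≤ (n + 1) * s ^ 2 → dotv v v ^ 2 ≤ N →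
      |g * v i| ≤ (n + 1) * s ^ 3 := by
    intro g v hg hv
    rw [abs_mul, show (n + 1 : ℝ) * s ^ 3 = ((n + 1) * s ^ 2) * s by ring]
    exact mul_le_mul hg (one v i hv) (abs_nonneg _) (by positivity)
  have hn1 : s ^ 2 ≤ (n + 1) * s ^ 2 := le_mul_of_one_le_left (by positivity) (by simp)
  have dab : |dotv a b| ≤ (n + 1) * s ^ 2 := by
    refine (Finset.abs_sum_le_sum_abs _ _).trans ?_
    refine le_trans (Finset.sum_le_sum (g := fun _ => s ^ 2) fun t _ => ?_) ?_
    · rw [abs_mul, sq]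
      exact mul_le_mul (one a t hA) (one b t hB) (abs_nonneg _) hs
    · simp only [Finset.sum_const, Finset.card_univ, Fintype.card_fin, nsmul_eq_mul]
      nlinarith [sq_nonneg s]
  have daa := (two _ hA).trans hn1
  have dbb := (two _ hB).trans hn1
  have dP := (two _ hP).trans hn1
  have dQ := (two _ hQ).trans hn1
  rw [h3]
  fin_cases j <;>
    first
    | exact bigmul H a hH hA
    | exact bigmul H b hH hB
    | exact bigmul K a hK hA
    | exact bigmul K b hK hB
    | exact scal _ a daa hA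
    | exact scal _ b daa hB
    | exact scal _ a dab hA
    | exact scal _ b dab hB
    | exact scal _ a dbb hA
    | exact scal _ b dbb hB
    | exact scal _ a dP hA
    | exact scal _ b dP hB
    | exact scal _ a dQ hA
    | exact scal _ b dQ hB

/-- The Young inequality used to absorb the flux. -/
theorem young_flux {X g d δ : ℝ} (hX : 0 ≤ X) (hg : 0 ≤ g) (hd : 1 ≤ d) (hδ : 0 < δ) :
    g * X ^ (1 - 1 / d) ≤ δ * X + δ ^ (1 - d) * g ^ d := by
  have hd0 : 0 < d := by linarith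
  have h1d : 1 / d ≤ 1 := by rw [div_le_one hd0]; exact hd
  have h := Real.geom_mean_le_arith_mean2_weighted (sub_nonneg.2 h1d) (one_div_nonneg.2 hd0.le)
    (mul_nonneg hδ.le hX) (mul_nonneg (Real.rpow_nonneg hδ.le (1 - d)) (Real.rpow_nonneg hg d))
    (by ring)
  rw [Real.mul_rpow hδ.le hX, Real.mul_rpow (Real.rpow_nonneg hδ.le _) (Real.rpow_nonneg hg _),
    ← Real.rpow_mul hg, mul_one_div_cancel hd0.ne', Real.rpow_one, ← Real.rpow_mul hδ.le] at h
  have e : δ ^ (1 - 1 / d) * δ ^ ((1 - d) * (1 / d)) = 1 := by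
    rw [← Real.rpow_add hδ]
    rw [show 1 - 1 / d + (1 - d) * (1 / d) = 0 by field_simp; ring, Real.rpow_zero]
  have h0 : 0 ≤ δ * X := mul_nonneg hδ.le hX
  have h2 : 0 ≤ δ ^ (1 - d) * g ^ d := by positivity
  nlinarith [mul_le_of_le_one_left h0 (show 1 - 1 / d ≤ 1 by linarith [one_div_nonneg.2 hd0.le]),
    mul_le_of_le_one_left h2 h1d]

/-! ## Analysis -/

variable {n : ℕ}

/-- The standard basis vectors. -/
noncomputable def eStd (i : Fin n) : EuclideanSpace ℝ (Fin n) := EuclideanSpace.basisFun (Fin n) ℝ i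

/-- Gradient of `log u` in coordinates. -/
noncomputable def logGrad (u : EuclideanSpace ℝ (Fin n) → ℝ) (x : EuclideanSpace ℝ (Fin n))
    (i : Fin n) : ℝ := fderiv ℝ (fun y => Real.log (u y)) x (eStd i)

/-- Hessian of `log u` in coordinates. -/
noncomputable def logHess (u : EuclideanSpace ℝ (Fin n) → ℝ) (x : EuclideanSpace ℝ (Fin n))
    (i j : Fin n) : ℝ := fderiv ℝ (fderiv ℝ fun y => Real.log (u y)) x (eStd i) (eStd j)

/-- The algebraic data of a pair of functions. -/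
noncomputable def solData (p q : ℝ) (u v : EuclideanSpace ℝ (Fin n) → ℝ)
    (x : EuclideanSpace ℝ (Fin n)) : Data n :=
  (logGrad u x, logGrad v x, v x ^ p / u x, u x ^ q / v x, logHess u x, logHess v x)

/-- `N` evaluated on a pair of functions. -/
noncomputable def solNrm (p q : ℝ) (u v : EuclideanSpace ℝ (Fin n) → ℝ)
    (x : EuclideanSpace ℝ (Fin n)) : ℝ :=
  nrm (logGrad u x) (logGrad v x) (v x ^ p / u x) (u x ^ q / v x) (logHess u x) (logHess v x)

/-- The weight `u ^ lam * v ^ mu`. -/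
noncomputable def solWeight (p q r₁ r₂ : ℝ) (u v : EuclideanSpace ℝ (Fin n) → ℝ)
    (x : EuclideanSpace ℝ (Fin n)) : ℝ :=
  u x ^ (-2 * r₁ + 2 * q * r₂) * v x ^ (2 * p * r₁ - 2 * r₂)

theorem solWeight_le {p q r₁ r₂ M : ℝ} (h1 : 0 ≤ r₁) (h2 : 0 ≤ r₂)
    {u v : EuclideanSpace ℝ (Fin n) → ℝ} {x : EuclideanSpace ℝ (Fin n)} (hu : 0 < u x)
    (hv : 0 < v x) (hP : (v x ^ p / u x) ^ 2 ≤ M) (hQ : (u x ^ q / v x) ^ 2 ≤ M) :
    solWeight p q r₁ r₂ u v x ≤ M ^ (r₁ + r₂) := by
  have hN : 0 ≤ M := (sq_nonneg _).trans hP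
  have hkey : solWeight p q r₁ r₂ u v x =
      ((v x ^ p / u x) ^ 2) ^ r₁ * ((u x ^ q / v x) ^ 2) ^ r₂ := by
    unfold solWeight
    rw [← Real.rpow_natCast (v x ^ p / u x), ← Real.rpow_natCast (u x ^ q / v x),
      ← Real.rpow_mul (by positivity), ← Real.rpow_mul (by positivity),
      Real.div_rpow (by positivity) hu.le, Real.div_rpow (by positivity) hv.le,
      ← Real.rpow_mul hv.le, ← Real.rpow_mul hu.le, Real.rpow_add hu, Real.rpow_sub hv,
      show -2 * r₁ = -(2 * r₁) by ring, Real.rpow_neg hu.le]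
    push_cast
    rw [show p * (2 * r₁) = 2 * p * r₁ by ring, show q * (2 * r₂) = 2 * q * r₂ by ring]
    field_simp
  rw [hkey]
  refine (mul_le_mul (Real.rpow_le_rpow (sq_nonneg _) hP h1) (Real.rpow_le_rpow (sq_nonneg _) hQ h2)
    (by positivity) (by positivity)).trans_eq ?_
  rw [← Real.rpow_add_of_nonneg hN h1 h2]

/-- `w N ^ (3/4) ≤ (w N) ^ (1 - 1/d)`. -/
theorem weight_mul_le {w N r : ℝ} (hw : 0 ≤ w) (hN : 0 ≤ N) (hr : 0 ≤ r) (h : w ≤ N ^ r) :
    w * N ^ (3 / 4 : ℝ) ≤ (w * N) ^ (1 - 1 / (4 * (1 + r))) := by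
  rcases hw.eq_or_lt with h0 | hw0
  · rw [← h0, zero_mul, zero_mul]
    exact Real.rpow_nonneg le_rfl _
  have hr1 : 0 < 1 + r := by linarith
  set t : ℝ := 1 / (4 * (1 + r)) with ht
  have ht0 : 0 ≤ t := by positivity
  rw [Real.mul_rpow hw hN]
  have e : 1 - t = 3 / 4 + r * t := by rw [ht]; field_simp; ring
  have h1 : w ^ t ≤ (N ^ r) ^ t := Real.rpow_le_rpow hw h ht0
  calc w * N ^ (3 / 4 : ℝ) = w ^ (1 - t) * w ^ t * N ^ (3 / 4 : ℝ) := by
        rw [← Real.rpow_add hw0, sub_add_cancel, Real.rpow_one]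
    _ ≤ w ^ (1 - t) * (N ^ r) ^ t * N ^ (3 / 4 : ℝ) := by gcongr
    _ = w ^ (1 - t) * N ^ (1 - t) := by
        rw [← Real.rpow_mul hN, mul_assoc, e, ← Real.rpow_add_of_nonneg hN (by positivity) (by norm_num),
          add_comm (r * t)]

theorem fderiv_log_apply {u : EuclideanSpace ℝ (Fin n) → ℝ} {x : EuclideanSpace ℝ (Fin n)}
    (hu : DifferentiableAt ℝ u x) (h0 : 0 < u x) (v : EuclideanSpace ℝ (Fin n)) :
    fderiv ℝ (fun y => Real.log (u y)) x v = fderiv ℝ u x v / u x := by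
  rw [(hu.hasFDerivAt.log h0.ne').fderiv]
  simp [div_eq_inv_mul]

theorem fderiv2_log_apply {Ω : Set (EuclideanSpace ℝ (Fin n))} (hΩ : IsOpen Ω)
    {u : EuclideanSpace ℝ (Fin n) → ℝ} (hu : ContDiffOn ℝ 2 u Ω) (h0 : ∀ x ∈ Ω, 0 < u x)
    {x : EuclideanSpace ℝ (Fin n)} (hx : x ∈ Ω) (v : EuclideanSpace ℝ (Fin n)) :
    fderiv ℝ (fderiv ℝ fun y => Real.log (u y)) x v v =
      fderiv ℝ (fderiv ℝ u) x v v / u x - (fderiv ℝ u x v / u x) ^ 2 := by
  have hL : ContDiffOn ℝ 2 (fun y => Real.log (u y)) Ω := hu.log fun y hy => (h0 y hy).ne'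
  rw [← hasD2 hΩ hL hx v v, ← hasD2 hΩ hu hx v v]
  have hd : DifferentiableAt ℝ u x :=
    (hu.contDiffAt (hΩ.mem_nhds hx)).differentiableAt two_ne_zero
  have hd2 : DifferentiableAt ℝ (fun y => fderiv ℝ u y v) x :=
    (((hu.fderiv_of_isOpen hΩ (by norm_num)).clm_apply contDiffOn_const).contDiffAt
      (hΩ.mem_nhds hx) : ContDiffAt ℝ 1 (fun y => fderiv ℝ u y v) x).differentiableAt one_ne_zero
  have he : (fun y => fderiv ℝ (fun z => Real.log (u z)) y v) =ᶠ[𝓝 x]
      fun y => fderiv ℝ u y v * (u y)⁻¹ := by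
    filter_upwards [hΩ.mem_nhds hx] with y hy
    rw [fderiv_log_apply ((hu.contDiffAt (hΩ.mem_nhds hy)).differentiableAt two_ne_zero) (h0 y hy) v,
      div_eq_mul_inv]
  rw [he.fderiv_eq]
  have := hd2.hasFDerivAt.fun_mul
    ((hasDerivAt_inv (h0 x hx).ne').comp_hasFDerivAt x hd.hasFDerivAt)
  simp only [Function.comp_apply] at this
  rw [this.fderiv]
  simp
  field_simp
  ring

variable {Ω : Set (EuclideanSpace ℝ (Fin n))} {φ U V W : EuclideanSpace ℝ (Fin n) → ℝ}

/-- The rows with a Hessian, before summation. -/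
theorem hess_row (hΩ : IsOpen Ω) (hφ : ContDiff ℝ 1 φ) (hφc : HasCompactSupport φ)
    (hsub : tsupport φ ⊆ Ω) (hU : ContDiffOn ℝ 2 U Ω) (hV : ContDiffOn ℝ 2 V Ω)
    {X : EuclideanSpace ℝ (Fin n) → ℝ} (hX : ContDiffOn ℝ 2 X Ω) (hW : ContDiffOn ℝ 1 W Ω)
    {p : ℝ}
    (heq : ∀ x ∈ Ω, ∑ i, fderiv ℝ (fderiv ℝ U) x (eStd i) (eStd i) =
      -((∑ i, fderiv ℝ U x (eStd i) * fderiv ℝ U x (eStd i)) + Real.exp (p * V x - U x))) :
    let a := fun x i => fderiv ℝ U x (eStd i)
    let b := fun x i => fderiv ℝ V x (eStd i)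
    let g := fun x i => fderiv ℝ X x (eStd i)
    let H := fun x i j => fderiv ℝ (fderiv ℝ U) x (eStd i) (eStd j)
    let K := fun x i j => fderiv ℝ (fderiv ℝ X) x (eStd i) (eStd j)
    ∫ x, φ x * (Real.exp (W x) * (dotv (gradLapU p (a x) (b x) (Real.exp (p * V x - U x)) (H x)) (g x)
        + frob (H x) (K x) + ∑ i, fderiv ℝ W x (eStd i) * mulv (H x) (g x) i)) =
      -∫ x, Real.exp (W x) * ∑ i, fderiv ℝ φ x (eStd i) * mulv (H x) (g x) i := by
  intro a b g H K
  set f : EuclideanSpace ℝ (Fin n) → ℝ := fun x =>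
    -((∑ i, fderiv ℝ U x (eStd i) * fderiv ℝ U x (eStd i)) + Real.exp (p * V x - U x)) with hfdef
  have hdU : ∀ i, ContDiffOn ℝ 1 (fun y => fderiv ℝ U y (eStd i)) Ω := fun i =>
    (hU.fderiv_of_isOpen hΩ (by norm_num)).clm_apply contDiffOn_const
  have hf : ContDiffOn ℝ 1 f Ω :=
    (((ContDiffOn.sum fun i _ => (hdU i).mul (hdU i))).add
      (((contDiffOn_const.mul (hV.of_le one_le_two)).sub (hU.of_le one_le_two)).exp)).neg
  have key := hess_field (μ := volume) hΩ eStd hφ hφc hsub hU hX hW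
    (fun x hx => (heq x hx).symm) hf
  refine Eq.trans ?_ (key.trans ?_)
  · refine integral_congr_ae (Eventually.of_forall fun x => ?_)
    by_cases hx : x ∈ Ω
    · have hn := hΩ.mem_nhds hx
      have d1 : ∀ i, HasFDerivAt (fun y => fderiv ℝ U y (eStd i))
          (fderiv ℝ (fun y => fderiv ℝ U y (eStd i)) x) x := fun i =>
        (((hdU i).contDiffAt hn).differentiableAt one_ne_zero).hasFDerivAt
      have d2 : HasFDerivAt U (fderiv ℝ U x) x :=
        ((hU.contDiffAt hn).differentiableAt two_ne_zero).hasFDerivAt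
      have d3 : HasFDerivAt V (fderiv ℝ V x) x :=
        ((hV.contDiffAt hn).differentiableAt two_ne_zero).hasFDerivAt
      have hsum := HasFDerivAt.fun_sum (u := (Finset.univ : Finset (Fin n)))
        fun i _ => (d1 i).fun_mul (d1 i)
      have hdf := (hsum.fun_add ((((d3.const_mul p).fun_sub d2)).exp)).fun_neg
      have hgl : ∀ j, fderiv ℝ f x (eStd j) =
          gradLapU p (a x) (b x) (Real.exp (p * V x - U x)) (H x) j := by
        intro j
        rw [hdf.fderiv]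
        simp [gradLapU, mulv, hasD2 hΩ hU hx, a, b, H, Finset.sum_add_distrib, mul_comm]
        ring
      simp only [hfdef] at hgl
      simp only [hgl, dotv, frob, g, H, K]
      congr 3
      refine Finset.sum_congr rfl fun i _ => ?_
      rw [mulv, Finset.mul_sum]
      exact Finset.sum_congr rfl fun j _ => by ring
    · simp [image_eq_zero_of_notMem_tsupport fun h => hx (hsub h)]
  · refine congrArg Neg.neg (integral_congr_ae (Eventually.of_forall fun x => ?_))
    simp only [g, H, mulv, Finset.mul_sum]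
    exact Finset.sum_congr rfl fun i _ => Finset.sum_congr rfl fun j _ => by ring

/-- The rows without a Hessian, before summation. -/
theorem grad_row (hΩ : IsOpen Ω) (hφ : ContDiff ℝ 1 φ) (hφc : HasCompactSupport φ)
    (hsub : tsupport φ ⊆ Ω) {g X : EuclideanSpace ℝ (Fin n) → ℝ} (hg : ContDiffOn ℝ 1 g Ω)
    (hX : ContDiffOn ℝ 2 X Ω) (hW : ContDiffOn ℝ 1 W Ω)
    {dg : EuclideanSpace ℝ (Fin n) → Fin n → ℝ} {T : EuclideanSpace ℝ (Fin n) → ℝ}
    (hdg : ∀ x ∈ Ω, ∀ i, fderiv ℝ g x (eStd i) = dg x i)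
    (hT : ∀ x ∈ Ω, ∑ i, fderiv ℝ (fderiv ℝ X) x (eStd i) (eStd i) = T x) :
    let a := fun x i => fderiv ℝ X x (eStd i)
    ∫ x, φ x * (Real.exp (W x) * (g x * T x + dotv (dg x) (a x)
        + ∑ i, fderiv ℝ W x (eStd i) * (g x * a x i))) =
      -∫ x, Real.exp (W x) * ∑ i, fderiv ℝ φ x (eStd i) * (g x * a x i) := by
  intro a
  have key := grad_field (μ := volume) hΩ eStd hφ hφc hsub hX hW hg
  refine Eq.trans ?_ (key.trans ?_)
  · refine integral_congr_ae (Eventually.of_forall fun x => ?_)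
    by_cases hx : x ∈ Ω
    · simp only [hdg x hx, hT x hx, dotv, a, Finset.mul_sum]
      congr 3
      exact Finset.sum_congr rfl fun i _ => by ring
    · simp [image_eq_zero_of_notMem_tsupport fun h => hx (hsub h)]
  · refine congrArg Neg.neg (integral_congr_ae (Eventually.of_forall fun x => ?_))
    simp only [a, Finset.mul_sum]
    exact Finset.sum_congr rfl fun i _ => by ring

/-- The data `(a, b, P, Q, H, K)` of a pair of logarithms. -/
noncomputable def logData (p q : ℝ) (U V : EuclideanSpace ℝ (Fin n) → ℝ)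
    (x : EuclideanSpace ℝ (Fin n)) :
    (Fin n → ℝ) × (Fin n → ℝ) × ℝ × ℝ × (Fin n → Fin n → ℝ) × (Fin n → Fin n → ℝ) :=
  (fun i => fderiv ℝ U x (eStd i), fun i => fderiv ℝ V x (eStd i), Real.exp (p * V x - U x),
    Real.exp (q * U x - V x), fun i j => fderiv ℝ (fderiv ℝ U) x (eStd i) (eStd j),
    fun i j => fderiv ℝ (fderiv ℝ V) x (eStd i) (eStd j))

/-- The fields of a pair of logarithms. -/
noncomputable def fldAt (p q : ℝ) (U V : EuclideanSpace ℝ (Fin n) → ℝ) (j : Fin 14)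
    (x : EuclideanSpace ℝ (Fin n)) (i : Fin n) : ℝ :=
  let D := logData p q U V x
  fld D.1 D.2.1 D.2.2.1 D.2.2.2.1 D.2.2.2.2.1 D.2.2.2.2.2 j i

/-- The rows of a pair of logarithms, without the weight part. -/
noncomputable def divAt (p q : ℝ) (U V : EuclideanSpace ℝ (Fin n) → ℝ) (j : Fin 14)
    (x : EuclideanSpace ℝ (Fin n)) : ℝ :=
  let D := logData p q U V x
  divT p q D.1 D.2.1 D.2.2.1 D.2.2.2.1 D.2.2.2.2.1 D.2.2.2.2.2 j

theorem fderiv_sum_mul (hΩ : IsOpen Ω) {w z : EuclideanSpace ℝ (Fin n) → ℝ}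
    (hw : ContDiffOn ℝ 2 w Ω) (hz : ContDiffOn ℝ 2 z Ω) {x : EuclideanSpace ℝ (Fin n)}
    (hx : x ∈ Ω) (l : Fin n) :
    fderiv ℝ (fun y => ∑ i, fderiv ℝ w y (eStd i) * fderiv ℝ z y (eStd i)) x (eStd l) =
      mulv (fun i j => fderiv ℝ (fderiv ℝ w) x (eStd i) (eStd j))
          (fun i => fderiv ℝ z x (eStd i)) l +
        mulv (fun i j => fderiv ℝ (fderiv ℝ z) x (eStd i) (eStd j))
          (fun i => fderiv ℝ w x (eStd i)) l := by
  have d1 : ∀ {w : EuclideanSpace ℝ (Fin n) → ℝ}, ContDiffOn ℝ 2 w Ω → ∀ i,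
      HasFDerivAt (fun y => fderiv ℝ w y (eStd i))
        (fderiv ℝ (fun y => fderiv ℝ w y (eStd i)) x) x := fun hw i =>
    ((((hw.fderiv_of_isOpen hΩ (by norm_num)).clm_apply contDiffOn_const).contDiffAt
      (hΩ.mem_nhds hx) : ContDiffAt ℝ 1 _ x).differentiableAt one_ne_zero).hasFDerivAt
  have h := HasFDerivAt.fun_sum (u := (Finset.univ : Finset (Fin n)))
    fun i _ => (d1 hw i).fun_mul (d1 hz i)
  rw [h.fderiv]
  simp [mulv, hasD2 hΩ hw hx, hasD2 hΩ hz hx, Finset.sum_add_distrib, mul_comm]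
  ring

theorem fderiv_exp_sub (hΩ : IsOpen Ω) {w z : EuclideanSpace ℝ (Fin n) → ℝ} (s : ℝ)
    (hw : ContDiffOn ℝ 2 w Ω) (hz : ContDiffOn ℝ 2 z Ω) {x : EuclideanSpace ℝ (Fin n)}
    (hx : x ∈ Ω) (l : Fin n) :
    fderiv ℝ (fun y => Real.exp (s * z y - w y)) x (eStd l) =
      Real.exp (s * z x - w x) * (s * fderiv ℝ z x (eStd l) - fderiv ℝ w x (eStd l)) := by
  have hn := hΩ.mem_nhds hx
  rw [((((hz.contDiffAt hn).differentiableAt two_ne_zero).hasFDerivAt.const_mul s).fun_sub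
    ((hw.contDiffAt hn).differentiableAt two_ne_zero).hasFDerivAt).exp.fderiv]
  simp

theorem dotv_const_mul (s : ℝ) (G g : Fin n → ℝ) :
    dotv (fun i => s * G i) g = s * dotv G g := by
  simp only [dotv, Finset.mul_sum, mul_assoc]

theorem dotv_add (G G' g : Fin n → ℝ) :
    dotv (fun i => G i + G' i) g = dotv G g + dotv G' g := by
  simp only [dotv, add_mul, Finset.sum_add_distrib]

theorem dotv_const_mul_sub (s t : ℝ) (G G' g : Fin n → ℝ) :
    dotv (fun i => s * (t * G i - G' i)) g = s * (t * dotv G g - dotv G' g) := by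
  simp only [dotv, Finset.mul_sum, ← Finset.sum_sub_distrib]
  exact Finset.sum_congr rfl fun i _ => by ring

theorem continuousOn_mulv {X : EuclideanSpace ℝ (Fin n) → Fin n → Fin n → ℝ}
    {y : EuclideanSpace ℝ (Fin n) → Fin n → ℝ} (hX : ∀ i j, ContinuousOn (fun x => X x i j) Ω)
    (hy : ∀ i, ContinuousOn (fun x => y x i) Ω) (i : Fin n) :
    ContinuousOn (fun x => mulv (X x) (y x) i) Ω :=
  continuousOn_finsetSum _ fun j _ => (hX i j).mul (hy j)

theorem continuousOn_dotv {y z : EuclideanSpace ℝ (Fin n) → Fin n → ℝ}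
    (hy : ∀ i, ContinuousOn (fun x => y x i) Ω) (hz : ∀ i, ContinuousOn (fun x => z x i) Ω) :
    ContinuousOn (fun x => dotv (y x) (z x)) Ω :=
  continuousOn_finsetSum _ fun j _ => (hy j).mul (hz j)

theorem continuousOn_frob {X Y : EuclideanSpace ℝ (Fin n) → Fin n → Fin n → ℝ}
    (hX : ∀ i j, ContinuousOn (fun x => X x i j) Ω) (hY : ∀ i j, ContinuousOn (fun x => Y x i j) Ω) :
    ContinuousOn (fun x => frob (X x) (Y x)) Ω :=
  continuousOn_finsetSum _ fun i _ => continuousOn_finsetSum _ fun j _ => (hX i j).mul (hY i j)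

theorem continuousOn_rows (hΩ : IsOpen Ω) (p q : ℝ) (hU : ContDiffOn ℝ 2 U Ω)
    (hV : ContDiffOn ℝ 2 V Ω) (j : Fin 14) :
    (∀ i, ContinuousOn (fun x => fldAt p q U V j x i) Ω) ∧ ContinuousOn (divAt p q U V j) Ω := by
  have h1 : ∀ {w : EuclideanSpace ℝ (Fin n) → ℝ}, ContDiffOn ℝ 2 w Ω → ∀ i,
      ContinuousOn (fun x => fderiv ℝ w x (eStd i)) Ω := fun hw i =>
    (hw.continuousOn_fderiv_of_isOpen hΩ (by norm_num)).clm_apply continuousOn_const
  have h2 : ∀ {w : EuclideanSpace ℝ (Fin n) → ℝ}, ContDiffOn ℝ 2 w Ω → ∀ i j,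
      ContinuousOn (fun x => fderiv ℝ (fderiv ℝ w) x (eStd i) (eStd j)) Ω := fun hw i j =>
    (((hw.fderiv_of_isOpen hΩ (m := 1) (by norm_num)).continuousOn_fderiv_of_isOpen hΩ
      le_rfl).clm_apply continuousOn_const).clm_apply continuousOn_const
  have ca := h1 hU
  have cb := h1 hV
  have cH := h2 hU
  have cK := h2 hV
  have cP : ContinuousOn (fun x => Real.exp (p * V x - U x)) Ω :=
    ((hV.continuousOn.const_mul p).sub hU.continuousOn).rexp
  have cQ : ContinuousOn (fun x => Real.exp (q * U x - V x)) Ω :=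
    ((hU.continuousOn.const_mul q).sub hV.continuousOn).rexp
  have A := continuousOn_dotv ca ca
  have B := continuousOn_dotv cb cb
  have C := continuousOn_dotv ca cb
  have C' := continuousOn_dotv cb ca
  have Ha := continuousOn_mulv cH ca
  have Hb := continuousOn_mulv cH cb
  have Ka := continuousOn_mulv cK ca
  have Kb := continuousOn_mulv cK cb
  have gU : ∀ i, ContinuousOn (fun x => gradLapU p (fun i => fderiv ℝ U x (eStd i))
      (fun i => fderiv ℝ V x (eStd i)) (Real.exp (p * V x - U x))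
      (fun i j => fderiv ℝ (fderiv ℝ U) x (eStd i) (eStd j)) i) Ω := fun i =>
    ((Ha i).const_mul 2).neg.sub (cP.mul (((cb i).const_mul p).sub (ca i)))
  have gV : ∀ i, ContinuousOn (fun x => gradLapV q (fun i => fderiv ℝ U x (eStd i))
      (fun i => fderiv ℝ V x (eStd i)) (Real.exp (q * U x - V x))
      (fun i j => fderiv ℝ (fderiv ℝ V) x (eStd i) (eStd j)) i) Ω := fun i =>
    ((Kb i).const_mul 2).neg.sub (cQ.mul (((ca i).const_mul q).sub (cb i)))
  constructor
  · intro i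
    fin_cases j
    · exact Ha i
    · exact Hb i
    · exact Ka i
    · exact Kb i
    · exact A.mul (ca i)
    · exact A.mul (cb i)
    · exact C.mul (ca i)
    · exact C.mul (cb i)
    · exact B.mul (ca i)
    · exact B.mul (cb i)
    · exact cP.mul (ca i)
    · exact cP.mul (cb i)
    · exact cQ.mul (ca i)
    · exact cQ.mul (cb i)
  · fin_cases j
    · exact (continuousOn_dotv gU ca).add (continuousOn_frob cH cH)
    · exact (continuousOn_dotv gU cb).add (continuousOn_frob cH cK)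
    · exact (continuousOn_dotv gV ca).add (continuousOn_frob cK cH)
    · exact (continuousOn_dotv gV cb).add (continuousOn_frob cK cK)
    · exact (A.mul (A.add cP).neg).add ((continuousOn_dotv Ha ca).const_mul 2)
    · exact (A.mul (B.add cQ).neg).add ((continuousOn_dotv Ha cb).const_mul 2)
    · exact (C.mul (A.add cP).neg).add ((continuousOn_dotv Hb ca).add (continuousOn_dotv Ka ca))
    · exact (C.mul (B.add cQ).neg).add ((continuousOn_dotv Hb cb).add (continuousOn_dotv Ka cb))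
    · exact (B.mul (A.add cP).neg).add ((continuousOn_dotv Kb ca).const_mul 2)
    · exact (B.mul (B.add cQ).neg).add ((continuousOn_dotv Kb cb).const_mul 2)
    · exact (cP.mul (A.add cP).neg).add (cP.mul ((C'.const_mul p).sub A))
    · exact (cP.mul (B.add cQ).neg).add (cP.mul ((B.const_mul p).sub C))
    · exact (cQ.mul (A.add cP).neg).add (cQ.mul ((A.const_mul q).sub C'))
    · exact (cQ.mul (B.add cQ).neg).add (cQ.mul ((C.const_mul q).sub B))

/-- The integral identity, row by row. -/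
theorem row_each {p q lam mu : ℝ} (hΩ : IsOpen Ω) (hφ : ContDiff ℝ 1 φ)
    (hφc : HasCompactSupport φ) (hsub : tsupport φ ⊆ Ω) (hU : ContDiffOn ℝ 2 U Ω)
    (hV : ContDiffOn ℝ 2 V Ω)
    (heqU : ∀ x ∈ Ω, ∑ i, fderiv ℝ (fderiv ℝ U) x (eStd i) (eStd i) =
      -((∑ i, fderiv ℝ U x (eStd i) * fderiv ℝ U x (eStd i)) + Real.exp (p * V x - U x)))
    (heqV : ∀ x ∈ Ω, ∑ i, fderiv ℝ (fderiv ℝ V) x (eStd i) (eStd i) =
      -((∑ i, fderiv ℝ V x (eStd i) * fderiv ℝ V x (eStd i)) + Real.exp (q * U x - V x)))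
    (j : Fin 14) :
    ∫ x, φ x * (Real.exp (lam * U x + mu * V x) * (divAt p q U V j x +
        ∑ i, (lam * fderiv ℝ U x (eStd i) + mu * fderiv ℝ V x (eStd i)) * fldAt p q U V j x i)) =
      -∫ x, Real.exp (lam * U x + mu * V x) * ∑ i, fderiv ℝ φ x (eStd i) * fldAt p q U V j x i := by
  have hU1 := hU.of_le (show (1 : WithTop ℕ∞) ≤ 2 from one_le_two)
  have hV1 := hV.of_le (show (1 : WithTop ℕ∞) ≤ 2 from one_le_two)
  have hW : ContDiffOn ℝ 1 (fun y => lam * U y + mu * V y) Ω :=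
    (contDiffOn_const.mul hU1).add (contDiffOn_const.mul hV1)
  have hWd : ∀ x ∈ Ω, ∀ (G : Fin n → ℝ),
      ∑ i, fderiv ℝ (fun y => lam * U y + mu * V y) x (eStd i) * G i =
        ∑ i, (lam * fderiv ℝ U x (eStd i) + mu * fderiv ℝ V x (eStd i)) * G i := by
    intro x hx G
    refine Finset.sum_congr rfl fun i _ => ?_
    have hn := hΩ.mem_nhds hx
    rw [((((hU1.contDiffAt hn).differentiableAt one_ne_zero).hasFDerivAt.const_mul lam).fun_add
      (((hV1.contDiffAt hn).differentiableAt one_ne_zero).hasFDerivAt.const_mul mu)).fderiv]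
    simp
  have conv : ∀ (T' : EuclideanSpace ℝ (Fin n) → ℝ)
      (F' : EuclideanSpace ℝ (Fin n) → Fin n → ℝ),
      (∀ x i, F' x i = fldAt p q U V j x i) → (∀ x, T' x = divAt p q U V j x) →
      ∫ x, φ x * (Real.exp (lam * U x + mu * V x) * (T' x +
          ∑ i, fderiv ℝ (fun y => lam * U y + mu * V y) x (eStd i) * F' x i)) =
        -∫ x, Real.exp (lam * U x + mu * V x) * ∑ i, fderiv ℝ φ x (eStd i) * F' x i →
      ∫ x, φ x * (Real.exp (lam * U x + mu * V x) * (divAt p q U V j x +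
          ∑ i, (lam * fderiv ℝ U x (eStd i) + mu * fderiv ℝ V x (eStd i)) * fldAt p q U V j x i)) =
        -∫ x, Real.exp (lam * U x + mu * V x) * ∑ i, fderiv ℝ φ x (eStd i) * fldAt p q U V j x i := by
    intro T' F' hF' hT' h
    simp only [hF', hT'] at h
    rw [← h]
    refine integral_congr_ae (Eventually.of_forall fun x => ?_)
    by_cases hx : x ∈ Ω
    · simp only [hWd x hx]
    · simp [image_eq_zero_of_notMem_tsupport fun h => hx (hsub h)]
  have hdU : ∀ i, ContDiffOn ℝ 1 (fun y => fderiv ℝ U y (eStd i)) Ω := fun i =>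
    (hU.fderiv_of_isOpen hΩ (by norm_num)).clm_apply contDiffOn_const
  have hdV : ∀ i, ContDiffOn ℝ 1 (fun y => fderiv ℝ V y (eStd i)) Ω := fun i =>
    (hV.fderiv_of_isOpen hΩ (by norm_num)).clm_apply contDiffOn_const
  have rU := fun (X : EuclideanSpace ℝ (Fin n) → ℝ) (hX : ContDiffOn ℝ 2 X Ω) =>
    hess_row hΩ hφ hφc hsub hU hV hX hW heqU
  have rV := fun (X : EuclideanSpace ℝ (Fin n) → ℝ) (hX : ContDiffOn ℝ 2 X Ω) =>
    hess_row hΩ hφ hφc hsub hV hU hX hW heqV
  have gr := fun (g : EuclideanSpace ℝ (Fin n) → ℝ) (hg : ContDiffOn ℝ 1 g Ω)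
    (dg : EuclideanSpace ℝ (Fin n) → Fin n → ℝ)
    (hdg : ∀ x ∈ Ω, ∀ i, fderiv ℝ g x (eStd i) = dg x i) =>
    And.intro (grad_row hΩ hφ hφc hsub hg hU hW hdg heqU)
      (grad_row hΩ hφ hφc hsub hg hV hW hdg heqV)
  have cA : ContDiffOn ℝ 1 (fun y => ∑ i, fderiv ℝ U y (eStd i) * fderiv ℝ U y (eStd i)) Ω :=
    ContDiffOn.sum fun i _ => (hdU i).mul (hdU i)
  have cC : ContDiffOn ℝ 1 (fun y => ∑ i, fderiv ℝ U y (eStd i) * fderiv ℝ V y (eStd i)) Ω :=
    ContDiffOn.sum fun i _ => (hdU i).mul (hdV i)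
  have cB : ContDiffOn ℝ 1 (fun y => ∑ i, fderiv ℝ V y (eStd i) * fderiv ℝ V y (eStd i)) Ω :=
    ContDiffOn.sum fun i _ => (hdV i).mul (hdV i)
  have cP : ContDiffOn ℝ 1 (fun y => Real.exp (p * V y - U y)) Ω :=
    ((contDiffOn_const.mul hV1).sub hU1).exp
  have cQ : ContDiffOn ℝ 1 (fun y => Real.exp (q * U y - V y)) Ω :=
    ((contDiffOn_const.mul hU1).sub hV1).exp
  have gA := fun x hx i => (fderiv_sum_mul hΩ hU hU (x := x) hx i).trans (two_mul _).symm
  have gB := fun x hx i => (fderiv_sum_mul hΩ hV hV (x := x) hx i).trans (two_mul _).symm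
  have gC := fun x hx i => fderiv_sum_mul hΩ hU hV (x := x) hx i
  have gP := fun x hx i => fderiv_exp_sub hΩ p hU hV (x := x) hx i
  have gQ := fun x hx i => fderiv_exp_sub hΩ q hV hU (x := x) hx i
  fin_cases j
  · exact conv _ _ (fun _ _ => rfl) (fun _ => rfl) (rU U hU)
  · exact conv _ _ (fun _ _ => rfl) (fun _ => rfl) (rU V hV)
  · exact conv _ _ (fun _ _ => rfl) (fun _ => rfl) (rV U hU)
  · exact conv _ _ (fun _ _ => rfl) (fun _ => rfl) (rV V hV)
  · exact conv _ _ (fun _ _ => rfl) (fun _ => congrArg (_ + ·) (dotv_const_mul _ _ _))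
      (gr _ cA _ gA).1
  · exact conv _ _ (fun _ _ => rfl) (fun _ => congrArg (_ + ·) (dotv_const_mul _ _ _))
      (gr _ cA _ gA).2
  · exact conv _ _ (fun _ _ => rfl) (fun _ => congrArg (_ + ·) (dotv_add _ _ _)) (gr _ cC _ gC).1
  · exact conv _ _ (fun _ _ => rfl) (fun _ => congrArg (_ + ·) (dotv_add _ _ _)) (gr _ cC _ gC).2
  · exact conv _ _ (fun _ _ => rfl) (fun _ => congrArg (_ + ·) (dotv_const_mul _ _ _))
      (gr _ cB _ gB).1
  · exact conv _ _ (fun _ _ => rfl) (fun _ => congrArg (_ + ·) (dotv_const_mul _ _ _))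
      (gr _ cB _ gB).2
  · exact conv _ _ (fun _ _ => rfl) (fun _ => congrArg (_ + ·) (dotv_const_mul_sub _ _ _ _ _))
      (gr _ cP _ gP).1
  · exact conv _ _ (fun _ _ => rfl) (fun _ => congrArg (_ + ·) (dotv_const_mul_sub _ _ _ _ _))
      (gr _ cP _ gP).2
  · exact conv _ _ (fun _ _ => rfl) (fun _ => congrArg (_ + ·) (dotv_const_mul_sub _ _ _ _ _))
      (gr _ cQ _ gQ).1
  · exact conv _ _ (fun _ _ => rfl) (fun _ => congrArg (_ + ·) (dotv_const_mul_sub _ _ _ _ _))
      (gr _ cQ _ gQ).2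

/-- Traces of the logarithmic Hessian. -/
theorem sum_log_second (hΩ : IsOpen Ω) {w : EuclideanSpace ℝ (Fin n) → ℝ}
    (hw : ContDiffOn ℝ 2 w Ω) (hw0 : ∀ y ∈ Ω, 0 < w y) {x : EuclideanSpace ℝ (Fin n)} (hx : x ∈ Ω) :
    ∑ i, fderiv ℝ (fderiv ℝ fun y => Real.log (w y)) x (eStd i) (eStd i) =
      Δ w x / w x - ∑ i, logGrad w x i * logGrad w x i := by
  rw [InnerProductSpace.laplacian_eq_iteratedFDeriv_orthonormalBasis w
    (EuclideanSpace.basisFun (Fin n) ℝ), Finset.sum_div, ← Finset.sum_sub_distrib]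
  refine Finset.sum_congr rfl fun i _ => ?_
  rw [fderiv2_log_apply hΩ hw hw0 hx, iteratedFDeriv_two_apply, logGrad,
    fderiv_log_apply ((hw.contDiffAt (hΩ.mem_nhds hx)).differentiableAt two_ne_zero) (hw0 x hx)]
  simp [eStd, sq]

theorem fderiv_coeff (hΩ : IsOpen Ω) {p q : ℝ} {c : ℝ → ℝ} (hc : ContDiff ℝ 1 c)
    (hU : ContDiffOn ℝ 2 U Ω) (hV : ContDiffOn ℝ 2 V Ω) {x : EuclideanSpace ℝ (Fin n)} (hx : x ∈ Ω)
    (i : Fin n) :
    fderiv ℝ (fun y => c (Real.exp ((p + 1) * V y - (q + 1) * U y))) x (eStd i) =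
      deriv c (Real.exp ((p + 1) * V x - (q + 1) * U x)) *
        Real.exp ((p + 1) * V x - (q + 1) * U x) *
        ((p + 1) * fderiv ℝ V x (eStd i) - (q + 1) * fderiv ℝ U x (eStd i)) := by
  have hn := hΩ.mem_nhds hx
  have hin := ((((hV.contDiffAt hn).differentiableAt two_ne_zero).hasFDerivAt.const_mul (p + 1)).fun_sub
    (((hU.contDiffAt hn).differentiableAt two_ne_zero).hasFDerivAt.const_mul (q + 1))).exp
  have h := ((hc.differentiable one_ne_zero) _).hasDerivAt.comp_hasFDerivAt x hin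
  rw [show (fun y => c (Real.exp ((p + 1) * V y - (q + 1) * U y))) =
    c ∘ fun y => Real.exp ((p + 1) * V y - (q + 1) * U y) from rfl, h.fderiv]
  simp
  ring

/-- The integral identity for all rows at once. -/
theorem row_identity {p q lam mu : ℝ} {c : Fin 14 → ℝ → ℝ} (hc : ∀ j, ContDiff ℝ 1 (c j))
    (hΩ : IsOpen Ω) (hφ : ContDiff ℝ 1 φ)
    (hφc : HasCompactSupport φ) (hsub : tsupport φ ⊆ Ω) {u v : EuclideanSpace ℝ (Fin n) → ℝ}
    (hu : ContDiffOn ℝ 2 u Ω) (hv : ContDiffOn ℝ 2 v Ω) (hu0 : ∀ x ∈ Ω, 0 < u x)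
    (hv0 : ∀ x ∈ Ω, 0 < v x) (equ : ∀ x ∈ Ω, Δ u x = -(v x) ^ p)
    (eqv : ∀ x ∈ Ω, Δ v x = -(u x) ^ q) :
    Integrable (fun x => φ x * (u x ^ lam * v x ^ mu * rowZ p q lam mu c (logGrad u x) (logGrad v x)
        (v x ^ p / u x) (u x ^ q / v x) (logHess u x) (logHess v x))) ∧
    ∫ x, φ x * (u x ^ lam * v x ^ mu * rowZ p q lam mu c (logGrad u x) (logGrad v x)
        (v x ^ p / u x) (u x ^ q / v x) (logHess u x) (logHess v x)) =
      -∫ x, u x ^ lam * v x ^ mu * ∑ i, fderiv ℝ φ x (eStd i) *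
        ∑ j, c j ((v x ^ p / u x) / (u x ^ q / v x)) *
          fld (logGrad u x) (logGrad v x) (v x ^ p / u x) (u x ^ q / v x) (logHess u x)
            (logHess v x) j i := by
  set U := fun y => Real.log (u y) with hUdef
  set V := fun y => Real.log (v y) with hVdef
  have hU : ContDiffOn ℝ 2 U Ω := hu.log fun y hy => (hu0 y hy).ne'
  have hV : ContDiffOn ℝ 2 V Ω := hv.log fun y hy => (hv0 y hy).ne'
  have ew : ∀ x ∈ Ω, Real.exp (lam * U x + mu * V x) = u x ^ lam * v x ^ mu := fun x hx => by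
    rw [Real.rpow_def_of_pos (hu0 x hx), Real.rpow_def_of_pos (hv0 x hx), ← Real.exp_add]
    simp only [U, V]; ring_nf
  have eP : ∀ x ∈ Ω, Real.exp (p * V x - U x) = v x ^ p / u x := fun x hx => by
    rw [Real.exp_sub, Real.exp_log (hu0 x hx), Real.rpow_def_of_pos (hv0 x hx), mul_comm p]
  have eQ : ∀ x ∈ Ω, Real.exp (q * U x - V x) = u x ^ q / v x := fun x hx => by
    rw [Real.exp_sub, Real.exp_log (hv0 x hx), Real.rpow_def_of_pos (hu0 x hx), mul_comm q]
  set Z := fun x => Real.exp ((p + 1) * V x - (q + 1) * U x) with hZ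
  have eZ : ∀ x, Z x = Real.exp (p * V x - U x) / Real.exp (q * U x - V x) := fun x => by
    rw [← Real.exp_sub]; simp only [Z]; ring_nf
  have heqU : ∀ x ∈ Ω, ∑ i, fderiv ℝ (fderiv ℝ U) x (eStd i) (eStd i) =
      -((∑ i, fderiv ℝ U x (eStd i) * fderiv ℝ U x (eStd i)) + Real.exp (p * V x - U x)) := by
    intro x hx
    rw [eP x hx, sum_log_second hΩ hu hu0 hx, equ x hx]
    simp only [logGrad, U]; ring
  have heqV : ∀ x ∈ Ω, ∑ i, fderiv ℝ (fderiv ℝ V) x (eStd i) (eStd i) =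
      -((∑ i, fderiv ℝ V x (eStd i) * fderiv ℝ V x (eStd i)) + Real.exp (q * U x - V x)) := by
    intro x hx
    rw [eQ x hx, sum_log_second hΩ hv hv0 hx, eqv x hx]
    simp only [logGrad, V]; ring
  set T : Fin 14 → EuclideanSpace ℝ (Fin n) → ℝ := fun j x => divAt p q U V j x +
    ∑ i, (lam * fderiv ℝ U x (eStd i) + mu * fderiv ℝ V x (eStd i)) * fldAt p q U V j x i with hT
  set F := fldAt p q U V with hF
  set W := fun x => Real.exp (lam * U x + mu * V x) with hWdef
  set C := fun (j : Fin 14) x => c j (Z x) with hC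
  set D := fun (j : Fin 14) x => deriv (c j) (Z x) * Z x *
    ∑ i, ((p + 1) * fderiv ℝ V x (eStd i) - (q + 1) * fderiv ℝ U x (eStd i)) * F j x i with hD
  have hZ1 : ContDiffOn ℝ 1 Z Ω := (((contDiffOn_const.mul (hV.of_le one_le_two)).sub
    (contDiffOn_const.mul (hU.of_le one_le_two))).exp)
  have hC1 : ∀ j, ContDiffOn ℝ 1 (C j) Ω := fun j => (hc j).comp_contDiffOn hZ1
  have cdU : ∀ i, ContinuousOn (fun x => fderiv ℝ U x (eStd i)) Ω := fun i =>
    (hU.continuousOn_fderiv_of_isOpen hΩ (by norm_num)).clm_apply continuousOn_const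
  have cdV : ∀ i, ContinuousOn (fun x => fderiv ℝ V x (eStd i)) Ω := fun i =>
    (hV.continuousOn_fderiv_of_isOpen hΩ (by norm_num)).clm_apply continuousOn_const
  have cW : ContinuousOn W Ω :=
    ((hU.continuousOn.const_mul lam).add (hV.continuousOn.const_mul mu)).rexp
  have cF : ∀ j i, ContinuousOn (fun x => F j x i) Ω := fun j =>
    (continuousOn_rows hΩ p q hU hV j).1
  have cT : ∀ j, ContinuousOn (T j) Ω := fun j =>
    (continuousOn_rows hΩ p q hU hV j).2.add (continuousOn_finsetSum _ fun i _ =>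
      (((cdU i).const_mul lam).add ((cdV i).const_mul mu)).mul (cF j i))
  have cD : ∀ j, ContinuousOn (D j) Ω := fun j =>
    ((((hc j).continuous_deriv le_rfl).comp_continuousOn hZ1.continuousOn).mul
      hZ1.continuousOn).mul (continuousOn_finsetSum _ fun i _ =>
        (((cdV i).const_mul (p + 1)).sub ((cdU i).const_mul (q + 1))).mul (cF j i))
  have intT : ∀ j, Integrable (fun x => φ x * (W x * (C j x * T j x))) := fun j =>
    integrable_test_mul hΩ hφ.continuous hφc hsub (cW.mul ((hC1 j).continuousOn.mul (cT j)))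
  have intD : ∀ j, Integrable (fun x => φ x * (W x * D j x)) := fun j =>
    integrable_test_mul hΩ hφ.continuous hφc hsub (cW.mul (cD j))
  have intF : ∀ j, Integrable (fun x => W x * ∑ i, fderiv ℝ φ x (eStd i) * (C j x * F j x i)) := by
    intro j
    have := integrable_finsetSum (μ := volume) Finset.univ fun i _ =>
      integrable_deriv_mul (μ := volume) hΩ hφ hφc hsub
        (cW.mul ((hC1 j).continuousOn.mul (cF j i))) (eStd i)
    refine this.congr (Eventually.of_forall fun x => ?_)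
    simp only [Finset.mul_sum, Pi.mul_apply]
    exact Finset.sum_congr rfl fun i _ => by ring
  have each : ∀ j, ∫ x, (φ x * (W x * (C j x * T j x)) + φ x * (W x * D j x)) =
      -∫ x, W x * ∑ i, fderiv ℝ φ x (eStd i) * (C j x * F j x i) := by
    intro j
    have h := row_each (lam := lam) (mu := mu) hΩ (contDiff_test_mul hΩ hφ hsub (hC1 j))
      hφc.mul_right ((tsupport_mul_subset_left).trans hsub) hU hV heqU heqV j
    have h' : ∫ x, φ x * (W x * (C j x * T j x)) =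
        -∫ x, (W x * ∑ i, fderiv ℝ φ x (eStd i) * (C j x * F j x i) + φ x * (W x * D j x)) := by
      refine Eq.trans ?_ (h.trans ?_)
      · refine integral_congr_ae (Eventually.of_forall fun x => ?_)
        simp only [T, W, F]; ring
      · refine congrArg Neg.neg (integral_congr_ae (Eventually.of_forall fun x => ?_))
        by_cases hx : x ∈ Ω
        · simp only [fderiv_test_mul hΩ hφ hsub (hC1 j)]
          simp only [C, D, Z, W, F, fderiv_coeff hΩ (hc j) hU hV hx, Finset.mul_sum,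
            ← Finset.sum_add_distrib]
          exact Finset.sum_congr rfl fun i _ => by ring
        · have h0 := image_eq_zero_of_notMem_tsupport fun h => hx (hsub h)
          have h1 : fderiv ℝ φ x = 0 := by
            rw [(notMem_tsupport_iff_eventuallyEq.1 fun h => hx (hsub h)).fderiv_eq]; simp
          simp [h0, h1, fderiv_test_mul hΩ hφ hsub (hC1 j)]
    rw [integral_add (intT j) (intD j), h', integral_add (intF j) (intD j)]
    ring
  have eL : ∀ x, φ x * (u x ^ lam * v x ^ mu * rowZ p q lam mu c (logGrad u x) (logGrad v x)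
      (v x ^ p / u x) (u x ^ q / v x) (logHess u x) (logHess v x)) =
      ∑ j, (φ x * (W x * (C j x * T j x)) + φ x * (W x * D j x)) := by
    intro x
    by_cases hx : x ∈ Ω
    · rw [← ew x hx, ← eP x hx, ← eQ x hx]
      simp only [rowZ, ← eZ x, Finset.mul_sum]
      refine Finset.sum_congr rfl fun j _ => ?_
      simp only [C, D, W, T, F, divAt, fldAt, logData, logGrad, U, V, Finset.mul_sum, mul_add]
      refine congrArg₂ (· + ·) rfl ?_
      exact Finset.sum_congr rfl fun i _ => rfl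
    · simp [image_eq_zero_of_notMem_tsupport fun h => hx (hsub h)]
  have eR : ∀ x, u x ^ lam * v x ^ mu * ∑ i, fderiv ℝ φ x (eStd i) *
      ∑ j, c j ((v x ^ p / u x) / (u x ^ q / v x)) *
        fld (logGrad u x) (logGrad v x) (v x ^ p / u x) (u x ^ q / v x) (logHess u x)
          (logHess v x) j i =
      ∑ j, W x * ∑ i, fderiv ℝ φ x (eStd i) * (C j x * F j x i) := by
    intro x
    by_cases hx : x ∈ Ω
    · rw [← ew x hx, ← eP x hx, ← eQ x hx]
      simp only [← eZ x, Finset.mul_sum]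
      rw [Finset.sum_comm]
      exact Finset.sum_congr rfl fun j _ => Finset.sum_congr rfl fun i _ => rfl
    · have : fderiv ℝ φ x = 0 := by
        rw [(notMem_tsupport_iff_eventuallyEq.1 fun h => hx (hsub h)).fderiv_eq]; simp
      simp [this]
  simp only [eL, eR]
  have intTD : ∀ j, Integrable (fun x => φ x * (W x * (C j x * T j x)) + φ x * (W x * D j x)) :=
    fun j => (intT j).add (intD j)
  refine ⟨integrable_finsetSum _ fun j _ => intTD j, ?_⟩
  rw [integral_finsetSum _ fun j _ => intTD j,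
    integral_finsetSum _ fun j _ => intF j, ← Finset.sum_neg_distrib]
  exact Finset.sum_congr rfl fun j _ => each j

/-- `w M` is continuous where the solution is smooth and positive. -/
theorem continuousOn_weight_quant (hΩ : IsOpen Ω) {p q r₁ r₂ : ℝ} {M : Data n → ℝ}
    (hM : Continuous M)
    {u v : EuclideanSpace ℝ (Fin n) → ℝ} (hu : ContDiffOn ℝ 2 u Ω) (hv : ContDiffOn ℝ 2 v Ω)
    (hu0 : ∀ x ∈ Ω, 0 < u x) (hv0 : ∀ x ∈ Ω, 0 < v x) :
    ContinuousOn (fun x => solWeight p q r₁ r₂ u v x * M (solData p q u v x)) Ω := by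
  have hL : ∀ {w : EuclideanSpace ℝ (Fin n) → ℝ}, ContDiffOn ℝ 2 w Ω → (∀ y ∈ Ω, 0 < w y) →
      ContinuousOn (logGrad w) Ω ∧ ContinuousOn (logHess w) Ω := by
    intro w hw hw0
    have h2 : ContDiffOn ℝ 2 (fun y => Real.log (w y)) Ω := hw.log fun y hy => (hw0 y hy).ne'
    have h1 := h2.fderiv_of_isOpen hΩ (m := 1) (by norm_num)
    exact ⟨continuousOn_pi.2 fun i => (h1.continuousOn.clm_apply continuousOn_const),
      continuousOn_pi.2 fun i => continuousOn_pi.2 fun j =>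
        ((h1.continuousOn_fderiv_of_isOpen hΩ le_rfl).clm_apply
          continuousOn_const).clm_apply continuousOn_const⟩
  obtain ⟨au, hu2⟩ := hL hu hu0
  obtain ⟨av, hv2⟩ := hL hv hv0
  have cu := hu.continuousOn
  have cv := hv.continuousOn
  have p1 : ∀ s : ℝ, ContinuousOn (fun x => u x ^ s) Ω := fun s =>
    cu.rpow_const fun x hx => Or.inl (hu0 x hx).ne'
  have p2 : ∀ s : ℝ, ContinuousOn (fun x => v x ^ s) Ω := fun s =>
    cv.rpow_const fun x hx => Or.inl (hv0 x hx).ne'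
  have cP : ContinuousOn (fun x => v x ^ p / u x) Ω := (p2 p).div cu fun x hx => (hu0 x hx).ne'
  have cQ : ContinuousOn (fun x => u x ^ q / v x) Ω := (p1 q).div cv fun x hx => (hv0 x hx).ne'
  exact ((p1 _).mul (p2 _)).mul (hM.comp_continuousOn
    (au.prodMk (av.prodMk (cP.prodMk (cQ.prodMk (hu2.prodMk hv2))))))

/-- A certificate whose coefficients are `C¹` only on an open set `S` containing `(0, κ]`. -/
structure CertOn (n : ℕ) (p q κ r₁ r₂ : ℝ) (S : Set ℝ) (c : Fin 14 → ℝ → ℝ) (M : Data n → ℝ)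
    (ε G : ℝ) : Prop where
  eps_pos : 0 < ε
  flux_nonneg : 0 ≤ G
  r₁_nonneg : 0 ≤ r₁
  r₂_nonneg : 0 ≤ r₂
  isOpen_set : IsOpen S
  Ioc_subset : Ioc 0 κ ⊆ S
  smooth : ∀ j, ContDiffOn ℝ 1 (c j) S
  cont : Continuous M
  sqP : ∀ a b P Q H K, P ^ 2 ≤ M (a, b, P, Q, H, K)
  sqQ : ∀ a b P Q H K, Q ^ 2 ≤ M (a, b, P, Q, H, K)
  flux : ∀ (a b : Fin n → ℝ) (P Q : ℝ) (H K : Fin n → Fin n → ℝ), 0 < P → 0 < Q → P ≤ κ * Q →
    ∀ i, |∑ j, c j (P / Q) * fld a b P Q H K j i| ≤ G * M (a, b, P, Q, H, K) ^ (3 / 4 : ℝ)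
  bound : ∀ (a b : Fin n → ℝ) (P Q : ℝ) (H K : Fin n → Fin n → ℝ),
    (∀ i j, H i j = H j i) → (∀ i j, K i j = K j i) →
    ∑ i, H i i = -(dotv a a + P) → ∑ i, K i i = -(dotv b b + Q) →
    0 < P → 0 < Q → P ≤ κ * Q →
    ε * M (a, b, P, Q, H, K) ≤
      rowZ p q (-2 * r₁ + 2 * q * r₂) (2 * p * r₁ - 2 * r₂) c a b P Q H K

/-- A certificate with globally smooth coefficients is one on `univ`. -/
theorem CertZ.toOn {p q κ r₁ r₂ ε G : ℝ} {c : Fin 14 → ℝ → ℝ} {M : Data n → ℝ}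
    (h : CertZ n p q κ r₁ r₂ c M ε G) : CertOn n p q κ r₁ r₂ univ c M ε G :=
  ⟨h.eps_pos, h.flux_nonneg, h.r₁_nonneg, h.r₂_nonneg, isOpen_univ, subset_univ _,
    fun j => (h.smooth j).contDiffOn, h.cont, h.sqP, h.sqQ, h.flux, h.bound⟩

/-- A `C¹` function on an open set agrees near a compact interval inside with one on `ℝ`. -/
theorem exists_contDiff_eq_near {S : Set ℝ} (hS : IsOpen S) {a b : ℝ} (hab : Icc a b ⊆ S)
    {f : ℝ → ℝ} (hf : ContDiffOn ℝ 1 f S) :
    ∃ g : ℝ → ℝ, ContDiff ℝ 1 g ∧ ∀ z ∈ Icc a b, g =ᶠ[𝓝 z] f := by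
  rcases lt_or_ge b a with h | h
  · exact ⟨0, contDiff_const, fun z hz => absurd (hz.1.trans hz.2) (not_le.2 h)⟩
  obtain ⟨δ, hδ, hsub⟩ := isCompact_Icc.exists_cthickening_subset_open hS hab
  let φ : ContDiffBump ((a + b) / 2) :=
    ⟨(b - a) / 2 + δ / 3, (b - a) / 2 + δ, by linarith, by linarith⟩
  have hφS : tsupport (φ : ℝ → ℝ) ⊆ S := by
    rw [φ.tsupport_eq]
    refine fun z hz => hsub ?_
    rw [Metric.mem_closedBall, Real.dist_eq, abs_le] at hz
    simp only [φ] at hz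
    rcases le_or_gt z a with h1 | h1
    · exact Metric.mem_cthickening_of_dist_le z a δ _ ⟨le_rfl, h⟩
        (by rw [Real.dist_eq, abs_le]; constructor <;> linarith)
    rcases le_or_gt z b with h2 | h2
    · exact Metric.self_subset_cthickening _ ⟨h1.le, h2⟩
    · exact Metric.mem_cthickening_of_dist_le z b δ _ ⟨h, le_rfl⟩
        (by rw [Real.dist_eq, abs_le]; constructor <;> linarith)
  refine ⟨fun z => φ z * f z, contDiff_iff_contDiffAt.2 fun z => ?_, fun z hz => ?_⟩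
  · by_cases hz : z ∈ S
    · exact φ.contDiff.contDiffAt.mul (hf.contDiffAt (hS.mem_nhds hz))
    · refine (contDiffAt_const (c := (0 : ℝ))).congr_of_eventuallyEq ?_
      filter_upwards [notMem_tsupport_iff_eventuallyEq.1 fun h => hz (hφS h)] with y hy
      simp [hy]
  · have hmem : z ∈ Metric.ball ((a + b) / 2) φ.rIn := by
      rw [Metric.mem_ball, Real.dist_eq, abs_lt]
      constructor <;> simp only [φ] <;> linarith [hz.1, hz.2]
    filter_upwards [φ.eventuallyEq_one_of_mem_ball hmem] with y hy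
    rw [hy]; simp

/-- A positive continuous function on a compact set is bounded below by a positive number. -/
theorem exists_pos_le_of_isCompact {X : Type*} [TopologicalSpace X] {s : Set X} (hs : IsCompact s)
    {f : X → ℝ} (hf : ContinuousOn f s) (h : ∀ x ∈ s, 0 < f x) :
    ∃ a : ℝ, 0 < a ∧ ∀ x ∈ s, a ≤ f x := by
  rcases s.eq_empty_or_nonempty with h0 | h0
  · exact ⟨1, one_pos, by simp [h0]⟩
  · obtain ⟨x₀, hx₀, hmin⟩ := hs.exists_isMinOn h0 hf
    exact ⟨f x₀, h x₀ hx₀, fun x hx => hmin hx⟩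

/-- **Energy bound.** A certificate bounds `∫ η ^ k w M` by `∫ |∇η| ^ d`, `d = 4 (1 + r₁ + r₂)`,
uniformly over all solutions in any open set. -/
theorem energy_boundOn {p q κ r₁ r₂ ε G₀ : ℝ} {S₀ : Set ℝ} {c : Fin 14 → ℝ → ℝ} {M : Data n → ℝ}
    (hC : CertOn n p q κ r₁ r₂ S₀ c M ε G₀) {k : ℕ} (hk : 4 * (1 + r₁ + r₂) ≤ k) :
    ∃ C : ℝ, 0 ≤ C ∧ ∀ (Ω : Set (EuclideanSpace ℝ (Fin n))), IsOpen Ω →
      ∀ u v η : EuclideanSpace ℝ (Fin n) → ℝ,
      ContDiffOn ℝ 2 u Ω → ContDiffOn ℝ 2 v Ω → (∀ x ∈ Ω, 0 < u x) → (∀ x ∈ Ω, 0 < v x) →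
      (∀ x ∈ Ω, Δ u x = -(v x) ^ p) → (∀ x ∈ Ω, Δ v x = -(u x) ^ q) →
      (∀ x ∈ Ω, v x ^ p / u x ≤ κ * (u x ^ q / v x)) →
      ContDiff ℝ 1 η → HasCompactSupport η → tsupport η ⊆ Ω → (∀ x, η x ∈ Icc (0 : ℝ) 1) →
      ∫ x, η x ^ k * (solWeight p q r₁ r₂ u v x * M (solData p q u v x)) ≤
        C * ∫ x, (∑ i, |fderiv ℝ η x (eStd i)|) ^ (4 * (1 + r₁ + r₂)) := by
  set d : ℝ := 4 * (1 + r₁ + r₂) with hd
  have h1 := hC.r₁_nonneg
  have h2 := hC.r₂_nonneg
  have hε := hC.eps_pos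
  have hd4 : 4 ≤ d := by rw [hd]; linarith
  have hk1 : 1 ≤ k := by
    have : (1 : ℝ) ≤ k := by linarith
    exact_mod_cast this
  have hG₀ := hC.flux_nonneg
  set G : ℝ := G₀ * k + 1 with hG
  have hG0 : 0 < G := by positivity
  refine ⟨2 / ε * ((ε / 2) ^ (1 - d) * G ^ d), by positivity, ?_⟩
  intro Ω hΩ u v η hu hv hu0 hv0 equ eqv hcone hη hηc hsub hηI
  set lam : ℝ := -2 * r₁ + 2 * q * r₂
  set mu : ℝ := 2 * p * r₁ - 2 * r₂
  set φ : EuclideanSpace ℝ (Fin n) → ℝ := fun x => η x ^ k with hφdef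
  have hφ : ContDiff ℝ 1 φ := hη.pow k
  have hφsub : tsupport φ ⊆ tsupport η := by
    refine closure_mono fun x hx => ?_
    simp only [Function.mem_support, φ] at hx ⊢
    exact fun h => hx (by rw [h, zero_pow (by omega)])
  have hφc : HasCompactSupport φ := hηc.mono' fun x hx => hφsub (subset_tsupport φ hx)
  set zs := fun x => (v x ^ p / u x) / (u x ^ q / v x) with hzs
  have hzc : ContinuousOn zs (tsupport η) := by
    have cu := hu.continuousOn.mono hsub
    have cv := hv.continuousOn.mono hsub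
    have n1 : ∀ x ∈ tsupport η, u x ≠ 0 := fun x hx => (hu0 x (hsub hx)).ne'
    have n2 : ∀ x ∈ tsupport η, v x ≠ 0 := fun x hx => (hv0 x (hsub hx)).ne'
    exact ((cv.rpow_const fun x hx => Or.inl (n2 x hx)).div cu n1).div
      ((cu.rpow_const fun x hx => Or.inl (n1 x hx)).div cv n2)
      fun x hx => by
        have := hu0 x (hsub hx)
        have := hv0 x (hsub hx)
        positivity
  obtain ⟨a₀, ha₀, hza⟩ := exists_pos_le_of_isCompact hηc hzc fun x hx => by
    have := hu0 x (hsub hx)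
    have := hv0 x (hsub hx)
    simp only [zs]; positivity
  have hzI : ∀ x ∈ tsupport η, zs x ∈ Icc a₀ κ := fun x hx => ⟨hza x hx, by
    simp only [zs]
    have := hu0 x (hsub hx)
    have := hv0 x (hsub hx)
    rw [div_le_iff₀ (by positivity)]
    exact hcone x (hsub hx)⟩
  have hext : ∀ j, ∃ g : ℝ → ℝ, ContDiff ℝ 1 g ∧ ∀ z ∈ Icc a₀ κ, g =ᶠ[𝓝 z] c j := fun j =>
    exists_contDiff_eq_near hC.isOpen_set
      (fun z hz => hC.Ioc_subset ⟨ha₀.trans_le hz.1, hz.2⟩) (hC.smooth j)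
  choose g hg hgc using hext
  have hrow : ∀ x ∈ tsupport η, ∀ (a b : Fin n → ℝ) (H K : Fin n → Fin n → ℝ),
      rowZ p q lam mu g a b (v x ^ p / u x) (u x ^ q / v x) H K =
        rowZ p q lam mu c a b (v x ^ p / u x) (u x ^ q / v x) H K := fun x hx a b H K =>
    by
      unfold rowZ
      refine Finset.sum_congr rfl fun j _ => ?_
      have e := hgc j (zs x) (hzI x hx)
      simp only [zs] at e
      rw [e.deriv_eq, e.eq_of_nhds]
  obtain ⟨hint₀, hid₀⟩ := row_identity (p := p) (q := q) (lam := lam) (mu := mu) hg hΩ hφ hφc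
    (hφsub.trans hsub) hu hv hu0 hv0 equ eqv
  have eI : ∀ x, φ x * (u x ^ lam * v x ^ mu * rowZ p q lam mu g (logGrad u x) (logGrad v x)
      (v x ^ p / u x) (u x ^ q / v x) (logHess u x) (logHess v x)) =
      φ x * (u x ^ lam * v x ^ mu * rowZ p q lam mu c (logGrad u x) (logGrad v x)
        (v x ^ p / u x) (u x ^ q / v x) (logHess u x) (logHess v x)) := fun x => by
    by_cases hx : x ∈ tsupport η
    · rw [hrow x hx]
    · simp [image_eq_zero_of_notMem_tsupport fun h => hx (hφsub h)]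
  have eF : ∀ x, u x ^ lam * v x ^ mu * ∑ i, fderiv ℝ φ x (eStd i) *
      ∑ j, g j ((v x ^ p / u x) / (u x ^ q / v x)) *
        fld (logGrad u x) (logGrad v x) (v x ^ p / u x) (u x ^ q / v x) (logHess u x)
          (logHess v x) j i =
      u x ^ lam * v x ^ mu * ∑ i, fderiv ℝ φ x (eStd i) *
      ∑ j, c j ((v x ^ p / u x) / (u x ^ q / v x)) *
        fld (logGrad u x) (logGrad v x) (v x ^ p / u x) (u x ^ q / v x) (logHess u x)
          (logHess v x) j i := fun x => by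
    by_cases hx : x ∈ tsupport η
    · simp only [fun j => (hgc j _ (hzI x hx)).eq_of_nhds, zs]
    · have : fderiv ℝ φ x = 0 := by
        rw [(notMem_tsupport_iff_eventuallyEq.1 fun h => hx (hφsub h)).fderiv_eq]; simp
      simp [this]
  simp only [eI, eF] at hint₀ hid₀
  obtain ⟨hint, hid⟩ := And.intro hint₀ hid₀
  set wN := fun x => solWeight p q r₁ r₂ u v x * M (solData p q u v x) with hwN
  have iwN : Integrable (fun x => φ x * wN x) :=
    integrable_test_mul hΩ hφ.continuous hφc (hφsub.trans hsub)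
      (continuousOn_weight_quant hΩ hC.cont hu hv hu0 hv0)
  have hφ0 : ∀ x, 0 ≤ φ x := fun x => pow_nonneg (hηI x).1 k
  -- the certificate
  have step1 : ε * ∫ x, φ x * wN x ≤ ∫ x, φ x * (u x ^ lam * v x ^ mu *
      rowZ p q lam mu c (logGrad u x) (logGrad v x) (v x ^ p / u x) (u x ^ q / v x) (logHess u x)
        (logHess v x)) := by
    rw [← integral_const_mul]
    refine integral_mono (iwN.const_mul ε) hint fun x => ?_
    by_cases hx : x ∈ Ω
    · have hux := hu0 x hx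
      have hvx := hv0 x hx
      have hn := hΩ.mem_nhds hx
      have sy : ∀ {w : EuclideanSpace ℝ (Fin n) → ℝ}, ContDiffOn ℝ 2 w Ω → (∀ y ∈ Ω, 0 < w y) →
          ∀ i j, logHess w x i j = logHess w x j i := fun hw hw0 i j =>
        ((hw.log fun y hy => (hw0 y hy).ne').contDiffAt hn).isSymmSndFDerivAt (by simp) _ _
      have tr : ∀ {w z : EuclideanSpace ℝ (Fin n) → ℝ} (s : ℝ), ContDiffOn ℝ 2 w Ω →
          (∀ y ∈ Ω, 0 < w y) → Δ w x = -(z x) ^ s →
          ∑ i, logHess w x i i = -(dotv (logGrad w x) (logGrad w x) + z x ^ s / w x) := by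
        intro w z s hw hw0 he
        refine (sum_log_second hΩ hw hw0 hx).trans ?_
        rw [he, dotv]
        ring
      have hb := hC.bound (logGrad u x) (logGrad v x) (v x ^ p / u x) (u x ^ q / v x) (logHess u x)
        (logHess v x) (sy hu hu0) (sy hv hv0) (tr p hu hu0 (equ x hx)) (tr q hv hv0 (eqv x hx))
        (by positivity) (by positivity) (hcone x hx)
      have : 0 ≤ φ x * (u x ^ lam * v x ^ mu) := mul_nonneg (hφ0 x) (by positivity)
      calc ε * (φ x * wN x) = φ x * (u x ^ lam * v x ^ mu) * (ε * M (solData p q u v x)) := by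
            simp only [wN, solWeight, lam, mu]; ring
        _ ≤ φ x * (u x ^ lam * v x ^ mu) * _ := mul_le_mul_of_nonneg_left hb this
        _ = _ := by ring
    · simp [image_eq_zero_of_notMem_tsupport fun h => hx (hsub (hφsub h))]
  -- the flux
  have hS : Continuous fun x => ∑ i, |fderiv ℝ η x (eStd i)| :=
    continuous_finsetSum _ fun i _ =>
      ((hη.continuous_fderiv one_ne_zero).clm_apply continuous_const).abs
  have iD : Integrable (fun x => (∑ i, |fderiv ℝ η x (eStd i)|) ^ d) := by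
    refine (hS.rpow_const fun x => Or.inr (by linarith)).integrable_of_hasCompactSupport ?_
    refine HasCompactSupport.intro hηc fun x hx => ?_
    have : fderiv ℝ η x = 0 := by
      rw [(notMem_tsupport_iff_eventuallyEq.1 hx).fderiv_eq]; simp
    simp [this, Real.zero_rpow (by linarith : d ≠ 0)]
  have step2 : -∫ x, u x ^ lam * v x ^ mu * ∑ i, fderiv ℝ φ x (eStd i) *
      ∑ j, c j ((v x ^ p / u x) / (u x ^ q / v x)) *
        fld (logGrad u x) (logGrad v x) (v x ^ p / u x) (u x ^ q / v x) (logHess u x)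
          (logHess v x) j i ≤
      ∫ x, (ε / 2 * (φ x * wN x) + (ε / 2) ^ (1 - d) * G ^ d *
        (∑ i, |fderiv ℝ η x (eStd i)|) ^ d) := by
    refine (neg_le_abs _).trans (le_of_eq_of_le (Real.norm_eq_abs _).symm
      (norm_integral_le_of_norm_le ?_ (Eventually.of_forall fun x => ?_)))
    · exact (iwN.const_mul _).add (iD.const_mul _)
    by_cases hx : x ∈ Ω
    swap
    · have hxη : x ∉ tsupport η := fun h => hx (hsub h)
      have h3 : fderiv ℝ φ x = 0 := by
        rw [(notMem_tsupport_iff_eventuallyEq.1 fun h => hxη (hφsub h)).fderiv_eq]; simp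
      simp only [h3, ContinuousLinearMap.zero_apply, zero_mul, Finset.sum_const_zero, mul_zero,
        norm_zero]
      have h4 : φ x = 0 := image_eq_zero_of_notMem_tsupport fun h => hxη (hφsub h)
      rw [h4, zero_mul, mul_zero, zero_add]
      positivity
    have hux := hu0 x hx
    have hvx := hv0 x hx
    set N := M (solData p q u v x) with hNdef
    set w := solWeight p q r₁ r₂ u v x with hwdef
    have hN : 0 ≤ N := (sq_nonneg _).trans (hC.sqP _ _ _ _ _ _)
    have hw : 0 ≤ w := by rw [hwdef, solWeight]; positivity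
    have hX : 0 ≤ φ x * (w * N) := mul_nonneg (hφ0 x) (mul_nonneg hw hN)
    set S : ℝ := ∑ i, |fderiv ℝ η x (eStd i)| with hSdef
    have hS0 : 0 ≤ S := Finset.sum_nonneg fun i _ => abs_nonneg _
    have hdφ : ∀ i, |fderiv ℝ φ x (eStd i)| ≤ k * η x ^ (k - 1) * |fderiv ℝ η x (eStd i)| := by
      intro i
      rw [((hη.differentiable one_ne_zero x).hasFDerivAt.pow k).fderiv]
      simp [abs_mul, abs_of_nonneg (hηI x).1]
    have hfl : |∑ i, fderiv ℝ φ x (eStd i) * ∑ j, c j ((v x ^ p / u x) / (u x ^ q / v x)) *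
        fld (logGrad u x) (logGrad v x)
        (v x ^ p / u x) (u x ^ q / v x) (logHess u x) (logHess v x) j i| ≤
        G * S * η x ^ (k - 1) * N ^ (3 / 4 : ℝ) := by
      have hη0 := (hηI x).1
      refine (Finset.abs_sum_le_sum_abs _ _).trans ?_
      calc ∑ i, |fderiv ℝ φ x (eStd i) * _|
          ≤ ∑ i, k * η x ^ (k - 1) * |fderiv ℝ η x (eStd i)| * (G₀ * N ^ (3 / 4 : ℝ)) :=
            Finset.sum_le_sum fun i _ => by
              rw [abs_mul]
              exact mul_le_mul (hdφ i) (hC.flux _ _ _ _ _ _ (by positivity) (by positivity)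
                (hcone x hx) i) (abs_nonneg _) (by positivity)
        _ = (G - 1) * S * η x ^ (k - 1) * N ^ (3 / 4 : ℝ) := by
              rw [← Finset.sum_mul, ← Finset.mul_sum, ← hSdef, hG]; ring
        _ ≤ _ := by gcongr; linarith
    have hwn : w * N ^ (3 / 4 : ℝ) ≤ (w * N) ^ (1 - 1 / d) := by
      have h := weight_mul_le (r := r₁ + r₂) hw hN (by linarith)
        (solWeight_le h1 h2 hux hvx (hC.sqP _ _ _ _ _ _) (hC.sqQ _ _ _ _ _ _))
      rwa [show 4 * (1 + (r₁ + r₂)) = d by rw [hd]; ring] at h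
    have hηk : η x ^ (k - 1) ≤ φ x ^ (1 - 1 / d) := by
      rcases (hηI x).1.eq_or_lt with h0 | h0
      · rw [← h0]
        rcases Nat.eq_zero_or_pos (k - 1) with h5 | h5
        · exfalso
          have : (k : ℝ) ≤ 1 := by
            have : k ≤ 1 := by omega
            exact_mod_cast this
          linarith
        · rw [zero_pow (by omega)]
          exact Real.rpow_nonneg (hφ0 x) _
      · simp only [φ]
        rw [← Real.rpow_natCast, ← Real.rpow_natCast (η x) k, ← Real.rpow_mul h0.le]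
        refine Real.rpow_le_rpow_of_exponent_ge h0 (hηI x).2 ?_
        rw [Nat.cast_sub hk1, Nat.cast_one]
        have : 1 ≤ (k : ℝ) / d := by rw [le_div_iff₀ (by linarith)]; linarith
        nlinarith [mul_one_div (k : ℝ) d]
    calc ‖u x ^ lam * v x ^ mu * _‖ = w * |_| := by
          rw [Real.norm_eq_abs, abs_mul, abs_of_nonneg (by positivity)]; rfl
      _ ≤ w * (G * S * η x ^ (k - 1) * N ^ (3 / 4 : ℝ)) := mul_le_mul_of_nonneg_left hfl hw
      _ = G * S * (η x ^ (k - 1) * (w * N ^ (3 / 4 : ℝ))) := by ring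
      _ ≤ G * S * (φ x ^ (1 - 1 / d) * (w * N) ^ (1 - 1 / d)) := by
          refine mul_le_mul_of_nonneg_left (mul_le_mul hηk hwn (by positivity)
            (Real.rpow_nonneg (hφ0 x) _)) (by positivity)
      _ = G * S * (φ x * (w * N)) ^ (1 - 1 / d) := by
          rw [← Real.mul_rpow (hφ0 x) (mul_nonneg hw hN)]
      _ ≤ ε / 2 * (φ x * (w * N)) + (ε / 2) ^ (1 - d) * (G * S) ^ d :=
          young_flux hX (by positivity) (by linarith) (by positivity)
      _ = _ := by rw [Real.mul_rpow hG0.le hS0, mul_assoc]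
  rw [integral_add (iwN.const_mul _) (iD.const_mul _), integral_const_mul, integral_const_mul]
    at step2
  have main : ε / 2 * ∫ x, φ x * wN x ≤
      (ε / 2) ^ (1 - d) * G ^ d * ∫ x, (∑ i, |fderiv ℝ η x (eStd i)|) ^ d := by linarith
  calc ∫ x, η x ^ k * (solWeight p q r₁ r₂ u v x * M (solData p q u v x))
      = 2 / ε * (ε / 2 * ∫ x, φ x * wN x) := by
        rw [← mul_assoc, div_mul_div_comm, mul_comm 2 ε, div_self (by positivity), one_mul]
    _ ≤ 2 / ε * ((ε / 2) ^ (1 - d) * G ^ d * ∫ x, (∑ i, |fderiv ℝ η x (eStd i)|) ^ d) :=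
        mul_le_mul_of_nonneg_left main (by positivity)
    _ = _ := by ring

/-- **Energy bound** for globally smooth coefficients. -/
theorem energy_boundZ {p q κ r₁ r₂ ε G₀ : ℝ} {c : Fin 14 → ℝ → ℝ} {M : Data n → ℝ}
    (hC : CertZ n p q κ r₁ r₂ c M ε G₀) {k : ℕ} (hk : 4 * (1 + r₁ + r₂) ≤ k) :
    ∃ C : ℝ, 0 ≤ C ∧ ∀ (Ω : Set (EuclideanSpace ℝ (Fin n))), IsOpen Ω →
      ∀ u v η : EuclideanSpace ℝ (Fin n) → ℝ,
      ContDiffOn ℝ 2 u Ω → ContDiffOn ℝ 2 v Ω → (∀ x ∈ Ω, 0 < u x) → (∀ x ∈ Ω, 0 < v x) →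
      (∀ x ∈ Ω, Δ u x = -(v x) ^ p) → (∀ x ∈ Ω, Δ v x = -(u x) ^ q) →
      (∀ x ∈ Ω, v x ^ p / u x ≤ κ * (u x ^ q / v x)) →
      ContDiff ℝ 1 η → HasCompactSupport η → tsupport η ⊆ Ω → (∀ x, η x ∈ Icc (0 : ℝ) 1) →
      ∫ x, η x ^ k * (solWeight p q r₁ r₂ u v x * M (solData p q u v x)) ≤
        C * ∫ x, (∑ i, |fderiv ℝ η x (eStd i)|) ^ (4 * (1 + r₁ + r₂)) :=
  energy_boundOn hC.toOn hk

/-- The full quartic norm as a function of the data. -/
def nrmData (D : Data n) : ℝ := nrm D.1 D.2.1 D.2.2.1 D.2.2.2.1 D.2.2.2.2.1 D.2.2.2.2.2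

theorem continuous_nrmData : Continuous (nrmData : Data n → ℝ) := by
  unfold nrmData nrm dotv frob
  fun_prop

/-- A constant-coefficient certificate is a certificate. -/
theorem Cert.toZ {p q κ r₁ r₂ ε : ℝ} {c : Fin 14 → ℝ} (hC : Cert n p q κ r₁ r₂ c ε) :
    CertZ n p q κ r₁ r₂ (fun j _ => c j) nrmData ε ((∑ j, |c j|) * (n + 1)) where
  eps_pos := hC.eps_pos
  flux_nonneg := by positivity
  r₁_nonneg := hC.r₁_nonneg
  r₂_nonneg := hC.r₂_nonneg
  smooth := fun _ => contDiff_const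
  cont := continuous_nrmData
  sqP := fun a b P Q H K => (sq_dotv_le_nrm a b P Q H K).2.2.1
  sqQ := fun a b P Q H K => (sq_dotv_le_nrm a b P Q H K).2.2.2.1
  flux := fun a b P Q H K _ _ _ i => by
    rw [mul_assoc, Finset.sum_mul]
    refine (Finset.abs_sum_le_sum_abs _ _).trans (Finset.sum_le_sum fun j _ => ?_)
    rw [abs_mul]
    exact mul_le_mul_of_nonneg_left (abs_fld_le _ _ _ _ _ _ j i) (abs_nonneg _)
  bound := fun a b P Q H K hH hK tH tK hP hQ hPQ => by
    refine (hC.bound a b P Q H K hH hK tH tK hP hQ hPQ).trans_eq ?_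
    simp [rowR, rowZ]

end Vale.Agent.P100
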