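import Mathlib

/-!
# Spherical slices, good radii and radial cut-offs

Tools for estimates on almost every sphere: polar coordinates for nonnegative functions, the
selection of a compact set of radii on which all slices are small, and Lipschitz cut-offs whose
gradient lives on that set of radii.
-/

open MeasureTheory Filter Set Metric Topology
open scoped ENNReal NNReal

namespace Vale.Agent.P100

section Slice

variable {E : Type*} [NormedAddCommGroup E] [NormedSpace ℝ E] [FiniteDimensional ℝ E]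
  [MeasurableSpace E] [BorelSpace E] (μ : Measure E) [μ.IsAddHaarMeasure]

/-- integral of `g` over the sphere of radius `r`, seen on the unit sphere -/
noncomputable def slice (g : E → ℝ≥0∞) (r : ℝ) : ℝ≥0∞ :=
  ∫⁻ θ : sphere (0 : E) 1, g (r • (θ : E)) ∂μ.toSphere

theorem measurable_slice {g : E → ℝ≥0∞} (hg : Measurable g) : Measurable (slice μ g) := by
  have h : Measurable fun z : (sphere (0 : E) 1) × ℝ => g (z.2 • (z.1 : E)) :=
    hg.comp (measurable_snd.smul (measurable_subtype_coe.comp measurable_fst))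
  exact h.lintegral_prod_left'

omit [FiniteDimensional ℝ E] [BorelSpace E] [μ.IsAddHaarMeasure] in
theorem slice_mono {g h : E → ℝ≥0∞} {r : ℝ} (hgh : ∀ θ : sphere (0 : E) 1,
    g (r • (θ : E)) ≤ h (r • (θ : E))) : slice μ g r ≤ slice μ h r :=
  lintegral_mono hgh

theorem lintegral_polar [Nontrivial E] {g : E → ℝ≥0∞} (hg : Measurable g) :
    ∫⁻ x, g x ∂μ =
      ∫⁻ r in Ioi (0 : ℝ), ENNReal.ofReal (r ^ (Module.finrank ℝ E - 1)) * slice μ g r := by
  set d := Module.finrank ℝ E - 1
  let G : (sphere (0 : E) 1) × Ioi (0 : ℝ) → ℝ≥0∞ := fun z => g ((z.2 : ℝ) • (z.1 : E))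
  have hG : Measurable G := hg.comp ((measurable_subtype_coe.comp measurable_snd).smul
    (measurable_subtype_coe.comp measurable_fst))
  calc ∫⁻ x, g x ∂μ = ∫⁻ x : ({0}ᶜ : Set E), g x ∂(μ.comap (↑)) := by
        rw [lintegral_subtype_comap (measurableSet_singleton (0 : E)).compl g,
          restrict_compl_singleton]
    _ = ∫⁻ x : ({0}ᶜ : Set E), G (homeomorphUnitSphereProd E x) ∂(μ.comap (↑)) := by
        congr 1; ext x
        have hx : ‖(x : E)‖ ≠ 0 := norm_ne_zero_iff.2 x.2
        simp [G, smul_smul, hx]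
    _ = ∫⁻ z, G z ∂(μ.toSphere.prod (Measure.volumeIoiPow d)) :=
        μ.measurePreserving_homeomorphUnitSphereProd.lintegral_comp hG
    _ = ∫⁻ r : Ioi (0 : ℝ), slice μ g r ∂(Measure.volumeIoiPow d) := lintegral_prod_symm' _ hG
    _ = _ := by
        have h := lintegral_withDensity_eq_lintegral_mul (Measure.comap Subtype.val volume)
          (show Measurable fun r : Ioi (0 : ℝ) => ENNReal.ofReal ((r : ℝ) ^ d) by fun_prop)
          (show Measurable fun r : Ioi (0 : ℝ) => slice μ g r from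
            (measurable_slice μ hg).comp measurable_subtype_coe)
        refine h.trans ?_
        exact lintegral_subtype_comap measurableSet_Ioi
          fun r : ℝ => ENNReal.ofReal (r ^ d) * slice μ g r

/-- The part of the space where `‖x‖ ∈ A` is controlled by the slices at radii in `A`. -/
theorem setLIntegral_norm_mem_le [Nontrivial E] {g : E → ℝ≥0∞} (hg : Measurable g) {A : Set ℝ}
    (hA : MeasurableSet A) (hA2 : A ⊆ Icc 1 2) {D : ℝ≥0∞} (hD : ∀ r ∈ A, slice μ g r ≤ D) :
    ∫⁻ x in (fun x : E => ‖x‖) ⁻¹' A, g x ∂μ ≤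
      ENNReal.ofReal (2 ^ (Module.finrank ℝ E - 1)) * D := by
  set d := Module.finrank ℝ E - 1
  have hm : MeasurableSet ((fun x : E => ‖x‖) ⁻¹' A) := measurable_norm hA
  rw [← lintegral_indicator hm, lintegral_polar μ (hg.indicator hm)]
  calc _ ≤ ∫⁻ r in Ioi (0 : ℝ), A.indicator (fun _ => ENNReal.ofReal (2 ^ d) * D) r := by
        refine setLIntegral_mono (Measurable.indicator measurable_const hA) fun r hr => ?_
        have hrn : ∀ θ : sphere (0 : E) 1, ‖r • (θ : E)‖ = r := fun θ => by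
          simp [norm_smul, abs_of_pos (mem_Ioi.1 hr)]
        by_cases hrA : r ∈ A
        · rw [indicator_of_mem hrA]
          refine mul_le_mul' (ENNReal.ofReal_le_ofReal (pow_le_pow_left₀ (le_of_lt hr)
            (hA2 hrA).2 _)) ((le_of_eq ?_).trans (hD r hrA))
          exact lintegral_congr fun θ => indicator_of_mem (by simpa [hrn θ] using hrA) _
        · rw [indicator_of_notMem hrA]
          refine le_of_eq (mul_eq_zero.2 (Or.inr ?_))
          refine (lintegral_congr fun θ => ?_).trans lintegral_zero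
          exact indicator_of_notMem (by simpa [hrn θ] using hrA) _
    _ ≤ ∫⁻ r, A.indicator (fun _ => ENNReal.ofReal (2 ^ d) * D) r :=
        setLIntegral_le_lintegral _ _
    _ = ENNReal.ofReal (2 ^ d) * D * volume A := lintegral_indicator_const hA _
    _ ≤ _ := by
        refine le_trans (mul_le_mul_right (measure_mono hA2) _) ?_
        simp [Real.volume_Icc]; norm_num

/-- Good radii: a compact set of radii of length at least `1/2` on which every slice is small. -/
theorem exists_good_radii [Nontrivial E] {ι : Type*} [Fintype ι] {g : ι → E → ℝ≥0∞}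
    (hg : ∀ i, Measurable (g i)) {C : ι → ℝ≥0∞}
    (hC : ∀ i, ∫⁻ x in {x : E | ‖x‖ ∈ Icc (1 : ℝ) 2}, g i x ∂μ ≤ C i) :
    ∃ K : Set ℝ, IsCompact K ∧ K ⊆ Icc 1 2 ∧ 1 / 2 ≤ volume.real K ∧
      ∀ r ∈ K, ∀ i, slice μ (g i) r ≤ 4 * Fintype.card ι * C i := by
  set d := Module.finrank ℝ E - 1
  set M : ℝ≥0∞ := 4 * (Fintype.card ι : ℝ≥0∞) with hM
  let bad : ι → Set ℝ := fun i => Icc 1 2 ∩ {r | M * C i < slice μ (g i) r}
  have hbm : ∀ i, MeasurableSet (bad i) := fun i =>
    measurableSet_Icc.inter (measurableSet_lt measurable_const (measurable_slice μ (hg i)))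
  have hint : ∀ i, ∫⁻ r in Icc (1 : ℝ) 2, slice μ (g i) r ≤ C i := by
    intro i
    refine le_trans ?_ (hC i)
    have hm : MeasurableSet {x : E | ‖x‖ ∈ Icc (1 : ℝ) 2} := measurable_norm measurableSet_Icc
    rw [← lintegral_indicator hm, lintegral_polar μ ((hg i).indicator hm)]
    refine le_trans (setLIntegral_mono ?_ fun r hr => ?_)
      (lintegral_mono_set (fun r (hr : r ∈ Icc (1 : ℝ) 2) => lt_of_lt_of_le one_pos hr.1))
    · exact (Measurable.ennreal_ofReal (by fun_prop)).mul
        (measurable_slice μ ((hg i).indicator hm))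
    · calc slice μ (g i) r = 1 * slice μ ({x : E | ‖x‖ ∈ Icc (1 : ℝ) 2}.indicator (g i)) r := by
            rw [one_mul]
            refine lintegral_congr fun θ => (indicator_of_mem ?_ _).symm
            simpa [norm_smul, abs_of_pos (lt_of_lt_of_le one_pos hr.1)] using hr
        _ ≤ _ := mul_le_mul_left (ENNReal.one_le_ofReal.2 (one_le_pow₀ hr.1)) _
  have hb : ∀ i, volume (bad i) ≤ M⁻¹ := by
    intro i
    have hne : M ≠ 0 := by simp [hM, (Fintype.card_pos_iff.2 ⟨i⟩).ne']
    have hnt : M ≠ ⊤ := ENNReal.mul_ne_top (by simp) (ENNReal.natCast_ne_top _)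
    have hle : ∫⁻ r in bad i, slice μ (g i) r ≤ C i :=
      (lintegral_mono_set inter_subset_left).trans (hint i)
    rcases eq_or_ne (C i) 0 with h0 | h0
    · have hz : ∫⁻ r in bad i, slice μ (g i) r = 0 := le_antisymm (h0 ▸ hle) bot_le
      rw [setLIntegral_eq_zero_iff (hbm i) (measurable_slice μ (hg i))] at hz
      have : volume (bad i) = 0 := by
        refine measure_mono_null (fun r hr => ?_) (ae_iff.1 hz)
        simp only [mem_ofPred, Classical.not_imp]
        exact ⟨hr, (lt_of_le_of_lt bot_le hr.2).ne'⟩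
      simp [this]
    rcases eq_or_ne (C i) ⊤ with ht | ht
    · have : bad i = ∅ := by
        ext r; simp [bad, ht, ENNReal.mul_top hne]
      simp [this]
    have h := (setLIntegral_mono (measurable_slice μ (hg i))
      (fun r (hr : r ∈ bad i) => hr.2.le)).trans hle
    rw [setLIntegral_const, mul_comm M, mul_assoc] at h
    have h2 : M * volume (bad i) ≤ 1 := (ENNReal.mul_le_mul_iff_right h0 ht).1 (by simpa using h)
    exact ENNReal.le_inv_iff_mul_le.2 (by rwa [mul_comm])
  set B := ⋃ i, bad i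
  have hB : volume B ≤ 1 / 4 := by
    refine (measure_iUnion_fintype_le _ _).trans ((Finset.sum_le_sum fun i _ => hb i).trans ?_)
    rcases Nat.eq_zero_or_pos (Fintype.card ι) with h0 | h0
    · simp [h0]
    · simp only [Finset.sum_const, Finset.card_univ, nsmul_eq_mul, hM]
      rw [ENNReal.mul_inv (Or.inl (by simp)) (Or.inl (by simp)), mul_left_comm,
        ENNReal.mul_inv_cancel (by exact_mod_cast h0.ne') (ENNReal.natCast_ne_top _), mul_one,
        one_div]
  set A := Icc (1 : ℝ) 2 \ B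
  have hAm : MeasurableSet A := measurableSet_Icc.diff (MeasurableSet.iUnion hbm)
  have hAfin : volume A ≠ ⊤ := ((measure_mono sdiff_subset).trans_lt measure_Icc_lt_top).ne
  have hA : 3 / 4 ≤ volume.real A := by
    have h1 : volume.real (Icc (1 : ℝ) 2) ≤ volume.real A + volume.real B :=
      le_trans (measureReal_mono (fun r hr => by
        by_cases h : r ∈ B
        · exact Or.inr h
        · exact Or.inl ⟨hr, h⟩)
        (measure_union_ne_top hAfin (ne_top_of_le_ne_top (by simp) hB)))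
        (measureReal_union_le _ _)
    have h2 : volume.real B ≤ 1 / 4 := by
      have := ENNReal.toReal_mono (by simp) hB
      simpa [measureReal_def] using this
    norm_num [Real.volume_real_Icc] at h1
    linarith
  obtain ⟨K, hKA, hK, hlt⟩ := hAm.exists_isCompact_lt_add hAfin (ε := ENNReal.ofReal (1 / 4))
    (by simp)
  refine ⟨K, hK, hKA.trans sdiff_subset, ?_, fun r hr i => ?_⟩
  · have h := ENNReal.toReal_mono (ENNReal.add_ne_top.2 ⟨hK.measure_lt_top.ne, by simp⟩) hlt.le
    rw [ENNReal.toReal_add hK.measure_lt_top.ne (by simp), ENNReal.toReal_ofReal (by norm_num)] at h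
    simp only [← measureReal_def] at h
    linarith
  · by_contra h
    exact (hKA hr).2 (mem_iUnion.2 ⟨i, (hKA hr).1, not_le.1 h⟩)

end Slice

section Cutoff

variable {E : Type*} [NormedAddCommGroup E]

/-- `vol (K ∩ [r, ∞))` -/
noncomputable def tailLen (K : Set ℝ) (r : ℝ) : ℝ := volume.real (K ∩ Ici r)

theorem lipschitz_tailLen {K : Set ℝ} (hK : IsCompact K) : LipschitzWith 1 (tailLen K) := by
  refine LipschitzWith.of_le_add fun r s => ?_
  have hfin : ∀ t, volume (K ∩ Ici t) ≠ ⊤ := fun t =>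
    ((measure_mono inter_subset_left).trans_lt hK.measure_lt_top).ne
  calc volume.real (K ∩ Ici r) ≤ volume.real ((K ∩ Ici s) ∪ Icc r s) :=
        measureReal_mono (fun t ht => by
          rcases le_or_gt s t with h | h
          · exact Or.inl ⟨ht.1, h⟩
          · exact Or.inr ⟨ht.2, h.le⟩) (measure_union_ne_top (hfin s) measure_Icc_lt_top.ne)
    _ ≤ volume.real (K ∩ Ici s) + volume.real (Icc r s) := measureReal_union_le _ _
    _ ≤ _ := by
        rw [Real.volume_real_Icc, Real.dist_eq]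
        refine add_le_add le_rfl (max_le ?_ (abs_nonneg _))
        exact (le_abs_self _).trans (abs_sub_comm s r).le

theorem tailLen_nonneg (K : Set ℝ) (r : ℝ) : 0 ≤ tailLen K r := measureReal_nonneg

theorem tailLen_le_one {K : Set ℝ} (hK : K ⊆ Icc 1 2) (r : ℝ) : tailLen K r ≤ 1 := by
  refine (measureReal_mono (inter_subset_left.trans hK) measure_Icc_lt_top.ne).trans ?_
  simp [Real.volume_real_Icc]; norm_num

theorem tailLen_eq_of_le {K : Set ℝ} (hK : K ⊆ Icc 1 2) {r : ℝ} (hr : r ≤ 1) :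
    tailLen K r = volume.real K := by
  unfold tailLen
  rw [inter_eq_left.2 fun t ht => mem_Ici.2 (hr.trans (hK ht).1)]

theorem tailLen_eq_zero {K : Set ℝ} (hK : K ⊆ Icc 1 2) {r : ℝ} (hr : 2 < r) : tailLen K r = 0 := by
  have : K ∩ Ici r = ∅ := Set.eq_empty_iff_forall_notMem.2 fun t ht =>
    (lt_of_lt_of_le hr ht.2).not_ge (hK ht.1).2
  simp [tailLen, this]

theorem tailLen_locally_const {K : Set ℝ} (hK : IsCompact K) {r : ℝ} (hr : r ∉ K) :
    ∀ᶠ s in 𝓝 r, tailLen K s = tailLen K r := by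
  obtain ⟨δ, hδ, hsub⟩ := Metric.isOpen_iff.1 hK.isClosed.isOpen_compl r hr
  filter_upwards [Metric.ball_mem_nhds r hδ] with s hs
  unfold tailLen
  congr 1
  ext t
  simp only [mem_inter_iff, mem_Ici, and_congr_right_iff]
  intro ht
  have h : δ ≤ |t - r| := not_lt.1 fun h => hsub (by rwa [Metric.mem_ball, Real.dist_eq]) ht
  rw [Metric.mem_ball, Real.dist_eq, abs_lt] at hs
  rcases le_abs.1 h with h | h <;> constructor <;> intro <;> linarith

/-- cut-off: `vol (K ∩ [‖x‖, ∞))`, cut away linearly on the layer `ε ≤ ‖x‖ ≤ 2ε` -/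
noncomputable def cutK (K : Set ℝ) (ε : ℝ) (x : E) : ℝ :=
  min (tailLen K ‖x‖) (max (ε⁻¹ * ‖x‖ - 1) 0)

theorem cutK_nonneg (K : Set ℝ) (ε : ℝ) (x : E) : 0 ≤ cutK K ε x :=
  le_min (tailLen_nonneg _ _) (le_max_right _ _)

theorem lipschitz_cutK {K : Set ℝ} (hK : IsCompact K) {ε : ℝ} (hε : 0 < ε) :
    LipschitzWith (max 1 ε⁻¹.toNNReal) (cutK (E := E) K ε) := by
  have h1 : LipschitzWith 1 fun x : E => tailLen K ‖x‖ := by
    have h := (lipschitz_tailLen hK).comp (lipschitzWith_one_norm (E := E))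
    rwa [one_mul] at h
  have h2 : LipschitzWith ε⁻¹.toNNReal fun x : E => max (ε⁻¹ * ‖x‖ - 1) 0 := by
    refine (LipschitzWith.of_dist_le_mul fun x y => ?_).max_const 0
    rw [Real.dist_eq, dist_eq_norm, Real.coe_toNNReal _ (inv_nonneg.2 hε.le),
      show ε⁻¹ * ‖x‖ - 1 - (ε⁻¹ * ‖y‖ - 1) = ε⁻¹ * (‖x‖ - ‖y‖) by ring, abs_mul,
      abs_of_pos (inv_pos.2 hε)]
    exact mul_le_mul_of_nonneg_left (abs_norm_sub_norm_le x y) (inv_nonneg.2 hε.le)
  exact h1.min h2

theorem cutK_eq_zero {K : Set ℝ} (hK : K ⊆ Icc 1 2) {ε : ℝ} (hε : 0 < ε) {x : E}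
    (hx : ‖x‖ ≤ ε ∨ 2 < ‖x‖) : cutK K ε x = 0 := by
  rcases hx with hx | hx
  · have h1 : ε⁻¹ * ‖x‖ - 1 ≤ 0 := by
      rw [inv_mul_eq_div, sub_nonpos, div_le_one hε]; exact hx
    simp [cutK, max_eq_right h1, tailLen_nonneg]
  · simp [cutK, tailLen_eq_zero hK hx]

theorem cutK_eq {K : Set ℝ} (hK : K ⊆ Icc 1 2) {ε : ℝ} (hε : 0 < ε) {x : E}
    (hx : 2 * ε ≤ ‖x‖) : cutK K ε x = tailLen K ‖x‖ := by
  have h1 : 1 ≤ ε⁻¹ * ‖x‖ - 1 := by
    have : 2 ≤ ε⁻¹ * ‖x‖ := by
      rw [inv_mul_eq_div, le_div_iff₀ hε]; exact hx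
    linarith
  exact min_eq_left ((tailLen_le_one hK _).trans (h1.trans (le_max_left _ _)))

theorem hasCompactSupport_cutK [ProperSpace E] {K : Set ℝ} (hK : K ⊆ Icc 1 2) {ε : ℝ}
    (hε : 0 < ε) : HasCompactSupport (cutK (E := E) K ε) :=
  HasCompactSupport.intro (isCompact_closedBall (0 : E) 2) fun x hx =>
    cutK_eq_zero hK hε (Or.inr (by simpa using hx))

theorem tsupport_cutK {K : Set ℝ} (hK : K ⊆ Icc 1 2) {ε : ℝ} (hε : 0 < ε) :
    tsupport (cutK (E := E) K ε) ⊆ ({0}ᶜ : Set E) := by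
  have h : tsupport (cutK (E := E) K ε) ⊆ {x | ε ≤ ‖x‖} :=
    closure_minimal (fun x hx => not_lt.1 fun h => hx (cutK_eq_zero hK hε (Or.inl h.le)))
      (isClosed_le continuous_const continuous_norm)
  intro x hx h0
  have := h hx
  simp only [mem_singleton_iff.1 h0, mem_ofPred, norm_zero] at this
  linarith

/-- The gradient of the cut-off lives on the radii in `K` and on the inner layer. -/
theorem abs_lineDeriv_cutK [NormedSpace ℝ E] {K : Set ℝ} (hK : IsCompact K) (hK2 : K ⊆ Icc 1 2)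
    {ε : ℝ} (hε : 0 < ε) (hε2 : 2 * ε < 1) (x w : E) :
    |lineDeriv ℝ (cutK K ε) x w| ≤ ‖w‖ * (((fun y : E => ‖y‖) ⁻¹' K).indicator (fun _ => 1) x +
      (closedBall (0 : E) (2 * ε)).indicator (fun _ => ε⁻¹) x) := by
  rcases lt_trichotomy ‖x‖ (2 * ε) with h | h | h
  rotate_left
  rotate_left
  · have hev : cutK K ε =ᶠ[𝓝 x] fun y => tailLen K ‖y‖ := by
      filter_upwards [(isOpen_lt continuous_const continuous_norm).mem_nhds h] with y hy
      exact cutK_eq hK2 hε (le_of_lt hy)
    have hnb : x ∉ closedBall (0 : E) (2 * ε) := by simp [h]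
    rw [hev.lineDeriv_eq, indicator_of_notMem hnb, add_zero]
    by_cases hxK : ‖x‖ ∈ K
    · rw [indicator_of_mem (show x ∈ (fun y : E => ‖y‖) ⁻¹' K from hxK), mul_one,
        ← Real.norm_eq_abs]
      have h1 : LipschitzWith 1 fun x : E => tailLen K ‖x‖ := by
        have h := (lipschitz_tailLen hK).comp (lipschitzWith_one_norm (E := E))
        rwa [one_mul] at h
      simpa using norm_lineDeriv_le_of_lipschitz ℝ h1 (x₀ := x) (v := w)
    · have h0 : (fun y : E => tailLen K ‖y‖) =ᶠ[𝓝 x] fun _ => tailLen K ‖x‖ :=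
        (continuous_norm.tendsto x).eventually (tailLen_locally_const hK hxK)
      rw [h0.lineDeriv_eq, indicator_of_notMem (show x ∉ (fun y : E => ‖y‖) ⁻¹' K from hxK)]
      simp [lineDeriv]
  all_goals
    have hb : x ∈ closedBall (0 : E) (2 * ε) := by simp [h.le]
    rw [indicator_of_mem hb, ← Real.norm_eq_abs]
    have h1 := norm_lineDeriv_le_of_lipschitz ℝ (lipschitz_cutK (E := E) hK hε) (x₀ := x) (v := w)
    have h2 : (1 : ℝ) ≤ ε⁻¹ := (one_le_inv₀ hε).2 (by linarith)
    rw [NNReal.coe_max, Real.coe_toNNReal _ (inv_nonneg.2 hε.le), NNReal.coe_one,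
      max_eq_right h2, mul_comm] at h1
    refine h1.trans (mul_le_mul_of_nonneg_left ?_ (norm_nonneg w))
    exact le_add_of_nonneg_left (indicator_nonneg (fun _ _ => zero_le_one) _)

end Cutoff

end Vale.Agent.P100
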