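import Mathlib

/-!
# Weak Hessian identity for `C²` functions whose Laplacian is `C¹`

For `U` of class `C²` and test functions `h j` of class `C¹` with compact support,
`∫ ∑ᵢⱼ ∂ᵢ∂ⱼU ∂ᵢhⱼ = - ∫ ∑ⱼ ∂ⱼ(ΔU) hⱼ`. No third derivative of `U` is needed.
-/

open MeasureTheory Filter Set Topology
open scoped Manifold ContDiff

namespace Vale.Agent.P100

variable {E : Type*} [NormedAddCommGroup E] [NormedSpace ℝ E] [FiniteDimensional ℝ E]
  [MeasurableSpace E] [BorelSpace E] {μ : Measure E} [μ.IsAddHaarMeasure]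

omit [MeasurableSpace E] [BorelSpace E] in
lemma exists_cutoff {K Ω : Set E} (hK : IsCompact K) (hΩ : IsOpen Ω) (hKΩ : K ⊆ Ω) :
    ∃ χ : E → ℝ, ContDiff ℝ 2 χ ∧ HasCompactSupport χ ∧ tsupport χ ⊆ Ω ∧
      ∀ᶠ x in 𝓝ˢ K, χ x = 1 := by
  obtain ⟨L, hL, hKL, hLΩ⟩ := exists_compact_between hK hΩ hKΩ
  obtain ⟨f, hf1, hf0, -⟩ :=
    exists_contMDiffMap_one_nhds_of_subset_interior (n := 2) 𝓘(ℝ, E) hK.isClosed hKL
  have hs : Function.support f ⊆ L := fun x hx => by_contra fun h => hx (hf0 x h)
  refine ⟨f, contMDiff_iff_contDiff.1 f.contMDiff, HasCompactSupport.intro hL hf0, ?_, hf1⟩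
  exact (closure_minimal hs hL.isClosed).trans hLΩ

/-- Exchange of two directions, compactly supported case. -/
lemma cross_compact {G h : E → ℝ} (hG : ContDiff ℝ 1 G) (hGc : HasCompactSupport G)
    (hh : ContDiff ℝ 1 h) (hhc : HasCompactSupport h) (b c : E) :
    ∫ x, fderiv ℝ G x b * fderiv ℝ h x c ∂μ = ∫ x, fderiv ℝ G x c * fderiv ℝ h x b ∂μ := by
  obtain ⟨CG, hLG⟩ := ContDiff.lipschitzWith_of_hasCompactSupport hGc hG one_ne_zero
  obtain ⟨Ch, hLh⟩ := ContDiff.lipschitzWith_of_hasCompactSupport hhc hh one_ne_zero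
  have hdG : Continuous fun x => fderiv ℝ G x b :=
    (hG.continuous_fderiv one_ne_zero).clm_apply continuous_const
  have hdh : Continuous fun x => fderiv ℝ h x b :=
    (hh.continuous_fderiv one_ne_zero).clm_apply continuous_const
  have hdGc : HasCompactSupport fun x => fderiv ℝ G x b := hGc.fderiv_apply (𝕜 := ℝ) b
  have hdhc : HasCompactSupport fun x => fderiv ℝ h x b := hhc.fderiv_apply (𝕜 := ℝ) b
  have key : ∀ t : ℝ, ∫ x, (t⁻¹ • (h (x + t • c) - h x)) * fderiv ℝ G x b ∂μ =
      -∫ x, (t⁻¹ • (G (x + t • (-c)) - G x)) * fderiv ℝ h x b ∂μ := by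
    intro t
    let g : E → ℝ := fun x => t⁻¹ • (h (x + t • c) - h x)
    have hshift : ContDiff ℝ 1 fun x => h (x + t • c) :=
      hh.comp (contDiff_id.add contDiff_const)
    have hg : ContDiff ℝ 1 g := (hshift.sub hh).const_smul t⁻¹
    have hgd : ∀ x, fderiv ℝ g x b = t⁻¹ * (fderiv ℝ h (x + t • c) b - fderiv ℝ h x b) := by
      intro x
      have h1 : HasFDerivAt (fun y => h (y + t • c)) (fderiv ℝ h (x + t • c)) x :=
        (hasFDerivAt_comp_add_right (t • c)).2
          ((hh.differentiable one_ne_zero) _).hasFDerivAt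
      have h2 : HasFDerivAt g (t⁻¹ • (fderiv ℝ h (x + t • c) - fderiv ℝ h x)) x :=
        (h1.sub ((hh.differentiable one_ne_zero) x).hasFDerivAt).const_smul t⁻¹
      rw [h2.fderiv]
      simp
    have hgd' : Continuous fun x => fderiv ℝ g x b :=
      (hg.continuous_fderiv one_ne_zero).clm_apply continuous_const
    have ibp := integral_mul_fderiv_eq_neg_fderiv_mul_of_integrable (μ := μ) (f := G) (g := g)
      (v := b)
      ((hdG.mul hg.continuous).integrable_of_hasCompactSupport hdGc.mul_right)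
      ((hG.continuous.mul hgd').integrable_of_hasCompactSupport hGc.mul_right)
      ((hG.continuous.mul hg.continuous).integrable_of_hasCompactSupport hGc.mul_right)
      (fun x _ => hG.differentiable one_ne_zero x) (fun x _ => hg.differentiable one_ne_zero x)
    have i1 : Integrable (fun x => G x * fderiv ℝ h (x + t • c) b) μ :=
      (hG.continuous.mul (hdh.comp (continuous_id.add continuous_const))).integrable_of_hasCompactSupport
        hGc.mul_right
    have i2 : Integrable (fun x => G x * fderiv ℝ h x b) μ :=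
      (hG.continuous.mul hdh).integrable_of_hasCompactSupport hGc.mul_right
    have i3 : Integrable (fun x => G (x + t • (-c)) * fderiv ℝ h x b) μ :=
      ((hG.continuous.comp (continuous_id.add continuous_const)).mul hdh).integrable_of_hasCompactSupport
        hdhc.mul_left
    have shift : ∫ x, G x * fderiv ℝ h (x + t • c) b ∂μ =
        ∫ x, G (x + t • (-c)) * fderiv ℝ h x b ∂μ := by
      rw [← integral_add_right_eq_self _ (t • (-c))]
      simp
    calc ∫ x, (t⁻¹ • (h (x + t • c) - h x)) * fderiv ℝ G x b ∂μ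
        = ∫ x, fderiv ℝ G x b * g x ∂μ := by simp only [g, mul_comm]
      _ = -∫ x, G x * fderiv ℝ g x b ∂μ := by rw [ibp, neg_neg]
      _ = _ := by
        simp only [hgd, smul_eq_mul]
        congr 1
        calc ∫ x, G x * (t⁻¹ * (fderiv ℝ h (x + t • c) b - fderiv ℝ h x b)) ∂μ
            = t⁻¹ * ∫ x, (G x * fderiv ℝ h (x + t • c) b - G x * fderiv ℝ h x b) ∂μ := by
              rw [← integral_const_mul]; congr 1; ext x; ring
          _ = t⁻¹ * ∫ x, (G (x + t • (-c)) * fderiv ℝ h x b - G x * fderiv ℝ h x b) ∂μ := by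
              rw [integral_sub i1 i2, integral_sub i3 i2, shift]
          _ = _ := by rw [← integral_const_mul]; congr 1; ext x; ring
  have A := LipschitzWith.integral_inv_smul_sub_mul_tendsto_integral_lineDeriv_mul (μ := μ) hLh
    (hdG.integrable_of_hasCompactSupport hdGc) c
  have B := LipschitzWith.integral_inv_smul_sub_mul_tendsto_integral_lineDeriv_mul (μ := μ) hLG
    (hdh.integrable_of_hasCompactSupport hdhc) (-c)
  simp only [key] at A
  have e := tendsto_nhds_unique A B.neg
  calc ∫ x, fderiv ℝ G x b * fderiv ℝ h x c ∂μ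
      = ∫ x, lineDeriv ℝ h x c * fderiv ℝ G x b ∂μ := by
        congr 1; ext x
        rw [(hh.differentiable one_ne_zero x).lineDeriv_eq_fderiv]; ring
    _ = -∫ x, lineDeriv ℝ G x (-c) * fderiv ℝ h x b ∂μ := e
    _ = _ := by
        rw [← integral_neg]; congr 1; ext x
        rw [(hG.differentiable one_ne_zero x).lineDeriv_eq_fderiv]; simp

/-- Exchange of two directions for `F` of class `C¹` near the support of `h`. -/
lemma cross {Ω : Set E} (hΩ : IsOpen Ω) {F h : E → ℝ} (hF : ContDiffOn ℝ 1 F Ω)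
    (hh : ContDiff ℝ 1 h) (hhc : HasCompactSupport h) (hsub : tsupport h ⊆ Ω) (b c : E) :
    ∫ x, fderiv ℝ F x b * fderiv ℝ h x c ∂μ = ∫ x, fderiv ℝ F x c * fderiv ℝ h x b ∂μ := by
  obtain ⟨χ, hχ, hχc, hχΩ, hχ1⟩ := exists_cutoff hhc.isCompact hΩ hsub
  have hG : ContDiff ℝ 1 fun x => χ x * F x := by
    refine contDiff_iff_contDiffAt.2 fun x => ?_
    by_cases hx : x ∈ tsupport χ
    · exact (hχ.of_le one_le_two).contDiffAt.mul (hF.contDiffAt (hΩ.mem_nhds (hχΩ hx)))
    · refine contDiffAt_const (c := (0 : ℝ)).congr_of_eventuallyEq ?_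
      filter_upwards [notMem_tsupport_iff_eventuallyEq.1 hx] with y hy
      simp [hy]
  have eq : ∀ (v w : E) x, fderiv ℝ F x v * fderiv ℝ h x w =
      fderiv ℝ (fun x => χ x * F x) x v * fderiv ℝ h x w := by
    intro v w x
    by_cases hx : x ∈ tsupport h
    · have : (fun y => χ y * F y) =ᶠ[𝓝 x] F := by
        filter_upwards [hχ1.filter_mono (nhds_le_nhdsSet hx)] with y hy
        simp [hy]
      rw [this.fderiv_eq]
    · have : fderiv ℝ h x = 0 := by
        rw [(notMem_tsupport_iff_eventuallyEq.1 hx).fderiv_eq]; simp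
      simp [this]
  simp only [eq]
  exact cross_compact hG hχc.mul_right hh hhc b c

/-- Integration by parts against a test function supported where `f` is `C¹`. -/
lemma ibp_on {Ω : Set E} (hΩ : IsOpen Ω) {f h : E → ℝ} (hf : ContDiffOn ℝ 1 f Ω)
    (hh : ContDiff ℝ 1 h) (hhc : HasCompactSupport h) (hsub : tsupport h ⊆ Ω) (b : E) :
    ∫ x, f x * fderiv ℝ h x b ∂μ = -∫ x, fderiv ℝ f x b * h x ∂μ := by
  obtain ⟨χ, hχ, hχc, hχΩ, hχ1⟩ := exists_cutoff hhc.isCompact hΩ hsub
  have hG : ContDiff ℝ 1 fun x => χ x * f x := by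
    refine contDiff_iff_contDiffAt.2 fun x => ?_
    by_cases hx : x ∈ tsupport χ
    · exact (hχ.of_le one_le_two).contDiffAt.mul (hf.contDiffAt (hΩ.mem_nhds (hχΩ hx)))
    · refine contDiffAt_const (c := (0 : ℝ)).congr_of_eventuallyEq ?_
      filter_upwards [notMem_tsupport_iff_eventuallyEq.1 hx] with y hy
      simp [hy]
  have e1 : ∀ x, f x * fderiv ℝ h x b = (χ x * f x) * fderiv ℝ h x b := by
    intro x
    by_cases hx : x ∈ tsupport h
    · rw [(hχ1.filter_mono (nhds_le_nhdsSet hx)).self_of_nhds, one_mul]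
    · have : fderiv ℝ h x = 0 := by
        rw [(notMem_tsupport_iff_eventuallyEq.1 hx).fderiv_eq]; simp
      simp [this]
  have e2 : ∀ x, fderiv ℝ f x b * h x = fderiv ℝ (fun x => χ x * f x) x b * h x := by
    intro x
    by_cases hx : x ∈ tsupport h
    · have : (fun y => χ y * f y) =ᶠ[𝓝 x] f := by
        filter_upwards [hχ1.filter_mono (nhds_le_nhdsSet hx)] with y hy
        simp [hy]
      rw [this.fderiv_eq]
    · simp [image_eq_zero_of_notMem_tsupport hx]
  simp only [e1, e2]
  have hGc : HasCompactSupport fun x => χ x * f x := hχc.mul_right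
  have hd : Continuous fun x => fderiv ℝ (fun x => χ x * f x) x b :=
    (hG.continuous_fderiv one_ne_zero).clm_apply continuous_const
  have hd' : Continuous fun x => fderiv ℝ h x b :=
    (hh.continuous_fderiv one_ne_zero).clm_apply continuous_const
  exact integral_mul_fderiv_eq_neg_fderiv_mul_of_integrable
    ((hd.mul hh.continuous).integrable_of_hasCompactSupport hhc.mul_left)
    ((hG.continuous.mul hd').integrable_of_hasCompactSupport hGc.mul_right)
    ((hG.continuous.mul hh.continuous).integrable_of_hasCompactSupport hGc.mul_right)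
    (fun x _ => hG.differentiable one_ne_zero x) (fun x _ => hh.differentiable one_ne_zero x)

/-- Weak form of `∑ᵢ ∂ᵢ(∂ᵢ∂ⱼU hⱼ) = ∂ⱼ(ΔU) hⱼ + ∑ᵢ ∂ᵢ∂ⱼU ∂ᵢhⱼ`, integrated. -/
theorem weak_hessian {Ω : Set E} (hΩ : IsOpen Ω) {ι : Type*} [Fintype ι] (e : ι → E)
    {U f : E → ℝ} (hU : ContDiffOn ℝ 2 U Ω)
    (hfU : ∀ x ∈ Ω, f x = ∑ i, fderiv ℝ (fderiv ℝ U) x (e i) (e i))
    (hf : ContDiffOn ℝ 1 f Ω) (h : ι → E → ℝ) (hh : ∀ j, ContDiff ℝ 1 (h j))
    (hhc : ∀ j, HasCompactSupport (h j)) (hsub : ∀ j, tsupport (h j) ⊆ Ω) :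
    ∫ x, ∑ i, ∑ j, fderiv ℝ (fderiv ℝ U) x (e i) (e j) * fderiv ℝ (h j) x (e i) ∂μ =
      -∫ x, ∑ j, fderiv ℝ f x (e j) * h j x ∂μ := by
  let D := fun x (a b : E) => fderiv ℝ (fderiv ℝ U) x a b
  have hDc : ∀ a b, ContinuousOn (fun x => D x a b) Ω := by
    intro a b
    have h1 : ContDiffOn ℝ 1 (fderiv ℝ U) Ω := hU.fderiv_of_isOpen hΩ (by norm_num)
    exact ((h1.continuousOn_fderiv_of_isOpen hΩ le_rfl).clm_apply continuousOn_const).clm_apply
      continuousOn_const
  have hint : ∀ i j k, Integrable (fun x => D x i j * fderiv ℝ (h k) x (e k)) μ ∧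
      Integrable (fun x => D x i j * fderiv ℝ (h k) x i) μ := by
    intro i j k
    have : ∀ v, Integrable (fun x => D x i j * fderiv ℝ (h k) x v) μ := by
      intro v
      have hs : tsupport (fun x => fderiv ℝ (h k) x v) ⊆ tsupport (h k) := tsupport_fderiv_apply_subset ℝ v
      refine Continuous.integrable_of_hasCompactSupport ?_ ((hhc k).fderiv_apply (𝕜 := ℝ) v).mul_left
      refine continuous_iff_continuousAt.2 fun x => ?_
      by_cases hx : x ∈ tsupport (h k)
      · exact ((hDc i j).continuousAt (hΩ.mem_nhds (hsub k hx))).mul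
          (((hh k).continuous_fderiv one_ne_zero).clm_apply continuous_const).continuousAt
      · refine (continuousAt_const (y := (0 : ℝ))).congr ?_
        filter_upwards [notMem_tsupport_iff_eventuallyEq.1 (fun hx' => hx (hs hx'))] with y hy
        simp [hy]
    exact ⟨this _, this _⟩
  have hswap : ∀ i j, ∫ x, D x (e i) (e j) * fderiv ℝ (h j) x (e i) ∂μ =
      ∫ x, D x (e i) (e i) * fderiv ℝ (h j) x (e j) ∂μ := by
    intro i j
    let F := fun x => fderiv ℝ U x (e i)
    have hF : ContDiffOn ℝ 1 F Ω :=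
      (hU.fderiv_of_isOpen hΩ (by norm_num)).clm_apply contDiffOn_const
    have hFd : ∀ x ∈ Ω, ∀ v, fderiv ℝ F x v = D x v (e i) := by
      intro x hx v
      have hd : DifferentiableAt ℝ (fderiv ℝ U) x :=
        (((hU.contDiffAt (hΩ.mem_nhds hx)).fderiv_right (m := 1) (by norm_num))).differentiableAt
          one_ne_zero
      simp [F, D, fderiv_clm_apply hd (differentiableAt_const _)]
    have hz : ∀ x, x ∉ Ω → ∀ v, fderiv ℝ (h j) x v = 0 := fun x hx v =>
      image_eq_zero_of_notMem_tsupport (f := fun y => fderiv ℝ (h j) y v)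
        fun hx' => hx (hsub j (tsupport_fderiv_apply_subset ℝ v hx'))
    calc ∫ x, D x (e i) (e j) * fderiv ℝ (h j) x (e i) ∂μ
        = ∫ x, fderiv ℝ F x (e j) * fderiv ℝ (h j) x (e i) ∂μ := by
          congr 1; ext x
          by_cases hx : x ∈ Ω
          · rw [hFd x hx, show D x (e i) (e j) = D x (e j) (e i) from
              (hU.contDiffAt (hΩ.mem_nhds hx)).isSymmSndFDerivAt (by simp) _ _]
          · simp [hz x hx]
      _ = ∫ x, fderiv ℝ F x (e i) * fderiv ℝ (h j) x (e j) ∂μ :=
          cross hΩ hF (hh j) (hhc j) (hsub j) _ _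
      _ = _ := by
          congr 1; ext x
          by_cases hx : x ∈ Ω
          · rw [hFd x hx]
          · simp [hz x hx]
  calc ∫ x, ∑ i, ∑ j, D x (e i) (e j) * fderiv ℝ (h j) x (e i) ∂μ
      = ∑ i, ∑ j, ∫ x, D x (e i) (e j) * fderiv ℝ (h j) x (e i) ∂μ := by
        rw [integral_finsetSum _ fun i _ => integrable_finsetSum _ fun j _ => (hint _ _ j).2]
        exact Finset.sum_congr rfl fun i _ => integral_finsetSum _ fun j _ => (hint _ _ j).2
    _ = ∑ j, ∑ i, ∫ x, D x (e i) (e i) * fderiv ℝ (h j) x (e j) ∂μ := by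
        rw [Finset.sum_comm]
        exact Finset.sum_congr rfl fun j _ => Finset.sum_congr rfl fun i _ => hswap i j
    _ = ∑ j, -∫ x, fderiv ℝ f x (e j) * h j x ∂μ := by
        refine Finset.sum_congr rfl fun j _ => ?_
        rw [← ibp_on hΩ hf (hh j) (hhc j) (hsub j), ← integral_finsetSum _ fun i _ => (hint _ _ j).1]
        congr 1; ext x
        by_cases hx : x ∈ tsupport (h j)
        · rw [hfU x (hsub j hx), Finset.sum_mul]
        · have : fderiv ℝ (h j) x (e j) = 0 :=
            image_eq_zero_of_notMem_tsupport (f := fun y => fderiv ℝ (h j) y (e j))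
              fun hx' => hx (tsupport_fderiv_apply_subset ℝ _ hx')
          simp [this]
    _ = _ := by
        have hI : ∀ j, Integrable (fun x => fderiv ℝ f x (e j) * h j x) μ := by
          intro j
          refine Continuous.integrable_of_hasCompactSupport ?_ (hhc j).mul_left
          refine continuous_iff_continuousAt.2 fun x => ?_
          by_cases hx : x ∈ tsupport (h j)
          · exact ((((hf.continuousOn_fderiv_of_isOpen hΩ le_rfl).clm_apply
              continuousOn_const).continuousAt (hΩ.mem_nhds (hsub j hx)))).mul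
              (hh j).continuous.continuousAt
          · refine (continuousAt_const (y := (0 : ℝ))).congr ?_
            filter_upwards [notMem_tsupport_iff_eventuallyEq.1 hx] with y hy
            simp [hy]
        rw [Finset.sum_neg_distrib, ← integral_finsetSum _ fun j _ => hI j]

end Vale.Agent.P100
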