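import Mathlib
import Vale.Agent.P100.WeakHess

/-!
# An isolated point does not disturb the integral identities

Solutions in the sense of the problem are continuous on the whole space and `C²` off the origin.
We show that they have locally finite Dirichlet energy and that the divergence theorem holds
across the origin for the fields built from them.
-/

open MeasureTheory Filter Set Metric Topology Laplacian
open scoped ENNReal

namespace Vale.Agent.P100.Puncture

variable {E : Type*} [NormedAddCommGroup E] [InnerProductSpace ℝ E] [FiniteDimensional ℝ E]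
  [MeasurableSpace E] [BorelSpace E] {μ : Measure E} [μ.IsAddHaarMeasure]

omit [FiniteDimensional ℝ E] [MeasurableSpace E] [BorelSpace E] in
theorem laplacian_eq_sum_fderiv [FiniteDimensional ℝ E] (u : E → ℝ) (x : E) {ι : Type*} [Fintype ι]
    (b : OrthonormalBasis ι ℝ E) :
    Δ u x = ∑ i, fderiv ℝ (fderiv ℝ u) x (b i) (b i) := by
  rw [InnerProductSpace.laplacian_eq_iteratedFDeriv_orthonormalBasis u b]
  simp [iteratedFDeriv_two_apply]

omit [MeasurableSpace E] [BorelSpace E] in
/-- A `C²` cut-off equal to one on a ball. -/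
theorem exists_bump {r : ℝ} (hr : 0 < r) :
    ∃ β : E → ℝ, ContDiff ℝ 2 β ∧ HasCompactSupport β ∧ (∀ x, β x ∈ Icc (0 : ℝ) 1) ∧
      (∀ x, ‖x‖ ≤ r → β x = 1) ∧ (∀ x, r + 1 ≤ ‖x‖ → β x = 0) := by
  let g : ContDiffBump (0 : E) := ⟨r, r + 1, hr, by linarith⟩
  refine ⟨g, g.contDiff, g.hasCompactSupport, fun x => ⟨g.nonneg, g.le_one⟩, fun x hx => ?_,
    fun x hx => ?_⟩
  · exact g.one_of_mem_closedBall (by simpa [g] using hx)
  · exact g.zero_of_le_dist (by simpa [g] using hx)

omit [MeasurableSpace E] [BorelSpace E] in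
theorem hasFDerivAt_scale {β : E → ℝ} (hβ : ContDiff ℝ 1 β) (k : ℝ) (x : E) :
    HasFDerivAt (fun y => β (k • y)) (k • fderiv ℝ β (k • x)) x := by
  have h := ((hβ.differentiable one_ne_zero) (k • x)).hasFDerivAt.comp x
    ((hasFDerivAt_id x).const_smul k)
  refine h.congr_fderiv ?_
  ext w
  simp

omit [MeasurableSpace E] [BorelSpace E] in
/-- The functions `φ - β (k • ·)` vanish near the origin. -/
theorem tsupport_sub_scale {φ β : E → ℝ} {k : ℝ} {a b : ℝ} (hk : 1 ≤ k) (ha : 0 < a) (hab : a ≤ b)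
    (hφ : ∀ x, ‖x‖ ≤ b → φ x = 1) (hβ : ∀ x, ‖x‖ ≤ a → β x = 1) :
    tsupport (fun x => φ x - β (k • x)) ⊆ {(0 : E)}ᶜ := by
  intro x hx hx0
  simp only [mem_singleton_iff] at hx0
  subst hx0
  have hk0 : 0 < k := by linarith
  refine notMem_tsupport_iff_eventuallyEq.2 ?_ hx
  filter_upwards [Metric.closedBall_mem_nhds (0 : E) (div_pos ha hk0)] with y hy
  have hy' : ‖y‖ ≤ a / k := by simpa using hy
  have h1 : ‖y‖ ≤ b := hy'.trans ((div_le_self ha.le hk).trans hab)
  have h2 : ‖k • y‖ ≤ a := by
    rw [norm_smul, Real.norm_eq_abs, abs_of_pos hk0, mul_comm, ← le_div_iff₀ hk0]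
    exact hy'
  simp [hφ y h1, hβ _ h2]

theorem continuous_of_supported {g : E → ℝ} {Ω : Set E} (hΩ : IsOpen Ω) (hg : ContinuousOn g Ω)
    (hs : tsupport g ⊆ Ω) : Continuous g :=
  continuous_of_tsupport fun _ hx => hg.continuousAt (hΩ.mem_nhds (hs hx))

/-- A continuous function on an open set times a test function supported there is integrable. -/
theorem integrable_mul_test {g h : E → ℝ} {Ω : Set E} (hΩ : IsOpen Ω) (hg : ContinuousOn g Ω)
    (hh : Continuous h) (hhc : HasCompactSupport h) (hs : tsupport h ⊆ Ω) :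
    Integrable (fun x => g x * h x) μ :=
  (continuous_of_supported hΩ (hg.mul hh.continuousOn)
    ((tsupport_mul_subset_right).trans hs)).integrable_of_hasCompactSupport hhc.mul_left

/-- Divergence theorem across the origin. -/
theorem integral_div_eq_zero [Nontrivial E] {ι : Type*} [Fintype ι] (e : ι → E)
    {F : ι → E → ℝ} (hF : ∀ i, ContDiffOn ℝ 1 (F i) {(0 : E)}ᶜ) {R : ℝ}
    (hsupp : ∀ i x, R ≤ ‖x‖ → F i x = 0)
    (hd : Integrable (fun x => ∑ i, fderiv ℝ (F i) x (e i)) μ)
    (hi : ∀ i, Integrable (fun x => F i x / ‖x‖) μ) :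
    ∫ x, ∑ i, fderiv ℝ (F i) x (e i) ∂μ = 0 := by
  set b : ℝ := max R 2
  have hb2 : 2 ≤ b := le_max_right _ _
  obtain ⟨φ, hφ, hφc, hφI, hφ1, hφ0⟩ := exists_bump (E := E) (by linarith : (0 : ℝ) < b)
  obtain ⟨β, hβ, hβc, hβI, hβ1, hβ0⟩ := exists_bump (E := E) one_pos
  obtain ⟨C, hC⟩ := ((hβ.continuous_fderiv two_ne_zero).norm.mul continuous_norm).bounded_above_of_compact_support
    (f := fun x => ‖fderiv ℝ β x‖ * ‖x‖) (hβc.fderiv (𝕜 := ℝ)).norm.mul_right
  let k : ℕ → ℝ := fun j => (j : ℝ) + 1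
  have hk : ∀ j, 1 ≤ k j := fun j => by simp [k]
  let h : ℕ → E → ℝ := fun j x => φ x - β (k j • x)
  have hh : ∀ j, ContDiff ℝ 1 (h j) := fun j =>
    (hφ.of_le one_le_two).sub ((hβ.of_le one_le_two).comp (contDiff_id.const_smul (k j)))
  have hhc : ∀ j, HasCompactSupport (h j) := fun j =>
    hφc.sub (hβc.comp_smul (by linarith [hk j]))
  have hsub : ∀ j, tsupport (h j) ⊆ {(0 : E)}ᶜ := fun j =>
    tsupport_sub_scale (hk j) one_pos (by linarith) hφ1 hβ1
  have hΩ : IsOpen ({(0 : E)}ᶜ : Set E) := isOpen_compl_singleton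
  -- the identity for each cut-off
  have key : ∀ j, ∫ x, (∑ i, fderiv ℝ (F i) x (e i)) * h j x ∂μ =
      ∫ x, ∑ i, F i x * (k j * fderiv ℝ β (k j • x) (e i)) ∂μ := by
    intro j
    have hd' : ∀ x v, fderiv ℝ (h j) x v = fderiv ℝ φ x v - k j * fderiv ℝ β (k j • x) v := by
      intro x v
      have := ((hφ.differentiable two_ne_zero x).hasFDerivAt.fun_sub
        (hasFDerivAt_scale (hβ.of_le one_le_two) (k j) x))
      simp only [h]
      rw [this.fderiv]
      simp
    have hz : ∀ i x v, F i x * fderiv ℝ (h j) x v = -(F i x * (k j * fderiv ℝ β (k j • x) v)) := by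
      intro i x v
      rw [hd']
      by_cases hx : R ≤ ‖x‖
      · simp [hsupp i x hx]
      · have : fderiv ℝ φ x = 0 := by
          have he : φ =ᶠ[𝓝 x] fun _ => 1 := by
            filter_upwards [isOpen_ball.mem_nhds (show x ∈ ball (0 : E) b from
              mem_ball_zero_iff.2 (lt_of_lt_of_le (not_le.1 hx) (le_max_left R 2)))] with y hy
            exact hφ1 y (le_of_lt (by simpa using hy))
          rw [he.fderiv_eq, fderiv_fun_const]; rfl
        simp [this]
    have hint : ∀ i, Integrable (fun x => fderiv ℝ (F i) x (e i) * h j x) μ := fun i =>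
      integrable_mul_test hΩ (((hF i).continuousOn_fderiv_of_isOpen hΩ le_rfl).clm_apply
        continuousOn_const) (hh j).continuous (hhc j) (hsub j)
    have hint' : ∀ i, Integrable (fun x => F i x * fderiv ℝ (h j) x (e i)) μ := fun i =>
      integrable_mul_test hΩ (hF i).continuousOn
        (((hh j).continuous_fderiv one_ne_zero).clm_apply continuous_const)
        ((hhc j).fderiv_apply (𝕜 := ℝ) (e i)) ((tsupport_fderiv_apply_subset ℝ (e i)).trans (hsub j))
    simp only [Finset.sum_mul]
    rw [integral_finset_sum _ fun i _ => hint i]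
    rw [integral_finset_sum _ fun i _ => ((hint' i).neg.congr
      (Eventually.of_forall fun x => by simp [hz]))]
    refine Finset.sum_congr rfl fun i _ => ?_
    have := ibp_on (μ := μ) hΩ (hF i) (hh j) (hhc j) (hsub j) (e i)
    simp only [hz, integral_neg, neg_inj] at this
    exact this.symm
  -- each side converges
  have hne : ∀ᵐ x ∂μ, x ≠ (0 : E) := by
    rw [ae_iff]; simp
  have hlarge : ∀ x : E, x ≠ 0 → ∀ᶠ j in atTop, 2 < ‖k j • x‖ := by
    intro x hx
    have : Tendsto (fun j : ℕ => k j * ‖x‖) atTop atTop :=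
      (tendsto_natCast_atTop_atTop.atTop_add tendsto_const_nhds).atTop_mul_const (norm_pos_iff.2 hx)
    filter_upwards [this.eventually_gt_atTop 2] with j hj
    rwa [norm_smul, Real.norm_eq_abs, abs_of_pos (by linarith [hk j])]
  have L1 : Tendsto (fun j => ∫ x, (∑ i, fderiv ℝ (F i) x (e i)) * h j x ∂μ) atTop
      (𝓝 (∫ x, ∑ i, fderiv ℝ (F i) x (e i) ∂μ)) := by
    refine tendsto_integral_of_dominated_convergence
      (fun x => 2 * ‖∑ i, fderiv ℝ (F i) x (e i)‖)
      (fun j => hd.aestronglyMeasurable.mul (hh j).continuous.aestronglyMeasurable)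
      (hd.norm.const_mul 2) (fun j => Eventually.of_forall fun x => ?_) ?_
    · rw [norm_mul, mul_comm]
      refine mul_le_mul_of_nonneg_right ?_ (norm_nonneg _)
      rw [Real.norm_eq_abs, abs_le]
      constructor <;> linarith [(hφI x).1, (hφI x).2, (hβI (k j • x)).1, (hβI (k j • x)).2]
    · filter_upwards [hne] with x hx
      refine tendsto_const_nhds.congr' ?_
      filter_upwards [hlarge x hx] with j hj
      by_cases hxR : R < ‖x‖
      · have : ∀ i, fderiv ℝ (F i) x (e i) = 0 := by
          intro i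
          have he : F i =ᶠ[𝓝 x] fun _ => 0 := by
            filter_upwards [(isOpen_lt continuous_const continuous_norm).mem_nhds hxR] with y hy
            exact hsupp i y (le_of_lt hy)
          rw [he.fderiv_eq]; simp
        simp [this]
      · have h1 : (1 : ℝ) + 1 ≤ ‖k j • x‖ := by linarith
        simp [h, hφ1 x ((not_lt.1 hxR).trans (le_max_left R 2)), hβ0 _ h1]
  have L2 : Tendsto (fun j => ∫ x, ∑ i, F i x * (k j * fderiv ℝ β (k j • x) (e i)) ∂μ) atTop
      (𝓝 (∫ _, (0 : ℝ) ∂μ)) := by
    refine tendsto_integral_of_dominated_convergence (fun x => ∑ i, C * ‖e i‖ * |F i x / ‖x‖|)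
      (fun j => ?_) (integrable_finset_sum _ fun i _ => (hi i).abs.const_mul _)
      (fun j => ?_) ?_
    · refine Finset.aestronglyMeasurable_fun_sum _ fun i _ => ?_
      have h1 : AEStronglyMeasurable (F i) μ := by
        refine (((hi i).aestronglyMeasurable.mul continuous_norm.aestronglyMeasurable)).congr ?_
        filter_upwards [hne] with x hx
        simp [div_mul_cancel₀ _ (norm_ne_zero_iff.2 hx)]
      exact h1.mul (Continuous.aestronglyMeasurable (continuous_const.mul
        (((hβ.continuous_fderiv two_ne_zero).comp (continuous_const_smul _)).clm_apply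
          continuous_const)))
    · filter_upwards [hne] with x hx
      refine (norm_sum_le _ _).trans (Finset.sum_le_sum fun i _ => ?_)
      have hx0 : 0 < ‖x‖ := norm_pos_iff.2 hx
      have h1 : k j * ‖x‖ * ‖fderiv ℝ β (k j • x)‖ ≤ C := by
        refine le_trans (le_of_eq ?_) ((le_abs_self _).trans (hC (k j • x)))
        rw [norm_smul, Real.norm_eq_abs, abs_of_pos (by linarith [hk j])]; ring
      have h2 : |fderiv ℝ β (k j • x) (e i)| ≤ ‖fderiv ℝ β (k j • x)‖ * ‖e i‖ :=
        (fderiv ℝ β (k j • x)).le_opNorm (e i)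
      rw [Real.norm_eq_abs, abs_mul, abs_mul, abs_of_pos (by linarith [hk j] : 0 < k j),
        abs_div, abs_of_pos hx0]
      calc |F i x| * (k j * |fderiv ℝ β (k j • x) (e i)|)
          ≤ |F i x| * (k j * (‖fderiv ℝ β (k j • x)‖ * ‖e i‖)) :=
            mul_le_mul_of_nonneg_left (mul_le_mul_of_nonneg_left h2 (by linarith [hk j]))
              (abs_nonneg _)
        _ = (k j * ‖x‖ * ‖fderiv ℝ β (k j • x)‖) * ‖e i‖ * (|F i x| / ‖x‖) := by field_simp
        _ ≤ _ := by gcongr
    · filter_upwards [hne] with x hx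
      refine tendsto_const_nhds.congr' ?_
      filter_upwards [hlarge x hx] with j hj
      have : fderiv ℝ β (k j • x) = 0 := by
        have he : β =ᶠ[𝓝 (k j • x)] fun _ => 0 := by
          filter_upwards [(isOpen_lt continuous_const continuous_norm).mem_nhds hj] with y hy
          exact hβ0 y (by linarith [show (2 : ℝ) < ‖y‖ from hy])
        rw [he.fderiv_eq]; simp
      simp [this]
  simp only [key] at L1
  simpa using tendsto_nhds_unique L1 L2

/-- Sum of the second derivatives along a basis. -/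
noncomputable def sumSecond {ι : Type*} [Fintype ι] (b : ι → E) (g : E → ℝ) (x : E) : ℝ :=
  ∑ i, fderiv ℝ (fun y => fderiv ℝ g y (b i)) x (b i)

omit [FiniteDimensional ℝ E] [MeasurableSpace E] [BorelSpace E] in
theorem contDiff_fderiv_apply {g : E → ℝ} (hg : ContDiff ℝ 2 g) (v : E) :
    ContDiff ℝ 1 (fun x => fderiv ℝ g x v) :=
  (hg.fderiv_right (by norm_num)).clm_apply contDiff_const

omit [FiniteDimensional ℝ E] [MeasurableSpace E] [BorelSpace E] in
theorem sumSecond_eq_zero {ι : Type*} [Fintype ι] (b : ι → E) {g : E → ℝ} {x : E}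
    (hx : x ∉ tsupport g) : sumSecond b g x = 0 := by
  refine Finset.sum_eq_zero fun i _ => image_eq_zero_of_notMem_tsupport
    (f := fun x => fderiv ℝ (fun y => fderiv ℝ g y (b i)) x (b i)) fun h => hx ?_
  exact mem_of_mem_of_subset (mem_of_mem_of_subset h (tsupport_fderiv_apply_subset ℝ (b i)))
    (tsupport_fderiv_apply_subset ℝ (b i))

omit [FiniteDimensional ℝ E] [MeasurableSpace E] [BorelSpace E] in
theorem continuous_sumSecond {ι : Type*} [Fintype ι] (b : ι → E) {g : E → ℝ}
    (hg : ContDiff ℝ 2 g) : Continuous (sumSecond b g) :=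
  continuous_finset_sum _ fun i _ =>
    ((contDiff_fderiv_apply hg (b i)).continuous_fderiv one_ne_zero).clm_apply continuous_const

/-- The energy identity against a test function supported away from the origin. -/
theorem energy_identity {u f : E → ℝ} (hu : Continuous u)
    (hu2 : ContDiffOn ℝ 2 u {(0 : E)}ᶜ) (hf : Continuous f) (heq : ∀ x, x ≠ 0 → Δ u x = f x)
    {ι : Type*} [Fintype ι] (b : OrthonormalBasis ι ℝ E) {h : E → ℝ} (hh : ContDiff ℝ 2 h)
    (hhc : HasCompactSupport h) (hsub : tsupport h ⊆ {(0 : E)}ᶜ) :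
    ∫ x, (∑ i, fderiv ℝ u x (b i) ^ 2) * h x ∂μ =
      ∫ x, (u x ^ 2 / 2 * sumSecond b h x - u x * f x * h x) ∂μ := by
  have hΩ : IsOpen ({(0 : E)}ᶜ : Set E) := isOpen_compl_singleton
  have hu1 : ∀ i, ContDiffOn ℝ 1 (fun x => fderiv ℝ u x (b i)) {(0 : E)}ᶜ := fun i =>
    (hu2.fderiv_of_isOpen hΩ (by norm_num)).clm_apply contDiffOn_const
  have hj1 := hh.of_le (show (1 : WithTop ℕ∞) ≤ 2 from one_le_two)
  have hU : ContDiffOn ℝ 1 u {(0 : E)}ᶜ := hu2.of_le one_le_two
  have hi1 : ∀ i, Integrable (fun x => fderiv ℝ u x (b i) ^ 2 * h x) μ := fun i =>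
    integrable_mul_test hΩ ((hu1 i).continuousOn.pow 2) hh.continuous hhc hsub
  have hi2 : ∀ i, Integrable
      (fun x => u x * fderiv ℝ (fun y => fderiv ℝ u y (b i)) x (b i) * h x) μ := fun i =>
    integrable_mul_test hΩ (hU.continuousOn.mul
      (((hu1 i).continuousOn_fderiv_of_isOpen hΩ le_rfl).clm_apply continuousOn_const))
      hh.continuous hhc hsub
  have hi3 : ∀ i, Integrable
      (fun x => u x ^ 2 / 2 * fderiv ℝ (fun y => fderiv ℝ h y (b i)) x (b i)) μ := fun i =>
    integrable_mul_test hΩ ((hU.continuousOn.pow 2).div_const 2)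
      (((contDiff_fderiv_apply hh (b i)).continuous_fderiv one_ne_zero).clm_apply continuous_const)
      ((hhc.fderiv_apply (𝕜 := ℝ) (b i)).fderiv_apply (𝕜 := ℝ) (b i))
      (((tsupport_fderiv_apply_subset ℝ (b i)).trans (tsupport_fderiv_apply_subset ℝ (b i))).trans
        hsub)
  have step : ∀ i, ∫ x, u x ^ 2 / 2 * fderiv ℝ (fun y => fderiv ℝ h y (b i)) x (b i) ∂μ =
      ∫ x, (fderiv ℝ u x (b i) ^ 2 * h x
        + u x * fderiv ℝ (fun y => fderiv ℝ u y (b i)) x (b i) * h x) ∂μ := by
    intro i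
    have a1 := ibp_on (μ := μ) hΩ ((hU.pow 2).div_const 2) (contDiff_fderiv_apply hh (b i))
      (hhc.fderiv_apply (𝕜 := ℝ) (b i))
      ((tsupport_fderiv_apply_subset ℝ (b i)).trans hsub) (b i)
    have a2 := ibp_on (μ := μ) hΩ (f := fun y => u y * fderiv ℝ u y (b i)) (hU.mul (hu1 i))
      hj1 hhc hsub (b i)
    have e1 : ∀ x, fderiv ℝ (fun y => u y ^ 2 / 2) x (b i) * fderiv ℝ h x (b i) =
        u x * fderiv ℝ u x (b i) * fderiv ℝ h x (b i) := by
      intro x
      by_cases hx : x ∈ tsupport h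
      · have hd := ((hU.differentiableOn one_ne_zero).differentiableAt
          (hΩ.mem_nhds (hsub hx))).hasFDerivAt
        have h3 : HasFDerivAt (fun y => u y ^ 2 / 2) (u x • fderiv ℝ u x) x := by
          refine ((hd.pow 2).mul_const (2 : ℝ)⁻¹).congr_fderiv ?_ |>.congr_of_eventuallyEq ?_
          · ext w; simp; ring
          · exact Eventually.of_forall fun y => by simp [div_eq_mul_inv]
        rw [h3.fderiv]
        simp
      · have : fderiv ℝ h x = 0 := by
          rw [(notMem_tsupport_iff_eventuallyEq.1 hx).fderiv_eq]; simp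
        simp [this]
    rw [a1, integral_congr_ae (Eventually.of_forall e1), a2, neg_neg]
    refine integral_congr_ae (Eventually.of_forall fun x => ?_)
    by_cases hx : x ∈ tsupport h
    · have hd := ((hU.differentiableOn one_ne_zero).differentiableAt
        (hΩ.mem_nhds (hsub hx))).hasFDerivAt
      have hd2 := (((hu1 i).differentiableOn one_ne_zero).differentiableAt
        (hΩ.mem_nhds (hsub hx))).hasFDerivAt
      show fderiv ℝ (fun y => u y * fderiv ℝ u y (b i)) x (b i) * h x = _
      rw [(hd.fun_mul hd2).fderiv]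
      simp
      ring
    · simp [image_eq_zero_of_notMem_tsupport hx]
  have hA : Integrable (fun x => u x ^ 2 / 2 * sumSecond b h x) μ :=
    (integrable_finset_sum Finset.univ fun i _ => hi3 i).congr
      (Eventually.of_forall fun x => by simp [sumSecond, Finset.mul_sum])
  have hB : Integrable (fun x => u x * f x * h x) μ :=
    integrable_mul_test hΩ (hu.mul hf).continuousOn hh.continuous hhc hsub
  have hC : Integrable (fun x => (∑ i, fderiv ℝ u x (b i) ^ 2) * h x) μ :=
    (integrable_finset_sum Finset.univ fun i _ => hi1 i).congr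
      (Eventually.of_forall fun x => by simp [Finset.sum_mul])
  have hs : ∫ x, ∑ i, u x ^ 2 / 2 * fderiv ℝ (fun y => fderiv ℝ h y (b i)) x (b i) ∂μ =
      ∫ x, ∑ i, (fderiv ℝ u x (b i) ^ 2 * h x
        + u x * fderiv ℝ (fun y => fderiv ℝ u y (b i)) x (b i) * h x) ∂μ := by
    have hi12 : ∀ i, Integrable (fun x => fderiv ℝ u x (b i) ^ 2 * h x
        + u x * fderiv ℝ (fun y => fderiv ℝ u y (b i)) x (b i) * h x) μ := fun i =>
      (hi1 i).add (hi2 i)
    rw [integral_finset_sum _ (fun i _ => hi3 i), integral_finset_sum _ (fun i _ => hi12 i)]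
    exact Finset.sum_congr rfl fun i _ => step i
  have e2 : ∀ x, ∑ i, (fderiv ℝ u x (b i) ^ 2 * h x
      + u x * fderiv ℝ (fun y => fderiv ℝ u y (b i)) x (b i) * h x) =
      (∑ i, fderiv ℝ u x (b i) ^ 2) * h x + u x * f x * h x := by
    intro x
    by_cases hx : x ∈ tsupport h
    · have hx0 : x ≠ 0 := hsub hx
      rw [Finset.sum_add_distrib, Finset.sum_mul, ← heq x hx0, laplacian_eq_sum_fderiv u x b]
      simp only [Finset.mul_sum, Finset.sum_mul]
      congr 1
      refine Finset.sum_congr rfl fun i _ => ?_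
      rw [fderiv_clm_apply ((hu2.fderiv_of_isOpen hΩ (m := 1) (by norm_num)).differentiableOn
        one_ne_zero |>.differentiableAt (hΩ.mem_nhds hx0)) (differentiableAt_const _)]
      simp
    · simp [image_eq_zero_of_notMem_tsupport hx]
  rw [integral_congr_ae (Eventually.of_forall e2), integral_add hC hB] at hs
  rw [integral_sub hA hB]
  simp only [← Finset.mul_sum] at hs
  simp only [sumSecond]
  linarith

/-- A solution has finite Dirichlet energy across the origin. -/
theorem integrableOn_sq_fderiv (hn : 2 ≤ Module.finrank ℝ E) {u f : E → ℝ} (hu : Continuous u)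
    (hu2 : ContDiffOn ℝ 2 u {(0 : E)}ᶜ) (hf : Continuous f) (heq : ∀ x, x ≠ 0 → Δ u x = f x)
    {K : Set E} (hK : IsCompact K) {ι : Type*} [Fintype ι] (b : OrthonormalBasis ι ℝ E) :
    IntegrableOn (fun x => ∑ i, (fderiv ℝ u x (b i)) ^ 2) K μ := by
  have : Nontrivial E := Module.nontrivial_of_finrank_pos (R := ℝ) (by omega)
  obtain ⟨r, hr2, hKr⟩ := hK.isBounded.subset_closedBall_lt 2 (0 : E)
  obtain ⟨φ, hφ, hφc, hφI, hφ1, hφ0⟩ := exists_bump (E := E) (by linarith : (0 : ℝ) < r)
  obtain ⟨β, hβ, hβc, hβI, hβ1, hβ0⟩ := exists_bump (E := E) one_pos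
  have hΩ : IsOpen ({(0 : E)}ᶜ : Set E) := isOpen_compl_singleton
  have hu1 : ∀ i, ContDiffOn ℝ 1 (fun x => fderiv ℝ u x (b i)) {(0 : E)}ᶜ := fun i =>
    (hu2.fderiv_of_isOpen hΩ (by norm_num)).clm_apply contDiffOn_const
  have hDc : ∀ {g : E → ℝ}, ContDiff ℝ 2 g → HasCompactSupport g →
      Continuous (sumSecond b g) ∧ HasCompactSupport (sumSecond b g) := fun hg hgc =>
    ⟨continuous_sumSecond b hg, HasCompactSupport.intro hgc fun x hx => sumSecond_eq_zero b hx⟩
  obtain ⟨M, hM⟩ := (isCompact_closedBall (0 : E) (r + 1)).exists_bound_of_continuousOn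
    (((hu.pow 2).div_const 2).continuousOn)
  have hM0 : 0 ≤ M := (norm_nonneg _).trans (hM 0 (by simp; linarith))
  let k : ℕ → ℝ := fun j => (j : ℝ) + 1
  have hk : ∀ j, 1 ≤ k j := fun j => by simp [k]
  let h : ℕ → E → ℝ := fun j x => φ x - β (k j • x)
  have hh : ∀ j, ContDiff ℝ 2 (h j) := fun j => hφ.sub (hβ.comp (contDiff_id.const_smul (k j)))
  have hhc : ∀ j, HasCompactSupport (h j) := fun j =>
    hφc.sub (hβc.comp_smul (by linarith [hk j]))
  have hsub : ∀ j, tsupport (h j) ⊆ {(0 : E)}ᶜ := fun j =>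
    tsupport_sub_scale (hk j) one_pos (by linarith) hφ1 hβ1
  have hh0 : ∀ j x, 0 ≤ h j x := by
    intro j x
    by_cases hx : 2 ≤ ‖k j • x‖
    · simp [h, hβ0 _ (by linarith : (1 : ℝ) + 1 ≤ _), (hφI x).1]
    · have : ‖x‖ ≤ r := by
        rw [norm_smul, Real.norm_eq_abs, abs_of_pos (by linarith [hk j] : 0 < k j)] at hx
        nlinarith [hk j, norm_nonneg x]
      simp [h, hφ1 x this, (hβI _).2]
  have hDh : ∀ j x, sumSecond b (h j) x = sumSecond b φ x - k j ^ 2 * sumSecond b β (k j • x) := by
    intro j x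
    simp only [sumSecond, Finset.mul_sum, ← Finset.sum_sub_distrib]
    refine Finset.sum_congr rfl fun i _ => ?_
    have h1 : (fun y => fderiv ℝ (h j) y (b i)) =
        fun y => fderiv ℝ φ y (b i) - k j * fderiv ℝ β (k j • y) (b i) := by
      funext y
      have := ((hφ.differentiable two_ne_zero y).hasFDerivAt.fun_sub
        (hasFDerivAt_scale (hβ.of_le one_le_two) (k j) y))
      simp only [h]
      rw [this.fderiv]
      simp
    have h2 := ((((contDiff_fderiv_apply hφ (b i)).differentiable one_ne_zero x).hasFDerivAt).fun_sub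
      ((hasFDerivAt_scale (contDiff_fderiv_apply hβ (b i)) (k j) x).const_mul (k j)))
    rw [h1, h2.fderiv]
    simp
    ring
  have key := fun j => energy_identity (μ := μ) hu hu2 hf heq b (hh j) (hhc j) (hsub j)
  -- a bound independent of the cut-off
  obtain ⟨hφD, hφDc⟩ := hDc hφ hφc
  obtain ⟨hβD, hβDc⟩ := hDc hβ hβc
  let B : ℝ := M * (∫ x, |sumSecond b φ x| ∂μ + ∫ x, |sumSecond b β x| ∂μ) + ∫ x, |u x * f x| * (2 * φ x) ∂μ
  have bound : ∀ j, ∫ x, (∑ i, fderiv ℝ u x (b i) ^ 2) * h j x ∂μ ≤ B := by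
    intro j
    rw [key j]
    have i1 : Integrable (fun x => |sumSecond b φ x|) μ :=
      hφD.abs.integrable_of_hasCompactSupport hφDc.abs
    have i2 : Integrable (fun x => |sumSecond b β (k j • x)|) μ :=
      (hβD.abs.comp (continuous_const_smul _)).integrable_of_hasCompactSupport
        (hβDc.abs.comp_smul (by linarith [hk j]))
    have i3 : Integrable (fun x => |u x * f x| * (2 * φ x)) μ :=
      ((hu.mul hf).abs.mul (continuous_const.mul hφ.continuous)).integrable_of_hasCompactSupport
        (hφc.mul_left.mul_left)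
    have le1 : ∀ x, u x ^ 2 / 2 * sumSecond b (h j) x - u x * f x * h j x ≤
        M * (|sumSecond b φ x| + k j ^ 2 * |sumSecond b β (k j • x)|) + |u x * f x| * (2 * φ x) := by
      intro x
      refine le_trans (sub_le_sub le_rfl le_rfl) ?_
      have h1 : u x ^ 2 / 2 * sumSecond b (h j) x ≤ M * (|sumSecond b φ x| + k j ^ 2 * |sumSecond b β (k j • x)|) := by
        rw [hDh]
        by_cases hx : ‖x‖ ≤ r + 1
        · have h2 : u x ^ 2 / 2 ≤ M :=
            (le_abs_self _).trans (hM x (by simpa using hx))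
          have h3 : |sumSecond b φ x - k j ^ 2 * sumSecond b β (k j • x)| ≤ |sumSecond b φ x| + k j ^ 2 * |sumSecond b β (k j • x)| := by
            refine (abs_sub _ _).trans (le_of_eq ?_)
            rw [abs_mul, abs_of_nonneg (sq_nonneg (k j))]
          exact (mul_le_mul_of_nonneg_left ((le_abs_self _).trans h3) (by positivity)).trans
            (mul_le_mul_of_nonneg_right h2 (by positivity))
        · have : sumSecond b (h j) x = 0 := by
            refine sumSecond_eq_zero b ?_
            refine notMem_tsupport_iff_eventuallyEq.2 ?_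
            filter_upwards [(isOpen_lt continuous_const continuous_norm).mem_nhds (not_le.1 hx)]
              with y hy
            have hy' : r + 1 < ‖y‖ := hy
            have : 1 + 1 ≤ ‖k j • y‖ := by
              rw [norm_smul, Real.norm_eq_abs, abs_of_pos (by linarith [hk j] : 0 < k j)]
              nlinarith [hk j, norm_nonneg y]
            simp [h, hφ0 y hy'.le, hβ0 _ this]
          rw [← hDh, this, mul_zero]
          positivity
      have h4 : -(u x * f x * h j x) ≤ |u x * f x| * (2 * φ x) := by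
        refine (neg_le_abs _).trans ?_
        rw [abs_mul, abs_of_nonneg (hh0 j x)]
        refine mul_le_mul_of_nonneg_left ?_ (abs_nonneg _)
        have := (hβI (k j • x)).1
        simp only [h]
        linarith [(hφI x).1]
      linarith
    have hA : Integrable (fun x => u x ^ 2 / 2 * sumSecond b (h j) x - u x * f x * h j x) μ := by
      refine Integrable.sub ?_ (integrable_mul_test hΩ (hu.mul hf).continuousOn (hh j).continuous
        (hhc j) (hsub j))
      obtain ⟨c1, c2⟩ := hDc (hh j) (hhc j)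
      exact (((hu.pow 2).div_const 2).mul c1).integrable_of_hasCompactSupport c2.mul_left
    have i4 : Integrable (fun x => M * (|sumSecond b φ x| + k j ^ 2 * |sumSecond b β (k j • x)|)) μ :=
      (i1.add (i2.const_mul _)).const_mul M
    refine (integral_mono hA (i4.add i3) le1).trans ?_
    simp only [Pi.add_apply]
    rw [integral_add i4 i3, integral_const_mul, integral_add i1 (i2.const_mul _),
      integral_const_mul, Measure.integral_comp_smul μ (fun x => |sumSecond b β x|) (k j), smul_eq_mul]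
    simp only [B]
    have hk0 : 0 < k j := by linarith [hk j]
    have hI : 0 ≤ ∫ x, |sumSecond b β x| ∂μ := integral_nonneg fun _ => abs_nonneg _
    have h5 : k j ^ 2 * |(k j ^ Module.finrank ℝ E)⁻¹| ≤ 1 := by
      rw [abs_of_pos (by positivity), ← div_eq_mul_inv, div_le_one (by positivity)]
      exact pow_le_pow_right₀ (hk j) hn
    nlinarith [mul_le_of_le_one_left hI h5, mul_nonneg hM0 hI]
  -- Fatou
  let g : E → ℝ := fun x => ∑ i, fderiv ℝ u x (b i) ^ 2
  have hg0 : ∀ x, 0 ≤ g x := fun x => Finset.sum_nonneg fun i _ => sq_nonneg _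
  have hgm : Measurable g := Finset.measurable_fun_sum _ fun i _ =>
    (measurable_fderiv_apply_const ℝ u (b i)).pow_const 2
  refine ⟨hgm.aestronglyMeasurable, ?_⟩
  rw [hasFiniteIntegral_iff_ofReal (Eventually.of_forall hg0)]
  have lim : ∀ᵐ x ∂(μ.restrict K), Tendsto (fun j => g x * h j x) atTop (𝓝 (g x)) := by
    have hne : ∀ᵐ x ∂μ, x ≠ (0 : E) := by
      rw [ae_iff]; simp
    filter_upwards [ae_restrict_of_ae hne, ae_restrict_mem hK.measurableSet] with x hx hxK
    refine tendsto_const_nhds.congr' ?_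
    have : Tendsto (fun j : ℕ => k j * ‖x‖) atTop atTop :=
      (tendsto_natCast_atTop_atTop.atTop_add tendsto_const_nhds).atTop_mul_const (norm_pos_iff.2 hx)
    filter_upwards [this.eventually_ge_atTop 2] with j hj
    have h1 : 1 + 1 ≤ ‖k j • x‖ := by
      rw [norm_smul, Real.norm_eq_abs, abs_of_pos (by linarith [hk j] : 0 < k j)]; linarith
    simp [h, hφ1 x (by simpa using hKr hxK), hβ0 _ h1]
  calc ∫⁻ x in K, ENNReal.ofReal (g x) ∂μ
      = ∫⁻ x in K, liminf (fun j => ENNReal.ofReal (g x * h j x)) atTop ∂μ := by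
        refine lintegral_congr_ae ?_
        filter_upwards [lim] with x hx
        exact ((ENNReal.continuous_ofReal.tendsto _).comp hx).liminf_eq.symm
    _ ≤ liminf (fun j => ∫⁻ x in K, ENNReal.ofReal (g x * h j x) ∂μ) atTop :=
        lintegral_liminf_le fun j =>
          ENNReal.measurable_ofReal.comp (hgm.mul (hh j).continuous.measurable)
    _ ≤ ENNReal.ofReal B := by
        refine liminf_le_of_frequently_le' (Frequently.of_forall fun j => ?_)
        refine (setLIntegral_le_lintegral K _).trans ?_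
        rw [← ofReal_integral_eq_lintegral_ofReal ?_
          (Eventually.of_forall fun x => mul_nonneg (hg0 x) (hh0 j x))]
        · exact ENNReal.ofReal_le_ofReal (bound j)
        · exact integrable_mul_test hΩ (continuousOn_finset_sum _ fun i _ =>
            (hu1 i).continuousOn.pow 2) (hh j).continuous (hhc j) (hsub j)
    _ < ⊤ := ENNReal.ofReal_lt_top

/-- Finite Dirichlet energy, in operator norm. -/
theorem integrableOn_norm_fderiv_sq (hn : 2 ≤ Module.finrank ℝ E) {u f : E → ℝ}
    (hu : Continuous u) (hu2 : ContDiffOn ℝ 2 u {(0 : E)}ᶜ) (hf : Continuous f)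
    (heq : ∀ x, x ≠ 0 → Δ u x = f x) {K : Set E} (hK : IsCompact K) :
    IntegrableOn (fun x => ‖fderiv ℝ u x‖ ^ 2) K μ := by
  refine (integrableOn_sq_fderiv hn hu hu2 hf heq hK (stdOrthonormalBasis ℝ E)).mono'
    ((measurable_fderiv ℝ u).norm.pow_const 2).aestronglyMeasurable
    (Eventually.of_forall fun x => ?_)
  set b := stdOrthonormalBasis ℝ E
  set L := fderiv ℝ u x
  rw [Real.norm_eq_abs, abs_of_nonneg (sq_nonneg _),
    ← (InnerProductSpace.toDual ℝ E).symm.norm_map L, ← b.sum_sq_norm_inner_left]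
  refine le_of_eq (Finset.sum_congr rfl fun i _ => ?_)
  rw [Real.norm_eq_abs, sq_abs, InnerProductSpace.toDual_symm_apply]

/-- `‖x‖⁻²` is locally integrable in dimension at least three. -/
theorem integrableOn_inv_norm_sq (hn : 3 ≤ Module.finrank ℝ E) (r : ℝ) :
    IntegrableOn (fun x : E => (‖x‖ ^ 2)⁻¹) (ball 0 r) μ := by
  have : Nontrivial E := Module.nontrivial_of_finrank_pos (R := ℝ) (by omega)
  rw [integrableOn_fun_norm_addHaar μ (f := fun t : ℝ => (t ^ 2)⁻¹)]
  have hc : IntegrableOn (fun t : ℝ => t ^ (Module.finrank ℝ E - 3)) (Ioo 0 r) :=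
    ((continuous_pow _).integrableOn_Icc (a := 0) (b := r)).mono_set Ioo_subset_Icc_self
  refine hc.congr_fun (fun t ht => ?_) measurableSet_Ioo
  have ht0 : t ≠ 0 := (ne_of_gt ht.1)
  simp only [smul_eq_mul]
  rw [show Module.finrank ℝ E - 1 = Module.finrank ℝ E - 3 + 2 by omega, pow_add]
  field_simp

/-- The equation holds weakly across the origin. -/
theorem weak_laplacian (hn : 3 ≤ Module.finrank ℝ E) {u f : E → ℝ} (hu : Continuous u)
    (hu2 : ContDiffOn ℝ 2 u {(0 : E)}ᶜ) (hf : Continuous f) (heq : ∀ x, x ≠ 0 → Δ u x = f x)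
    {φ : E → ℝ} (hφ : ContDiff ℝ 1 φ) (hφc : HasCompactSupport φ)
    {ι : Type*} [Fintype ι] (b : OrthonormalBasis ι ℝ E) :
    ∫ x, ∑ i, fderiv ℝ u x (b i) * fderiv ℝ φ x (b i) ∂μ = -∫ x, f x * φ x ∂μ := by
  have : Nontrivial E := Module.nontrivial_of_finrank_pos (R := ℝ) (by omega)
  have hΩ : IsOpen ({(0 : E)}ᶜ : Set E) := isOpen_compl_singleton
  obtain ⟨R, hR⟩ := hφc.isCompact.isBounded.subset_closedBall (0 : E)
  have hz : ∀ x : E, R + 1 ≤ ‖x‖ → φ x = 0 := fun x hx =>
    image_eq_zero_of_notMem_tsupport fun hm => by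
      have := hR hm
      simp at this
      linarith
  have hK : IsCompact (closedBall (0 : E) (R + 1)) := isCompact_closedBall _ _
  have hu1 : ∀ i, ContDiffOn ℝ 1 (fun x => fderiv ℝ u x (b i)) {(0 : E)}ᶜ := fun i =>
    (hu2.fderiv_of_isOpen hΩ (by norm_num)).clm_apply contDiffOn_const
  have hsq : ∀ i, IntegrableOn (fun x => fderiv ℝ u x (b i) ^ 2) (closedBall 0 (R + 1)) μ := by
    intro i
    refine (integrableOn_sq_fderiv (μ := μ) (by omega) hu hu2 hf heq hK b).mono'
      ((measurable_fderiv_apply_const ℝ u (b i)).pow_const 2).aestronglyMeasurable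
      (Eventually.of_forall fun x => ?_)
    rw [Real.norm_eq_abs, abs_of_nonneg (sq_nonneg _)]
    exact Finset.single_le_sum (fun j _ => sq_nonneg (fderiv ℝ u x (b j))) (Finset.mem_univ i)
  have hfin : IntegrableOn (fun _ : E => (1 : ℝ)) (closedBall 0 (R + 1)) μ :=
    integrableOn_const (μ := μ) hK.measure_lt_top.ne
  have hgrad : ∀ i {g : E → ℝ}, Continuous g → (∀ x, R + 1 ≤ ‖x‖ → g x = 0) →
      Integrable (fun x => g x * fderiv ℝ u x (b i)) μ := by
    intro i g hg hg0
    obtain ⟨C, hC⟩ := hK.exists_bound_of_continuousOn hg.continuousOn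
    rw [← integrableOn_iff_integrable_of_support_subset (s := closedBall 0 (R + 1))]
    · refine ((hsq i).add hfin |>.const_mul C).mono'
        (hg.aestronglyMeasurable.mul (measurable_fderiv_apply_const ℝ u (b i)).aestronglyMeasurable)
        ((ae_restrict_iff' hK.measurableSet).2 (Eventually.of_forall fun x hx => ?_))
      rw [norm_mul]
      refine mul_le_mul (hC x hx) ?_ (norm_nonneg _) ((norm_nonneg _).trans (hC x hx))
      rw [Real.norm_eq_abs]
      show |fderiv ℝ u x (b i)| ≤ fderiv ℝ u x (b i) ^ 2 + 1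
      nlinarith [sq_abs (fderiv ℝ u x (b i)), sq_nonneg (|fderiv ℝ u x (b i)| - 1)]
    · intro x hx
      by_contra h
      refine hx ?_
      simp [hg0 x (le_of_lt (by simpa using h))]
  have hdφ : ∀ i, ∀ x : E, R + 1 ≤ ‖x‖ → fderiv ℝ φ x (b i) = 0 := fun i x hx =>
    image_eq_zero_of_notMem_tsupport (f := fun x => fderiv ℝ φ x (b i)) fun hm => by
      have := hR (mem_of_mem_of_subset hm (tsupport_fderiv_apply_subset ℝ (b i)))
      simp at this
      linarith
  have hI : Integrable (fun x => f x * φ x) μ :=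
    (hf.mul hφ.continuous).integrable_of_hasCompactSupport hφc.mul_left
  have hJ : Integrable (fun x => ∑ i, fderiv ℝ u x (b i) * fderiv ℝ φ x (b i)) μ :=
    integrable_finset_sum _ fun i _ => (hgrad i ((hφ.continuous_fderiv one_ne_zero).clm_apply
      continuous_const) (hdφ i)).congr (Eventually.of_forall fun x => mul_comm _ _)
  have hne : ∀ᵐ x ∂μ, x ≠ (0 : E) := by
    rw [ae_iff]; simp
  have hdiv : (fun x => ∑ i, fderiv ℝ (fun y => φ y * fderiv ℝ u y (b i)) x (b i)) =ᵐ[μ]
      fun x => (∑ i, fderiv ℝ u x (b i) * fderiv ℝ φ x (b i)) + f x * φ x := by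
    filter_upwards [hne] with x hx
    rw [← heq x hx, laplacian_eq_sum_fderiv u x b, Finset.sum_mul, ← Finset.sum_add_distrib]
    refine Finset.sum_congr rfl fun i _ => ?_
    have h1 : HasFDerivAt (fun y => fderiv ℝ u y (b i))
        ((ContinuousLinearMap.apply ℝ ℝ (b i)).comp (fderiv ℝ (fderiv ℝ u) x)) x :=
      (ContinuousLinearMap.apply ℝ ℝ (b i)).hasFDerivAt.comp x
        ((((hu2.fderiv_of_isOpen hΩ (m := 1) (by norm_num)).differentiableOn one_ne_zero)
          |>.differentiableAt (hΩ.mem_nhds hx)).hasFDerivAt)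
    rw [((hφ.differentiable one_ne_zero x).hasFDerivAt.fun_mul h1).fderiv]
    simp
    ring
  have h0 := integral_div_eq_zero (μ := μ) (fun i => b i)
    (F := fun i x => φ x * fderiv ℝ u x (b i)) (fun i => hφ.contDiffOn.mul (hu1 i)) (R := R + 1)
    (fun i x hx => by simp [hz x hx]) ((hJ.add hI).congr hdiv.symm) (fun i => ?_)
  · rw [integral_congr_ae hdiv, integral_add hJ hI] at h0
    linarith
  · obtain ⟨C, hC⟩ := hK.exists_bound_of_continuousOn hφ.continuous.continuousOn
    rw [← integrableOn_iff_integrable_of_support_subset (s := closedBall 0 (R + 1))]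
    · refine ((hsq i).add ((integrableOn_inv_norm_sq (μ := μ) hn (R + 2)).mono_set
        (closedBall_subset_ball (by linarith))) |>.const_mul C).mono'
        (((hφ.continuous.measurable.mul (measurable_fderiv_apply_const ℝ u (b i))).div
          continuous_norm.measurable).aestronglyMeasurable)
        ((ae_restrict_iff' hK.measurableSet).2 (Eventually.of_forall fun x hx => ?_))
      rw [mul_div_assoc, norm_mul]
      refine mul_le_mul (hC x hx) ?_ (norm_nonneg _) ((norm_nonneg _).trans (hC x hx))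
      rw [Real.norm_eq_abs, abs_div, abs_norm]
      show |fderiv ℝ u x (b i)| / ‖x‖ ≤ fderiv ℝ u x (b i) ^ 2 + (‖x‖ ^ 2)⁻¹
      rw [div_eq_mul_inv, ← inv_pow]
      nlinarith [sq_abs (fderiv ℝ u x (b i)), sq_nonneg (|fderiv ℝ u x (b i)| - ‖x‖⁻¹),
        abs_nonneg (fderiv ℝ u x (b i)), inv_nonneg.2 (norm_nonneg x)]
    · intro x hx
      by_contra h
      refine hx ?_
      simp [hz x (le_of_lt (by simpa using h))]

end Vale.Agent.P100.Puncture
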