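import Mathlib

/-!
# Sobolev inequality on the spheres of a Euclidean space

If `f` is of class `C¹` near the sphere of radius `r ∈ [1, 2]` in `ℝⁿ`, `n ≥ 3`, then the
`Lˢ` norm of `f` on that sphere is controlled by the `Lᵖ` norms of `f` and of its differential,
whenever `1/p - 1/(n-1) ≤ 1/s`. Integrals on spheres are taken with `volume.toSphere`.

The proof uses central projections from the hyperplanes `x i = ±1` and Mathlib's
Gagliardo-Nirenberg-Sobolev inequality on those hyperplanes.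
-/

open MeasureTheory Set Metric Filter Topology
open scoped ENNReal NNReal

namespace Vale.Agent.P100.SphereSobolev

variable {m : ℕ}


/-- The point with `i`-th coordinate `t` and remaining coordinates `y`. -/
def lift (i : Fin (m + 1)) (t : ℝ) (y : (EuclideanSpace ℝ (Fin m))) : (EuclideanSpace ℝ (Fin (m + 1))) :=
  WithLp.toLp 2 (i.insertNth t (fun j => y j))

theorem lift_self (i : Fin (m + 1)) (t : ℝ) (y : (EuclideanSpace ℝ (Fin m))) : lift i t y i = t := by
  simp [lift]

theorem lift_succAbove (i : Fin (m + 1)) (t : ℝ) (y : (EuclideanSpace ℝ (Fin m))) (j : Fin m) :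
    lift i t y (i.succAbove j) = y j := by
  simp [lift]

theorem lift_smul (i : Fin (m + 1)) (a t : ℝ) (y : (EuclideanSpace ℝ (Fin m))) :
    lift i (a * t) (a • y) = a • lift i t y := by
  ext k
  refine Fin.succAboveCases i ?_ (fun j => ?_) k
  · simp [lift_self]
  · simp [lift_succAbove]

theorem norm_sq_lift (i : Fin (m + 1)) (t : ℝ) (y : (EuclideanSpace ℝ (Fin m))) :
    ‖lift i t y‖ ^ 2 = t ^ 2 + ‖y‖ ^ 2 := by
  rw [EuclideanSpace.norm_sq_eq, EuclideanSpace.norm_sq_eq, Fin.sum_univ_succAbove _ i]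
  simp [lift_self, lift_succAbove, Real.norm_eq_abs, sq_abs]

theorem lift_ne_zero (i : Fin (m + 1)) {t : ℝ} (ht : t ≠ 0) (y : (EuclideanSpace ℝ (Fin m))) : lift i t y ≠ 0 := by
  intro h
  have := lift_self i t y
  rw [h] at this
  exact ht (by simpa using this.symm)

theorem eq_lift (i : Fin (m + 1)) (x : (EuclideanSpace ℝ (Fin (m + 1)))) :
    x = lift i (x i) (WithLp.toLp 2 fun j => x (i.succAbove j)) := by
  ext k
  refine Fin.succAboveCases i ?_ (fun j => ?_) k
  · simp [lift_self]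
  · simp [lift_succAbove]

theorem contDiff_lift (i : Fin (m + 1)) (t : ℝ) : ContDiff ℝ 1 (lift i t : (EuclideanSpace ℝ (Fin m)) → (EuclideanSpace ℝ (Fin (m + 1)))) := by
  refine (contDiff_piLp 2).mpr fun k => ?_
  refine Fin.succAboveCases i ?_ (fun j => ?_) k
  · simpa [lift_self] using contDiff_const
  · simpa [lift_succAbove] using
      contDiff_piLp_apply (𝕜 := ℝ) (p := 2) (E := fun _ : Fin m => ℝ) (n := 1) (i := j)

theorem measurePreserving_lift (i : Fin (m + 1)) :
    MeasurePreserving (fun z : ℝ × (EuclideanSpace ℝ (Fin m)) => lift i z.1 z.2) (volume.prod volume) volume := by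
  have h1 : MeasurePreserving (Prod.map id (@WithLp.ofLp 2 (Fin m → ℝ)))
      ((volume : Measure ℝ).prod (volume : Measure (EuclideanSpace ℝ (Fin m)))) (volume.prod volume) :=
    (MeasurePreserving.id volume).prod (PiLp.volume_preserving_ofLp (Fin m))
  have h2 := (volume_preserving_piFinSuccAbove (fun _ : Fin (m + 1) => ℝ) i).symm
    (MeasurableEquiv.piFinSuccAbove (fun _ : Fin (m + 1) => ℝ) i)
  exact (PiLp.volume_preserving_toLp (Fin (m + 1))).comp (h2.comp h1)

theorem lintegral_lift (i : Fin (m + 1)) {g : (EuclideanSpace ℝ (Fin (m + 1))) → ℝ≥0∞} (hg : Measurable g) :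
    ∫⁻ x, g x = ∫⁻ t : ℝ, ∫⁻ y : (EuclideanSpace ℝ (Fin m)), g (lift i t y) := by
  rw [← (measurePreserving_lift i).lintegral_comp hg]
  exact lintegral_prod _ (hg.comp (measurePreserving_lift i).measurable).aemeasurable

/-- The unit vector in the direction of `x`. -/
noncomputable def proj (x : (EuclideanSpace ℝ (Fin (m + 1)))) : (EuclideanSpace ℝ (Fin (m + 1))) := ‖x‖⁻¹ • x

theorem norm_proj {x : (EuclideanSpace ℝ (Fin (m + 1)))} (hx : x ≠ 0) : ‖proj x‖ = 1 := norm_smul_inv_norm hx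

theorem proj_smul {a : ℝ} (ha : 0 < a) (x : (EuclideanSpace ℝ (Fin (m + 1)))) : proj (a • x) = proj x := by
  simp only [proj, norm_smul, Real.norm_eq_abs, abs_of_pos ha, smul_smul]
  congr 1
  field_simp

/-- Scaling of a ball in the hyperplane. -/
theorem setLIntegral_closedBall_scale {a : ℝ} (ha : 0 < a) (K : ℝ) {h : (EuclideanSpace ℝ (Fin m)) → ℝ≥0∞}
    (hh : Measurable h) :
    ∫⁻ z in closedBall 0 (a * K), h z =
      ENNReal.ofReal (a ^ m) * ∫⁻ y in closedBall 0 K, h (a • y) := by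
  have key := lintegral_map (μ := (volume : Measure (EuclideanSpace ℝ (Fin m))))
    (hh.indicator (measurableSet_closedBall (x := (0 : (EuclideanSpace ℝ (Fin m)))) (ε := a * K)))
    (measurable_const_smul a)
  rw [Measure.map_addHaar_smul _ ha.ne', lintegral_smul_measure, finrank_euclideanSpace_fin] at key
  have h2 : ∀ y : (EuclideanSpace ℝ (Fin m)), (closedBall (0 : (EuclideanSpace ℝ (Fin m))) (a * K)).indicator h (a • y) =
      (closedBall (0 : (EuclideanSpace ℝ (Fin m))) K).indicator (fun y => h (a • y)) y := by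
    intro y
    by_cases hy : ‖y‖ ≤ K
    · rw [indicator_of_mem, indicator_of_mem (f := fun y => h (a • y))]
      · simpa using hy
      · simpa [norm_smul, abs_of_pos ha] using mul_le_mul_of_nonneg_left hy ha.le
    · rw [indicator_of_notMem, indicator_of_notMem (f := fun y => h (a • y))]
      · simpa using hy
      · simpa [norm_smul, abs_of_pos ha] using
          mul_lt_mul_of_pos_left (lt_of_not_ge hy) ha
  simp only [h2, lintegral_indicator measurableSet_closedBall, smul_eq_mul] at key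
  rw [← key, ← mul_assoc, ← ENNReal.ofReal_mul (by positivity), abs_of_pos (by positivity),
    mul_inv_cancel₀ (by positivity), ENNReal.ofReal_one, one_mul]

/-- Polar coordinates for a function constant on rays. -/
theorem setLIntegral_ball_homogeneous {H : (EuclideanSpace ℝ (Fin (m + 1))) → ℝ≥0∞} (hH : Measurable H)
    (hhom : ∀ x, ∀ a : ℝ, 0 < a → H (a • x) = H x) {R : ℝ} (hR : 0 < R) :
    ∫⁻ x in ball 0 R, H x =
      (∫⁻ θ : sphere (0 : (EuclideanSpace ℝ (Fin (m + 1)))) 1, H (θ : (EuclideanSpace ℝ (Fin (m + 1)))) ∂(volume : Measure (EuclideanSpace ℝ (Fin (m + 1)))).toSphere) *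
        ENNReal.ofReal (R ^ (m + 1) / ((m : ℝ) + 1)) := by
  rw [← lintegral_indicator measurableSet_ball]
  have h0 : ∫⁻ x, (ball (0 : (EuclideanSpace ℝ (Fin (m + 1)))) R).indicator H x =
      ∫⁻ x : ({(0 : (EuclideanSpace ℝ (Fin (m + 1))))}ᶜ : Set (EuclideanSpace ℝ (Fin (m + 1)))), (ball (0 : (EuclideanSpace ℝ (Fin (m + 1)))) R).indicator H x
        ∂((volume : Measure (EuclideanSpace ℝ (Fin (m + 1)))).comap Subtype.val) := by
    rw [lintegral_subtype_comap (measurableSet_singleton _).compl, restrict_compl_singleton]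
  rw [h0]
  have hdim : Module.finrank ℝ (EuclideanSpace ℝ (Fin (m + 1))) - 1 = m := by simp
  let G : sphere (0 : (EuclideanSpace ℝ (Fin (m + 1)))) 1 × Ioi (0 : ℝ) → ℝ≥0∞ := fun z =>
    H (z.1 : (EuclideanSpace ℝ (Fin (m + 1)))) * (Iio (⟨R, hR⟩ : Ioi (0 : ℝ))).indicator (fun _ => 1) z.2
  have hG : Measurable G :=
    (hH.comp (measurable_subtype_coe.comp measurable_fst)).mul
      ((measurable_const.indicator measurableSet_Iio).comp measurable_snd)
  have key := (Measure.measurePreserving_homeomorphUnitSphereProd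
    (volume : Measure (EuclideanSpace ℝ (Fin (m + 1))))).lintegral_comp hG
  calc ∫⁻ x : ({(0 : (EuclideanSpace ℝ (Fin (m + 1))))}ᶜ : Set (EuclideanSpace ℝ (Fin (m + 1)))), (ball (0 : (EuclideanSpace ℝ (Fin (m + 1)))) R).indicator H x
        ∂((volume : Measure (EuclideanSpace ℝ (Fin (m + 1)))).comap Subtype.val)
      = ∫⁻ x, G (homeomorphUnitSphereProd (EuclideanSpace ℝ (Fin (m + 1))) x) ∂((volume : Measure (EuclideanSpace ℝ (Fin (m + 1)))).comap Subtype.val) := by
        refine lintegral_congr fun x => ?_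
        have hx : (x : (EuclideanSpace ℝ (Fin (m + 1)))) ≠ 0 := x.2
        have hn : (0 : ℝ) < ‖(x : (EuclideanSpace ℝ (Fin (m + 1))))‖ := norm_pos_iff.2 hx
        simp only [G]
        by_cases hR' : ‖(x : (EuclideanSpace ℝ (Fin (m + 1))))‖ < R
        · rw [indicator_of_mem (by simpa using hR'), indicator_of_mem]
          · simp [hhom _ _ (inv_pos.2 hn)]
          · rw [mem_Iio, ← Subtype.coe_lt_coe]
            simpa using hR'
        · rw [indicator_of_notMem (by simpa using hR'), indicator_of_notMem]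
          · simp
          · rw [mem_Iio, ← Subtype.coe_lt_coe]
            simpa using hR'
    _ = ∫⁻ z, G z ∂(volume : Measure (EuclideanSpace ℝ (Fin (m + 1)))).toSphere.prod
          (Measure.volumeIoiPow (Module.finrank ℝ (EuclideanSpace ℝ (Fin (m + 1))) - 1)) := key
    _ = _ := by
        simp only [G]
        rw [lintegral_prod_mul (f := fun θ : sphere (0 : (EuclideanSpace ℝ (Fin (m + 1)))) 1 => H (θ : (EuclideanSpace ℝ (Fin (m + 1)))))
          (hH.comp measurable_subtype_coe).aemeasurable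
          (measurable_const.indicator measurableSet_Iio).aemeasurable,
          lintegral_indicator_const measurableSet_Iio, one_mul, hdim,
          Measure.volumeIoiPow_apply_Iio]

/-- A chart integral is bounded by the integral over the sphere. -/
theorem chart_le_sphere (i : Fin (m + 1)) {σ : ℝ} (hσ : σ ^ 2 = 1) {K : ℝ} (hK : 0 ≤ K)
    {H : (EuclideanSpace ℝ (Fin (m + 1))) → ℝ≥0∞} (hH : Measurable H)
    (hhom : ∀ x, ∀ a : ℝ, 0 < a → H (a • x) = H x) :
    ∫⁻ y in closedBall (0 : (EuclideanSpace ℝ (Fin m))) K, H (lift i σ y) ≤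
      (∫⁻ θ : sphere (0 : (EuclideanSpace ℝ (Fin (m + 1)))) 1, H (θ : (EuclideanSpace ℝ (Fin (m + 1)))) ∂(volume : Measure (EuclideanSpace ℝ (Fin (m + 1)))).toSphere) *
        ENNReal.ofReal ((2 * K + 3) ^ (m + 1) / ((m : ℝ) + 1)) := by
  rw [← setLIntegral_ball_homogeneous hH hhom (by linarith : (0 : ℝ) < 2 * K + 3),
    ← lintegral_indicator measurableSet_ball,
    lintegral_lift i (hH.indicator measurableSet_ball)]
  have habs : |σ| = 1 := (abs_eq zero_le_one).2 (sq_eq_one_iff.1 hσ)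
  have hT : MeasurableSet ((fun t : ℝ => σ * t) ⁻¹' Ioo 1 2) :=
    measurableSet_Ioo.preimage (measurable_const_mul σ)
  have hvol : volume ((fun t : ℝ => σ * t) ⁻¹' Ioo 1 2) = 1 := by
    rw [Real.volume_preimage_mul_left (by intro h; simp [h] at habs), Real.volume_Ioo,
      abs_inv, habs]
    norm_num
  set J := ∫⁻ y in closedBall (0 : (EuclideanSpace ℝ (Fin m))) K, H (lift i σ y) with hJ
  calc J = J * volume ((fun t : ℝ => σ * t) ⁻¹' Ioo 1 2) := by rw [hvol, mul_one]
    _ = ∫⁻ _t in (fun t : ℝ => σ * t) ⁻¹' Ioo 1 2, J := (setLIntegral_const _ _).symm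
    _ ≤ ∫⁻ t : ℝ, ∫⁻ y : (EuclideanSpace ℝ (Fin m)), (ball (0 : (EuclideanSpace ℝ (Fin (m + 1)))) (2 * K + 3)).indicator H (lift i t y) := by
        rw [← lintegral_indicator hT]
        refine lintegral_mono fun t => indicator_apply_le' (fun ht => ?_) (fun _ => zero_le)
        obtain ⟨h1, h2⟩ := (mem_preimage (f := fun t : ℝ => σ * t)).1 ht
        set a := σ * t with ha
        have hta : t = a * σ := by rw [ha]; linear_combination (-t) * hσ
        have ha0 : 0 < a := by linarith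
        have hmeas : Measurable fun z : (EuclideanSpace ℝ (Fin m)) => H (lift i t z) :=
          hH.comp (contDiff_lift i t).continuous.measurable
        calc J ≤ ENNReal.ofReal (a ^ m) * J := by
              refine le_mul_of_one_le_left' ?_
              rw [← ENNReal.ofReal_one]
              exact ENNReal.ofReal_le_ofReal (one_le_pow₀ h1.le)
          _ = ∫⁻ z in closedBall (0 : (EuclideanSpace ℝ (Fin m))) (a * K), H (lift i t z) := by
              rw [setLIntegral_closedBall_scale ha0 K hmeas, hJ]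
              congr 1
              refine lintegral_congr fun y => ?_
              rw [hta, lift_smul, hhom _ _ ha0]
          _ ≤ _ := by
              rw [← lintegral_indicator measurableSet_closedBall]
              refine lintegral_mono fun z => indicator_apply_le' (fun hz => ?_) (fun _ => zero_le)
              rw [indicator_of_mem]
              rw [mem_ball_zero_iff]
              have hz' : ‖z‖ ≤ a * K := by simpa using hz
              have := norm_sq_lift i t z
              have ht2 : t ^ 2 = a ^ 2 := by rw [ha, mul_pow, hσ, one_mul]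
              have h3 : a * K ≤ 2 * K := mul_le_mul_of_nonneg_right h2.le hK
              have h4 : ‖z‖ ^ 2 ≤ (2 * K) ^ 2 := pow_le_pow_left₀ (norm_nonneg z) (hz'.trans h3) 2
              have h5 : a ^ 2 ≤ 2 ^ 2 := pow_le_pow_left₀ ha0.le h2.le 2
              refine lt_of_pow_lt_pow_left₀ 2 (by linarith) ?_
              nlinarith

/-- The sphere is covered by the charts. -/
theorem sphere_le_charts {H : (EuclideanSpace ℝ (Fin (m + 1))) → ℝ≥0∞} (hH : Measurable H)
    (hhom : ∀ x, ∀ a : ℝ, 0 < a → H (a • x) = H x) :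
    (∫⁻ θ : sphere (0 : (EuclideanSpace ℝ (Fin (m + 1)))) 1, H (θ : (EuclideanSpace ℝ (Fin (m + 1)))) ∂(volume : Measure (EuclideanSpace ℝ (Fin (m + 1)))).toSphere) *
        ENNReal.ofReal (1 / ((m : ℝ) + 1)) ≤
      ∑ c : Fin (m + 1) × Bool, 2 * ∫⁻ y in closedBall (0 : (EuclideanSpace ℝ (Fin m))) ((m : ℝ) + 1),
        H (lift c.1 (bif c.2 then 1 else -1) y) := by
  have h := setLIntegral_ball_homogeneous hH hhom one_pos
  rw [one_pow] at h
  rw [← h]
  let S : Fin (m + 1) × Bool → Set (EuclideanSpace ℝ (Fin (m + 1))) := fun c =>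
    {x | (bif c.2 then 1 else -1) * x c.1 ∈ Ioo (0 : ℝ) 1 ∧
      ‖x‖ ≤ ((m : ℝ) + 1) * ((bif c.2 then 1 else -1) * x c.1)}
  have hS : ∀ c, MeasurableSet (S c) := fun c => by
    apply MeasurableSet.inter
    · exact measurableSet_Ioo.preimage
        (f := fun x : (EuclideanSpace ℝ (Fin (m + 1))) => (bif c.2 then (1 : ℝ) else -1) * x c.1) (by fun_prop)
    · exact measurableSet_le (f := fun x : (EuclideanSpace ℝ (Fin (m + 1))) => ‖x‖)
        (g := fun x : (EuclideanSpace ℝ (Fin (m + 1))) => ((m : ℝ) + 1) * ((bif c.2 then (1 : ℝ) else -1) * x c.1))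
        (by fun_prop) (by fun_prop)
  calc ∫⁻ x in ball (0 : (EuclideanSpace ℝ (Fin (m + 1)))) 1, H x
      ≤ ∑ c, ∫⁻ x, (S c).indicator H x := by
        rw [← lintegral_indicator measurableSet_ball,
          ← lintegral_finsetSum _ fun c _ => hH.indicator (hS c)]
        refine lintegral_mono_ae ?_
        filter_upwards [Measure.ae_ne (volume : Measure (EuclideanSpace ℝ (Fin (m + 1)))) 0] with x hx
        by_cases hx1 : x ∈ ball (0 : (EuclideanSpace ℝ (Fin (m + 1)))) 1
        swap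
        · simp [indicator_of_notMem hx1]
        obtain ⟨i, -, hi⟩ := Finset.exists_max_image Finset.univ (fun i => (x i) ^ 2)
          Finset.univ_nonempty
        have hsum : ‖x‖ ^ 2 ≤ ((m : ℝ) + 1) * (x i) ^ 2 := by
          rw [EuclideanSpace.norm_sq_eq]
          calc ∑ j, ‖x j‖ ^ 2 ≤ ∑ _j : Fin (m + 1), (x i) ^ 2 :=
                Finset.sum_le_sum fun j hj => by simpa using hi j hj
            _ = _ := by simp
        have hpos : 0 < ‖x‖ := norm_pos_iff.2 hx
        have hxi : |x i| ≤ ‖x‖ := by simpa using PiLp.norm_apply_le x i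
        have hx1' : ‖x‖ < 1 := by simpa using hx1
        have hb : (bif decide (0 ≤ x i) then (1 : ℝ) else -1) * x i = |x i| := by
          by_cases h : 0 ≤ x i
          · simp [h, abs_of_nonneg h]
          · simp [h, abs_of_neg (lt_of_not_ge h)]
        have hne : 0 < |x i| := by
          rcases (abs_nonneg (x i)).eq_or_lt with h | h
          · have h0 : x i = 0 := abs_eq_zero.1 h.symm
            rw [h0] at hsum
            nlinarith
          · exact h
        have hn : ‖x‖ ≤ ((m : ℝ) + 1) * |x i| := by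
          have hm : (0 : ℝ) ≤ m := m.cast_nonneg
          nlinarith [sq_abs (x i), mul_nonneg hm (sq_nonneg (x i)),
            mul_nonneg hm (mul_nonneg hm (sq_nonneg (x i)))]
        have hmem : x ∈ S (i, decide (0 ≤ x i)) := by
          refine ⟨?_, ?_⟩
          · rw [hb]; exact ⟨hne, by linarith⟩
          · rw [hb]; exact hn
        rw [indicator_of_mem hx1]
        calc H x = (S (i, decide (0 ≤ x i))).indicator H x := (indicator_of_mem hmem _).symm
          _ ≤ _ := Finset.single_le_sum (f := fun c => (S c).indicator H x)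
              (fun c _ => zero_le) (Finset.mem_univ _)
    _ ≤ _ := by
        refine Finset.sum_le_sum fun c _ => ?_
        obtain ⟨i, b⟩ := c
        set σ : ℝ := bif b then 1 else -1 with hσdef
        have hσ : σ ^ 2 = 1 := by cases b <;> norm_num [hσdef]
        set J := ∫⁻ y in closedBall (0 : (EuclideanSpace ℝ (Fin m))) ((m : ℝ) + 1), H (lift i σ y) with hJ
        rw [lintegral_lift i (hH.indicator (hS _))]
        calc ∫⁻ t : ℝ, ∫⁻ y : (EuclideanSpace ℝ (Fin m)), (S (i, b)).indicator H (lift i t y)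
            ≤ ∫⁻ t : ℝ, (Icc (-1 : ℝ) 1).indicator (fun _ => J) t := by
              refine lintegral_mono fun t => ?_
              by_cases ht : σ * t ∈ Ioo (0 : ℝ) 1
              · set a := σ * t with ha
                have hta : t = a * σ := by rw [ha]; linear_combination (-t) * hσ
                have htIcc : t ∈ Icc (-1 : ℝ) 1 := by
                  have ht2 : t ^ 2 = a ^ 2 := by rw [ha, mul_pow, hσ, one_mul]
                  constructor <;> nlinarith [ht.1, ht.2]
                rw [indicator_of_mem htIcc]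
                have hmeas : Measurable fun z : (EuclideanSpace ℝ (Fin m)) => H (lift i t z) :=
                  hH.comp (contDiff_lift i t).continuous.measurable
                calc ∫⁻ y : (EuclideanSpace ℝ (Fin m)), (S (i, b)).indicator H (lift i t y)
                    ≤ ∫⁻ z in closedBall (0 : (EuclideanSpace ℝ (Fin m))) (a * ((m : ℝ) + 1)), H (lift i t z) := by
                      rw [← lintegral_indicator measurableSet_closedBall]
                      refine lintegral_mono fun z => ?_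
                      by_cases hz : lift i t z ∈ S (i, b)
                      · rw [indicator_of_mem hz, indicator_of_mem]
                        rw [mem_closedBall_zero_iff]
                        have h2 : ‖lift i t z‖ ≤ ((m : ℝ) + 1) * a := by
                          simpa [S, lift_self, ha, hσdef] using hz.2
                        nlinarith [norm_sq_lift i t z, sq_nonneg t, norm_nonneg z,
                          norm_nonneg (lift i t z)]
                      · simp [indicator_of_notMem hz]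
                  _ = ENNReal.ofReal (a ^ m) * J := by
                      rw [setLIntegral_closedBall_scale ht.1 _ hmeas, hJ]
                      congr 1
                      refine lintegral_congr fun y => ?_
                      rw [hta, lift_smul, hhom _ _ ht.1]
                  _ ≤ J := by
                      refine mul_le_of_le_one_left' ?_
                      rw [← ENNReal.ofReal_one]
                      exact ENNReal.ofReal_le_ofReal (pow_le_one₀ ht.1.le ht.2.le)
              · calc ∫⁻ y : (EuclideanSpace ℝ (Fin m)), (S (i, b)).indicator H (lift i t y) = ∫⁻ _y : (EuclideanSpace ℝ (Fin m)), 0 := by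
                      refine lintegral_congr fun z => indicator_of_notMem (fun hz => ht ?_) _
                      simpa [S, lift_self, hσdef] using hz.1
                  _ ≤ _ := by simp
          _ = 2 * J := by
              rw [lintegral_indicator_const measurableSet_Icc, Real.volume_Icc, mul_comm]
              norm_num

/-- Sobolev inequality on a ball of the hyperplane, in integral form. -/
theorem flat {p s : ℝ} (hm : 2 ≤ m) (hp : 1 ≤ p) (hs : 0 < s)
    (hps : 1 / p - 1 / (m : ℝ) ≤ 1 / s) (K : ℝ) {D : ℝ≥0∞} (hD : D ≠ ∞) :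
    ∃ C : ℝ≥0∞, C ≠ ∞ ∧ ∀ F : (EuclideanSpace ℝ (Fin m)) → ℝ, ContDiff ℝ 1 F → tsupport F ⊆ closedBall 0 K →
      ∫⁻ y, ‖fderiv ℝ F y‖ₑ ^ p ≤ D → ∫⁻ y, ‖F y‖ₑ ^ s ≤ C := by
  have hm0 : (0 : ℝ) < m := by exact_mod_cast (show 0 < m by omega)
  have hw : (0 : ℝ) < 1 / (m : ℝ) + 1 / s := by positivity
  let P : ℝ := max 1 (1 / (1 / (m : ℝ) + 1 / s))
  have hP1 : 1 ≤ P := le_max_left _ _
  have hPp : P ≤ p := by
    refine max_le hp ?_
    rw [one_div_le hw (by linarith)]
    linarith
  have hPm : P < m := by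
    refine max_lt (by exact_mod_cast (show 1 < m by omega)) ?_
    rw [one_div_lt hw hm0]
    linarith [show (0 : ℝ) < 1 / s by positivity]
  have hPs : P⁻¹ - (m : ℝ)⁻¹ ≤ s⁻¹ := by
    have h1 : 1 / (1 / (m : ℝ) + 1 / s) ≤ P := le_max_right _ _
    have h2 : 1 / P ≤ 1 / (m : ℝ) + 1 / s := by
      rw [one_div_le (by linarith) hw]; exact h1
    simp only [one_div] at h2 ⊢
    linarith
  let P' : ℝ≥0 := ⟨P, by linarith⟩
  let s' : ℝ≥0 := ⟨s, hs.le⟩
  let p' : ℝ≥0 := ⟨p, by linarith⟩
  have hfr : Module.finrank ℝ (EuclideanSpace ℝ (Fin m)) = m := by simp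
  have hs'0 : s' ≠ 0 := fun h => hs.ne' (congrArg NNReal.toReal h)
  have hp'0 : p' ≠ 0 := fun h => by
    have := congrArg NNReal.toReal h
    change p = 0 at this
    linarith
  have hexp : 0 ≤ 1 / P - 1 / p := sub_nonneg.2 (one_div_le_one_div_of_le (by linarith) hPp)
  refine ⟨((eLpNormLESNormFDerivOfLeConst ℝ (volume : Measure (EuclideanSpace ℝ (Fin m))) (closedBall 0 K) P' s' : ℝ≥0∞) *
    (D ^ (1 / p) * volume (closedBall (0 : (EuclideanSpace ℝ (Fin m))) K) ^ (1 / P - 1 / p))) ^ s, ?_, ?_⟩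
  · refine ENNReal.rpow_ne_top_of_nonneg hs.le (ENNReal.mul_ne_top ENNReal.coe_ne_top ?_)
    exact ENNReal.mul_ne_top (ENNReal.rpow_ne_top_of_nonneg (by positivity) hD)
      (ENNReal.rpow_ne_top_of_nonneg hexp measure_closedBall_lt_top.ne)
  intro F hF hsupp hDF
  have h1 : eLpNorm F s' volume ≤ _ := eLpNorm_le_eLpNorm_fderiv_of_le volume hF
    ((subset_tsupport F).trans hsupp) (p := P') (q := s') (by exact_mod_cast hP1)
    (by rw [hfr]; exact_mod_cast hPm) (by rw [hfr]; exact_mod_cast hPs) isBounded_closedBall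
  have hsub : Function.support (fderiv ℝ F) ⊆ closedBall 0 K :=
    (support_fderiv_subset ℝ).trans hsupp
  have h2 : eLpNorm (fderiv ℝ F) P' volume ≤
      D ^ (1 / p) * volume (closedBall (0 : (EuclideanSpace ℝ (Fin m))) K) ^ (1 / P - 1 / p) := by
    have heq := eLpNorm_restrict_eq_of_support_subset (μ := (volume : Measure (EuclideanSpace ℝ (Fin m))))
      (f := fderiv ℝ F) (s := closedBall 0 K) (p := (P' : ℝ≥0∞)) hsub
    rw [← heq]
    calc eLpNorm (fderiv ℝ F) P' (volume.restrict (closedBall 0 K))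
        ≤ eLpNorm (fderiv ℝ F) p' (volume.restrict (closedBall 0 K)) *
          (volume.restrict (closedBall (0 : (EuclideanSpace ℝ (Fin m))) K)) univ ^
            (1 / (P' : ℝ≥0∞).toReal - 1 / (p' : ℝ≥0∞).toReal) :=
          eLpNorm_le_eLpNorm_mul_rpow_measure_univ (by exact_mod_cast hPp)
            (hF.continuous_fderiv one_ne_zero).aestronglyMeasurable
      _ ≤ _ := by
          rw [eLpNorm_restrict_eq_of_support_subset (f := fderiv ℝ F) (s := closedBall 0 K) hsub,
            Measure.restrict_apply_univ,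
            eLpNorm_nnreal_eq_lintegral hp'0]
          refine mul_le_mul' (ENNReal.rpow_le_rpow hDF (by positivity)) (le_of_eq ?_)
          rfl
  have h3 := h1.trans (mul_le_mul_right h2 _)
  rw [eLpNorm_nnreal_eq_lintegral hs'0] at h3
  have h4 := ENNReal.rpow_le_rpow h3 hs.le
  rw [← ENNReal.rpow_mul] at h4
  change (∫⁻ y, ‖F y‖ₑ ^ s) ^ (1 / s * s) ≤ _ at h4
  rwa [one_div, inv_mul_cancel₀ hs.ne', ENNReal.rpow_one] at h4

theorem measurable_radial {g : (EuclideanSpace ℝ (Fin (m + 1))) → ℝ≥0∞} {r : ℝ} (hr : 0 < r) {U : Set (EuclideanSpace ℝ (Fin (m + 1)))}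
    (hsU : sphere (0 : (EuclideanSpace ℝ (Fin (m + 1)))) r ⊆ U) (hg : ContinuousOn g U) :
    Measurable fun x => g (r • proj x) := by
  refine measurable_of_continuousOn_compl_singleton (0 : (EuclideanSpace ℝ (Fin (m + 1))))
    (hg.comp (f := fun x : (EuclideanSpace ℝ (Fin (m + 1))) => r • proj x) (s := {(0 : (EuclideanSpace ℝ (Fin (m + 1))))}ᶜ) ?_ ?_)
  · change ContinuousOn (fun x : (EuclideanSpace ℝ (Fin (m + 1))) => r • (‖x‖⁻¹ • x)) {(0 : (EuclideanSpace ℝ (Fin (m + 1))))}ᶜ
    refine ContinuousOn.const_smul ?_ r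
    exact ((continuous_norm (E := (EuclideanSpace ℝ (Fin (m + 1))))).continuousOn.inv₀ fun x hx => norm_ne_zero_iff.2 hx).smul
      continuousOn_id
  · intro x hx
    apply hsU
    simp [norm_smul, abs_of_pos hr, norm_proj (show x ≠ 0 from hx)]

/-- The estimate in one chart. -/
theorem chart {p s : ℝ} (hm : 2 ≤ m) (hp : 1 ≤ p) (hs : 0 < s)
    (hps : 1 / p - 1 / (m : ℝ) ≤ 1 / s) (D : ℝ) (i : Fin (m + 1)) {σ : ℝ} (hσ : σ ^ 2 = 1) :
    ∃ C : ℝ≥0∞, C ≠ ∞ ∧ ∀ r ∈ Icc (1 : ℝ) 2, ∀ U : Set (EuclideanSpace ℝ (Fin (m + 1))), IsOpen U → sphere 0 r ⊆ U →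
      ∀ f : (EuclideanSpace ℝ (Fin (m + 1))) → ℝ, ContDiffOn ℝ 1 f U →
      ∫⁻ θ : sphere (0 : (EuclideanSpace ℝ (Fin (m + 1)))) 1, ‖f (r • (θ : (EuclideanSpace ℝ (Fin (m + 1)))))‖ₑ ^ p ∂(volume : Measure (EuclideanSpace ℝ (Fin (m + 1)))).toSphere
        ≤ ENNReal.ofReal D →
      ∫⁻ θ : sphere (0 : (EuclideanSpace ℝ (Fin (m + 1)))) 1, ‖fderiv ℝ f (r • (θ : (EuclideanSpace ℝ (Fin (m + 1)))))‖ₑ ^ p ∂(volume : Measure (EuclideanSpace ℝ (Fin (m + 1)))).toSphere
        ≤ ENNReal.ofReal D →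
      ∫⁻ y in closedBall (0 : (EuclideanSpace ℝ (Fin m))) ((m : ℝ) + 1), ‖f (r • proj (lift i σ y))‖ₑ ^ s ≤ C := by
  have hσ0 : σ ≠ 0 := fun h => by simp [h] at hσ
  let ψ : (EuclideanSpace ℝ (Fin m)) → (EuclideanSpace ℝ (Fin (m + 1))) := fun y => proj (lift i σ y)
  have hψ : ContDiff ℝ 1 ψ :=
    (((contDiff_lift i σ).norm ℝ fun y => lift_ne_zero i hσ0 y).inv
      fun y => norm_ne_zero_iff.2 (lift_ne_zero i hσ0 y)).smul (contDiff_lift i σ)
  have hm0 : (0 : ℝ) < (m : ℝ) + 1 := by positivity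
  let η : ContDiffBump (0 : (EuclideanSpace ℝ (Fin m))) := ⟨(m : ℝ) + 1, (m : ℝ) + 2, hm0, by linarith⟩
  obtain ⟨M, hM⟩ := (isCompact_closedBall (0 : (EuclideanSpace ℝ (Fin m))) ((m : ℝ) + 2)).exists_bound_of_continuousOn
    (hψ.continuous_fderiv one_ne_zero).continuousOn
  obtain ⟨N, hN⟩ := (isCompact_closedBall (0 : (EuclideanSpace ℝ (Fin m))) ((m : ℝ) + 2)).exists_bound_of_continuousOn
    (η.contDiff.continuous_fderiv (n := 1) one_ne_zero).continuousOn
  have hM0 : 0 ≤ M := (norm_nonneg _).trans (hM 0 (mem_closedBall_self (by positivity)))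
  have hN0 : 0 ≤ N := (norm_nonneg _).trans (hN 0 (mem_closedBall_self (by positivity)))
  set R : ℝ := (2 * ((m : ℝ) + 2) + 3) ^ (m + 1) / ((m : ℝ) + 1) with hRdef
  set c : ℝ≥0∞ := ENNReal.ofReal (2 * M + N) with hc
  set B : ℝ≥0∞ := c ^ p * (2 ^ (p - 1) *
    (ENNReal.ofReal D * ENNReal.ofReal R + ENNReal.ofReal D * ENNReal.ofReal R)) with hB
  have hBtop : B ≠ ∞ :=
    ENNReal.mul_ne_top (ENNReal.rpow_ne_top_of_nonneg (by linarith) ENNReal.ofReal_ne_top)
      (ENNReal.mul_ne_top (ENNReal.rpow_ne_top_of_nonneg (by linarith) ENNReal.ofNat_ne_top)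
        (ENNReal.add_ne_top.2 ⟨ENNReal.mul_ne_top ENNReal.ofReal_ne_top ENNReal.ofReal_ne_top,
          ENNReal.mul_ne_top ENNReal.ofReal_ne_top ENNReal.ofReal_ne_top⟩))
  obtain ⟨C, hC, hflat⟩ := flat hm hp hs hps ((m : ℝ) + 2) hBtop
  refine ⟨C, hC, fun r hr U hU hsU f hf hf0 hf1 => ?_⟩
  have hr0 : (0 : ℝ) < r := by linarith [hr.1]
  have hmaps : ∀ y, r • ψ y ∈ U := fun y =>
    hsU (by simp [ψ, norm_smul, abs_of_pos hr0, norm_proj (lift_ne_zero i hσ0 y)])
  let φ : (EuclideanSpace ℝ (Fin m)) → ℝ := fun y => f (r • ψ y)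
  have hφ : ContDiff ℝ 1 φ := hf.comp_contDiff (hψ.const_smul r) hmaps
  let F : (EuclideanSpace ℝ (Fin m)) → ℝ := fun y => η y * φ y
  have hF : ContDiff ℝ 1 F := η.contDiff.mul hφ
  have hsupp : tsupport F ⊆ closedBall 0 ((m : ℝ) + 2) := by
    refine (tsupport_mul_subset_left).trans ?_
    rw [η.tsupport_eq]
  let G : (EuclideanSpace ℝ (Fin (m + 1))) → ℝ≥0∞ := fun x => ‖f x‖ₑ ^ p
  let G' : (EuclideanSpace ℝ (Fin (m + 1))) → ℝ≥0∞ := fun x => ‖fderiv ℝ f x‖ₑ ^ p
  have hG : Measurable fun x => G (r • proj x) := measurable_radial hr0 hsU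
    (ENNReal.continuous_rpow_const.comp_continuousOn
      (continuous_enorm.comp_continuousOn hf.continuousOn))
  have hG' : Measurable fun x => G' (r • proj x) := measurable_radial hr0 hsU
    (ENNReal.continuous_rpow_const.comp_continuousOn
      (continuous_enorm.comp_continuousOn (hf.continuousOn_fderiv_of_isOpen hU le_rfl)))
  have hlow : ∀ g : (EuclideanSpace ℝ (Fin (m + 1))) → ℝ≥0∞, Measurable (fun x => g (r • proj x)) →
      ∫⁻ θ : sphere (0 : (EuclideanSpace ℝ (Fin (m + 1)))) 1, g (r • (θ : (EuclideanSpace ℝ (Fin (m + 1))))) ∂(volume : Measure (EuclideanSpace ℝ (Fin (m + 1)))).toSphere ≤ ENNReal.ofReal D →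
      ∫⁻ y in closedBall (0 : (EuclideanSpace ℝ (Fin m))) ((m : ℝ) + 2), g (r • ψ y) ≤
        ENNReal.ofReal D * ENNReal.ofReal R := by
    intro g hg hgD
    refine (chart_le_sphere i hσ (by positivity) hg
      (fun x a ha => by simp only [proj_smul ha])).trans (mul_le_mul' ?_ le_rfl)
    refine le_trans (le_of_eq (lintegral_congr fun θ => ?_)) hgD
    simp [proj]
  have hpt : ∀ y ∈ closedBall (0 : (EuclideanSpace ℝ (Fin m))) ((m : ℝ) + 2),
      ‖fderiv ℝ F y‖ₑ ^ p ≤ c ^ p * (2 ^ (p - 1) * (G (r • ψ y) + G' (r • ψ y))) := by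
    intro y hy
    have hd : fderiv ℝ φ y = (fderiv ℝ f (r • ψ y)).comp (r • fderiv ℝ ψ y) := by
      have h1 : HasFDerivAt f (fderiv ℝ f (r • ψ y)) (r • ψ y) :=
        ((hf.differentiableOn one_ne_zero).differentiableAt (hU.mem_nhds (hmaps y))).hasFDerivAt
      exact (h1.comp y (((hψ.differentiable one_ne_zero) y).hasFDerivAt.const_smul r)).fderiv
    have h2 : ‖fderiv ℝ φ y‖ ≤ 2 * M * ‖fderiv ℝ f (r • ψ y)‖ := by
      rw [hd]
      refine (ContinuousLinearMap.opNorm_comp_le _ _).trans ?_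
      rw [norm_smul, Real.norm_eq_abs, abs_of_pos hr0, mul_comm]
      exact mul_le_mul_of_nonneg_right
        (mul_le_mul hr.2 (hM y hy) (norm_nonneg _) (by norm_num)) (norm_nonneg _)
    have h3 : ‖fderiv ℝ F y‖ ≤ (2 * M + N) * (‖f (r • ψ y)‖ + ‖fderiv ℝ f (r • ψ y)‖) := by
      have hmul : fderiv ℝ F y = η y • fderiv ℝ φ y + φ y • fderiv ℝ η y :=
        fderiv_fun_mul ((η.contDiff (n := 1)).differentiable one_ne_zero y)
          (hφ.differentiable one_ne_zero y)
      rw [hmul]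
      refine (norm_add_le _ _).trans ?_
      rw [norm_smul, norm_smul, Real.norm_eq_abs, abs_of_nonneg η.nonneg]
      have h4 : η y * ‖fderiv ℝ φ y‖ ≤ 1 * (2 * M * ‖fderiv ℝ f (r • ψ y)‖) :=
        mul_le_mul η.le_one h2 (norm_nonneg _) zero_le_one
      have h5 : ‖φ y‖ * ‖fderiv ℝ η y‖ ≤ ‖f (r • ψ y)‖ * N :=
        mul_le_mul_of_nonneg_left (hN y hy) (norm_nonneg _)
      nlinarith [norm_nonneg (f (r • ψ y)), norm_nonneg (fderiv ℝ f (r • ψ y))]
    have h6 : ‖fderiv ℝ F y‖ₑ ≤ c * (‖f (r • ψ y)‖ₑ + ‖fderiv ℝ f (r • ψ y)‖ₑ) := by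
      rw [← ofReal_norm, ← ofReal_norm, ← ofReal_norm, hc,
        ← ENNReal.ofReal_add (norm_nonneg _) (norm_nonneg _),
        ← ENNReal.ofReal_mul (by linarith)]
      exact ENNReal.ofReal_le_ofReal h3
    refine (ENNReal.rpow_le_rpow h6 (by linarith)).trans ?_
    rw [ENNReal.mul_rpow_of_nonneg _ _ (by linarith : (0 : ℝ) ≤ p)]
    exact mul_le_mul' le_rfl (ENNReal.rpow_add_le_mul_rpow_add_rpow _ _ hp)
  have hDF : ∫⁻ y, ‖fderiv ℝ F y‖ₑ ^ p ≤ B := by
    calc ∫⁻ y, ‖fderiv ℝ F y‖ₑ ^ p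
        ≤ ∫⁻ y in closedBall (0 : (EuclideanSpace ℝ (Fin m))) ((m : ℝ) + 2),
          c ^ p * (2 ^ (p - 1) * (G (r • ψ y) + G' (r • ψ y))) := by
          rw [← lintegral_indicator measurableSet_closedBall]
          refine lintegral_mono fun y => ?_
          by_cases hy : y ∈ closedBall (0 : (EuclideanSpace ℝ (Fin m))) ((m : ℝ) + 2)
          · rw [indicator_of_mem hy]; exact hpt y hy
          · have : fderiv ℝ F y = 0 :=
              Function.notMem_support.1 fun h => hy (hsupp (support_fderiv_subset ℝ h))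
            have h0 : ‖fderiv ℝ F y‖ₑ = 0 := by
              rw [← ofReal_norm, this]
              simp
            rw [h0, ENNReal.zero_rpow_of_pos (by linarith : (0 : ℝ) < p)]
            exact zero_le
      _ ≤ B := by
          have hcont : Continuous fun y => r • ψ y := hψ.continuous.const_smul r
          have hGm : Measurable fun y => G (r • ψ y) :=
            hG.comp (contDiff_lift i σ).continuous.measurable
          have hG'm : Measurable fun y => G' (r • ψ y) :=
            hG'.comp (contDiff_lift i σ).continuous.measurable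
          rw [lintegral_const_mul _ ((hGm.fun_add hG'm).const_mul _),
            lintegral_const_mul _ (hGm.fun_add hG'm), lintegral_add_left hGm, hB]
          exact mul_le_mul' le_rfl (mul_le_mul' le_rfl
            (add_le_add (hlow G hG hf0) (hlow G' hG' hf1)))
  calc ∫⁻ y in closedBall (0 : (EuclideanSpace ℝ (Fin m))) ((m : ℝ) + 1), ‖f (r • proj (lift i σ y))‖ₑ ^ s
      ≤ ∫⁻ y, ‖F y‖ₑ ^ s := by
        rw [← lintegral_indicator measurableSet_closedBall]
        refine lintegral_mono fun y => indicator_apply_le' (fun hy => ?_) (fun _ => zero_le)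
        simp [F, φ, ψ, η.one_of_mem_closedBall hy]
    _ ≤ C := hflat F hF hsupp hDF

end Vale.Agent.P100.SphereSobolev

namespace Vale.Agent.P100

open SphereSobolev

/-- Sobolev inequality on spheres of radius in `[1, 2]`. -/
theorem sphere_sobolev {n : ℕ} (hn : 3 ≤ n) {p s : ℝ} (hp : 1 ≤ p) (hs : 0 < s)
    (hps : 1 / p - 1 / ((n : ℝ) - 1) ≤ 1 / s) (D : ℝ) :
    ∃ C : ℝ, 0 ≤ C ∧ ∀ r ∈ Icc (1 : ℝ) 2, ∀ U : Set (EuclideanSpace ℝ (Fin n)), IsOpen U →
      sphere 0 r ⊆ U → ∀ f : EuclideanSpace ℝ (Fin n) → ℝ, ContDiffOn ℝ 1 f U →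
      ∫⁻ θ : sphere (0 : EuclideanSpace ℝ (Fin n)) 1, ‖f (r • (θ : EuclideanSpace ℝ (Fin n)))‖ₑ ^ p
        ∂(volume : Measure (EuclideanSpace ℝ (Fin n))).toSphere ≤ ENNReal.ofReal D →
      ∫⁻ θ : sphere (0 : EuclideanSpace ℝ (Fin n)) 1,
        ‖fderiv ℝ f (r • (θ : EuclideanSpace ℝ (Fin n)))‖ₑ ^ p
        ∂(volume : Measure (EuclideanSpace ℝ (Fin n))).toSphere ≤ ENNReal.ofReal D →
      ∫⁻ θ : sphere (0 : EuclideanSpace ℝ (Fin n)) 1, ‖f (r • (θ : EuclideanSpace ℝ (Fin n)))‖ₑ ^ s
        ∂(volume : Measure (EuclideanSpace ℝ (Fin n))).toSphere ≤ ENNReal.ofReal C := by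
  obtain ⟨m, rfl⟩ : ∃ m, n = m + 1 := ⟨n - 1, by omega⟩
  push_cast at hps
  rw [add_sub_cancel_right] at hps
  have hch : ∀ c : Fin (m + 1) × Bool, ∃ C : ℝ≥0∞, C ≠ ∞ ∧ _ := fun c =>
    chart (show 2 ≤ m by omega) hp hs hps D c.1 (σ := bif c.2 then 1 else -1)
      (by cases c.2 <;> norm_num)
  choose C hC hbound using hch
  set T : ℝ≥0∞ := ENNReal.ofReal ((m : ℝ) + 1) * ∑ c, 2 * C c with hT
  have hTtop : T ≠ ∞ := ENNReal.mul_ne_top ENNReal.ofReal_ne_top
    (ENNReal.sum_ne_top.2 fun c _ => ENNReal.mul_ne_top ENNReal.ofNat_ne_top (hC c))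
  refine ⟨T.toReal, ENNReal.toReal_nonneg, fun r hr U hU hsU f hf hf0 hf1 => ?_⟩
  rw [ENNReal.ofReal_toReal hTtop]
  have hr0 : (0 : ℝ) < r := by linarith [hr.1]
  have hm' : (0 : ℝ) < (m : ℝ) + 1 := by positivity
  have hH : Measurable fun x => ‖f (r • proj x)‖ₑ ^ s :=
    measurable_radial (g := fun x => ‖f x‖ₑ ^ s) hr0 hsU
      (ENNReal.continuous_rpow_const.comp_continuousOn
        (continuous_enorm.comp_continuousOn hf.continuousOn))
  have h := sphere_le_charts hH (fun x a ha => by simp only [proj_smul ha])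
  have h2 := mul_le_mul' (le_refl (ENNReal.ofReal ((m : ℝ) + 1)))
    (h.trans (Finset.sum_le_sum fun c _ => mul_le_mul' le_rfl (hbound c r hr U hU hsU f hf hf0 hf1)))
  rw [mul_left_comm, ← ENNReal.ofReal_mul hm'.le, mul_one_div_cancel hm'.ne',
    ENNReal.ofReal_one, mul_one] at h2
  refine le_trans (le_of_eq (lintegral_congr fun θ => ?_)) h2
  simp [proj]

/-- `W^{1,4}` on spheres embeds in `Lˢ` whenever `(n - 5) s ≤ 4 (n - 1)`. -/
theorem sphere_sobolev_four {n : ℕ} (hn : 3 ≤ n) {s : ℝ} (hs : 0 < s)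
    (hns : ((n : ℝ) - 5) * s ≤ 4 * ((n : ℝ) - 1)) (D : ℝ) :
    ∃ C : ℝ, 0 ≤ C ∧ ∀ r ∈ Icc (1 : ℝ) 2, ∀ U : Set (EuclideanSpace ℝ (Fin n)), IsOpen U →
      sphere 0 r ⊆ U → ∀ f : EuclideanSpace ℝ (Fin n) → ℝ, ContDiffOn ℝ 1 f U →
      ∫⁻ θ : sphere (0 : EuclideanSpace ℝ (Fin n)) 1,
        ENNReal.ofReal (f (r • (θ : EuclideanSpace ℝ (Fin n))) ^ 4)
        ∂(volume : Measure (EuclideanSpace ℝ (Fin n))).toSphere ≤ ENNReal.ofReal D →
      ∫⁻ θ : sphere (0 : EuclideanSpace ℝ (Fin n)) 1,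
        ENNReal.ofReal (‖fderiv ℝ f (r • (θ : EuclideanSpace ℝ (Fin n)))‖ ^ 4)
        ∂(volume : Measure (EuclideanSpace ℝ (Fin n))).toSphere ≤ ENNReal.ofReal D →
      ∫⁻ θ : sphere (0 : EuclideanSpace ℝ (Fin n)) 1,
        ENNReal.ofReal (|f (r • (θ : EuclideanSpace ℝ (Fin n)))| ^ s)
        ∂(volume : Measure (EuclideanSpace ℝ (Fin n))).toSphere ≤ ENNReal.ofReal C := by
  have hn1 : (0 : ℝ) < (n : ℝ) - 1 := by
    have : (3 : ℝ) ≤ (n : ℝ) := by exact_mod_cast hn
    linarith
  have hps : 1 / (4 : ℝ) - 1 / ((n : ℝ) - 1) ≤ 1 / s := by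
    rw [div_sub_div _ _ (by norm_num) hn1.ne', div_le_div_iff₀ (by positivity) hs]
    nlinarith
  obtain ⟨C, hC, h⟩ := sphere_sobolev hn (p := 4) (by norm_num) hs hps D
  refine ⟨C, hC, fun r hr U hU hsU f hf h0 h1 => ?_⟩
  have e : ∀ x : ℝ, ‖x‖ₑ ^ (4 : ℝ) = ENNReal.ofReal (x ^ 4) := fun x => by
    rw [← ofReal_norm, ENNReal.ofReal_rpow_of_nonneg (norm_nonneg _) (by norm_num),
      show (4 : ℝ) = ((4 : ℕ) : ℝ) by norm_num, Real.rpow_natCast, Real.norm_eq_abs,
      Even.pow_abs (by decide)]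
  have e' : ∀ g : EuclideanSpace ℝ (Fin n) →L[ℝ] ℝ,
      ‖g‖ₑ ^ (4 : ℝ) = ENNReal.ofReal (‖g‖ ^ 4) := fun g => by
    rw [← ofReal_norm, ENNReal.ofReal_rpow_of_nonneg (norm_nonneg _) (by norm_num),
      show (4 : ℝ) = ((4 : ℕ) : ℝ) by norm_num, Real.rpow_natCast]
  refine le_trans (le_of_eq (lintegral_congr fun θ => ?_))
    (h r hr U hU hsU f hf (by simpa only [e] using h0) (by simpa only [e'] using h1))
  rw [← ofReal_norm, ENNReal.ofReal_rpow_of_nonneg (norm_nonneg _) hs.le, Real.norm_eq_abs]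

end Vale.Agent.P100
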