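import Vale.Agent.P100.WeakHess

/-!
# Rellich-Pohozaev identity with a Lipschitz cut-off

For `-Δu = f(v)`, `-Δv = g(u)` on an open set `Ω`, `F' = f`, `G' = g` and `a₁ + a₂ = n - 2`:
`∫ φ (n (F(v) + G(u)) - a₁ v f(v) - a₂ u g(u)) = - ∫ ∇φ ⬝ X`, where
`X = (x⬝∇v)∇u + (x⬝∇u)∇v - x(∇u⬝∇v) + a₁ v∇u + a₂ u∇v + x(F(v) + G(u))`.
-/

open MeasureTheory Filter Set Topology

namespace Vale.Agent.P100

variable {E : Type*} [NormedAddCommGroup E] [NormedSpace ℝ E] [FiniteDimensional ℝ E]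
  [MeasurableSpace E] [BorelSpace E] {μ : Measure E} [μ.IsAddHaarMeasure]
  {ι : Type*} [Fintype ι] {Ω : Set E}

omit [μ.IsAddHaarMeasure] [FiniteDimensional ℝ E] in
lemma integrable_lip_mul [IsFiniteMeasureOnCompacts μ] [ProperSpace E]
    {φ f : E → ℝ} {C : NNReal} (hφ : LipschitzWith C φ) (hφc : HasCompactSupport φ)
    (hsub : tsupport φ ⊆ Ω) (hf : ContinuousOn f Ω) (v : E) :
    Integrable (fun x => lineDeriv ℝ φ x v * f x) μ := by
  have hK : IsCompact (tsupport φ) := hφc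
  obtain ⟨B, hB⟩ := hK.exists_bound_of_continuousOn (hf.mono hsub)
  have hzero : ∀ x ∉ tsupport φ, lineDeriv ℝ φ x v * f x = 0 := by
    intro x hx
    rw [(notMem_tsupport_iff_eventuallyEq.1 hx).lineDeriv_eq]
    simp [lineDeriv]
  have hd : IntegrableOn (fun x => lineDeriv ℝ φ x v * f x) (tsupport φ) μ := by
    refine IntegrableOn.of_bound hK.measure_lt_top ?_ (C * ‖v‖ * B) ?_
    · exact ((measurable_lineDeriv hφ.continuous).aestronglyMeasurable).mul
        ((hf.mono hsub).aestronglyMeasurable hK.measurableSet)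
    · refine (ae_restrict_iff' hK.measurableSet).2 (ae_of_all _ fun x hx => ?_)
      rw [norm_mul]
      exact mul_le_mul (norm_lineDeriv_le_of_lipschitz ℝ hφ) (hB x hx) (norm_nonneg _)
        (mul_nonneg C.coe_nonneg (norm_nonneg _))
  exact (integrableOn_iff_integrable_of_support_subset fun x hx =>
    by_contra fun h => hx (hzero x h)).1 hd

/-- Divergence theorem against a Lipschitz cut-off. -/
theorem div_lip (hΩ : IsOpen Ω) (e : ι → E) {φ : E → ℝ} {C : NNReal} (hφ : LipschitzWith C φ)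
    (hφc : HasCompactSupport φ) (hsub : tsupport φ ⊆ Ω) (X : ι → E → ℝ)
    (hX : ∀ i, ContDiffOn ℝ 1 (X i) Ω) :
    ∫ x, φ x * ∑ i, fderiv ℝ (X i) x (e i) ∂μ =
      -∫ x, ∑ i, lineDeriv ℝ φ x (e i) * X i x ∂μ := by
  obtain ⟨χ, hχ, hχc, hχΩ, hχ1⟩ := exists_cutoff hφc.isCompact hΩ hsub
  have hone : ∀ x ∈ tsupport φ, ∀ᶠ y in 𝓝 x, χ y = 1 := fun x hx =>
    hχ1.filter_mono (nhds_le_nhdsSet hx)
  have hint : ∀ i, Integrable (fun x => φ x * fderiv ℝ (X i) x (e i)) μ := by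
    intro i
    refine Continuous.integrable_of_hasCompactSupport ?_ hφc.mul_right
    refine continuous_iff_continuousAt.2 fun x => ?_
    by_cases hx : x ∈ tsupport φ
    · exact hφ.continuous.continuousAt.mul ((((hX i).continuousOn_fderiv_of_isOpen hΩ
        le_rfl).clm_apply continuousOn_const).continuousAt (hΩ.mem_nhds (hsub hx)))
    · refine (continuousAt_const (y := (0 : ℝ))).congr ?_
      filter_upwards [notMem_tsupport_iff_eventuallyEq.1 hx] with y hy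
      simp [hy]
  have hcomp : ∀ i, ∫ x, lineDeriv ℝ φ x (e i) * X i x ∂μ =
      -∫ x, φ x * fderiv ℝ (X i) x (e i) ∂μ := by
    intro i
    let G : E → ℝ := fun x => χ x * X i x
    have hG : ContDiff ℝ 1 G := by
      refine contDiff_iff_contDiffAt.2 fun x => ?_
      by_cases hx : x ∈ tsupport χ
      · exact (hχ.of_le one_le_two).contDiffAt.mul ((hX i).contDiffAt (hΩ.mem_nhds (hχΩ hx)))
      · refine contDiffAt_const (c := (0 : ℝ)).congr_of_eventuallyEq ?_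
        filter_upwards [notMem_tsupport_iff_eventuallyEq.1 hx] with y hy
        simp [G, hy]
    have hGc : HasCompactSupport G := hχc.mul_right
    obtain ⟨D, hD⟩ := ContDiff.lipschitzWith_of_hasCompactSupport hGc hG one_ne_zero
    rw [← integral_neg]
    calc ∫ x, lineDeriv ℝ φ x (e i) * X i x ∂μ
        = ∫ x, lineDeriv ℝ φ x (e i) * G x ∂μ := by
          congr 1; ext x
          by_cases hx : x ∈ tsupport φ
          · simp [G, (hone x hx).self_of_nhds]
          · rw [(notMem_tsupport_iff_eventuallyEq.1 hx).lineDeriv_eq]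
            simp [lineDeriv]
      _ = ∫ x, lineDeriv ℝ G x (-(e i)) * φ x ∂μ :=
          LipschitzWith.integral_lineDeriv_mul_eq hφ hD hGc (e i)
      _ = _ := by
          congr 1; ext x
          rw [(hG.differentiable one_ne_zero x).lineDeriv_eq_fderiv]
          by_cases hx : x ∈ tsupport φ
          · have : G =ᶠ[𝓝 x] X i := by
              filter_upwards [hone x hx] with y hy
              simp [G, hy]
            rw [this.fderiv_eq]; simp [mul_comm]
          · simp [image_eq_zero_of_notMem_tsupport hx]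
  simp only [Finset.mul_sum]
  rw [integral_finsetSum _ fun i _ => hint i,
    integral_finsetSum _ fun i _ => integrable_lip_mul hφ hφc hsub (hX i).continuousOn (e i),
    ← Finset.sum_neg_distrib]
  exact Finset.sum_congr rfl fun i _ => by rw [hcomp i, neg_neg]

/-- The vector field of the Rellich-Pohozaev identity, by components. -/
noncomputable def pohoField (e : ι → E) (co : ι → E →L[ℝ] ℝ) (u v : E → ℝ) (F G : ℝ → ℝ)
    (a₁ a₂ : ℝ) (i : ι) (x : E) : ℝ :=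
  (∑ j, co j x * fderiv ℝ v x (e j)) * fderiv ℝ u x (e i) +
    (∑ j, co j x * fderiv ℝ u x (e j)) * fderiv ℝ v x (e i) -
    co i x * (∑ j, fderiv ℝ u x (e j) * fderiv ℝ v x (e j)) +
    a₁ * (v x * fderiv ℝ u x (e i)) + a₂ * (u x * fderiv ℝ v x (e i)) +
    co i x * (F (v x) + G (u x))

theorem pohozaev (hΩ : IsOpen Ω) (e : ι → E) (co : ι → E →L[ℝ] ℝ) [DecidableEq ι]
    (hco : ∀ i j, co j (e i) = if i = j then 1 else 0) {φ : E → ℝ} {C : NNReal}
    (hφ : LipschitzWith C φ) (hφc : HasCompactSupport φ) (hsub : tsupport φ ⊆ Ω)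
    {u v : E → ℝ} (hu : ContDiffOn ℝ 2 u Ω) (hv : ContDiffOn ℝ 2 v Ω) {F G f g : ℝ → ℝ}
    {su sv : Set ℝ} (hus : ∀ x ∈ Ω, u x ∈ su) (hvs : ∀ x ∈ Ω, v x ∈ sv)
    (hF : ContDiffOn ℝ 1 F sv) (hG : ContDiffOn ℝ 1 G su)
    (hF' : ∀ t ∈ sv, HasDerivAt F (f t) t) (hG' : ∀ t ∈ su, HasDerivAt G (g t) t)
    (equ : ∀ x ∈ Ω, ∑ i, fderiv ℝ (fderiv ℝ u) x (e i) (e i) = -f (v x))
    (eqv : ∀ x ∈ Ω, ∑ i, fderiv ℝ (fderiv ℝ v) x (e i) (e i) = -g (u x))
    (a₁ a₂ : ℝ) (ha : a₁ + a₂ = (Fintype.card ι : ℝ) - 2) :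
    ∫ x, φ x * ((Fintype.card ι : ℝ) * (F (v x) + G (u x)) - a₁ * (v x * f (v x)) -
        a₂ * (u x * g (u x))) ∂μ =
      -∫ x, ∑ i, lineDeriv ℝ φ x (e i) * pohoField e co u v F G a₁ a₂ i x ∂μ := by
  have hdu : ∀ w, ContDiffOn ℝ 1 (fun y => fderiv ℝ u y w) Ω := fun w =>
    (hu.fderiv_of_isOpen hΩ (by norm_num)).clm_apply contDiffOn_const
  have hdv : ∀ w, ContDiffOn ℝ 1 (fun y => fderiv ℝ v y w) Ω := fun w =>
    (hv.fderiv_of_isOpen hΩ (by norm_num)).clm_apply contDiffOn_const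
  have hX : ∀ i, ContDiffOn ℝ 1 (pohoField e co u v F G a₁ a₂ i) Ω := by
    intro i
    have hc : ∀ j, ContDiffOn ℝ 1 (fun y => co j y) Ω := fun j => (co j).contDiff.contDiffOn
    have h1 : ContDiffOn ℝ 1 (fun y => F (v y)) Ω := hF.comp (hv.of_le one_le_two) hvs
    have h2 : ContDiffOn ℝ 1 (fun y => G (u y)) Ω := hG.comp (hu.of_le one_le_two) hus
    unfold pohoField
    exact (((((ContDiffOn.sum fun j _ => (hc j).mul (hdv _)).mul (hdu _)).add
      ((ContDiffOn.sum fun j _ => (hc j).mul (hdu _)).mul (hdv _))).sub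
      ((hc i).mul (ContDiffOn.sum fun j _ => (hdu _).mul (hdv _)))).add
      (contDiffOn_const.mul ((hv.of_le one_le_two).mul (hdu _)))).add
      (contDiffOn_const.mul ((hu.of_le one_le_two).mul (hdv _))) |>.add
      ((hc i).mul (h1.add h2))
  rw [← div_lip hΩ e hφ hφc hsub _ hX]
  congr 1; ext x
  by_cases hxt : x ∈ tsupport φ
  swap
  · simp [image_eq_zero_of_notMem_tsupport hxt]
  congr 1
  have hx : x ∈ Ω := hsub hxt
  have hn := hΩ.mem_nhds hx
  have D2 : ∀ {w : E → ℝ}, ContDiffOn ℝ 2 w Ω → ∀ a b : E,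
      HasFDerivAt (fun y => fderiv ℝ w y a)
        ((ContinuousLinearMap.apply ℝ ℝ a).comp (fderiv ℝ (fderiv ℝ w) x)) x := by
    intro w hw a _
    exact (ContinuousLinearMap.apply ℝ ℝ a).hasFDerivAt.comp x
      (((hw.contDiffAt hn).fderiv_right (m := 1) (by norm_num)).differentiableAt
        one_ne_zero).hasFDerivAt
  have du : HasFDerivAt u (fderiv ℝ u x) x :=
    ((hu.contDiffAt hn).differentiableAt two_ne_zero).hasFDerivAt
  have dv : HasFDerivAt v (fderiv ℝ v x) x :=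
    ((hv.contDiffAt hn).differentiableAt two_ne_zero).hasFDerivAt
  have hXd : ∀ i, fderiv ℝ (pohoField e co u v F G a₁ a₂ i) x (e i) =
      (fderiv ℝ v x (e i) + ∑ j, co j x * fderiv ℝ (fderiv ℝ v) x (e i) (e j)) *
          fderiv ℝ u x (e i) +
        (∑ j, co j x * fderiv ℝ v x (e j)) * fderiv ℝ (fderiv ℝ u) x (e i) (e i) +
        ((fderiv ℝ u x (e i) + ∑ j, co j x * fderiv ℝ (fderiv ℝ u) x (e i) (e j)) *
          fderiv ℝ v x (e i) +
        (∑ j, co j x * fderiv ℝ u x (e j)) * fderiv ℝ (fderiv ℝ v) x (e i) (e i)) -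
        ((∑ j, fderiv ℝ u x (e j) * fderiv ℝ v x (e j)) +
          co i x * ∑ j, (fderiv ℝ (fderiv ℝ u) x (e i) (e j) * fderiv ℝ v x (e j) +
            fderiv ℝ u x (e j) * fderiv ℝ (fderiv ℝ v) x (e i) (e j))) +
        a₁ * (fderiv ℝ v x (e i) * fderiv ℝ u x (e i) +
          v x * fderiv ℝ (fderiv ℝ u) x (e i) (e i)) +
        a₂ * (fderiv ℝ u x (e i) * fderiv ℝ v x (e i) +
          u x * fderiv ℝ (fderiv ℝ v) x (e i) (e i)) +
        ((F (v x) + G (u x)) +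
          co i x * (f (v x) * fderiv ℝ v x (e i) + g (u x) * fderiv ℝ u x (e i))) := by
    intro i
    have hc : ∀ j, HasFDerivAt (fun y => co j y) (co j) x := fun j => (co j).hasFDerivAt
    have hsv' : HasFDerivAt (fun y => ∑ j, co j y * fderiv ℝ v y (e j)) _ x :=
      HasFDerivAt.fun_sum fun j (_ : j ∈ Finset.univ) => (hc j).mul (D2 hv (e j) (e j))
    have hsu' : HasFDerivAt (fun y => ∑ j, co j y * fderiv ℝ u y (e j)) _ x :=
      HasFDerivAt.fun_sum fun j (_ : j ∈ Finset.univ) => (hc j).mul (D2 hu (e j) (e j))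
    have hs : HasFDerivAt (fun y => ∑ j, fderiv ℝ u y (e j) * fderiv ℝ v y (e j)) _ x :=
      HasFDerivAt.fun_sum fun j (_ : j ∈ Finset.univ) =>
        (D2 hu (e j) (e j)).mul (D2 hv (e j) (e j))
    have hall := (((((hsv'.mul (D2 hu (e i) (e i))).add (hsu'.mul (D2 hv (e i) (e i)))).sub
      ((hc i).mul hs)).add ((dv.mul (D2 hu (e i) (e i))).const_mul a₁)).add
      ((du.mul (D2 hv (e i) (e i))).const_mul a₂)).add
      ((hc i).mul (((hF' _ (hvs x hx)).comp_hasFDerivAt x dv).add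
        ((hG' _ (hus x hx)).comp_hasFDerivAt x du)))
    rw [show fderiv ℝ (pohoField e co u v F G a₁ a₂ i) x = _ from hall.fderiv]
    simp only [add_apply, sub_apply, FunLike.coe_smul, Pi.smul_apply, Pi.add_apply, smul_eq_mul,
      FunLike.coe_sum, Finset.sum_apply, ContinuousLinearMap.coe_comp,
      Function.comp_apply, ContinuousLinearMap.apply_apply, hco, Finset.sum_add_distrib,
      mul_ite, mul_one, mul_zero, Finset.sum_ite_eq, Finset.mem_univ, if_true]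
    simp only [mul_comm (fderiv ℝ v x (e _)) (fderiv ℝ (fderiv ℝ u) x (e i) (e _))]
    ring
  have sy : ∀ {w : E → ℝ}, ContDiffOn ℝ 2 w Ω → ∀ a b : E,
      fderiv ℝ (fderiv ℝ w) x a b = fderiv ℝ (fderiv ℝ w) x b a := fun hw a b =>
    (hw.contDiffAt hn).isSymmSndFDerivAt (by simp) a b
  symm
  simp only [hXd, Finset.sum_add_distrib, Finset.sum_sub_distrib, ← Finset.mul_sum, equ x hx,
    eqv x hx, Finset.sum_const, Finset.card_univ, nsmul_eq_mul]
  have t1 : ∑ i, (fderiv ℝ v x (e i) + ∑ j, co j x * fderiv ℝ (fderiv ℝ v) x (e i) (e j)) *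
      fderiv ℝ u x (e i) = (∑ i, fderiv ℝ u x (e i) * fderiv ℝ v x (e i)) +
      ∑ i, co i x * ∑ j, fderiv ℝ u x (e j) * fderiv ℝ (fderiv ℝ v) x (e i) (e j) := by
    simp only [add_mul, Finset.sum_add_distrib, Finset.mul_sum, Finset.sum_mul]
    congr 1
    · exact Finset.sum_congr rfl fun i _ => mul_comm _ _
    · rw [Finset.sum_comm]
      exact Finset.sum_congr rfl fun i _ => Finset.sum_congr rfl fun j _ => by
        rw [sy hv]; ring
  have t2 : ∑ i, (fderiv ℝ u x (e i) + ∑ j, co j x * fderiv ℝ (fderiv ℝ u) x (e i) (e j)) *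
      fderiv ℝ v x (e i) = (∑ i, fderiv ℝ u x (e i) * fderiv ℝ v x (e i)) +
      ∑ i, co i x * ∑ j, fderiv ℝ (fderiv ℝ u) x (e i) (e j) * fderiv ℝ v x (e j) := by
    simp only [add_mul, Finset.sum_add_distrib, Finset.mul_sum, Finset.sum_mul]
    congr 1
    rw [Finset.sum_comm]
    exact Finset.sum_congr rfl fun i _ => Finset.sum_congr rfl fun j _ => by
      rw [sy hu]; ring
  have t3 : ∑ i, co i x * (f (v x) * fderiv ℝ v x (e i) + g (u x) * fderiv ℝ u x (e i)) =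
      f (v x) * (∑ j, co j x * fderiv ℝ v x (e j)) +
        g (u x) * ∑ j, co j x * fderiv ℝ u x (e j) := by
    simp only [mul_add, Finset.sum_add_distrib, Finset.mul_sum]
    congr 1 <;> exact Finset.sum_congr rfl fun i _ => by ring
  have t4 : ∑ i, fderiv ℝ v x (e i) * fderiv ℝ u x (e i) =
      ∑ i, fderiv ℝ u x (e i) * fderiv ℝ v x (e i) :=
    Finset.sum_congr rfl fun i _ => mul_comm _ _
  rw [t1, t2, t3, t4]
  simp only [mul_add, Finset.sum_add_distrib]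
  linear_combination (∑ i, fderiv ℝ u x (e i) * fderiv ℝ v x (e i)) * ha

/-- The case of the Lane-Emden nonlinearities. -/
theorem pohozaev_rpow (hΩ : IsOpen Ω) (e : ι → E) (co : ι → E →L[ℝ] ℝ) [DecidableEq ι]
    (hco : ∀ i j, co j (e i) = if i = j then 1 else 0) {φ : E → ℝ} {C : NNReal}
    (hφ : LipschitzWith C φ) (hφc : HasCompactSupport φ) (hsub : tsupport φ ⊆ Ω)
    {u v : E → ℝ} (hu : ContDiffOn ℝ 2 u Ω) (hv : ContDiffOn ℝ 2 v Ω) {p q : ℝ} (hp : p + 1 ≠ 0)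
    (hq : q + 1 ≠ 0) (hu0 : ∀ x ∈ Ω, 0 < u x) (hv0 : ∀ x ∈ Ω, 0 < v x)
    (equ : ∀ x ∈ Ω, ∑ i, fderiv ℝ (fderiv ℝ u) x (e i) (e i) = -(v x) ^ p)
    (eqv : ∀ x ∈ Ω, ∑ i, fderiv ℝ (fderiv ℝ v) x (e i) (e i) = -(u x) ^ q)
    (a₁ a₂ : ℝ) (ha : a₁ + a₂ = (Fintype.card ι : ℝ) - 2) :
    ∫ x, φ x * (((Fintype.card ι : ℝ) / (p + 1) - a₁) * (v x) ^ (p + 1) +
        ((Fintype.card ι : ℝ) / (q + 1) - a₂) * (u x) ^ (q + 1)) ∂μ =
      -∫ x, ∑ i, lineDeriv ℝ φ x (e i) * pohoField e co u v (fun t => t ^ (p + 1) / (p + 1))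
        (fun t => t ^ (q + 1) / (q + 1)) a₁ a₂ i x ∂μ := by
  have hd : ∀ r : ℝ, r + 1 ≠ 0 → ∀ t ∈ Ioi (0 : ℝ),
      HasDerivAt (fun t => t ^ (r + 1) / (r + 1)) (t ^ r) t := by
    intro r hr t ht
    have := (Real.hasDerivAt_rpow_const (p := r + 1) (Or.inl (ne_of_gt ht))).div_const (r + 1)
    rw [add_sub_cancel_right] at this
    exact this.congr_deriv (by field_simp)
  have hc : ∀ r : ℝ, ContDiffOn ℝ 1 (fun t : ℝ => t ^ (r + 1) / (r + 1)) (Ioi 0) := fun r =>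
    (contDiffOn_id.rpow_const_of_ne fun t (ht : t ∈ Ioi (0 : ℝ)) => ne_of_gt ht).div_const _
  rw [← pohozaev hΩ e co hco hφ hφc hsub hu hv hu0 hv0 (hc p) (hc q) (hd p hp) (hd q hq)
    equ eqv a₁ a₂ ha]
  congr 1; ext x
  by_cases hx : x ∈ tsupport φ
  · rw [Real.rpow_add (hu0 x (hsub hx)), Real.rpow_add (hv0 x (hsub hx)), Real.rpow_one,
      Real.rpow_one]
    field_simp
    ring
  · simp [image_eq_zero_of_notMem_tsupport hx]

end Vale.Agent.P100
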