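import Mathlib
import Vale.Agent.P100.GoodRadius
import Vale.Agent.P100.Pohozaev
import Vale.Agent.P100.Super

/-!
# The energy on the unit ball from good radii, and scaling

`unit_bound_of_good_radii`: Rellich-Pohozaev turns a bound on a positive-length set of spheres
into a bound on `∫ (u^(q+1) + v^(p+1))` over the unit ball, for subcritical exponents.
`nonexistence_of_unit_bound`: a bound on the unit ball that is uniform over all solutions rules
out solutions, by scaling.
-/

open MeasureTheory Filter Set Metric Topology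
open scoped ENNReal NNReal

namespace Vale.Agent.P100

variable {n : ℕ}


/-- A positive entire solution of the Lane-Emden system, in the sense of the problem. -/
structure IsSol (p q : ℝ) (u v : (EuclideanSpace ℝ (Fin n)) → ℝ) : Prop where
  contU : Continuous u
  contV : Continuous v
  smoothU : ContDiffOn ℝ 2 u {0}ᶜ
  smoothV : ContDiffOn ℝ 2 v {0}ᶜ
  posU : ∀ x, 0 < u x
  posV : ∀ x, 0 < v x
  eqU : ∀ x, x ≠ 0 → Laplacian.laplacian u x = -(v x) ^ p
  eqV : ∀ x, x ≠ 0 → Laplacian.laplacian v x = -(u x) ^ q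

theorem IsSol.swap {p q : ℝ} {u v : (EuclideanSpace ℝ (Fin n)) → ℝ} (h : IsSol p q u v) : IsSol q p v u :=
  ⟨h.contV, h.contU, h.smoothV, h.smoothU, h.posV, h.posU, h.eqV, h.eqU⟩

/-- `u^(q+1) + v^(p+1)` -/
noncomputable def energy (p q : ℝ) (u v : (EuclideanSpace ℝ (Fin n)) → ℝ) (x : (EuclideanSpace ℝ (Fin n))) : ℝ :=
  (u x) ^ (q + 1) + (v x) ^ (p + 1)

/-- the density that has to be small on the good spheres -/
noncomputable def sphereDens (p q : ℝ) (u v : (EuclideanSpace ℝ (Fin n)) → ℝ) (x : (EuclideanSpace ℝ (Fin n))) : ℝ :=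
  energy p q u v x + ‖fderiv ℝ u x‖ * ‖fderiv ℝ v x‖ + v x * ‖fderiv ℝ u x‖ +
    u x * ‖fderiv ℝ v x‖

theorem laplacian_eq_sum_single {f : (EuclideanSpace ℝ (Fin n)) → ℝ} (x : (EuclideanSpace ℝ (Fin n))) :
    Laplacian.laplacian f x = ∑ i : Fin n,
      fderiv ℝ (fderiv ℝ f) x (EuclideanSpace.single i 1) (EuclideanSpace.single i 1) := by
  rw [InnerProductSpace.laplacian_eq_iteratedFDeriv_orthonormalBasis f
    (EuclideanSpace.basisFun (Fin n) ℝ)]
  simp [iteratedFDeriv_two_apply]

variable {p q : ℝ}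

theorem IsSol.energy_nonneg {u v : (EuclideanSpace ℝ (Fin n)) → ℝ} (h : IsSol p q u v) (x : (EuclideanSpace ℝ (Fin n))) : 0 ≤ energy p q u v x :=
  add_nonneg (Real.rpow_nonneg (h.posU x).le _) (Real.rpow_nonneg (h.posV x).le _)

theorem IsSol.continuous_energy {u v : (EuclideanSpace ℝ (Fin n)) → ℝ} (h : IsSol p q u v) : Continuous (energy p q u v) :=
  (h.contU.rpow_const fun x => Or.inl (h.posU x).ne').add
    (h.contV.rpow_const fun x => Or.inl (h.posV x).ne')

theorem IsSol.continuousOn_fderiv {u v : (EuclideanSpace ℝ (Fin n)) → ℝ} (h : IsSol p q u v) :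
    ContinuousOn (fun x => ‖fderiv ℝ u x‖) {0}ᶜ ∧ ContinuousOn (fun x => ‖fderiv ℝ v x‖) {0}ᶜ :=
  ⟨(h.smoothU.continuousOn_fderiv_of_isOpen isOpen_compl_singleton one_le_two).norm,
   (h.smoothV.continuousOn_fderiv_of_isOpen isOpen_compl_singleton one_le_two).norm⟩

theorem IsSol.sphereDens_nonneg {u v : (EuclideanSpace ℝ (Fin n)) → ℝ} (h : IsSol p q u v) (x : (EuclideanSpace ℝ (Fin n))) : 0 ≤ sphereDens p q u v x := by
  have := h.energy_nonneg x
  have := (h.posU x).le
  have := (h.posV x).le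
  unfold sphereDens; positivity

theorem IsSol.measurable_sphereDens {u v : (EuclideanSpace ℝ (Fin n)) → ℝ} (h : IsSol p q u v) : Measurable (sphereDens p q u v) :=
  (((h.continuous_energy.measurable.add
    ((measurable_fderiv ℝ u).norm.mul (measurable_fderiv ℝ v).norm)).add
    (h.contV.measurable.mul (measurable_fderiv ℝ u).norm)).add
    (h.contU.measurable.mul (measurable_fderiv ℝ v).norm))

theorem norm_coord_le (i : Fin n) (x : (EuclideanSpace ℝ (Fin n))) : |EuclideanSpace.proj (𝕜 := ℝ) i x| ≤ ‖x‖ := by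
  simpa using PiLp.norm_apply_le x i

theorem sum_pohoField_le {u v : (EuclideanSpace ℝ (Fin n)) → ℝ} (hp : 0 < p) (hq : 0 < q) {x : (EuclideanSpace ℝ (Fin n))} (hu : 0 < u x) (hv : 0 < v x)
    (a₁ a₂ : ℝ) :
    ∑ i : Fin n, |pohoField (fun i => EuclideanSpace.single i (1 : ℝ))
        (fun i => EuclideanSpace.proj i) u v (fun t => t ^ (p + 1) / (p + 1))
        (fun t => t ^ (q + 1) / (q + 1)) a₁ a₂ i x| ≤
      n * (3 * n * ‖x‖ * (‖fderiv ℝ u x‖ * ‖fderiv ℝ v x‖) + |a₁| * (v x * ‖fderiv ℝ u x‖) +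
        |a₂| * (u x * ‖fderiv ℝ v x‖) + ‖x‖ * energy p q u v x) := by
  have he : ∀ (L : (EuclideanSpace ℝ (Fin n)) →L[ℝ] ℝ) (i : Fin n), |L (EuclideanSpace.single i 1)| ≤ ‖L‖ := fun L i => by
    simpa using L.le_opNorm (EuclideanSpace.single i (1 : ℝ))
  set A := ‖fderiv ℝ u x‖
  set B := ‖fderiv ℝ v x‖
  set du := fun i => fderiv ℝ u x (EuclideanSpace.single i 1)
  set dv := fun i => fderiv ℝ v x (EuclideanSpace.single i 1)
  have hdu : ∀ i, |du i| ≤ A := fun i => he _ i
  have hdv : ∀ i, |dv i| ≤ B := fun i => he _ i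
  have hsum : ∀ (w : Fin n → ℝ) (M : ℝ), (∀ i, |w i| ≤ M) → |∑ i, w i| ≤ n * M := fun w M hw =>
    (Finset.abs_sum_le_sum_abs _ _).trans (by
      simpa using Finset.sum_le_card_nsmul Finset.univ (fun i => |w i|) M fun i _ => hw i)
  have h1 : |∑ j, EuclideanSpace.proj (𝕜 := ℝ) j x * dv j| ≤ n * (‖x‖ * B) := hsum _ _ fun j => by
    rw [abs_mul]
    exact mul_le_mul (norm_coord_le j x) (hdv j) (abs_nonneg _) (norm_nonneg _)
  have h2 : |∑ j, EuclideanSpace.proj (𝕜 := ℝ) j x * du j| ≤ n * (‖x‖ * A) := hsum _ _ fun j => by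
    rw [abs_mul]
    exact mul_le_mul (norm_coord_le j x) (hdu j) (abs_nonneg _) (norm_nonneg _)
  have h3 : |∑ j, du j * dv j| ≤ n * (A * B) := hsum _ _ fun j => by
    rw [abs_mul]
    exact mul_le_mul (hdu j) (hdv j) (abs_nonneg _) (norm_nonneg _)
  have hF : |(v x) ^ (p + 1) / (p + 1) + (u x) ^ (q + 1) / (q + 1)| ≤ energy p q u v x := by
    rw [abs_of_nonneg (by positivity), energy, add_comm ((u x) ^ (q + 1))]
    exact add_le_add (div_le_self (by positivity) (by linarith))
      (div_le_self (by positivity) (by linarith))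
  have hterm : ∀ i ∈ (Finset.univ : Finset (Fin n)),
      |pohoField (fun i => EuclideanSpace.single i (1 : ℝ))
        (fun i => EuclideanSpace.proj i) u v (fun t => t ^ (p + 1) / (p + 1))
        (fun t => t ^ (q + 1) / (q + 1)) a₁ a₂ i x| ≤
      3 * n * ‖x‖ * (A * B) + |a₁| * (v x * A) + |a₂| * (u x * B) + ‖x‖ * energy p q u v x := by
    intro i _
    unfold pohoField
    have e1 : |(∑ j, EuclideanSpace.proj (𝕜 := ℝ) j x * dv j) * du i| ≤ n * ‖x‖ * (A * B) := by
      rw [abs_mul]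
      exact (mul_le_mul h1 (hdu i) (abs_nonneg _) (by positivity)).trans_eq (by ring)
    have e2 : |(∑ j, EuclideanSpace.proj (𝕜 := ℝ) j x * du j) * dv i| ≤ n * ‖x‖ * (A * B) := by
      rw [abs_mul]
      exact (mul_le_mul h2 (hdv i) (abs_nonneg _) (by positivity)).trans_eq (by ring)
    have e3 : |EuclideanSpace.proj (𝕜 := ℝ) i x * (∑ j, du j * dv j)| ≤ n * ‖x‖ * (A * B) := by
      rw [abs_mul]
      exact (mul_le_mul (norm_coord_le i x) h3 (abs_nonneg _) (norm_nonneg _)).trans_eq (by ring)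
    have e4 : |a₁ * (v x * du i)| ≤ |a₁| * (v x * A) := by
      rw [abs_mul, abs_mul, abs_of_pos hv]
      gcongr; exact hdu i
    have e5 : |a₂ * (u x * dv i)| ≤ |a₂| * (u x * B) := by
      rw [abs_mul, abs_mul, abs_of_pos hu]
      gcongr; exact hdv i
    have e6 : |EuclideanSpace.proj (𝕜 := ℝ) i x *
        ((v x) ^ (p + 1) / (p + 1) + (u x) ^ (q + 1) / (q + 1))| ≤
        ‖x‖ * energy p q u v x := by
      rw [abs_mul]
      exact mul_le_mul (norm_coord_le i x) hF (abs_nonneg _) (norm_nonneg _)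
    simp only [du, dv] at e1 e2 e3 e4 e5
    rw [abs_le] at e1 e2 e3 e4 e5 e6 ⊢
    constructor <;> linarith [e1.1, e1.2, e2.1, e2.2, e3.1, e3.2, e4.1, e4.2, e5.1, e5.2, e6.1,
      e6.2]
  refine (Finset.sum_le_card_nsmul _ _ _ hterm).trans ?_
  simp [mul_add]

theorem annulus_bound {u v : (EuclideanSpace ℝ (Fin n)) → ℝ} (h : IsSol p q u v) (hp : 0 < p) (hq : 0 < q) (a₁ a₂ : ℝ)
    {x : (EuclideanSpace ℝ (Fin n))} (hx : ‖x‖ ≤ 2) :
    ∑ i : Fin n, |pohoField (fun i => EuclideanSpace.single i (1 : ℝ))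
        (fun i => EuclideanSpace.proj i) u v (fun t => t ^ (p + 1) / (p + 1))
        (fun t => t ^ (q + 1) / (q + 1)) a₁ a₂ i x| ≤
      n * (6 * n + |a₁| + |a₂| + 2) * sphereDens p q u v x := by
  refine (sum_pohoField_le hp hq (h.posU x) (h.posV x) a₁ a₂).trans ?_
  rw [mul_assoc (n : ℝ)]
  refine mul_le_mul_of_nonneg_left ?_ (Nat.cast_nonneg n)
  have hn0 : (0 : ℝ) ≤ n := Nat.cast_nonneg n
  have := abs_nonneg a₁
  have := abs_nonneg a₂
  set L := 6 * (n : ℝ) + |a₁| + |a₂| + 2
  have hAB := mul_nonneg (norm_nonneg (fderiv ℝ u x)) (norm_nonneg (fderiv ℝ v x))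
  have hva := mul_nonneg (h.posV x).le (norm_nonneg (fderiv ℝ u x))
  have hub := mul_nonneg (h.posU x).le (norm_nonneg (fderiv ℝ v x))
  have he0 := h.energy_nonneg x
  have k1 : 3 * n * ‖x‖ ≤ L := by
    have := mul_le_mul_of_nonneg_left hx (by linarith : (0 : ℝ) ≤ 3 * n)
    linarith
  have k2 : |a₁| ≤ L := by linarith
  have k3 : |a₂| ≤ L := by linarith
  have k4 : ‖x‖ ≤ L := by linarith
  rw [sphereDens]
  linarith [mul_le_mul_of_nonneg_right k1 hAB, mul_le_mul_of_nonneg_right k2 hva,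
    mul_le_mul_of_nonneg_right k3 hub, mul_le_mul_of_nonneg_right k4 he0]

theorem layer_bound {u v : (EuclideanSpace ℝ (Fin n)) → ℝ} (h : IsSol p q u v) (hp : 0 < p) (hq : 0 < q) (a₁ a₂ : ℝ)
    {x : (EuclideanSpace ℝ (Fin n))} {ε Mu Mv Me : ℝ} (hε : 0 < ε) (hx : ‖x‖ ≤ 2 * ε) (hu : u x ≤ Mu) (hv : v x ≤ Mv)
    (he : energy p q u v x ≤ Me) :
    ε⁻¹ * ∑ i : Fin n, |pohoField (fun i => EuclideanSpace.single i (1 : ℝ))
        (fun i => EuclideanSpace.proj i) u v (fun t => t ^ (p + 1) / (p + 1))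
        (fun t => t ^ (q + 1) / (q + 1)) a₁ a₂ i x| ≤
      n * (3 * n + |a₁| * Mv + |a₂| * Mu + 2 * Me) *
        (‖fderiv ℝ u x‖ ^ 2 + ‖fderiv ℝ v x‖ ^ 2 + 1 + (ε⁻¹) ^ 2) := by
  refine (mul_le_mul_of_nonneg_left (sum_pohoField_le hp hq (h.posU x) (h.posV x) a₁ a₂)
    (inv_nonneg.2 hε.le)).trans ?_
  have hxε : ε⁻¹ * ‖x‖ ≤ 2 := by rw [inv_mul_eq_div, div_le_iff₀ hε]; exact hx
  set α := ‖fderiv ℝ u x‖
  set β := ‖fderiv ℝ v x‖
  set Y := α ^ 2 + β ^ 2 + 1 + (ε⁻¹) ^ 2 with hY
  have hn0 : (0 : ℝ) ≤ n := Nat.cast_nonneg n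
  have he0 := h.energy_nonneg x
  have hα0 : 0 ≤ α := norm_nonneg _
  have hβ0 : 0 ≤ β := norm_nonneg _
  have hMu0 : 0 ≤ Mu := (h.posU x).le.trans hu
  have hMv0 : 0 ≤ Mv := (h.posV x).le.trans hv
  have hα : ε⁻¹ * α ≤ Y := by nlinarith [sq_nonneg (ε⁻¹ - α), sq_nonneg β, sq_nonneg α]
  have hβ : ε⁻¹ * β ≤ Y := by nlinarith [sq_nonneg (ε⁻¹ - β), sq_nonneg β, sq_nonneg α]
  have hαβ : 2 * (α * β) ≤ Y := by nlinarith [sq_nonneg (α - β), sq_nonneg ε⁻¹]
  have h1 : (1 : ℝ) ≤ Y := by nlinarith [sq_nonneg β, sq_nonneg α, sq_nonneg ε⁻¹]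
  have t1 : 3 * n * (ε⁻¹ * ‖x‖) * (α * β) ≤ 3 * n * Y := by
    calc _ ≤ 3 * (n : ℝ) * 2 * (α * β) := mul_le_mul_of_nonneg_right
          (mul_le_mul_of_nonneg_left hxε (by positivity)) (mul_nonneg hα0 hβ0)
      _ = 3 * (n : ℝ) * (2 * (α * β)) := by ring
      _ ≤ _ := mul_le_mul_of_nonneg_left hαβ (by positivity)
  have t2 : |a₁| * (v x * (ε⁻¹ * α)) ≤ |a₁| * (Mv * Y) :=
    mul_le_mul_of_nonneg_left (mul_le_mul hv hα (by positivity) hMv0) (abs_nonneg _)
  have t3 : |a₂| * (u x * (ε⁻¹ * β)) ≤ |a₂| * (Mu * Y) :=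
    mul_le_mul_of_nonneg_left (mul_le_mul hu hβ (by positivity) hMu0) (abs_nonneg _)
  have t4 : ε⁻¹ * ‖x‖ * energy p q u v x ≤ 2 * Me * Y :=
    (mul_le_mul hxε he he0 zero_le_two).trans
      (le_mul_of_one_le_right (mul_nonneg zero_le_two (he0.trans he)) h1)
  calc ε⁻¹ * (n * (3 * n * ‖x‖ * (α * β) + |a₁| * (v x * α) + |a₂| * (u x * β) +
        ‖x‖ * energy p q u v x))
      = n * (3 * n * (ε⁻¹ * ‖x‖) * (α * β) + |a₁| * (v x * (ε⁻¹ * α)) +
          |a₂| * (u x * (ε⁻¹ * β)) + ε⁻¹ * ‖x‖ * energy p q u v x) := by ring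
    _ ≤ n * (3 * n * Y + |a₁| * (Mv * Y) + |a₂| * (Mu * Y) + 2 * Me * Y) :=
        mul_le_mul_of_nonneg_left (by linarith) hn0
    _ = _ := by ring

/-- half the subcritical margin -/
noncomputable def margin (n : ℕ) (p q : ℝ) : ℝ :=
  ((n : ℝ) / (p + 1) + (n : ℝ) / (q + 1) - ((n : ℝ) - 2)) / 2

/-- constant in the unit-ball bound -/
noncomputable def pohoConst (n : ℕ) (p q : ℝ) : ℝ :=
  n * (6 * n + |(n : ℝ) / (p + 1) - margin n p q| + |(n : ℝ) / (q + 1) - margin n p q| + 2)

theorem unit_bound_of_good_radii {u v : (EuclideanSpace ℝ (Fin n)) → ℝ} (hn : 3 ≤ n) (hp : 0 < p) (hq : 0 < q)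
    (hsub : ((n : ℝ) - 2) < (n : ℝ) / (p + 1) + (n : ℝ) / (q + 1)) (h : IsSol p q u v)
    (hgu : IntegrableOn (fun x => ‖fderiv ℝ u x‖ ^ 2) (closedBall 0 1))
    (hgv : IntegrableOn (fun x => ‖fderiv ℝ v x‖ ^ 2) (closedBall 0 1))
    {K : Set ℝ} (hK : IsCompact K) (hK2 : K ⊆ Icc 1 2) (hKv : 1 / 2 ≤ volume.real K)
    {D : ℝ} (hD0 : 0 ≤ D)
    (hD : ∀ r ∈ K, slice volume (fun x => ENNReal.ofReal (sphereDens p q u v x)) r ≤
      ENNReal.ofReal D) :
    ∫ x in closedBall (0 : (EuclideanSpace ℝ (Fin n))) 1, energy p q u v x ≤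
      2 * pohoConst n p q * 2 ^ (n - 1) / margin n p q * D := by
  classical
  set m := margin n p q with hm
  have hm0 : 0 < m := by rw [hm, margin]; linarith
  set a₁ := (n : ℝ) / (p + 1) - m with ha₁
  set a₂ := (n : ℝ) / (q + 1) - m with ha₂
  have ha : a₁ + a₂ = (Fintype.card (Fin n) : ℝ) - 2 := by
    rw [Fintype.card_fin, ha₁, ha₂, hm, margin]; ring
  set A := pohoConst n p q with hA
  have hA0 : 0 ≤ A := by rw [hA, pohoConst]; positivity
  have : Nontrivial (EuclideanSpace ℝ (Fin n)) := Module.nontrivial_of_finrank_pos (R := ℝ)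
    (by rw [finrank_euclideanSpace_fin]; omega)
  -- bounds on the unit ball
  obtain ⟨Mu, hMu⟩ := (isCompact_closedBall (0 : (EuclideanSpace ℝ (Fin n))) 1).exists_bound_of_continuousOn
    h.contU.continuousOn
  obtain ⟨Mv, hMv⟩ := (isCompact_closedBall (0 : (EuclideanSpace ℝ (Fin n))) 1).exists_bound_of_continuousOn
    h.contV.continuousOn
  obtain ⟨Me, hMe⟩ := (isCompact_closedBall (0 : (EuclideanSpace ℝ (Fin n))) 1).exists_bound_of_continuousOn
    h.continuous_energy.continuousOn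
  have hMu0 : 0 ≤ Mu := (norm_nonneg _).trans (hMu 0 (by simp))
  have hMv0 : 0 ≤ Mv := (norm_nonneg _).trans (hMv 0 (by simp))
  have hMe0 : 0 ≤ Me := (norm_nonneg _).trans (hMe 0 (by simp))
  set hh : (EuclideanSpace ℝ (Fin n)) → ℝ := fun x => ‖fderiv ℝ u x‖ ^ 2 + ‖fderiv ℝ v x‖ ^ 2 + 1 with hhh
  have hh1 : IntegrableOn hh (closedBall 0 1) := (hgu.add hgv).add
    (integrableOn_const (measure_closedBall_lt_top).ne)
  set c₁ : ℝ := n * (3 * n + |a₁| * Mv + |a₂| * Mu + 2 * Me) with hc₁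
  have hc₁0 : 0 ≤ c₁ := by positivity
  set T : Set (EuclideanSpace ℝ (Fin n)) := (fun y : (EuclideanSpace ℝ (Fin n)) => ‖y‖) ⁻¹' K with hT
  have hTm : MeasurableSet T := measurable_norm hK.isClosed.measurableSet
  have hTb : T ⊆ closedBall (0 : (EuclideanSpace ℝ (Fin n))) 2 := fun x hx => by simpa using (hK2 hx).2
  have hTc : IsCompact T := (isCompact_closedBall (0 : (EuclideanSpace ℝ (Fin n))) 2).of_isClosed_subset
    (hK.isClosed.preimage continuous_norm) hTb
  have hT0 : T ⊆ ({0}ᶜ : Set (EuclideanSpace ℝ (Fin n))) := fun x hx h0 => by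
    have := (hK2 hx).1
    simp [mem_singleton_iff.1 h0] at this
    linarith
  obtain ⟨hcu, hcv⟩ := h.continuousOn_fderiv
  have hdint : IntegrableOn (sphereDens p q u v) T :=
    ((((h.continuous_energy.continuousOn.add (hcu.mul hcv)).add
      (h.contV.continuousOn.mul hcu)).add (h.contU.continuousOn.mul hcv)).mono
        hT0).integrableOn_compact hTc
  have hdT : ∫ x in T, sphereDens p q u v x ≤ 2 ^ (n - 1) * D := by
    rw [integral_eq_lintegral_of_nonneg_ae (ae_of_all _ fun x => h.sphereDens_nonneg x)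
      hdint.aestronglyMeasurable]
    refine ENNReal.toReal_le_of_le_ofReal (by positivity) ?_
    refine (setLIntegral_norm_mem_le volume (g := fun x => ENNReal.ofReal (sphereDens p q u v x))
      h.measurable_sphereDens.ennreal_ofReal hK.isClosed.measurableSet hK2 hD).trans ?_
    rw [finrank_euclideanSpace_fin, ENNReal.ofReal_mul (by positivity)]
  -- the estimate for a fixed inner layer
  have main : ∀ ε : ℝ, 0 < ε → 2 * ε < 1 →
      m / 2 * ((∫ x in closedBall (0 : (EuclideanSpace ℝ (Fin n))) 1, energy p q u v x) -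
        ∫ x in closedBall (0 : (EuclideanSpace ℝ (Fin n))) (2 * ε), energy p q u v x) ≤
      A * (2 ^ (n - 1) * D) + c₁ * (∫ x in closedBall (0 : (EuclideanSpace ℝ (Fin n))) (2 * ε), hh x) +
        c₁ * (volume.real (closedBall (0 : (EuclideanSpace ℝ (Fin n))) (2 * ε)) * (ε⁻¹) ^ 2) := by
    intro ε hε hε2
    set φ : (EuclideanSpace ℝ (Fin n)) → ℝ := cutK K ε with hφ
    set S : Set (EuclideanSpace ℝ (Fin n)) := closedBall (0 : (EuclideanSpace ℝ (Fin n))) (2 * ε) with hS
    have hSm : MeasurableSet S := isClosed_closedBall.measurableSet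
    have hS1 : S ⊆ closedBall (0 : (EuclideanSpace ℝ (Fin n))) 1 := closedBall_subset_closedBall hε2.le
    set X := pohoField (fun i : Fin n => EuclideanSpace.single i (1 : ℝ))
      (fun i => EuclideanSpace.proj i) u v (fun t => t ^ (p + 1) / (p + 1))
      (fun t => t ^ (q + 1) / (q + 1)) a₁ a₂
    have key := pohozaev_rpow (μ := (volume : Measure (EuclideanSpace ℝ (Fin n)))) isOpen_compl_singleton
      (fun i : Fin n => EuclideanSpace.single i (1 : ℝ)) (fun i => EuclideanSpace.proj i)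
      (fun i j => by simp [PiLp.single_apply, eq_comm])
      (lipschitz_cutK hK hε : LipschitzWith _ φ) (hasCompactSupport_cutK hK2 hε) (tsupport_cutK hK2 hε)
      h.smoothU h.smoothV (by linarith : p + 1 ≠ 0) (by linarith : q + 1 ≠ 0)
      (fun x _ => h.posU x) (fun x _ => h.posV x)
      (fun x hx => by rw [← laplacian_eq_sum_single]; exact h.eqU x hx)
      (fun x hx => by rw [← laplacian_eq_sum_single]; exact h.eqV x hx) a₁ a₂ ha
    have hlhs : ∀ x, φ x * (((Fintype.card (Fin n) : ℝ) / (p + 1) - a₁) * (v x) ^ (p + 1) +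
        ((Fintype.card (Fin n) : ℝ) / (q + 1) - a₂) * (u x) ^ (q + 1)) =
        m * (φ x * energy p q u v x) := fun x => by
      rw [Fintype.card_fin, ha₁, ha₂, energy]; ring
    simp only [← hφ, hlhs, integral_const_mul] at key
    -- lower bound
    have hφc : Continuous φ := (lipschitz_cutK hK hε).continuous
    have hint : Integrable (fun x => φ x * energy p q u v x) :=
      (hφc.mul h.continuous_energy).integrable_of_hasCompactSupport
        (hasCompactSupport_cutK hK2 hε).mul_right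
    have hR : IntegrableOn (energy p q u v) (closedBall (0 : (EuclideanSpace ℝ (Fin n))) 1 \ S) :=
      (h.continuous_energy.continuousOn.integrableOn_compact
        (isCompact_closedBall (0 : (EuclideanSpace ℝ (Fin n))) 1)).mono_set sdiff_subset
    have hlow : 1 / 2 * ((∫ x in closedBall (0 : (EuclideanSpace ℝ (Fin n))) 1, energy p q u v x) -
        ∫ x in S, energy p q u v x) ≤ ∫ x, φ x * energy p q u v x := by
      rw [← setIntegral_sdiff₀ hSm.nullMeasurableSet
        (h.continuous_energy.continuousOn.integrableOn_compact (isCompact_closedBall (0 : (EuclideanSpace ℝ (Fin n))) 1))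
        hS1, ← integral_const_mul,
        ← integral_indicator (isClosed_closedBall.measurableSet.diff hSm)]
      refine integral_mono (IntegrableOn.integrable_indicator (hR.const_mul _)
        (isClosed_closedBall.measurableSet.diff hSm)) hint fun x => ?_
      by_cases hx : x ∈ closedBall (0 : (EuclideanSpace ℝ (Fin n))) 1 \ S
      · rw [indicator_of_mem hx]
        obtain ⟨hx1, hx2⟩ := hx
        simp only [hS, mem_closedBall, dist_zero_right, not_le] at hx1 hx2
        refine mul_le_mul_of_nonneg_right ?_ (h.energy_nonneg x)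
        rw [hφ, cutK_eq hK2 hε hx2.le, tailLen_eq_of_le hK2 hx1]
        exact hKv
      · rw [indicator_of_notMem hx]
        exact mul_nonneg (cutK_nonneg _ _ _) (h.energy_nonneg x)
    -- upper bound
    set Ψ : (EuclideanSpace ℝ (Fin n)) → ℝ := fun x => T.indicator (fun y => A * sphereDens p q u v y) x +
      S.indicator (fun y => c₁ * hh y + c₁ * (ε⁻¹) ^ 2) x with hΨ
    have hSi : IntegrableOn (fun y => c₁ * hh y + c₁ * (ε⁻¹) ^ 2) S :=
      ((hh1.mono_set hS1).const_mul c₁).add (integrableOn_const measure_closedBall_lt_top.ne)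
    have hΨi : Integrable Ψ :=
      (IntegrableOn.integrable_indicator (hdint.const_mul A) hTm).add (hSi.integrable_indicator hSm)
    have hpt : ∀ x, ‖∑ i, lineDeriv ℝ φ x (EuclideanSpace.single i 1) * X i x‖ ≤ Ψ x := by
      intro x
      have hb : ‖∑ i, lineDeriv ℝ φ x (EuclideanSpace.single i 1) * X i x‖ ≤
          (T.indicator (fun _ => (1 : ℝ)) x + S.indicator (fun _ => ε⁻¹) x) *
            ∑ i, |X i x| := by
        rw [Real.norm_eq_abs, Finset.mul_sum]
        refine (Finset.abs_sum_le_sum_abs _ _).trans (Finset.sum_le_sum fun i _ => ?_)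
        rw [abs_mul]
        refine mul_le_mul_of_nonneg_right ?_ (abs_nonneg _)
        simpa using abs_lineDeriv_cutK hK hK2 hε hε2 x (EuclideanSpace.single i (1 : ℝ))
      refine hb.trans ?_
      rw [add_mul, hΨ]
      refine add_le_add ?_ ?_
      · by_cases hx : x ∈ T
        · rw [indicator_of_mem hx, indicator_of_mem hx, one_mul, hA, pohoConst, ← hm, ← ha₁, ← ha₂]
          exact annulus_bound h hp hq a₁ a₂ (hK2 hx).2
        · simp [indicator_of_notMem hx]
      · by_cases hx : x ∈ S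
        · rw [indicator_of_mem hx, indicator_of_mem hx, ← mul_add]
          exact layer_bound h hp hq a₁ a₂ hε (by simpa [hS] using hx)
            ((le_abs_self _).trans (hMu x (hS1 hx))) ((le_abs_self _).trans (hMv x (hS1 hx)))
            ((le_abs_self _).trans (hMe x (hS1 hx)))
        · simp [indicator_of_notMem hx]
    have hup := norm_integral_le_of_norm_le hΨi (ae_of_all _ hpt)
    rw [hΨ, integral_add (IntegrableOn.integrable_indicator (hdint.const_mul A) hTm)
      (hSi.integrable_indicator hSm), integral_indicator hTm, integral_indicator hSm,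
      integral_add ((hh1.mono_set hS1).const_mul c₁)
        (integrableOn_const measure_closedBall_lt_top.ne),
      integral_const_mul, integral_const_mul, setIntegral_const, smul_eq_mul] at hup
    rw [Real.norm_eq_abs] at hup
    have hT' := mul_le_mul_of_nonneg_left hdT hA0
    have hl := mul_le_mul_of_nonneg_left hlow hm0.le
    have := (abs_le.1 hup).1
    nlinarith
  -- the limit
  set εk : ℕ → ℝ := fun k => 1 / ((k : ℝ) + 3) with hεk
  have hεpos : ∀ k, 0 < εk k := fun k => by positivity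
  have hεlt : ∀ k, 2 * εk k < 1 := fun k => by
    have : (0 : ℝ) ≤ k := k.cast_nonneg
    rw [hεk, mul_one_div, div_lt_one (by positivity)]; linarith
  have hlim0 : Tendsto εk atTop (𝓝 0) := by
    have := (tendsto_natCast_atTop_atTop (R := ℝ)).atTop_add (tendsto_const_nhds (x := (3 : ℝ)))
    simp only [hεk, one_div]
    exact this.inv_tendsto_atTop
  set Sk : ℕ → Set (EuclideanSpace ℝ (Fin n)) := fun k => closedBall (0 : (EuclideanSpace ℝ (Fin n))) (2 * εk k)
  have hanti : Antitone Sk := fun j k hjk => closedBall_subset_closedBall (by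
    simp only [hεk]; gcongr)
  have hvol : volume (⋂ k, Sk k) = 0 := by
    have : (⋂ k, Sk k) ⊆ {0} := fun x hx => by
      simp only [Sk, mem_iInter, mem_closedBall, dist_zero_right] at hx
      have : ‖x‖ ≤ 0 := le_of_tendsto_of_tendsto tendsto_const_nhds
        (by simpa using hlim0.const_mul 2) (Eventually.of_forall hx)
      simpa using this
    exact measure_mono_null this (measure_singleton 0)
  have htend : ∀ g : (EuclideanSpace ℝ (Fin n)) → ℝ, IntegrableOn g (closedBall 0 1) →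
      Tendsto (fun k => ∫ x in Sk k, g x) atTop (𝓝 0) := fun g hg => by
    have := tendsto_setIntegral_of_antitone (fun k => isClosed_closedBall.measurableSet) hanti
      ⟨0, hg.mono_set (closedBall_subset_closedBall (hεlt 0).le)⟩
    rwa [setIntegral_measure_zero g hvol] at this
  have hpow : Tendsto (fun k => volume.real (Sk k) * ((εk k)⁻¹) ^ 2) atTop (𝓝 0) := by
    have h' : Tendsto (fun k => 2 ^ n * volume.real (closedBall (0 : (EuclideanSpace ℝ (Fin n))) 1) * (εk k) ^ (n - 2))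
        atTop (𝓝 0) := by
      simpa [zero_pow (by omega : n - 2 ≠ 0)] using
        (hlim0.pow (n - 2)).const_mul (2 ^ n * volume.real (closedBall (0 : (EuclideanSpace ℝ (Fin n))) 1))
    refine h'.congr fun k => ?_
    have e : εk k ^ n = εk k ^ (n - 2) * εk k ^ 2 := by
      rw [← pow_add, Nat.sub_add_cancel (by omega : 2 ≤ n)]
    simp only [Sk]
    rw [Measure.real, Measure.real, Measure.addHaar_closedBall' volume (0 : (EuclideanSpace ℝ (Fin n)))
      (mul_pos two_pos (hεpos k)).le, finrank_euclideanSpace_fin, ENNReal.toReal_mul,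
      ENNReal.toReal_ofReal (by have := hεpos k; positivity), mul_pow, e]
    have := (hεpos k).ne'
    field_simp
  have hfin : m / 2 * ((∫ x in closedBall (0 : (EuclideanSpace ℝ (Fin n))) 1, energy p q u v x) - 0) ≤
      A * (2 ^ (n - 1) * D) + c₁ * 0 + c₁ * 0 :=
    le_of_tendsto_of_tendsto
      ((tendsto_const_nhds.sub (htend _ (h.continuous_energy.continuousOn.integrableOn_compact
        (isCompact_closedBall (0 : (EuclideanSpace ℝ (Fin n))) 1)))).const_mul _)
      ((tendsto_const_nhds.add ((htend _ hh1).const_mul c₁)).add (hpow.const_mul c₁))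
      (Eventually.of_forall fun k => main (εk k) (hεpos k) (hεlt k))
  rw [mul_comm (2 * A * 2 ^ (n - 1) / m) D, mul_div, le_div_iff₀ hm0]
  nlinarith

/-- `α` in the scaling `u ↦ λ^α u(λ x)` -/
noncomputable def scalExp (p q : ℝ) : ℝ := 2 * (p + 1) / (p * q - 1)

theorem scalExp_mul (hpq : 1 < p * q) :
    scalExp q p * p = scalExp p q + 2 ∧ scalExp p q * (q + 1) = scalExp q p * (p + 1) := by
  have : p * q - 1 ≠ 0 := by linarith
  have h' : q * p - 1 ≠ 0 := by rw [mul_comm]; exact this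
  constructor <;> (unfold scalExp; field_simp; try ring)

theorem laplacian_const_mul_comp_smul {f : (EuclideanSpace ℝ (Fin n)) → ℝ} {x : (EuclideanSpace ℝ (Fin n))} {c : ℝ} (a : ℝ) (_hc : c ≠ 0)
    (hf : ContDiffAt ℝ 2 f (c • x)) :
    Laplacian.laplacian (fun y => a * f (c • y)) x = a * c ^ 2 * Laplacian.laplacian f (c • x) := by
  have hs : ContDiffAt ℝ 2 (fun y : (EuclideanSpace ℝ (Fin n)) => a * f (c • y)) x :=
    (hf.comp x (contDiffAt_id.const_smul c)).const_smul a
  rw [Super.lap_eq_sum hs (EuclideanSpace.basisFun (Fin n) ℝ),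
    Super.lap_eq_sum hf (EuclideanSpace.basisFun (Fin n) ℝ), Finset.mul_sum]
  refine Finset.sum_congr rfl fun i _ => ?_
  set w := EuclideanSpace.basisFun (Fin n) ℝ i
  set g : ℝ → ℝ := fun t => f (c • x + t • w)
  have e1 : (fun t : ℝ => a * f (c • (x + t • w))) = fun t => a * g (c * t) := by
    ext t; simp [g, smul_add, smul_smul]
  have e2 : deriv (fun t => a * g (c * t)) = fun t => a * c * deriv g (c * t) := by
    ext t
    simp only [deriv_const_mul_field, deriv_comp_mul_left, smul_eq_mul]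
    ring
  rw [e1, e2]
  simp only [deriv_const_mul_field, deriv_comp_mul_left, smul_eq_mul, mul_zero]
  ring

/-- The scaling symmetry. -/
theorem IsSol.scale {u v : (EuclideanSpace ℝ (Fin n)) → ℝ} (h : IsSol p q u v) (hpq : 1 < p * q) {c : ℝ} (hc : 0 < c) :
    IsSol p q (fun x => c ^ scalExp p q * u (c • x)) (fun x => c ^ scalExp q p * v (c • x)) := by
  have key : ∀ {p' q' : ℝ} {u' v' : (EuclideanSpace ℝ (Fin n)) → ℝ}, IsSol p' q' u' v' → 1 < p' * q' → ∀ x : (EuclideanSpace ℝ (Fin n)), x ≠ 0 →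
      Laplacian.laplacian (fun x => c ^ scalExp p' q' * u' (c • x)) x =
        -(c ^ scalExp q' p' * v' (c • x)) ^ p' := by
    intro p' q' u' v' h' hpq' x hx
    have hx' : c • x ≠ 0 := smul_ne_zero hc.ne' hx
    rw [laplacian_const_mul_comp_smul _ hc.ne'
        (h'.smoothU.contDiffAt (isOpen_compl_singleton.mem_nhds hx')), h'.eqU _ hx',
      Real.mul_rpow (by positivity) (h'.posV _).le, ← Real.rpow_mul hc.le, (scalExp_mul hpq').1,
      Real.rpow_add hc, Real.rpow_two]
    ring
  have sm : ∀ {f : (EuclideanSpace ℝ (Fin n)) → ℝ}, ContDiffOn ℝ 2 f {0}ᶜ → ∀ a : ℝ,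
      ContDiffOn ℝ 2 (fun x => a * f (c • x)) {0}ᶜ := fun hf a =>
    contDiffOn_const.mul (hf.comp (contDiff_id.const_smul c).contDiffOn fun x hx =>
      smul_ne_zero hc.ne' hx)
  exact ⟨continuous_const.mul (h.contU.comp (continuous_const_smul c)),
    continuous_const.mul (h.contV.comp (continuous_const_smul c)),
    sm h.smoothU _, sm h.smoothV _,
    fun x => mul_pos (Real.rpow_pos_of_pos hc _) (h.posU _),
    fun x => mul_pos (Real.rpow_pos_of_pos hc _) (h.posV _),
    key h hpq, key h.swap (by rwa [mul_comm])⟩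

/-- A bound on the unit-ball energy, uniform over all solutions, rules out solutions. -/
theorem nonexistence_of_unit_bound (hp : 0 < p) (hq : 0 < q) (hpq : 1 < p * q)
    (hsub : ((n : ℝ) - 2) < (n : ℝ) / (p + 1) + (n : ℝ) / (q + 1))
    {C : ℝ} (hC : ∀ u v : (EuclideanSpace ℝ (Fin n)) → ℝ, IsSol p q u v →
      ∫ x in closedBall (0 : (EuclideanSpace ℝ (Fin n))) 1, energy p q u v x ≤ C) :
    ¬ ∃ u v : (EuclideanSpace ℝ (Fin n)) → ℝ, IsSol p q u v := by
  rintro ⟨u, v, h⟩
  set κ := scalExp p q * (q + 1) with hκ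
  have hκn : (n : ℝ) < κ := by
    rw [hκ, scalExp, div_mul_eq_mul_div, lt_div_iff₀ (by linarith)]
    rw [div_add_div _ _ (by linarith) (by linarith), lt_div_iff₀ (by positivity)] at hsub
    nlinarith
  set F := ∫ x in closedBall (0 : (EuclideanSpace ℝ (Fin n))) 1, energy p q u v x with hF
  have hF0 : 0 < F := by
    rw [hF, setIntegral_pos_iff_support_of_nonneg_ae (ae_of_all _ h.energy_nonneg)
      (h.continuous_energy.continuousOn.integrableOn_compact (isCompact_closedBall _ _))]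
    have : Function.support (energy p q u v) = univ := Set.eq_univ_of_forall fun x => ne_of_gt
      (add_pos (Real.rpow_pos_of_pos (h.posU x) _) (Real.rpow_pos_of_pos (h.posV x) _))
    rw [this, univ_inter]
    exact measure_closedBall_pos _ _ one_pos
  have hb : ∀ c : ℝ, 1 ≤ c → c ^ (κ - n) * F ≤ C := by
    intro c hc
    have hc0 : 0 < c := by linarith
    refine le_trans ?_ (hC _ _ (h.scale hpq hc0))
    have e : ∀ x, energy p q (fun x => c ^ scalExp p q * u (c • x))
        (fun x => c ^ scalExp q p * v (c • x)) x = c ^ κ * energy p q u v (c • x) := fun x => by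
      simp only [energy]
      rw [Real.mul_rpow (by positivity) (h.posU _).le, Real.mul_rpow (by positivity) (h.posV _).le,
        ← Real.rpow_mul hc0.le, ← Real.rpow_mul hc0.le, ← (scalExp_mul hpq).2, ← hκ]
      ring
    simp only [e]
    rw [integral_const_mul, Measure.setIntegral_comp_smul_of_pos volume _ _ hc0,
      finrank_euclideanSpace_fin, _root_.smul_closedBall _ _ zero_le_one, smul_zero, mul_one,
      Real.norm_of_nonneg hc0.le, smul_eq_mul, Real.rpow_sub hc0, Real.rpow_natCast,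
      div_eq_mul_inv, mul_assoc]
    refine mul_le_mul_of_nonneg_left (mul_le_mul_of_nonneg_left ?_ (by positivity)) (by positivity)
    exact setIntegral_mono_set
      (h.continuous_energy.continuousOn.integrableOn_compact (isCompact_closedBall _ _))
      (ae_of_all _ h.energy_nonneg) (LE.le.eventuallyLE
        (closedBall_subset_closedBall hc))
  have ht : Tendsto (fun c : ℝ => c ^ (κ - n) * F) atTop atTop :=
    (tendsto_rpow_atTop (by linarith)).atTop_mul_const hF0
  obtain ⟨c, hc, hc1⟩ := ((ht.eventually_gt_atTop C).and (eventually_ge_atTop 1)).exists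
  exact absurd (hb c hc1) (not_le.2 hc)

end Vale.Agent.P100
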