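import Mathlib
import Vale.Agent.P100.Energy
import Vale.Agent.P100.Puncture
import Vale.Agent.P100.Compare
import Vale.Agent.P100.GoodRadius
import Vale.Agent.P100.UnitBound
import Vale.Agent.P100.SphereSobolev

/-!
# A pointwise certificate rules out positive entire solutions

A certificate with weight `(u v) ^ L`, `0 < L < 2`, `n - 5 ≤ L (n - 3)`, for subcritical
`p ≥ q > 0`, `p q > 1` implies that the Lane–Emden system has no positive entire solution:
energy bound on an annulus, good spheres, Sobolev on spheres, Rellich–Pohozaev and scaling.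
-/

open MeasureTheory Filter Set Metric Topology Laplacian
open scoped ENNReal

namespace Vale.Agent.P100

variable {n : ℕ}

/-- The squared norm of a functional is the sum of its squared coordinates. -/
theorem norm_sq_eq_sum (ℓ : EuclideanSpace ℝ (Fin n) →L[ℝ] ℝ) :
    ‖ℓ‖ ^ 2 = ∑ i, ℓ (eStd i) ^ 2 := by
  rw [← (InnerProductSpace.toDual ℝ _).symm.norm_map ℓ,
    ← (EuclideanSpace.basisFun (Fin n) ℝ).sum_sq_norm_inner_left]
  refine Finset.sum_congr rfl fun i _ => ?_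
  rw [Real.norm_eq_abs, sq_abs, InnerProductSpace.toDual_symm_apply]
  rfl

/-- A fixed cut-off for the annulus `1 ≤ ‖x‖ ≤ 2`, supported away from the origin. -/
theorem exists_annulus_cutoff :
    ∃ η : EuclideanSpace ℝ (Fin n) → ℝ, ContDiff ℝ 1 η ∧ HasCompactSupport η ∧
      tsupport η ⊆ {0}ᶜ ∧ (∀ x, η x ∈ Icc (0 : ℝ) 1) ∧ ∀ x, ‖x‖ ∈ Icc (1 : ℝ) 2 → η x = 1 := by
  obtain ⟨φ, hφ, hφc, hφI, hφ1, -⟩ :=
    Puncture.exists_bump (E := EuclideanSpace ℝ (Fin n)) (by norm_num : (0 : ℝ) < 2)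
  obtain ⟨β, hβ, hβc, hβI, hβ1, hβ0⟩ :=
    Puncture.exists_bump (E := EuclideanSpace ℝ (Fin n)) one_pos
  refine ⟨fun x => φ x - β ((4 : ℝ) • x),
    (hφ.sub (hβ.comp (contDiff_id.const_smul (4 : ℝ)))).of_le one_le_two,
    hφc.sub (hβc.comp_smul (by norm_num)),
    Puncture.tsupport_sub_scale (by norm_num) one_pos (by norm_num) hφ1 hβ1,
    fun x => ?_, fun x hx => ?_⟩
  · have h4 : ‖(4 : ℝ) • x‖ = 4 * ‖x‖ := by rw [norm_smul]; norm_num
    constructor
    · by_cases h : 2 ≤ ‖(4 : ℝ) • x‖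
      · simp [hβ0 _ (by linarith : (1 : ℝ) + 1 ≤ ‖(4 : ℝ) • x‖), (hφI x).1]
      · simp [hφ1 x (by linarith [norm_nonneg x]), (hβI _).2]
    · linarith [(hφI x).2, (hβI ((4 : ℝ) • x)).1]
  · have h4 : ‖(4 : ℝ) • x‖ = 4 * ‖x‖ := by rw [norm_smul]; norm_num
    simp [hφ1 x hx.2, hβ0 _ (by linarith [hx.1] : (1 : ℝ) + 1 ≤ ‖(4 : ℝ) • x‖)]

/-- The weight is at most `1 + w M`. -/
theorem weight_le_one_add {w M r : ℝ} (hw : 0 ≤ w) (hM : 0 ≤ M) (hr : 0 ≤ r) (h : w ≤ M ^ r) :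
    w ≤ 1 + w * M := by
  rcases le_total M 1 with hM1 | hM1
  · have := Real.rpow_le_one hM hM1 hr
    nlinarith [mul_nonneg hw hM]
  · nlinarith

/-- `t S ≤ t² / w + w S²`. -/
theorem mul_le_div_add {w t S : ℝ} (hw : 0 < w) (ht : 0 ≤ t) (hS : 0 ≤ S) :
    t * S ≤ t ^ 2 / w + w * S ^ 2 := by
  have h : t * S * w ≤ t ^ 2 + w * S ^ 2 * w := by
    nlinarith [sq_nonneg (t - w * S), mul_nonneg (mul_nonneg ht hS) hw.le]
  rw [← sub_nonneg] at h ⊢
  rw [show t ^ 2 / w + w * S ^ 2 - t * S = (t ^ 2 + w * S ^ 2 * w - t * S * w) / w by field_simp]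
  positivity

/-- The bookkeeping, as an inequality between numbers. -/
theorem dens_alg {κ t T w M U V a b : ℝ} (hκ : 0 ≤ κ) (ht : 0 ≤ t) (hT : 0 ≤ T) (hw : 0 ≤ w)
    (hM : 0 ≤ w * M) (hU : U ≤ T + w * M) (hV : V ≤ κ * (T + w * M))
    (hA : t * a ^ 2 ≤ T + w * M) (hB : t * b ^ 2 ≤ T + w * M) (h1 : t ≤ T + w) :
    U + V + t * (a * b) + t * a + t * b ≤ (κ + 5) * (w * M + w + T) := by
  have c1 : t * (a * b) ≤ T + w * M := by nlinarith [mul_nonneg ht (sq_nonneg (a - b))]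
  have c2 : t * a ≤ T + w * M + w := by nlinarith [mul_nonneg ht (sq_nonneg (a - 1))]
  have c3 : t * b ≤ T + w * M + w := by nlinarith [mul_nonneg ht (sq_nonneg (b - 1))]
  nlinarith [mul_nonneg hκ hw]

/-- The norm of the differential of a logarithm. -/
theorem norm_fderiv_eq_mul {u : EuclideanSpace ℝ (Fin n) → ℝ} {x : EuclideanSpace ℝ (Fin n)}
    (hu : 0 < u x) (hdu : DifferentiableAt ℝ u x) :
    ‖fderiv ℝ u x‖ = u x * ‖fderiv ℝ (fun y => Real.log (u y)) x‖ := by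
  rw [(hdu.hasFDerivAt.log hu.ne').fderiv, norm_smul, Real.norm_eq_abs,
    abs_of_pos (inv_pos.2 hu), ← mul_assoc, mul_inv_cancel₀ hu.ne', one_mul]

theorem sq_norm_log_eq (u : EuclideanSpace ℝ (Fin n) → ℝ) (x : EuclideanSpace ℝ (Fin n)) :
    ‖fderiv ℝ (fun y => Real.log (u y)) x‖ ^ 2 = dotv (logGrad u x) (logGrad u x) := by
  rw [norm_sq_eq_sum]; simp [dotv, logGrad, sq]

/-- The pointwise bookkeeping on a sphere: the boundary density of Rellich–Pohozaev is controlled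
by `w M`, `w` and `(uv)² / w`. -/
theorem sphereDens_le {p q L κ M : ℝ} {u v : EuclideanSpace ℝ (Fin n) → ℝ}
    {x : EuclideanSpace ℝ (Fin n)} (hu : 0 < u x) (hv : 0 < v x) (hκ : 0 ≤ κ)
    (hdu : DifferentiableAt ℝ u x) (hdv : DifferentiableAt ℝ v x)
    (hcone : v x ^ (p + 1) ≤ κ * u x ^ (q + 1))
    (hA : dotv (logGrad u x) (logGrad u x) ^ 2 ≤ M)
    (hB : dotv (logGrad v x) (logGrad v x) ^ 2 ≤ M) (hQ : (u x ^ q / v x) ^ 2 ≤ M) :
    sphereDens p q u v x ≤ (κ + 5) * (u x ^ L * v x ^ L * M + u x ^ L * v x ^ L +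
      (u x * v x) ^ (2 - L)) := by
  have ht0 : 0 < u x * v x := mul_pos hu hv
  have hw0 : 0 < u x ^ L * v x ^ L :=
    mul_pos (Real.rpow_pos_of_pos hu _) (Real.rpow_pos_of_pos hv _)
  have hdiv : (u x * v x) ^ 2 / (u x ^ L * v x ^ L) = (u x * v x) ^ (2 - L) := by
    rw [← Real.mul_rpow hu.le hv.le, Real.rpow_sub ht0, Real.rpow_two]
  have key : ∀ S : ℝ, 0 ≤ S → S ^ 2 ≤ M → u x * v x * S ≤
      (u x * v x) ^ (2 - L) + u x ^ L * v x ^ L * M := fun S hS hSM => by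
    refine (mul_le_div_add hw0 ht0.le hS).trans ?_
    rw [hdiv]
    exact add_le_add le_rfl (mul_le_mul_of_nonneg_left hSM hw0.le)
  have key1 : u x * v x ≤ (u x * v x) ^ (2 - L) + u x ^ L * v x ^ L := by
    have := mul_le_div_add hw0 ht0.le zero_le_one
    rwa [mul_one, one_pow, mul_one, hdiv] at this
  have e1 : u x ^ (q + 1) = u x * v x * (u x ^ q / v x) := by
    rw [Real.rpow_add hu, Real.rpow_one]; field_simp
  have g1 : u x ^ (q + 1) ≤ _ :=
    e1 ▸ key _ (div_pos (Real.rpow_pos_of_pos hu _) hv).le hQ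
  have g2 := hcone.trans (mul_le_mul_of_nonneg_left g1 hκ)
  have kA := key _ (sq_nonneg ‖fderiv ℝ (fun y => Real.log (u y)) x‖) (by rw [sq_norm_log_eq]; exact hA)
  have kB := key _ (sq_nonneg ‖fderiv ℝ (fun y => Real.log (v y)) x‖) (by rw [sq_norm_log_eq]; exact hB)
  have := dens_alg hκ ht0.le (Real.rpow_nonneg ht0.le _) hw0.le
    (mul_nonneg hw0.le ((sq_nonneg _).trans hQ)) g1 g2 kA kB key1
  simp only [sphereDens, energy, norm_fderiv_eq_mul hu hdu, norm_fderiv_eq_mul hv hdv]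
  refine le_trans (le_of_eq ?_) this
  ring

/-- The Sobolev function `f = (u v) ^ (L / 4)` and its gradient. -/
theorem norm_fderiv_sobolev_fun {L M : ℝ} (hL : |L| ≤ 2) {u v : EuclideanSpace ℝ (Fin n) → ℝ}
    {x : EuclideanSpace ℝ (Fin n)} (hu : 0 < u x) (hv : 0 < v x) (hdu : DifferentiableAt ℝ u x)
    (hdv : DifferentiableAt ℝ v x) (hA : dotv (logGrad u x) (logGrad u x) ^ 2 ≤ M)
    (hB : dotv (logGrad v x) (logGrad v x) ^ 2 ≤ M) :
    ‖fderiv ℝ (fun y => Real.exp (L / 4 * (Real.log (u y) + Real.log (v y)))) x‖ ^ 4 ≤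
      u x ^ L * v x ^ L * M := by
  have h1 := hdu.hasFDerivAt.log hu.ne'
  have h2 := hdv.hasFDerivAt.log hv.ne'
  have h := ((h1.fun_add h2).const_mul (L / 4)).exp
  rw [h.fderiv, ← h1.fderiv, ← h2.fderiv, norm_smul, norm_smul, Real.norm_eq_abs, Real.norm_eq_abs,
    Real.abs_exp, mul_pow, mul_pow]
  set a := fderiv ℝ (fun y => Real.log (u y)) x with ha
  set b := fderiv ℝ (fun y => Real.log (v y)) x with hb
  have eA : (‖a‖ ^ 2) ^ 2 ≤ M := by
    rw [norm_sq_eq_sum]; refine le_of_eq_of_le ?_ hA; simp [dotv, logGrad, ha, sq]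
  have eB : (‖b‖ ^ 2) ^ 2 ≤ M := by
    rw [norm_sq_eq_sum]; refine le_of_eq_of_le ?_ hB; simp [dotv, logGrad, hb, sq]
  have eexp : Real.exp (L / 4 * (Real.log (u x) + Real.log (v x))) ^ 4 = u x ^ L * v x ^ L := by
    rw [← Real.exp_nat_mul, Real.rpow_def_of_pos hu, Real.rpow_def_of_pos hv, ← Real.exp_add]
    push_cast; ring_nf
  rw [eexp]
  refine mul_le_mul_of_nonneg_left ?_ (by positivity)
  have h4 : |L / 4| ^ 4 ≤ (1 / 2) ^ 4 :=
    pow_le_pow_left₀ (abs_nonneg _) (by rw [abs_div]; norm_num; linarith) 4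
  have hab : ‖a + b‖ ^ 4 ≤ 8 * ((‖a‖ ^ 2) ^ 2 + (‖b‖ ^ 2) ^ 2) := by
    refine (pow_le_pow_left₀ (norm_nonneg _) (norm_add_le a b) 4).trans ?_
    nlinarith [sq_nonneg (‖a‖ - ‖b‖), sq_nonneg (‖a‖ + ‖b‖), sq_nonneg (‖a‖ ^ 2 - ‖b‖ ^ 2),
      mul_nonneg (norm_nonneg a) (norm_nonneg b)]
  calc |L / 4| ^ 4 * ‖a + b‖ ^ 4 ≤ (1 / 2) ^ 4 * (8 * ((‖a‖ ^ 2) ^ 2 + (‖b‖ ^ 2) ^ 2)) :=
        mul_le_mul h4 hab (by positivity) (by positivity)
    _ ≤ M := by linarith

/-- **Certificate criterion.** -/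
theorem no_solution_of_certOn (hn : 3 ≤ n) {p q r₁ r₂ L ε G : ℝ} {S₀ : Set ℝ}
    {c : Fin 14 → ℝ → ℝ} {M : Data n → ℝ} (hq : 0 < q) (hqp : q ≤ p) (hpq : 1 < p * q)
    (hsub : ((n : ℝ) - 2) < (n : ℝ) / (p + 1) + (n : ℝ) / (q + 1))
    (hC : CertOn n p q ((p + 1) / (q + 1)) r₁ r₂ S₀ c M ε G)
    (hlam : -2 * r₁ + 2 * q * r₂ = L) (hmu : 2 * p * r₁ - 2 * r₂ = L)
    (hsqA : ∀ D : Data n, dotv D.1 D.1 ^ 2 ≤ M D)
    (hsqB : ∀ D : Data n, dotv D.2.1 D.2.1 ^ 2 ≤ M D)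
    (hL0 : 0 < L) (hL2 : L < 2) (hLn : (n : ℝ) - 5 ≤ L * ((n : ℝ) - 3)) :
    ¬ ∃ u v : EuclideanSpace ℝ (Fin n) → ℝ, IsSol p q u v := by
  have hp1 : 1 < p := by nlinarith
  have hp : 0 < p := by linarith
  set κ : ℝ := (p + 1) / (q + 1) with hκdef
  have hκ : 0 ≤ κ := by positivity
  have : Nonempty (Fin n) := ⟨⟨0, by omega⟩⟩
  have : Nontrivial (EuclideanSpace ℝ (Fin n)) :=
    Module.nontrivial_of_finrank_pos (R := ℝ) (by rw [finrank_euclideanSpace_fin]; omega)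
  obtain ⟨k, hk⟩ := exists_nat_ge (4 * (1 + r₁ + r₂))
  obtain ⟨C, hC0, hEn⟩ := energy_boundOn hC hk
  obtain ⟨η, hη, hηc, hηs, hηI, hη1⟩ := exists_annulus_cutoff (n := n)
  set C₀ : ℝ := C * ∫ x, (∑ i, |fderiv ℝ η x (eStd i)|) ^ (4 * (1 + r₁ + r₂)) with hC₀
  have hC₀0 : 0 ≤ C₀ := mul_nonneg hC0 (integral_nonneg fun x =>
    Real.rpow_nonneg (Finset.sum_nonneg fun i _ => abs_nonneg _) _)
  set S := (volume : Measure (EuclideanSpace ℝ (Fin n))).toSphere with hS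
  set m₀ : ℝ := S.real univ with hm₀
  have hm : S univ = ENNReal.ofReal m₀ := (ofReal_measureReal (measure_ne_top _ _)).symm
  set D : ℝ := m₀ + 4 * C₀ with hDdef
  have hs : 0 < 4 * (2 - L) / L := by have : 0 < 2 - L := by linarith
                                      positivity
  have hns : ((n : ℝ) - 5) * (4 * (2 - L) / L) ≤ 4 * ((n : ℝ) - 1) := by
    rw [← mul_div_assoc, div_le_iff₀ hL0]; nlinarith
  obtain ⟨C₁, hC₁, hsob⟩ := sphere_sobolev_four hn hs hns D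
  refine nonexistence_of_unit_bound hp hq hpq hsub
    (C := 2 * pohoConst n p q * 2 ^ (n - 1) / margin n p q * ((κ + 5) * (4 * C₀ + D + C₁)))
    fun u v h => ?_
  set Ω : Set (EuclideanSpace ℝ (Fin n)) := {0}ᶜ with hΩdef
  have hΩ : IsOpen Ω := isOpen_compl_singleton
  have hcmp := souplet_comparison_punctured hn hq hqp hp1 u v h.contU h.contV h.smoothU h.smoothV
    h.posU h.posV h.eqU h.eqV
  have hcone1 : ∀ x, v x ^ (p + 1) ≤ κ * u x ^ (q + 1) := fun x => by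
    have := hcmp x
    rw [div_le_iff₀ (by linarith)] at this
    rw [hκdef]
    exact this.trans_eq (by field_simp)
  have hcone : ∀ x ∈ Ω, v x ^ p / u x ≤ κ * (u x ^ q / v x) := fun x _ => by
    have hux := h.posU x
    have hvx := h.posV x
    have h1 := hcone1 x
    rw [Real.rpow_add hux, Real.rpow_add hvx, Real.rpow_one, Real.rpow_one] at h1
    rw [← mul_div_assoc, div_le_div_iff₀ hux hvx]
    linarith
  set w := fun x => u x ^ L * v x ^ L with hw
  set wM := fun x => w x * M (solData p q u v x) with hwM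
  have ew : ∀ x, solWeight p q r₁ r₂ u v x = w x := fun x => by
    simp only [solWeight, w, hlam, hmu]
  have hM0 : ∀ x, 0 ≤ M (solData p q u v x) := fun x => (sq_nonneg _).trans (hC.sqP _ _ _ _ _ _)
  have hw0 : ∀ x, 0 ≤ w x := fun x =>
    mul_nonneg (Real.rpow_nonneg (h.posU x).le _) (Real.rpow_nonneg (h.posV x).le _)
  have hcw : ContinuousOn w Ω := (h.contU.continuousOn.rpow_const fun x _ => Or.inl (h.posU x).ne').mul
    (h.contV.continuousOn.rpow_const fun x _ => Or.inl (h.posV x).ne')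
  have hcwM : ContinuousOn wM Ω := by
    have := continuousOn_weight_quant (r₁ := r₁) (r₂ := r₂) (p := p) (q := q) hΩ hC.cont h.smoothU
      h.smoothV (fun x _ => h.posU x) (fun x _ => h.posV x)
    simpa only [ew] using this
  -- the energy bound on the annulus
  set g : EuclideanSpace ℝ (Fin n) → ℝ := fun x => η x ^ k * wM x with hg
  have hk1 : k ≠ 0 := by
    rintro rfl
    push_cast at hk
    linarith [hC.r₁_nonneg, hC.r₂_nonneg]
  have hpks : tsupport (fun x => η x ^ k) ⊆ Ω := by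
    refine (closure_mono fun x hx => ?_).trans hηs
    simp only [Function.mem_support] at hx ⊢
    exact fun h => hx (by rw [h, zero_pow hk1])
  have hpkc : HasCompactSupport fun x => η x ^ k := hηc.mono' fun x hx => subset_tsupport η (by
    simp only [Function.mem_support] at hx ⊢
    exact fun h => hx (by rw [h, zero_pow hk1]))
  have hgc : Continuous g := by
    have h1 : Continuous fun x => wM x * η x ^ k :=
      Puncture.continuous_of_supported hΩ (hcwM.mul (hη.continuous.pow k).continuousOn)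
        ((tsupport_mul_subset_right).trans hpks)
    simpa [g, mul_comm] using h1
  have hgi : Integrable g := hgc.integrable_of_hasCompactSupport hpkc.mul_right
  have hg0 : ∀ x, 0 ≤ g x := fun x =>
    mul_nonneg (pow_nonneg (hηI x).1 k) (mul_nonneg (hw0 x) (hM0 x))
  have hgint : ∫ x, g x ≤ C₀ := by
    refine le_trans (le_of_eq (integral_congr_ae (Eventually.of_forall fun x => ?_)))
      (hEn Ω hΩ u v η h.smoothU h.smoothV (fun x _ => h.posU x) (fun x _ => h.posV x)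
        (fun x hx => h.eqU x hx) (fun x hx => h.eqV x hx) hcone hη hηc hηs hηI)
    simp only [g, wM, ew]
  obtain ⟨K, hKc, hK2, hKv, hKD⟩ := exists_good_radii (volume : Measure (EuclideanSpace ℝ (Fin n)))
    (g := fun (_ : Unit) x => ENNReal.ofReal (g x))
    (fun _ => ENNReal.measurable_ofReal.comp hgc.measurable)
    (C := fun _ => ENNReal.ofReal C₀) (fun _ => by
      refine (setLIntegral_le_lintegral _ _).trans ?_
      rw [← ofReal_integral_eq_lintegral_ofReal hgi (Eventually.of_forall hg0)]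
      exact ENNReal.ofReal_le_ofReal hgint)
  have hD0 : 0 ≤ (κ + 5) * (4 * C₀ + D + C₁) := by
    have : 0 ≤ D := by rw [hDdef]; positivity
    positivity
  refine unit_bound_of_good_radii hn hp hq hsub h ?_ ?_ hKc hK2 hKv hD0 fun r hr => ?_
  · exact Puncture.integrableOn_norm_fderiv_sq (f := fun x => -(v x) ^ p) (by
      rw [finrank_euclideanSpace_fin]; omega) h.contU h.smoothU
      (h.contV.rpow_const fun x => Or.inl (h.posV x).ne').neg h.eqU (isCompact_closedBall _ _)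
  · exact Puncture.integrableOn_norm_fderiv_sq (f := fun x => -(u x) ^ q) (by
      rw [finrank_euclideanSpace_fin]; omega) h.contV h.smoothV
      (h.contU.rpow_const fun x => Or.inl (h.posU x).ne').neg h.eqV (isCompact_closedBall _ _)
  -- one good sphere
  have hr12 := hK2 hr
  have hr0 : 0 < r := by linarith [hr12.1]
  set P : sphere (0 : EuclideanSpace ℝ (Fin n)) 1 → EuclideanSpace ℝ (Fin n) :=
    fun θ => r • (θ : EuclideanSpace ℝ (Fin n)) with hP
  have hPn : ∀ θ, ‖P θ‖ = r := fun θ => by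
    simp [P, norm_smul, abs_of_pos hr0]
  have hP0 : ∀ θ, P θ ∈ Ω := fun θ hθ => by
    have := hPn θ
    rw [mem_singleton_iff.1 hθ, norm_zero] at this
    linarith
  have hη1' : ∀ θ, g (P θ) = wM (P θ) := fun θ => by
    simp [g, hη1 (P θ) (by rw [hPn]; exact hr12)]
  have hdiff : ∀ θ, DifferentiableAt ℝ u (P θ) ∧ DifferentiableAt ℝ v (P θ) := fun θ =>
    ⟨(h.smoothU.contDiffAt (hΩ.mem_nhds (hP0 θ))).differentiableAt two_ne_zero,
      (h.smoothV.contDiffAt (hΩ.mem_nhds (hP0 θ))).differentiableAt two_ne_zero⟩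
  have s1 : ∫⁻ θ, ENNReal.ofReal (wM (P θ)) ∂S ≤ ENNReal.ofReal (4 * C₀) := by
    refine le_trans (le_of_eq (lintegral_congr fun θ => by rw [← hη1' θ])) ?_
    refine (hKD r hr ()).trans_eq ?_
    rw [ENNReal.ofReal_mul (by norm_num : (0 : ℝ) ≤ 4), ENNReal.ofReal_ofNat, Fintype.card_unit,
      Nat.cast_one, mul_one]
  have mwM : Measurable fun θ => ENNReal.ofReal (wM (P θ)) := ENNReal.measurable_ofReal.comp
    (hcwM.comp_continuous (continuous_const_smul r |>.comp continuous_subtype_val) hP0).measurable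
  have mw : Measurable fun θ => ENNReal.ofReal (w (P θ)) := ENNReal.measurable_ofReal.comp
    (hcw.comp_continuous (continuous_const_smul r |>.comp continuous_subtype_val) hP0).measurable
  have s2 : ∫⁻ θ, ENNReal.ofReal (w (P θ)) ∂S ≤ ENNReal.ofReal D := by
    refine le_trans (lintegral_mono (g := fun θ => 1 + ENNReal.ofReal (wM (P θ))) fun θ => ?_) ?_
    · simp only [wM]
      rw [← ENNReal.ofReal_one, ← ENNReal.ofReal_add zero_le_one (mul_nonneg (hw0 _) (hM0 _))]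
      refine ENNReal.ofReal_le_ofReal ?_
      refine weight_le_one_add (r := r₁ + r₂) (hw0 _) (hM0 _)
        (add_nonneg hC.r₁_nonneg hC.r₂_nonneg) ?_
      rw [← ew]
      exact solWeight_le hC.r₁_nonneg hC.r₂_nonneg (h.posU _) (h.posV _) (hC.sqP _ _ _ _ _ _)
        (hC.sqQ _ _ _ _ _ _)
    · rw [lintegral_add_left measurable_const, lintegral_const, one_mul, hm, hDdef,
        ENNReal.ofReal_add measureReal_nonneg (by positivity)]
      exact add_le_add le_rfl s1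
  set f : EuclideanSpace ℝ (Fin n) → ℝ :=
    fun y => Real.exp (L / 4 * (Real.log (u y) + Real.log (v y))) with hf
  have hf1 : ContDiffOn ℝ 1 f Ω := (contDiffOn_const.mul
    (((h.smoothU.of_le one_le_two).log fun x _ => (h.posU x).ne').add
      ((h.smoothV.of_le one_le_two).log fun x _ => (h.posV x).ne'))).exp
  have hf4 : ∀ x, f x ^ 4 = w x := fun x => by
    simp only [f, w]
    rw [← Real.exp_nat_mul, Real.rpow_def_of_pos (h.posU x), Real.rpow_def_of_pos (h.posV x),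
      ← Real.exp_add]
    push_cast; ring_nf
  have hfs : ∀ x, |f x| ^ (4 * (2 - L) / L) = (u x * v x) ^ (2 - L) := fun x => by
    simp only [f]
    rw [Real.abs_exp, ← Real.exp_mul, Real.rpow_def_of_pos (mul_pos (h.posU x) (h.posV x)),
      Real.log_mul (h.posU x).ne' (h.posV x).ne']
    congr 1
    field_simp
  have s3 : ∫⁻ θ, ENNReal.ofReal ((u (P θ) * v (P θ)) ^ (2 - L)) ∂S ≤ ENNReal.ofReal C₁ := by
    have := hsob r hr12 Ω hΩ (fun y hy h0 => by
      rw [mem_singleton_iff.1 h0] at hy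
      simp at hy
      linarith) f hf1
      (le_trans (le_of_eq (lintegral_congr fun θ => by rw [hf4])) s2)
      (le_trans (lintegral_mono fun θ => ENNReal.ofReal_le_ofReal
          (norm_fderiv_sobolev_fun (by rw [abs_of_pos hL0]; exact hL2.le) (h.posU _) (h.posV _)
            (hdiff θ).1 (hdiff θ).2 (hsqA (solData p q u v (P θ))) (hsqB (solData p q u v (P θ)))))
        (s1.trans (ENNReal.ofReal_le_ofReal (by rw [hDdef]; linarith [measureReal_nonneg (μ := S) (s := univ)]))))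
    simpa only [hfs] using this
  calc slice volume (fun x => ENNReal.ofReal (sphereDens p q u v x)) r
      ≤ ∫⁻ θ, ENNReal.ofReal (κ + 5) * (ENNReal.ofReal (wM (P θ)) + ENNReal.ofReal (w (P θ)) +
          ENNReal.ofReal ((u (P θ) * v (P θ)) ^ (2 - L))) ∂S := by
        refine lintegral_mono fun θ => ?_
        have h3 : 0 ≤ (u (P θ) * v (P θ)) ^ (2 - L) :=
          Real.rpow_nonneg (mul_pos (h.posU _) (h.posV _)).le _
        rw [← ENNReal.ofReal_add (mul_nonneg (hw0 _) (hM0 _)) (hw0 _),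
          ← ENNReal.ofReal_add (add_nonneg (mul_nonneg (hw0 _) (hM0 _)) (hw0 _)) h3,
          ← ENNReal.ofReal_mul (by linarith)]
        exact ENNReal.ofReal_le_ofReal (sphereDens_le (h.posU _) (h.posV _) hκ (hdiff θ).1
          (hdiff θ).2 (hcone1 _) (hsqA (solData p q u v (P θ))) (hsqB (solData p q u v (P θ)))
          (hC.sqQ _ _ _ _ _ _))
    _ = ENNReal.ofReal (κ + 5) * (∫⁻ θ, ENNReal.ofReal (wM (P θ)) ∂S +
          ∫⁻ θ, ENNReal.ofReal (w (P θ)) ∂S +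
          ∫⁻ θ, ENNReal.ofReal ((u (P θ) * v (P θ)) ^ (2 - L)) ∂S) := by
        have mm : Measurable fun θ => ENNReal.ofReal (wM (P θ)) + ENNReal.ofReal (w (P θ)) :=
          mwM.add mw
        rw [lintegral_const_mul' _ _ ENNReal.ofReal_ne_top, lintegral_add_left mm,
          lintegral_add_left mwM]
    _ ≤ ENNReal.ofReal (κ + 5) * (ENNReal.ofReal (4 * C₀) + ENNReal.ofReal D + ENNReal.ofReal C₁) :=
        mul_le_mul' le_rfl (add_le_add (add_le_add s1 s2) s3)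
    _ = _ := by
        have hD' : 0 ≤ D := by rw [hDdef]; positivity
        rw [← ENNReal.ofReal_add (by positivity) hD',
          ← ENNReal.ofReal_add (by positivity) hC₁, ← ENNReal.ofReal_mul (by linarith)]

/-- **Certificate criterion** for globally smooth coefficients. -/
theorem no_solution_of_certZ (hn : 3 ≤ n) {p q r₁ r₂ L ε G : ℝ} {c : Fin 14 → ℝ → ℝ}
    {M : Data n → ℝ} (hq : 0 < q) (hqp : q ≤ p) (hpq : 1 < p * q)
    (hsub : ((n : ℝ) - 2) < (n : ℝ) / (p + 1) + (n : ℝ) / (q + 1))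
    (hC : CertZ n p q ((p + 1) / (q + 1)) r₁ r₂ c M ε G)
    (hlam : -2 * r₁ + 2 * q * r₂ = L) (hmu : 2 * p * r₁ - 2 * r₂ = L)
    (hsqA : ∀ D : Data n, dotv D.1 D.1 ^ 2 ≤ M D)
    (hsqB : ∀ D : Data n, dotv D.2.1 D.2.1 ^ 2 ≤ M D)
    (hL0 : 0 < L) (hL2 : L < 2) (hLn : (n : ℝ) - 5 ≤ L * ((n : ℝ) - 3)) :
    ¬ ∃ u v : EuclideanSpace ℝ (Fin n) → ℝ, IsSol p q u v :=
  no_solution_of_certOn hn hq hqp hpq hsub hC.toOn hlam hmu hsqA hsqB hL0 hL2 hLn

/-- Smooth coefficients and a lower bound by the full quartic norm give a certificate. -/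
theorem CertZ.of_full {p q κ r₁ r₂ ε : ℝ} {c : Fin 14 → ℝ → ℝ} (hε : 0 < ε) (h1 : 0 ≤ r₁)
    (h2 : 0 ≤ r₂) (hc : ∀ j, ContDiff ℝ 1 (c j))
    (hb : ∀ (a b : Fin n → ℝ) (P Q : ℝ) (H K : Fin n → Fin n → ℝ),
      (∀ i j, H i j = H j i) → (∀ i j, K i j = K j i) →
      ∑ i, H i i = -(dotv a a + P) → ∑ i, K i i = -(dotv b b + Q) →
      0 < P → 0 < Q → P ≤ κ * Q →
      ε * nrm a b P Q H K ≤
        rowZ p q (-2 * r₁ + 2 * q * r₂) (2 * p * r₁ - 2 * r₂) c a b P Q H K) :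
    ∃ G, CertZ n p q κ r₁ r₂ c nrmData ε G := by
  have h : ∀ j, ∃ B, ∀ z ∈ Icc (0 : ℝ) κ, |c j z| ≤ B := fun j => by
    obtain ⟨B, hB⟩ := isCompact_Icc.exists_bound_of_continuousOn
      ((hc j).continuous.continuousOn (s := Icc (0 : ℝ) κ))
    exact ⟨B, hB⟩
  choose B hB using h
  refine ⟨(∑ j, |B j|) * (n + 1), hε, by positivity, h1, h2, hc, continuous_nrmData,
    fun a b P Q H K => (sq_dotv_le_nrm a b P Q H K).2.2.1,
    fun a b P Q H K => (sq_dotv_le_nrm a b P Q H K).2.2.2.1,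
    fun a b P Q H K hP hQ hPQ i => ?_, hb⟩
  rw [mul_assoc, Finset.sum_mul]
  refine (Finset.abs_sum_le_sum_abs _ _).trans (Finset.sum_le_sum fun j _ => ?_)
  rw [abs_mul]
  refine mul_le_mul ((hB j _ ⟨by positivity, ?_⟩).trans (le_abs_self _))
    (abs_fld_le _ _ _ _ _ _ j i) (abs_nonneg _) (abs_nonneg _)
  rwa [div_le_iff₀ hQ]

/-- The criterion for coefficients depending on `z = v ^ (p + 1) / u ^ (q + 1)`: an algebraic
inequality rules out solutions. -/
theorem no_solution_of_bound (hn : 3 ≤ n) {p q L ε : ℝ} (c : Fin 14 → ℝ → ℝ) (hq : 0 < q)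
    (hqp : q ≤ p) (hpq : 1 < p * q)
    (hsub : ((n : ℝ) - 2) < (n : ℝ) / (p + 1) + (n : ℝ) / (q + 1))
    (hL0 : 0 < L) (hL2 : L < 2) (hLn : (n : ℝ) - 5 ≤ L * ((n : ℝ) - 3))
    (hε : 0 < ε) (hc : ∀ j, ContDiff ℝ 1 (c j))
    (hb : ∀ (a b : Fin n → ℝ) (P Q : ℝ) (H K : Fin n → Fin n → ℝ),
      (∀ i j, H i j = H j i) → (∀ i j, K i j = K j i) →
      ∑ i, H i i = -(dotv a a + P) → ∑ i, K i i = -(dotv b b + Q) →
      0 < P → 0 < Q → P ≤ (p + 1) / (q + 1) * Q →
      ε * nrm a b P Q H K ≤ rowZ p q L L c a b P Q H K) :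
    ¬ ∃ u v : EuclideanSpace ℝ (Fin n) → ℝ, IsSol p q u v := by
  have hd : 0 < p * q - 1 := by linarith
  have e1 : -2 * (L * (1 + q) / (2 * (p * q - 1))) + 2 * q * (L * (1 + p) / (2 * (p * q - 1))) = L := by
    rw [show -2 * (L * (1 + q) / (2 * (p * q - 1))) + 2 * q * (L * (1 + p) / (2 * (p * q - 1))) =
      L * (p * q - 1) / (p * q - 1) by rw [← div_div, ← div_div]; ring, mul_div_cancel_right₀ _ hd.ne']
  have e2 : 2 * p * (L * (1 + q) / (2 * (p * q - 1))) - 2 * (L * (1 + p) / (2 * (p * q - 1))) = L := by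
    rw [show 2 * p * (L * (1 + q) / (2 * (p * q - 1))) - 2 * (L * (1 + p) / (2 * (p * q - 1))) =
      L * (p * q - 1) / (p * q - 1) by rw [← div_div, ← div_div]; ring, mul_div_cancel_right₀ _ hd.ne']
  have hp : 0 < p := by linarith
  obtain ⟨G, hC⟩ := CertZ.of_full (κ := (p + 1) / (q + 1))
    (r₁ := L * (1 + q) / (2 * (p * q - 1))) (r₂ := L * (1 + p) / (2 * (p * q - 1))) hε
    (by positivity) (by positivity) hc (by rw [e1, e2]; exact hb)
  exact no_solution_of_certZ hn hq hqp hpq hsub hC e1 e2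
    (fun D => (sq_dotv_le_nrm _ _ _ _ _ _).1) (fun D => (sq_dotv_le_nrm _ _ _ _ _ _).2.1)
    hL0 hL2 hLn

/-- The criterion for coefficients that are `C¹` on an open set containing `(0, κ]` and bounded
on `(0, κ]`, `κ = (p + 1) / (q + 1)`. -/
theorem no_solution_of_boundOn (hn : 3 ≤ n) {p q L ε B : ℝ} (c : Fin 14 → ℝ → ℝ) {S₀ : Set ℝ}
    (hS : IsOpen S₀) (hI : Ioc 0 ((p + 1) / (q + 1)) ⊆ S₀) (hq : 0 < q)
    (hqp : q ≤ p) (hpq : 1 < p * q)
    (hsub : ((n : ℝ) - 2) < (n : ℝ) / (p + 1) + (n : ℝ) / (q + 1))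
    (hL0 : 0 < L) (hL2 : L < 2) (hLn : (n : ℝ) - 5 ≤ L * ((n : ℝ) - 3))
    (hε : 0 < ε) (hc : ∀ j, ContDiffOn ℝ 1 (c j) S₀)
    (hB : ∀ j, ∀ z ∈ Ioc (0 : ℝ) ((p + 1) / (q + 1)), |c j z| ≤ B)
    (hb : ∀ (a b : Fin n → ℝ) (P Q : ℝ) (H K : Fin n → Fin n → ℝ),
      (∀ i j, H i j = H j i) → (∀ i j, K i j = K j i) →
      ∑ i, H i i = -(dotv a a + P) → ∑ i, K i i = -(dotv b b + Q) →
      0 < P → 0 < Q → P ≤ (p + 1) / (q + 1) * Q →
      ε * nrm a b P Q H K ≤ rowZ p q L L c a b P Q H K) :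
    ¬ ∃ u v : EuclideanSpace ℝ (Fin n) → ℝ, IsSol p q u v := by
  have hd : 0 < p * q - 1 := by linarith
  have hp : 0 < p := hq.trans_le hqp
  have e1 : -2 * (L * (1 + q) / (2 * (p * q - 1))) + 2 * q * (L * (1 + p) / (2 * (p * q - 1))) = L := by
    rw [show -2 * (L * (1 + q) / (2 * (p * q - 1))) + 2 * q * (L * (1 + p) / (2 * (p * q - 1))) =
      L * (p * q - 1) / (p * q - 1) by rw [← div_div, ← div_div]; ring, mul_div_cancel_right₀ _ hd.ne']
  have e2 : 2 * p * (L * (1 + q) / (2 * (p * q - 1))) - 2 * (L * (1 + p) / (2 * (p * q - 1))) = L := by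
    rw [show 2 * p * (L * (1 + q) / (2 * (p * q - 1))) - 2 * (L * (1 + p) / (2 * (p * q - 1))) =
      L * (p * q - 1) / (p * q - 1) by rw [← div_div, ← div_div]; ring, mul_div_cancel_right₀ _ hd.ne']
  refine no_solution_of_certOn hn hq hqp hpq hsub (S₀ := S₀) (c := c) (M := nrmData) (ε := ε)
    (r₁ := L * (1 + q) / (2 * (p * q - 1))) (r₂ := L * (1 + p) / (2 * (p * q - 1)))
    (G := (∑ _j : Fin 14, |B|) * (n + 1))
    ⟨hε, by positivity, by positivity, by positivity, hS, hI, hc, continuous_nrmData,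
      fun a b P Q H K => (sq_dotv_le_nrm a b P Q H K).2.2.1,
      fun a b P Q H K => (sq_dotv_le_nrm a b P Q H K).2.2.2.1,
      fun a b P Q H K hP hQ hPQ i => ?_, by rw [e1, e2]; exact hb⟩
    e1 e2 (fun D => (sq_dotv_le_nrm _ _ _ _ _ _).1) (fun D => (sq_dotv_le_nrm _ _ _ _ _ _).2.1)
    hL0 hL2 hLn
  rw [mul_assoc, Finset.sum_mul]
  refine (Finset.abs_sum_le_sum_abs _ _).trans (Finset.sum_le_sum fun j _ => ?_)
  rw [abs_mul]
  refine mul_le_mul ((hB j _ ⟨div_pos hP hQ, ?_⟩).trans (le_abs_self _))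
    (abs_fld_le _ _ _ _ _ _ j i) (abs_nonneg _) (abs_nonneg _)
  rwa [div_le_iff₀ hQ]

end Vale.Agent.P100
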