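import Mathlib
import Vale.Agent.P100.Cert

/-!
# Reduced certificates from a scalar inequality

For the fields `Ha + t Kb + |a|²(x₁ a + y₁ b) + |b|²(y₂ a + x₂ b) + P(π₁ a + ρ b) + Q(χ a + ψ b)`
the Hessians can be eliminated exactly by completing squares. A certificate then follows from an
inequality in the five scalars `A = |a|²`, `B = |b|²`, `C = a·b`, `P`, `Q`.
-/

open Finset

namespace Vale.Agent.P100

variable {n : ℕ}

/-- The exact minimum over symmetric `H` with `tr H = -T` of `s|H|² + X aHa + Y bHa`. -/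
noncomputable def hessQ (n : ℕ) (s X Y A C B T : ℝ) : ℝ :=
  s * T ^ 2 / n - T * (X * A + Y * C) / n -
    (X ^ 2 * (1 - 1 / n) * A ^ 2 + 2 * X * Y * (1 - 1 / n) * (A * C) +
      Y ^ 2 * ((A * B + C ^ 2) / 2 - C ^ 2 / n)) / (4 * s)

theorem hessQ_le (hn : 0 < n) {s : ℝ} (hs : 0 < s) (X Y : ℝ) (a b : Fin n → ℝ)
    (H : Fin n → Fin n → ℝ) (hH : ∀ i j, H i j = H j i) {T : ℝ} (hT : ∑ i, H i i = -T) :
    hessQ n s X Y (dotv a a) (dotv a b) (dotv b b) T ≤
      s * frob H H + X * dotv (mulv H a) a + Y * dotv (mulv H a) b := by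
  have hn' : (n : ℝ) ≠ 0 := by exact_mod_cast hn.ne'
  set A := dotv a a with hA
  set B := dotv b b with hB
  set C := dotv a b with hC
  set α := s * T / n - (X * A + Y * C) / (2 * n) with hα
  let d : Fin n → Fin n → ℝ := fun i j => if i = j then 1 else 0
  let Z : Fin n → Fin n → ℝ := fun i j =>
    s * H i j + α * d i j + X / 2 * (a i * a j) + Y / 4 * (a i * b j) + Y / 4 * (b i * a j)
  have haa : ∑ i, ∑ j, H i j * (a i * a j) = dotv (mulv H a) a := by
    simp only [dotv, mulv, Finset.sum_mul]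
    exact sum_congr rfl fun i _ => sum_congr rfl fun j _ => by ring
  have hba : ∑ i, ∑ j, H i j * (b i * a j) = dotv (mulv H a) b := by
    simp only [dotv, mulv, Finset.sum_mul]
    exact sum_congr rfl fun i _ => sum_congr rfl fun j _ => by ring
  have hab : ∑ i, ∑ j, H i j * (a i * b j) = dotv (mulv H a) b := by
    rw [← hba, sum_comm]
    exact sum_congr rfl fun i _ => sum_congr rfl fun j _ => by rw [hH j i]; ring
  have pr : ∀ x y z w : Fin n → ℝ,
      ∑ i, ∑ j, (x i * y j) * (z i * w j) = dotv x z * dotv y w := fun x y z w => by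
    rw [dotv, dotv, sum_mul_sum]
    exact sum_congr rfl fun i _ => sum_congr rfl fun j _ => by ring
  have e : ∑ i, ∑ j, Z i j * Z i j = s ^ 2 * frob H H + α ^ 2 * n + X ^ 2 / 4 * (A * A) +
      Y ^ 2 / 16 * (A * B + B * A + 2 * (C * C)) + 2 * s * α * (-T) +
      s * X * dotv (mulv H a) a + s * Y * dotv (mulv H a) b + α * X * A + α * Y * C +
      X * Y / 2 * (A * C) := by
    have hz : ∀ i j, Z i j * Z i j = s ^ 2 * (H i j * H i j) + α ^ 2 * d i j +
        X ^ 2 / 4 * ((a i * a j) * (a i * a j)) + Y ^ 2 / 16 * ((a i * b j) * (a i * b j)) +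
        Y ^ 2 / 16 * ((b i * a j) * (b i * a j)) + Y ^ 2 / 8 * ((a i * b j) * (b i * a j)) +
        2 * s * α * (d i j * H i j) + s * X * (H i j * (a i * a j)) +
        s * Y / 2 * (H i j * (a i * b j)) + s * Y / 2 * (H i j * (b i * a j)) +
        α * X * (d i j * (a i * a j)) + α * Y / 2 * (d i j * (a i * b j)) +
        α * Y / 2 * (d i j * (b i * a j)) + X * Y / 4 * ((a i * a j) * (a i * b j)) +
        X * Y / 4 * ((a i * a j) * (b i * a j)) := fun i j => by
      simp only [Z, d]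
      split_ifs <;> ring
    simp only [hz, sum_add_distrib, ← mul_sum, haa, hab, hba, pr, frob]
    simp only [d, ite_mul, one_mul, zero_mul, sum_ite_eq, mem_univ, if_true, sum_const,
      card_univ, Fintype.card_fin, nsmul_eq_mul, mul_one, hT]
    have e1 : ∑ i, a i * a i = A := rfl
    have e2 : ∑ i, a i * b i = C := rfl
    have e3 : ∑ i, b i * a i = C := by
      rw [hC]; exact sum_congr rfl fun i _ => mul_comm _ _
    have e4 : dotv b a = C := e3
    rw [e1, e2, e3, e4, ← hA, ← hB, ← hC]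
    ring
  have h0 : 0 ≤ ∑ i, ∑ j, Z i j * Z i j :=
    sum_nonneg fun i _ => sum_nonneg fun j _ => mul_self_nonneg _
  rw [e, hα] at h0
  rw [← sub_nonneg]
  refine nonneg_of_mul_nonneg_right ?_ hs
  refine h0.trans_eq ?_
  unfold hessQ
  field_simp
  ring

/-- Coefficient vector of the reduced family. -/
def redCoeff (t x₁ y₁ x₂ y₂ π₁ ρ χ ψ : ℝ) : Fin 14 → ℝ :=
  ![1, 0, 0, t, x₁, y₁, 0, 0, y₂, x₂, π₁, ρ, χ, ψ]

/-- The scalar form of the reduced family after elimination of the Hessians, minus `ε` times the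
quartic norm. -/
noncomputable def redForm (n : ℕ) (p q lam mu t x₁ y₁ x₂ y₂ π₁ ρ χ ψ ε A B C P Q : ℝ) : ℝ :=
  hessQ n (1 - ε) (lam - 2 + 2 * x₁) (mu + 2 * y₁) A C B (A + P) +
  hessQ n (t - ε) (t * (mu - 2) + 2 * x₂) (t * lam + 2 * y₂) B C A (B + Q) +
  (-(p * P * C) + P * A) + t * (-(q * Q * C) + Q * B) +
  x₁ * ((lam - 1) * A ^ 2 + mu * (A * C) - A * P) +
  x₂ * ((mu - 1) * B ^ 2 + lam * (B * C) - B * Q) +
  y₁ * (lam * (A * C) + (mu - 1) * (A * B) - A * Q) +
  y₂ * ((lam - 1) * (A * B) + mu * (B * C) - B * P) +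
  π₁ * (P * ((lam - 2) * A + (p + mu) * C) - P ^ 2) +
  ρ * (P * ((p - 1 + mu) * B + (lam - 1) * C) - P * Q) +
  χ * (Q * ((q - 1 + lam) * A + (mu - 1) * C) - P * Q) +
  ψ * (Q * ((mu - 2) * B + (q + lam) * C) - Q ^ 2) -
  ε * (A ^ 2 + B ^ 2 + P ^ 2 + Q ^ 2)

theorem rowR_redCoeff (p q lam mu t x₁ y₁ x₂ y₂ π₁ ρ χ ψ : ℝ) (a b : Fin n → ℝ) (P Q : ℝ)
    (H K : Fin n → Fin n → ℝ) :
    rowR p q lam mu (redCoeff t x₁ y₁ x₂ y₂ π₁ ρ χ ψ) a b P Q H K =
      let A := dotv a a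
      let B := dotv b b
      let C := dotv a b
      (frob H H + (lam - 2 + 2 * x₁) * dotv (mulv H a) a +
        (mu + 2 * y₁) * dotv (mulv H a) b) +
      (t * frob K K + (t * (mu - 2) + 2 * x₂) * dotv (mulv K b) b +
        (t * lam + 2 * y₂) * dotv (mulv K b) a) +
      (-(p * P * C) + P * A) + t * (-(q * Q * C) + Q * B) +
      x₁ * ((lam - 1) * A ^ 2 + mu * (A * C) - A * P) +
      x₂ * ((mu - 1) * B ^ 2 + lam * (B * C) - B * Q) +
      y₁ * (lam * (A * C) + (mu - 1) * (A * B) - A * Q) +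
      y₂ * ((lam - 1) * (A * B) + mu * (B * C) - B * P) +
      π₁ * (P * ((lam - 2) * A + (p + mu) * C) - P ^ 2) +
      ρ * (P * ((p - 1 + mu) * B + (lam - 1) * C) - P * Q) +
      χ * (Q * ((q - 1 + lam) * A + (mu - 1) * C) - P * Q) +
      ψ * (Q * ((mu - 2) * B + (q + lam) * C) - Q ^ 2) := by
  have hc : dotv b a = dotv a b := sum_congr rfl fun i _ => mul_comm _ _
  have lin : ∀ g : Fin n → ℝ, ∑ i, (lam * a i + mu * b i) * g i = lam * dotv g a + mu * dotv g b :=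
    fun g => by
      simp only [dotv, mul_sum, ← sum_add_distrib]
      exact sum_congr rfl fun i _ => by ring
  have sc : ∀ (s : ℝ) (g z : Fin n → ℝ), dotv (fun i => s * g i) z = s * dotv g z := fun s g z => by
    simp only [dotv, mul_sum]; exact sum_congr rfl fun i _ => by ring
  have gu : ∀ z, dotv (gradLapU p a b P H) z =
      -(2 * dotv (mulv H a) z) - P * (p * dotv b z - dotv a z) := fun z => by
    simp only [dotv, gradLapU, mul_sum, ← sum_sub_distrib, ← sum_neg_distrib]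
    exact sum_congr rfl fun i _ => by ring
  have gv : ∀ z, dotv (gradLapV q a b Q K) z =
      -(2 * dotv (mulv K b) z) - Q * (q * dotv a z - dotv b z) := fun z => by
    simp only [dotv, gradLapV, mul_sum, ← sum_sub_distrib, ← sum_neg_distrib]
    exact sum_congr rfl fun i _ => by ring
  simp only [rowR, divT, fld, redCoeff, Fin.sum_univ_succ, Fin.sum_univ_zero, Matrix.cons_val_zero,
    Matrix.cons_val_succ, lin, sc, gu, gv, hc, zero_mul, add_zero, zero_add]
  ring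

/-- A reduced certificate from the scalar inequality. -/
theorem cert_of_redForm {p q κ r₁ r₂ lam mu t x₁ y₁ x₂ y₂ π₁ ρ χ ψ ε : ℝ} (hn : 0 < n)
    (hε : 0 < ε) (hε1 : ε < 1) (hεt : ε < t) (h₁ : 0 ≤ r₁) (h₂ : 0 ≤ r₂)
    (hlam : lam = -2 * r₁ + 2 * q * r₂) (hmu : mu = 2 * p * r₁ - 2 * r₂)
    (hform : ∀ A B C P Q : ℝ, 0 ≤ A → 0 ≤ B → C ^ 2 ≤ A * B → 0 < P → 0 < Q → P ≤ κ * Q →
      0 ≤ redForm n p q lam mu t x₁ y₁ x₂ y₂ π₁ ρ χ ψ ε A B C P Q) :
    Cert n p q κ r₁ r₂ (redCoeff t x₁ y₁ x₂ y₂ π₁ ρ χ ψ) ε := by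
  refine ⟨hε, h₁, h₂, fun a b P Q H K hH hK tH tK hP hQ hPQ => ?_⟩
  rw [← hlam, ← hmu, rowR_redCoeff]
  have hA : 0 ≤ dotv a a := sum_nonneg fun i _ => mul_self_nonneg _
  have hB : 0 ≤ dotv b b := sum_nonneg fun i _ => mul_self_nonneg _
  have hCS : dotv a b ^ 2 ≤ dotv a a * dotv b b := by
    simpa [dotv, sq] using Finset.sum_mul_sq_le_sq_mul_sq univ a b
  have h0 := hform _ _ _ P Q hA hB hCS hP hQ hPQ
  have k1 := hessQ_le hn (sub_pos.2 hε1) (lam - 2 + 2 * x₁) (mu + 2 * y₁) a b H hH tH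
  have k2 := hessQ_le hn (sub_pos.2 hεt) (t * (mu - 2) + 2 * x₂) (t * lam + 2 * y₂) b a K hK tK
  rw [show dotv b a = dotv a b from sum_congr rfl fun i _ => mul_comm _ _] at k2
  simp only [redForm] at h0
  simp only [nrm]
  linarith

end Vale.Agent.P100
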