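import Mathlib
import Vale.Agent.P100.Criterion
import Vale.Agent.P100.ReducedCert
import Vale.Agent.P100.Super
import Vale.Agent.P100.UnitBound

/-!
# Assembly: all cases of the Lane–Emden nonexistence theorem

`no_entire_solution_of_params` reduces the nonexistence of positive entire solutions, for every
dimension `n ≥ 2` and every subcritical pair in a symmetric range, to the choice of parameters of
a reduced certificate for `q ≤ p`, `p q > 1`, outside the Serrin range.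
-/

open Laplacian

namespace Vale.Agent.P100

variable {n : ℕ}

/-- A positive entire solution in the plain wording of the problem. -/
theorem isSol_iff {p q : ℝ} (u v : EuclideanSpace ℝ (Fin n) → ℝ) :
    IsSol p q u v ↔ Continuous u ∧ Continuous v ∧ ContDiffOn ℝ 2 u {0}ᶜ ∧ ContDiffOn ℝ 2 v {0}ᶜ ∧
      (∀ x, 0 < u x) ∧ (∀ x, 0 < v x) ∧ (∀ x, x ≠ 0 → Δ u x = -(v x) ^ p) ∧
      (∀ x, x ≠ 0 → Δ v x = -(u x) ^ q) :=
  ⟨fun h => ⟨h.contU, h.contV, h.smoothU, h.smoothV, h.posU, h.posV, h.eqU, h.eqV⟩,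
    fun ⟨a, b, c, d, e, f, g, i⟩ => ⟨a, b, c, d, e, f, g, i⟩⟩

/-- No solution when `p q ≤ 1`. -/
theorem no_solution_mul_le_one (hn : 2 ≤ n) {p q : ℝ} (hp : 0 < p) (hq : 0 < q)
    (hpq : p * q ≤ 1) : ¬ ∃ u v : EuclideanSpace ℝ (Fin n) → ℝ, IsSol p q u v := by
  rintro ⟨u, v, h⟩
  exact Super.no_supersolution_mul_le_one (by rw [finrank_euclideanSpace_fin]; exact hn) hp hq hpq
    h.contU h.contV h.smoothU h.smoothV h.posU h.posV (fun x hx => (h.eqU x hx).le)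
    (fun x hx => (h.eqV x hx).le)

/-- No solution in dimension two. -/
theorem no_solution_dim_two {p q : ℝ} :
    ¬ ∃ u v : EuclideanSpace ℝ (Fin 2) → ℝ, IsSol p q u v := by
  rintro ⟨u, v, h⟩
  exact Super.no_supersolution_dim_two finrank_euclideanSpace_fin h.contU h.smoothU h.posU
    fun x hx => (h.eqU x hx).trans_lt (neg_neg_of_pos (Real.rpow_pos_of_pos (h.posV x) p))

/-- No solution in the Serrin range. -/
theorem no_solution_serrin (hn : 3 ≤ n) {p q : ℝ} (hp : 0 < p) (hq : 0 < q) (hpq : 1 < p * q)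
    (hexp : ((n : ℝ) - 2) * (p * q - 1) < 2 * (p + 1)) :
    ¬ ∃ u v : EuclideanSpace ℝ (Fin n) → ℝ, IsSol p q u v := by
  rintro ⟨u, v, h⟩
  exact Super.no_supersolution_exponent hp hq (by rw [finrank_euclideanSpace_fin]; exact hn) hpq
    (by rw [finrank_euclideanSpace_fin]; exact hexp) h.contU h.contV h.smoothU h.smoothV h.posU
    h.posV (fun x hx => (h.eqU x hx).le) (fun x hx => (h.eqV x hx).le)

/-- A choice of parameters of a reduced certificate with weight `(u v) ^ L`. -/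
def HasParams (n : ℕ) (p q : ℝ) : Prop :=
  ∃ L t x₁ y₁ x₂ y₂ π₁ ρ χ ψ ε : ℝ, 0 < L ∧ L < 2 ∧ (n : ℝ) - 5 ≤ L * ((n : ℝ) - 3) ∧
    0 < ε ∧ ε < 1 ∧ ε < t ∧
    ∀ A B C P Q : ℝ, 0 ≤ A → 0 ≤ B → C ^ 2 ≤ A * B → 0 < P → 0 < Q →
      P ≤ (p + 1) / (q + 1) * Q →
      0 ≤ redForm n p q L L t x₁ y₁ x₂ y₂ π₁ ρ χ ψ ε A B C P Q

/-- A parameter choice rules out solutions. -/
theorem no_solution_of_params (hn : 3 ≤ n) {p q : ℝ} (hq : 0 < q) (hqp : q ≤ p) (hpq : 1 < p * q)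
    (hsub : ((n : ℝ) - 2) < (n : ℝ) / (p + 1) + (n : ℝ) / (q + 1)) (h : HasParams n p q) :
    ¬ ∃ u v : EuclideanSpace ℝ (Fin n) → ℝ, IsSol p q u v := by
  obtain ⟨L, t, x₁, y₁, x₂, y₂, π₁, ρ, χ, ψ, ε, hL0, hL2, hLn, hε, hε1, hεt, hform⟩ := h
  have hp : 0 < p := by linarith
  have hd : 0 < p * q - 1 := by linarith
  have e1 : -2 * (L * (1 + q) / (2 * (p * q - 1))) + 2 * q * (L * (1 + p) / (2 * (p * q - 1))) = L := by
    rw [show -2 * (L * (1 + q) / (2 * (p * q - 1))) + 2 * q * (L * (1 + p) / (2 * (p * q - 1))) =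
      L * (p * q - 1) / (p * q - 1) by rw [← div_div, ← div_div]; ring, mul_div_cancel_right₀ _ hd.ne']
  have e2 : 2 * p * (L * (1 + q) / (2 * (p * q - 1))) - 2 * (L * (1 + p) / (2 * (p * q - 1))) = L := by
    rw [show 2 * p * (L * (1 + q) / (2 * (p * q - 1))) - 2 * (L * (1 + p) / (2 * (p * q - 1))) =
      L * (p * q - 1) / (p * q - 1) by rw [← div_div, ← div_div]; ring, mul_div_cancel_right₀ _ hd.ne']
  have hC := (cert_of_redForm (n := n) (p := p) (q := q) (κ := (p + 1) / (q + 1))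
    (r₁ := L * (1 + q) / (2 * (p * q - 1))) (r₂ := L * (1 + p) / (2 * (p * q - 1)))
    (by omega) hε hε1 hεt (by positivity) (by positivity) e1.symm e2.symm hform).toZ
  exact no_solution_of_certZ hn hq hqp hpq hsub hC e1 e2
    (fun D => (sq_dotv_le_nrm _ _ _ _ _ _).1) (fun D => (sq_dotv_le_nrm _ _ _ _ _ _).2.1)
    hL0 hL2 hLn

/-- **Assembly.** In a range `S` symmetric under `(p, q) ↦ (q, p)`, parameters for `q ≤ p` outside
the trivial ranges give nonexistence for every subcritical pair of the range and every `n ≥ 2`. -/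
theorem no_entire_solution_of_params (hn : 2 ≤ n) {S : ℝ → ℝ → Prop}
    (hS : ∀ p q, S p q → S q p)
    (hcert : 3 ≤ n → ∀ p q : ℝ, 0 < q → q ≤ p → 1 < p * q →
      2 * (p + 1) ≤ ((n : ℝ) - 2) * (p * q - 1) →
      ((n : ℝ) - 2) < (n : ℝ) / (p + 1) + (n : ℝ) / (q + 1) → S p q → HasParams n p q)
    {p q : ℝ} (hp : 0 < p) (hq : 0 < q)
    (hsub : ((n : ℝ) - 2) < (n : ℝ) / (p + 1) + (n : ℝ) / (q + 1)) (hpqS : S p q) :
    ¬ ∃ u v : EuclideanSpace ℝ (Fin n) → ℝ,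
      Continuous u ∧ Continuous v ∧ ContDiffOn ℝ 2 u {0}ᶜ ∧ ContDiffOn ℝ 2 v {0}ᶜ ∧
      (∀ x, 0 < u x) ∧ (∀ x, 0 < v x) ∧ (∀ x, x ≠ 0 → Δ u x = -(v x) ^ p) ∧
      (∀ x, x ≠ 0 → Δ v x = -(u x) ^ q) := by
  simp only [← isSol_iff]
  rcases le_or_gt (p * q) 1 with h1 | h1
  · exact no_solution_mul_le_one hn hp hq h1
  rcases eq_or_lt_of_le hn with rfl | hn3
  · exact no_solution_dim_two
  have main : ∀ a b : ℝ, 0 < b → b ≤ a → 1 < a * b →
      ((n : ℝ) - 2) < (n : ℝ) / (a + 1) + (n : ℝ) / (b + 1) → S a b →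
      ¬ ∃ u v : EuclideanSpace ℝ (Fin n) → ℝ, IsSol a b u v := by
    intro a b hb hba hab hs hSab
    rcases lt_or_ge (((n : ℝ) - 2) * (a * b - 1)) (2 * (a + 1)) with h | h
    · exact no_solution_serrin hn3 (hb.trans_le hba) hb hab h
    · exact no_solution_of_params hn3 hb hba hab hs (hcert hn3 a b hb hba hab h hs hSab)
  rcases le_total q p with hqp | hqp
  · exact main p q hq hqp h1 hsub hpqS
  · rintro ⟨u, v, h⟩
    exact main q p hp hqp (by rwa [mul_comm]) (by linarith) (hS p q hpqS) ⟨v, u, h.swap⟩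

end Vale.Agent.P100
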