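import Mathlib
import Vale.Agent.P100.Cert
import Vale.Agent.P100.ReducedCert

/-!
# Pointwise certificates for the Hénon–Lane–Emden system

With `P = |x| ^ w₁ v ^ p / u`, `Q = |x| ^ w₂ u ^ q / v` and `z = x / |x|²` the fourteen rows get a
correction linear in `z`, and four new fields `|a|² z, |b|² z, P z, Q z` appear.
-/

open Finset

namespace Vale.Agent.P100

variable {n : ℕ}

/-- The corrections of the fourteen rows due to the weights. -/
def divWt (w₁ w₂ : ℝ) (a b z : Fin n → ℝ) (P Q : ℝ) : Fin 14 → ℝ :=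
  ![-(w₁ * P * dotv z a), -(w₁ * P * dotv z b), -(w₂ * Q * dotv z a), -(w₂ * Q * dotv z b),
    0, 0, 0, 0, 0, 0,
    w₁ * P * dotv z a, w₁ * P * dotv z b, w₂ * Q * dotv z a, w₂ * Q * dotv z b]

/-- The four fields `|a|² z, |b|² z, P z, Q z`. -/
def fldX (a b z : Fin n → ℝ) (P Q : ℝ) : Fin 4 → Fin n → ℝ :=
  ![fun i => dotv a a * z i, fun i => dotv b b * z i, fun i => P * z i, fun i => Q * z i]

/-- The divergences of the four fields; the divergence of `z` is `(n - 2) |z|²`. -/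
def divX (p q w₁ w₂ : ℝ) (a b z : Fin n → ℝ) (P Q : ℝ) (H K : Fin n → Fin n → ℝ) : Fin 4 → ℝ :=
  ![2 * dotv (mulv H a) z + dotv a a * (((n : ℝ) - 2) * dotv z z),
    2 * dotv (mulv K b) z + dotv b b * (((n : ℝ) - 2) * dotv z z),
    P * (((n : ℝ) - 2) * dotv z z) + P * (w₁ * dotv z z + p * dotv z b - dotv z a),
    Q * (((n : ℝ) - 2) * dotv z z) + Q * (w₂ * dotv z z + q * dotv z a - dotv z b)]

/-- `div (w (∑ c_j F_j + ∑ k_i G_i)) / w` for the weighted system. -/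
def rowW (p q w₁ w₂ lam mu : ℝ) (c : Fin 14 → ℝ) (k : Fin 4 → ℝ) (a b z : Fin n → ℝ) (P Q : ℝ)
    (H K : Fin n → Fin n → ℝ) : ℝ :=
  rowR p q lam mu c a b P Q H K + (∑ j, c j * divWt w₁ w₂ a b z P Q j) +
    ∑ i, k i * (divX p q w₁ w₂ a b z P Q H K i +
      ∑ l, (lam * a l + mu * b l) * fldX a b z P Q i l)

/-- A weighted certificate with weight `u ^ lam * v ^ mu`, `lam = -2 r₁ + 2 q r₂`,
`mu = 2 p r₁ - 2 r₂`, valid for all positive `P`, `Q`. -/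
structure CertW (n : ℕ) (p q w₁ w₂ r₁ r₂ : ℝ) (c : Fin 14 → ℝ) (k : Fin 4 → ℝ) (ε : ℝ) : Prop where
  eps_pos : 0 < ε
  r₁_nonneg : 0 ≤ r₁
  r₂_nonneg : 0 ≤ r₂
  bound : ∀ (a b z : Fin n → ℝ) (P Q : ℝ) (H K : Fin n → Fin n → ℝ),
    (∀ i j, H i j = H j i) → (∀ i j, K i j = K j i) →
    ∑ i, H i i = -(dotv a a + P) → ∑ i, K i i = -(dotv b b + Q) →
    0 < P → 0 < Q →
    ε * nrm a b P Q H K ≤
      rowW p q w₁ w₂ (-2 * r₁ + 2 * q * r₂) (2 * p * r₁ - 2 * r₂) c k a b z P Q H K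

end Vale.Agent.P100
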