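import Mathlib
import Vale.Agent.P100.CertW

/-!
# Pointwise certificates with a power of the radius in the weight

With the weight `|x| ^ g u ^ lam v ^ mu` instead of `u ^ lam v ^ mu` the divergence expression
gains `g z` times the flux, `z = x / |x|²`.
-/

open Finset

namespace Vale.Agent.P100

variable {n : ℕ}

/-- The flux of a weighted certificate. -/
def fluxW (c : Fin 14 → ℝ) (k : Fin 4 → ℝ) (a b z : Fin n → ℝ) (P Q : ℝ)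
    (H K : Fin n → Fin n → ℝ) (i : Fin n) : ℝ :=
  (∑ j, c j * fld a b P Q H K j i) + ∑ l, k l * fldX a b z P Q l i

/-- `div (|x| ^ g w F) / (|x| ^ g w)`. -/
def rowG (p q w₁ w₂ g lam mu : ℝ) (c : Fin 14 → ℝ) (k : Fin 4 → ℝ) (a b z : Fin n → ℝ) (P Q : ℝ)
    (H K : Fin n → Fin n → ℝ) : ℝ :=
  rowW p q w₁ w₂ lam mu c k a b z P Q H K + g * dotv z (fluxW c k a b z P Q H K)

/-- A weighted certificate with weight `|x| ^ g u ^ lam v ^ mu`, `lam = -2 r₁ + 2 q r₂`,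
`mu = 2 p r₁ - 2 r₂`. -/
structure CertG (n : ℕ) (p q w₁ w₂ g r₁ r₂ : ℝ) (c : Fin 14 → ℝ) (k : Fin 4 → ℝ) (ε : ℝ) :
    Prop where
  eps_pos : 0 < ε
  g_nonneg : 0 ≤ g
  r₁_nonneg : 0 ≤ r₁
  r₂_nonneg : 0 ≤ r₂
  bound : ∀ (a b z : Fin n → ℝ) (P Q : ℝ) (H K : Fin n → Fin n → ℝ),
    (∀ i j, H i j = H j i) → (∀ i j, K i j = K j i) →
    ∑ i, H i i = -(dotv a a + P) → ∑ i, K i i = -(dotv b b + Q) →
    0 < P → 0 < Q →
    ε * nrm a b P Q H K ≤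
      rowG p q w₁ w₂ g (-2 * r₁ + 2 * q * r₂) (2 * p * r₁ - 2 * r₂) c k a b z P Q H K

theorem CertW.toG {p q w₁ w₂ r₁ r₂ ε : ℝ} {c : Fin 14 → ℝ} {k : Fin 4 → ℝ}
    (h : CertW n p q w₁ w₂ r₁ r₂ c k ε) : CertG n p q w₁ w₂ 0 r₁ r₂ c k ε :=
  ⟨h.eps_pos, le_rfl, h.r₁_nonneg, h.r₂_nonneg, fun a b z P Q H K hH hK tH tK hP hQ => by
    simpa [rowG] using h.bound a b z P Q H K hH hK tH tK hP hQ⟩

end Vale.Agent.P100
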