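import Mathlib
import Vale.Agent.P100.ReducedCert

/-!
# The reduced scalar form in a real dimension
-/

namespace Vale.Agent.P100

/-- `hessQ` with a real dimension `N`. -/
noncomputable def hessN (N s X Y A C B T : ℝ) : ℝ :=
  s * T ^ 2 / N - T * (X * A + Y * C) / N -
    (X ^ 2 * (1 - 1 / N) * A ^ 2 + 2 * X * Y * (1 - 1 / N) * (A * C) +
      Y ^ 2 * ((A * B + C ^ 2) / 2 - C ^ 2 / N)) / (4 * s)

/-- `redForm` with a real dimension `N`. -/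
noncomputable def redFormN (N p q lam mu t x₁ y₁ x₂ y₂ π₁ ρ χ ψ ε A B C P Q : ℝ) : ℝ :=
  hessN N (1 - ε) (lam - 2 + 2 * x₁) (mu + 2 * y₁) A C B (A + P) +
  hessN N (t - ε) (t * (mu - 2) + 2 * x₂) (t * lam + 2 * y₂) B C A (B + Q) +
  (-(p * P * C) + P * A) + t * (-(q * Q * C) + Q * B) +
  x₁ * ((lam - 1) * A ^ 2 + mu * (A * C) - A * P) +
  x₂ * ((mu - 1) * B ^ 2 + lam * (B * C) - B * Q) +
  y₁ * (lam * (A * C) + (mu - 1) * (A * B) - A * Q) +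
  y₂ * ((lam - 1) * (A * B) + mu * (B * C) - B * P) +
  π₁ * (P * ((lam - 2) * A + (p + mu) * C) - P ^ 2) +
  ρ * (P * ((p - 1 + mu) * B + (lam - 1) * C) - P * Q) +
  χ * (Q * ((q - 1 + lam) * A + (mu - 1) * C) - P * Q) +
  ψ * (Q * ((mu - 2) * B + (q + lam) * C) - Q ^ 2) -
  ε * (A ^ 2 + B ^ 2 + P ^ 2 + Q ^ 2)

theorem redFormN_natCast (n : ℕ) (p q lam mu t x₁ y₁ x₂ y₂ π₁ ρ χ ψ ε A B C P Q : ℝ) :
    redFormN n p q lam mu t x₁ y₁ x₂ y₂ π₁ ρ χ ψ ε A B C P Q =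
      redForm n p q lam mu t x₁ y₁ x₂ y₂ π₁ ρ χ ψ ε A B C P Q := rfl

end Vale.Agent.P100
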