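import Mathlib
import Vale.Agent.P100.CertG
import Vale.Agent.P100.ConeDefs

/-!
# Equal weights: transfer from the real dimension `N = 2 (n + w) / (2 + w)`

For `-2 < w ≤ 0` the metric `|x| ^ w |dx|²` with its natural measure satisfies the Bochner
inequality of dimension `N`. Algebraically, with `g = -w` and
`Hc = H + g/2 (a z + z a) - g/2 (z·a) I` the expression
`|H|² + 2g zHa + g (z·a) T + g (g + n - 2)/2 |a|²|z|²` dominates `|Hc|² + (N - n) h²`.
So a scalar certificate in dimension `N` gives a weighted certificate in dimension `n`.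
-/

open Finset

namespace Vale.Agent.P100

variable {n : ℕ}

/-- The Bochner expression of the weighted operator (`T = -tr H`). -/
noncomputable def coneGamma (g : ℝ) (a z : Fin n → ℝ) (H : Fin n → Fin n → ℝ) (T : ℝ) : ℝ :=
  frob H H + 2 * g * dotv (mulv H a) z + g * dotv z a * T +
    g * (g + n - 2) / 2 * (dotv a a * dotv z z)

/-- The Hessian of the conformal metric. -/
noncomputable def coneHc (g : ℝ) (a z : Fin n → ℝ) (H : Fin n → Fin n → ℝ) (i j : Fin n) : ℝ :=
  H i j + g / 2 * (a i * z j + z i * a j) - g / 2 * dotv z a * (if i = j then 1 else 0)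

theorem dotv_comm (a b : Fin n → ℝ) : dotv a b = dotv b a :=
  sum_congr rfl fun _ _ => mul_comm _ _

theorem sum_mul_mul_mul (a b c d : Fin n → ℝ) :
    ∑ i, ∑ j, (a i * b j) * (c i * d j) = dotv a c * dotv b d := by
  rw [dotv, dotv, sum_mul_sum]
  exact sum_congr rfl fun i _ => sum_congr rfl fun j _ => by ring

theorem dotv_mulv_sum (H : Fin n → Fin n → ℝ) (a b : Fin n → ℝ) :
    dotv (mulv H a) b = ∑ i, ∑ j, H i j * (b i * a j) := by
  simp only [dotv, mulv, sum_mul]
  exact sum_congr rfl fun i _ => sum_congr rfl fun j _ => by ring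

theorem coneHc_trace (g : ℝ) (a z : Fin n → ℝ) (H : Fin n → Fin n → ℝ) :
    ∑ i, coneHc g a z H i i = ∑ i, H i i - g * ((n : ℝ) - 2) / 2 * dotv z a := by
  simp only [coneHc, if_true, sum_sub_distrib, sum_add_distrib, ← mul_sum, sum_const, card_univ,
    Fintype.card_fin, nsmul_eq_mul, mul_one]
  have e1 : ∑ i, a i * z i = dotv z a := dotv_comm a z
  have e2 : ∑ i, z i * a i = dotv z a := rfl
  rw [e1, e2]
  ring

theorem coneHc_mulv (g : ℝ) (a z x y : Fin n → ℝ) (H : Fin n → Fin n → ℝ) :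
    dotv (mulv (coneHc g a z H) x) y = dotv (mulv H x) y +
      g / 2 * (dotv a y * dotv z x + dotv z y * dotv a x) - g / 2 * dotv z a * dotv x y := by
  have hx : ∀ i, mulv (coneHc g a z H) x i = mulv H x i +
      g / 2 * (a i * dotv z x + z i * dotv a x) - g / 2 * dotv z a * x i := fun i => by
    simp only [mulv, coneHc, add_mul, sub_mul, sum_add_distrib, sum_sub_distrib]
    congr 1
    · congr 1
      simp only [dotv, mul_sum, ← sum_add_distrib]
      exact sum_congr rfl fun j _ => by ring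
    · simp only [mul_assoc, ← mul_sum, ite_mul, one_mul, zero_mul, sum_ite_eq, mem_univ, if_true]
  calc dotv (mulv (coneHc g a z H) x) y
      = ∑ i, (mulv H x i * y i + g / 2 * dotv z x * (a i * y i) +
          g / 2 * dotv a x * (z i * y i) - g / 2 * dotv z a * (x i * y i)) := by
        simp only [dotv] at hx ⊢
        exact sum_congr rfl fun i _ => by rw [hx i]; ring
    _ = _ := by
        simp only [sum_add_distrib, sum_sub_distrib, ← mul_sum]
        simp only [dotv]
        ring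

theorem coneHc_frob (g : ℝ) (a z : Fin n → ℝ) (H : Fin n → Fin n → ℝ)
    (hH : ∀ i j, H i j = H j i) {T : ℝ} (hT : ∑ i, H i i = -T) :
    frob (coneHc g a z H) (coneHc g a z H) = frob H H + 2 * g * dotv (mulv H a) z +
      g * dotv z a * T + g ^ 2 / 2 * (dotv a a * dotv z z) +
      g ^ 2 * ((n : ℝ) - 2) / 4 * dotv z a ^ 2 := by
  have s1 : ∑ i, ∑ j, H i j * (a i * z j) = dotv (mulv H a) z := by
    rw [dotv_mulv_sum, sum_comm]
    exact sum_congr rfl fun i _ => sum_congr rfl fun j _ => by rw [hH j i]; ring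
  have s2 : ∑ i, ∑ j, H i j * (z i * a j) = dotv (mulv H a) z := (dotv_mulv_sum H a z).symm
  set d := dotv z a with hd
  have hz : ∀ i j, coneHc g a z H i j * coneHc g a z H i j = H i j * H i j +
      g * (H i j * (a i * z j)) + g * (H i j * (z i * a j)) -
      g * d * ((if i = j then 1 else 0) * H i j) +
      g ^ 2 / 4 * ((a i * z j) * (a i * z j)) + g ^ 2 / 4 * ((z i * a j) * (z i * a j)) +
      g ^ 2 / 2 * ((a i * z j) * (z i * a j)) -
      g ^ 2 * d / 2 * ((if i = j then 1 else 0) * (a i * z j)) -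
      g ^ 2 * d / 2 * ((if i = j then 1 else 0) * (z i * a j)) +
      g ^ 2 * d ^ 2 / 4 * (if i = j then 1 else 0) := fun i j => by
    simp only [coneHc, ← hd]
    split_ifs <;> ring
  simp only [frob, hz, sum_add_distrib, sum_sub_distrib, ← mul_sum, s1, s2, sum_mul_mul_mul,
    ite_mul, one_mul, zero_mul, sum_ite_eq, mem_univ, if_true, sum_const, card_univ,
    Fintype.card_fin, nsmul_eq_mul, mul_one, hT]
  have e1 : ∑ i, a i * z i = d := dotv_comm a z
  have e2 : ∑ i, z i * a i = d := rfl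
  rw [e1, e2, dotv_comm a z, ← hd]
  ring

theorem dotv_self_nonneg (a : Fin n → ℝ) : 0 ≤ dotv a a :=
  sum_nonneg fun _ _ => mul_self_nonneg _

theorem sq_dotv_le (a b : Fin n → ℝ) : dotv a b ^ 2 ≤ dotv a a * dotv b b := by
  simpa [dotv, sq] using Finset.sum_mul_sq_le_sq_mul_sq univ a b

/-- The Hessian is controlled by the Bochner expression. -/
theorem frob_le_coneGamma (hn : 3 ≤ n) {g : ℝ} (hg : 0 ≤ g) (hg2 : g < 2) (a z : Fin n → ℝ)
    (H : Fin n → Fin n → ℝ) (hH : ∀ i j, H i j = H j i) {T : ℝ} (hT : ∑ i, H i i = -T) :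
    frob H H ≤ (2 + 2 * g * n / (((n : ℝ) - 2) * (2 - g))) * coneGamma g a z H T := by
  have h3 : (3 : ℝ) ≤ n := by exact_mod_cast hn
  set D := ((n : ℝ) - 2) * (2 - g) with hDdef
  have hD : 0 < D := mul_pos (by linarith) (by linarith)
  set A := dotv a a
  set Z := dotv z z
  set d := dotv z a
  have hd : d ^ 2 ≤ A * Z := (sq_dotv_le z a).trans_eq (mul_comm _ _)
  have hAZ : 0 ≤ A * Z := mul_nonneg (dotv_self_nonneg a) (dotv_self_nonneg z)
  have hc := coneHc_frob g a z H hH hT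
  set Hc := coneHc g a z H with hHc
  -- the correction
  let M : Fin n → Fin n → ℝ := fun i j => Hc i j - H i j
  have hM : frob M M = g ^ 2 / 2 * (A * Z) + g ^ 2 * ((n : ℝ) - 2) / 4 * d ^ 2 := by
    have h0 := coneHc_frob g a z (fun _ _ => 0) (fun _ _ => rfl) (T := 0) (by simp)
    have : (fun i j => coneHc g a z H i j - H i j) = coneHc g a z (fun _ _ => 0) := by
      funext i j; simp only [coneHc]; ring
    simp only [M, hHc, this, h0]
    simp [frob, dotv, mulv, A, Z, d]
  have hsum : frob H H ≤ 2 * frob Hc Hc + 2 * frob M M := by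
    simp only [frob, mul_sum, ← sum_add_distrib]
    exact sum_le_sum fun i _ => sum_le_sum fun j _ => by
      simp only [M]; linarith [mul_self_nonneg (2 * Hc i j - H i j)]
  have hHc0 : 0 ≤ frob Hc Hc := sum_nonneg fun i _ => sum_nonneg fun j _ => mul_self_nonneg _
  have hgam : frob Hc Hc + g * D / 4 * (A * Z) ≤ coneGamma g a z H T := by
    have : coneGamma g a z H T - frob Hc Hc - g * D / 4 * (A * Z) =
        g ^ 2 * ((n : ℝ) - 2) / 4 * (A * Z - d ^ 2) := by
      rw [hc, hDdef]; simp only [coneGamma, A, Z, d]; ring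
    have : 0 ≤ g ^ 2 * ((n : ℝ) - 2) / 4 * (A * Z - d ^ 2) :=
      mul_nonneg (div_nonneg (mul_nonneg (sq_nonneg g) (by linarith)) (by norm_num)) (by linarith)
    linarith
  have hM' : 2 * frob M M ≤ 2 * g * n / D * (g * D / 4 * (A * Z)) := by
    rw [hM, show 2 * g * n / D * (g * D / 4 * (A * Z)) = g ^ 2 * n / 2 * (A * Z) by
      field_simp; ring]
    linarith [mul_le_mul_of_nonneg_left hd
      (mul_nonneg (sq_nonneg g) (by linarith : (0 : ℝ) ≤ (n : ℝ) - 2))]
  have hR : 0 ≤ 2 * g * n / D := by positivity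
  calc frob H H ≤ 2 * frob Hc Hc + 2 * g * n / D * (g * D / 4 * (A * Z)) := by linarith
    _ ≤ (2 + 2 * g * n / D) * (frob Hc Hc + g * D / 4 * (A * Z)) := by
      rw [add_mul, mul_add, mul_add]
      have : 0 ≤ 2 * g * n / D * frob Hc Hc := mul_nonneg hR hHc0
      have : 0 ≤ g * D / 4 * (A * Z) := mul_nonneg (by positivity) hAZ
      linarith
    _ ≤ _ := mul_le_mul_of_nonneg_left hgam (by positivity)

/-- **Bochner inequality of dimension `N`.** -/
theorem hessN_le (hn : 3 ≤ n) {g N s : ℝ} (hg : 0 ≤ g) (hg2 : g < 2)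
    (hN : N = 2 * ((n : ℝ) - g) / (2 - g)) (hs : 0 < s) (X Y : ℝ) (a b z : Fin n → ℝ)
    (H : Fin n → Fin n → ℝ) (hH : ∀ i j, H i j = H j i) {T : ℝ} (hT : ∑ i, H i i = -T) :
    hessN N s X Y (dotv a a) (dotv a b) (dotv b b) T ≤
      s * coneGamma g a z H T +
        X * (dotv (mulv H a) a + g / 2 * (dotv a a * dotv z a)) +
        Y * (dotv (mulv H a) b + g / 2 * (dotv a a * dotv z b)) := by
  have h3 : (3 : ℝ) ≤ n := by exact_mod_cast hn
  have hg0 : (0 : ℝ) < 2 - g := by linarith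
  have hD : (N - n) * (2 - g) = g * ((n : ℝ) - 2) := by
    rw [hN, sub_mul, div_mul_cancel₀ _ hg0.ne']; ring
  have hNn : 0 ≤ N - n := nonneg_of_mul_nonneg_left
    (hD ▸ mul_nonneg hg (by linarith)) hg0
  have hN0 : 0 < N := by linarith
  have hc := coneHc_frob g a z H hH hT
  have hsym : ∀ i j, coneHc g a z H i j = coneHc g a z H j i := fun i j => by
    rcases eq_or_ne i j with h | h
    · rw [h]
    · simp only [coneHc, if_neg h, if_neg h.symm, hH i j]; ring
  set A := dotv a a with hA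
  set B := dotv b b
  set C := dotv a b with hC
  set d := dotv z a with hd
  set h := (2 - g) / 2 * d with hh
  have htr : ∑ i, coneHc g a z H i i = -(T + (N - n) * h) := by
    rw [coneHc_trace, hT, hh, ← mul_assoc, mul_div_assoc', hD, ← hd]; ring
  have hq := hessQ_le (n := n) (by omega) hs X Y a b (coneHc g a z H) hsym htr
  rw [coneHc_mulv, coneHc_mulv, dotv_comm z b] at hq
  set u := T - (X * A + Y * C) / (2 * s) with hu
  have key : hessN N s X Y A C B T = hessQ n s X Y A C B (T + (N - n) * h) +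
      s * ((N - n) * h ^ 2) - s * ((N - n) * (u + N * h) ^ 2 / (n * N)) := by
    have hn0 : (n : ℝ) ≠ 0 := by linarith
    simp only [hessN, hessQ, hu]
    field_simp
    ring
  have hdef : s * (frob (coneHc g a z H) (coneHc g a z H) + (N - n) * h ^ 2) ≤
      s * coneGamma g a z H T := by
    refine mul_le_mul_of_nonneg_left ?_ hs.le
    have e : coneGamma g a z H T - (frob (coneHc g a z H) (coneHc g a z H) + (N - n) * h ^ 2) =
        g * ((n : ℝ) - 2) / 2 * (A * dotv z z - d ^ 2) := by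
      rw [hc, hh, show (N - n) * ((2 - g) / 2 * d) ^ 2 = (N - n) * (2 - g) * ((2 - g) / 4) * d ^ 2
        by ring, hD]
      simp only [coneGamma, hA, hd]; ring
    have : 0 ≤ g * ((n : ℝ) - 2) / 2 * (A * dotv z z - d ^ 2) :=
      mul_nonneg (div_nonneg (mul_nonneg hg (by linarith)) (by norm_num))
        (sub_nonneg.2 ((sq_dotv_le z a).trans_eq (mul_comm _ _)))
    linarith
  have hsq : 0 ≤ s * ((N - n) * (u + N * h) ^ 2 / (n * N)) := by
    refine mul_nonneg hs.le (div_nonneg (mul_nonneg hNn (sq_nonneg _)) ?_)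
    positivity
  rw [key]
  rw [← hd, ← hA, ← hC, dotv_comm b z] at hq
  linarith

/-- **Certificate for equal weights from the real-dimension scalar form.** -/
theorem certG_of_redFormN (hn : 3 ≤ n) {w N : ℝ} (hw : -2 < w) (hw0 : w ≤ 0)
    (hN : N = 2 * ((n : ℝ) + w) / (2 + w))
    {p q r₁ r₂ lam mu t x₁ y₁ x₂ y₂ π₁ ρ χ ψ ε : ℝ} (hε : 0 < ε) (hε1 : ε < 1) (hεt : ε < t)
    (h₁ : 0 ≤ r₁) (h₂ : 0 ≤ r₂) (hlam : lam = -2 * r₁ + 2 * q * r₂)
    (hmu : mu = 2 * p * r₁ - 2 * r₂)
    (hform : ∀ A B C P Q : ℝ, 0 ≤ A → 0 ≤ B → C ^ 2 ≤ A * B → 0 < P → 0 < Q →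
      0 ≤ redFormN N p q lam mu t x₁ y₁ x₂ y₂ π₁ ρ χ ψ ε A B C P Q) :
    ∃ ε' : ℝ, CertG n p q w w (-w) r₁ r₂ (redCoeff t x₁ y₁ x₂ y₂ π₁ ρ χ ψ)
      ![-w / 2, -t * w / 2, 0, 0] ε' := by
  have h3 : (3 : ℝ) ≤ n := by exact_mod_cast hn
  set g := -w with hg
  have hg0 : 0 ≤ g := by linarith
  have hg2 : g < 2 := by linarith
  have hN' : N = 2 * ((n : ℝ) - g) / (2 - g) := by rw [hN, hg]; ring
  set Kc := 2 + 2 * g * n / (((n : ℝ) - 2) * (2 - g)) with hKc
  have hKc2 : 2 ≤ Kc := by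
    have : 0 ≤ 2 * g * n / (((n : ℝ) - 2) * (2 - g)) :=
      div_nonneg (by positivity) (mul_nonneg (by linarith) (by linarith))
    linarith
  have hK0 : 0 < Kc := by linarith
  refine ⟨ε / Kc, div_pos hε hK0, hg0, h₁, h₂, fun a b z P Q H K hH hK tH tK hP hQ => ?_⟩
  rw [← hlam, ← hmu, rowG, rowW, rowR_redCoeff]
  have h0 := hform _ _ _ P Q (dotv_self_nonneg a) (dotv_self_nonneg b) (sq_dotv_le a b) hP hQ
  have k1 := hessN_le hn hg0 hg2 hN' (sub_pos.2 hε1) (lam - 2 + 2 * x₁) (mu + 2 * y₁) a b z H hH tH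
  have k2 := hessN_le hn hg0 hg2 hN' (sub_pos.2 hεt) (t * (mu - 2) + 2 * x₂) (t * lam + 2 * y₂)
    b a z K hK tK
  have f1 := mul_le_mul_of_nonneg_left (frob_le_coneGamma hn hg0 hg2 a z H hH tH)
    (div_pos hε hK0).le
  have f2 := mul_le_mul_of_nonneg_left (frob_le_coneGamma hn hg0 hg2 b z K hK tK)
    (div_pos hε hK0).le
  rw [← hKc, ← mul_assoc, div_mul_cancel₀ _ hK0.ne'] at f1 f2
  have hle : ε / Kc ≤ ε := (div_le_iff₀ hK0).2 (by
    linarith [mul_le_mul_of_nonneg_left hKc2 hε.le])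
  have f3 := mul_le_mul_of_nonneg_right hle (show (0 : ℝ) ≤
    dotv a a ^ 2 + dotv b b ^ 2 + P ^ 2 + Q ^ 2 by positivity)
  rw [dotv_comm b a] at k2
  have lin : ∀ x : Fin n → ℝ,
      ∑ l, (lam * a l + mu * b l) * x l = lam * dotv x a + mu * dotv x b := fun x => by
    simp only [dotv, mul_sum, ← sum_add_distrib]
    exact sum_congr rfl fun i _ => by ring
  have sc : ∀ (r : ℝ) (x y : Fin n → ℝ), dotv (fun i => r * x i) y = r * dotv x y := fun r x y => by
    simp only [dotv, mul_sum]; exact sum_congr rfl fun i _ => by ring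
  have flux : dotv z (fluxW (redCoeff t x₁ y₁ x₂ y₂ π₁ ρ χ ψ) ![g / 2, t * g / 2, 0, 0]
      a b z P Q H K) = dotv (mulv H a) z + t * dotv (mulv K b) z +
      x₁ * (dotv a a * dotv z a) + y₁ * (dotv a a * dotv z b) +
      y₂ * (dotv b b * dotv z a) + x₂ * (dotv b b * dotv z b) +
      π₁ * (P * dotv z a) + ρ * (P * dotv z b) + χ * (Q * dotv z a) + ψ * (Q * dotv z b) +
      g / 2 * (dotv a a * dotv z z) + t * g / 2 * (dotv b b * dotv z z) := by
    rw [dotv_comm (mulv H a), dotv_comm (mulv K b)]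
    have hfl : ∀ i, fluxW (redCoeff t x₁ y₁ x₂ y₂ π₁ ρ χ ψ) ![g / 2, t * g / 2, 0, 0]
        a b z P Q H K i = mulv H a i + t * mulv K b i + x₁ * (dotv a a * a i) +
        y₁ * (dotv a a * b i) + y₂ * (dotv b b * a i) + x₂ * (dotv b b * b i) +
        π₁ * (P * a i) + ρ * (P * b i) + χ * (Q * a i) + ψ * (Q * b i) +
        g / 2 * (dotv a a * z i) + t * g / 2 * (dotv b b * z i) := fun i => by
      simp only [fluxW, fld, fldX, redCoeff, Fin.sum_univ_succ, Fin.sum_univ_zero,
        Matrix.cons_val_zero, Matrix.cons_val_succ, zero_mul, add_zero, zero_add, one_mul]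
      ring
    generalize dotv a a = A, dotv b b = B at hfl ⊢
    simp only [dotv, hfl, mul_sum, ← sum_add_distrib]
    exact sum_congr rfl fun i _ => by ring
  rw [show ![-w / 2, -t * w / 2, (0 : ℝ), 0] = ![g / 2, t * g / 2, 0, 0] by
    rw [hg, show -t * w / 2 = t * -w / 2 by ring], flux]
  simp only [redFormN] at h0
  simp only [coneGamma] at k1 k2 f1 f2
  simp only [divWt, divX, fldX, redCoeff, Fin.sum_univ_succ, Fin.sum_univ_zero,
    Matrix.cons_val_zero, Matrix.cons_val_succ, lin, sc, nrm]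
  rw [show w = -g by linarith]
  linarith

end Vale.Agent.P100
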