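import Mathlib
import Vale.Agent.P100.CertW

/-!
# Weighted certificates from a scalar inequality

The Hessians are eliminated exactly; besides `A = |a|²`, `B = |b|²`, `C = a·b`, `P`, `Q` the scalar
form depends on `za = z·a`, `zb = z·b`, `Z = |z|²`.
-/

open Finset

namespace Vale.Agent.P100

variable {n : ℕ}

/-- The exact minimum over symmetric `H` with `tr H = -T` of
`s|H|² + X aHa + Y aHb + W aHz`. -/
noncomputable def hessW (n : ℕ) (s X Y W A C B za zb Z T : ℝ) : ℝ :=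
  hessQ n s X Y A C B T - T * W * za / n -
    (2 * X * W * (1 - 1 / n) * (A * za) + Y * W * (A * zb + C * za - 2 * (C * za) / n) +
      W ^ 2 * ((A * Z + za ^ 2) / 2 - za ^ 2 / n)) / (4 * s)

theorem hessW_le (hn : 0 < n) {s : ℝ} (hs : 0 < s) (X Y W : ℝ) (a b z : Fin n → ℝ)
    (H : Fin n → Fin n → ℝ) (hH : ∀ i j, H i j = H j i) {T : ℝ} (hT : ∑ i, H i i = -T) :
    hessW n s X Y W (dotv a a) (dotv a b) (dotv b b) (dotv z a) (dotv z b) (dotv z z) T ≤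
      s * frob H H + X * dotv (mulv H a) a + Y * dotv (mulv H a) b + W * dotv (mulv H a) z := by
  have hn' : (n : ℝ) ≠ 0 := by exact_mod_cast hn.ne'
  let y : Fin n → ℝ := fun i => Y * b i + W * z i
  have lin : ∀ x : Fin n → ℝ, dotv x y = Y * dotv x b + W * dotv x z := fun x => by
    simp only [dotv, y, mul_sum, ← sum_add_distrib]
    exact sum_congr rfl fun i _ => by ring
  have hc : dotv a z = dotv z a := sum_congr rfl fun i _ => mul_comm _ _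
  have hy : dotv y y = Y ^ 2 * dotv b b + 2 * Y * W * dotv z b + W ^ 2 * dotv z z := by
    simp only [dotv, y, mul_sum, ← sum_add_distrib]
    exact sum_congr rfl fun i _ => by ring
  have h := hessQ_le hn hs X 1 a y H hH hT
  rw [lin a, lin (mulv H a), hy, hc] at h
  calc hessW n s X Y W (dotv a a) (dotv a b) (dotv b b) (dotv z a) (dotv z b) (dotv z z) T
      = hessQ n s X 1 (dotv a a) (Y * dotv a b + W * dotv z a)
          (Y ^ 2 * dotv b b + 2 * Y * W * dotv z b + W ^ 2 * dotv z z) T := by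
        simp only [hessW, hessQ]
        field_simp
        ring
    _ ≤ _ := by linarith

/-- The scalar form of the weighted reduced family. -/
noncomputable def redFormW (n : ℕ) (p q w₁ w₂ lam mu t x₁ y₁ x₂ y₂ π₁ ρ χ ψ k₁ k₂ k₃ k₄ ε
    A B C P Q za zb Z : ℝ) : ℝ :=
  hessW n (1 - ε) (lam - 2 + 2 * x₁) (mu + 2 * y₁) (2 * k₁) A C B za zb Z (A + P) +
  hessW n (t - ε) (t * (mu - 2) + 2 * x₂) (t * lam + 2 * y₂) (2 * k₂) B C A zb za Z (B + Q) +
  (-(p * P * C) + P * A) + t * (-(q * Q * C) + Q * B) +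
  x₁ * ((lam - 1) * A ^ 2 + mu * (A * C) - A * P) +
  x₂ * ((mu - 1) * B ^ 2 + lam * (B * C) - B * Q) +
  y₁ * (lam * (A * C) + (mu - 1) * (A * B) - A * Q) +
  y₂ * ((lam - 1) * (A * B) + mu * (B * C) - B * P) +
  π₁ * (P * ((lam - 2) * A + (p + mu) * C) - P ^ 2) +
  ρ * (P * ((p - 1 + mu) * B + (lam - 1) * C) - P * Q) +
  χ * (Q * ((q - 1 + lam) * A + (mu - 1) * C) - P * Q) +
  ψ * (Q * ((mu - 2) * B + (q + lam) * C) - Q ^ 2) +
  w₁ * P * ((π₁ - 1) * za + ρ * zb) + w₂ * Q * (χ * za + (ψ - t) * zb) +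
  k₁ * A * (lam * za + mu * zb + ((n : ℝ) - 2) * Z) +
  k₂ * B * (lam * za + mu * zb + ((n : ℝ) - 2) * Z) +
  k₃ * P * ((lam - 1) * za + (mu + p) * zb + ((n : ℝ) - 2 + w₁) * Z) +
  k₄ * Q * ((lam + q) * za + (mu - 1) * zb + ((n : ℝ) - 2 + w₂) * Z) -
  ε * (A ^ 2 + B ^ 2 + P ^ 2 + Q ^ 2)

/-- A weighted reduced certificate from the scalar inequality. -/
theorem certW_of_redFormW {p q w₁ w₂ r₁ r₂ lam mu t x₁ y₁ x₂ y₂ π₁ ρ χ ψ k₁ k₂ k₃ k₄ ε : ℝ}
    (hn : 0 < n) (hε : 0 < ε) (hε1 : ε < 1) (hεt : ε < t) (h₁ : 0 ≤ r₁) (h₂ : 0 ≤ r₂)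
    (hlam : lam = -2 * r₁ + 2 * q * r₂) (hmu : mu = 2 * p * r₁ - 2 * r₂)
    (hform : ∀ A B C P Q za zb Z : ℝ, 0 ≤ A → 0 ≤ B → 0 ≤ Z → C ^ 2 ≤ A * B →
      za ^ 2 ≤ A * Z → zb ^ 2 ≤ B * Z → 0 < P → 0 < Q →
      0 ≤ redFormW n p q w₁ w₂ lam mu t x₁ y₁ x₂ y₂ π₁ ρ χ ψ k₁ k₂ k₃ k₄ ε A B C P Q za zb Z) :
    CertW n p q w₁ w₂ r₁ r₂ (redCoeff t x₁ y₁ x₂ y₂ π₁ ρ χ ψ) ![k₁, k₂, k₃, k₄] ε := by
  refine ⟨hε, h₁, h₂, fun a b z P Q H K hH hK tH tK hP hQ => ?_⟩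
  rw [← hlam, ← hmu, rowW, rowR_redCoeff]
  have hpos : ∀ x : Fin n → ℝ, 0 ≤ dotv x x := fun x => sum_nonneg fun i _ => mul_self_nonneg _
  have hCS : ∀ x x' : Fin n → ℝ, dotv x x' ^ 2 ≤ dotv x x * dotv x' x' := fun x x' => by
    simpa [dotv, sq] using Finset.sum_mul_sq_le_sq_mul_sq univ x x'
  have hba : dotv b a = dotv a b := sum_congr rfl fun i _ => mul_comm _ _
  have h0 := hform _ _ _ P Q _ _ _ (hpos a) (hpos b) (hpos z) (hCS a b)
    ((hCS z a).trans_eq (mul_comm _ _)) ((hCS z b).trans_eq (mul_comm _ _)) hP hQ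
  have k1 := hessW_le hn (sub_pos.2 hε1) (lam - 2 + 2 * x₁) (mu + 2 * y₁) (2 * k₁) a b z H hH tH
  have k2 := hessW_le hn (sub_pos.2 hεt) (t * (mu - 2) + 2 * x₂) (t * lam + 2 * y₂) (2 * k₂) b a z
    K hK tK
  rw [hba] at k2
  have lin : ∀ g : Fin n → ℝ, ∑ l, (lam * a l + mu * b l) * g l = lam * dotv g a + mu * dotv g b :=
    fun g => by
      simp only [dotv, mul_sum, ← sum_add_distrib]
      exact sum_congr rfl fun i _ => by ring
  have sc : ∀ (r : ℝ) (g x : Fin n → ℝ), dotv (fun i => r * g i) x = r * dotv g x := fun r g x => by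
    simp only [dotv, mul_sum]; exact sum_congr rfl fun i _ => by ring
  simp only [redFormW] at h0
  simp only [divWt, divX, fldX, redCoeff, Fin.sum_univ_succ, Fin.sum_univ_zero,
    Matrix.cons_val_zero, Matrix.cons_val_succ, lin, sc, nrm]
  linarith

end Vale.Agent.P100
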