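import Mathlib
import Vale.Agent.P100.Energy
import Vale.Agent.P100.CertW

/-!
# The integral identity for the Hénon–Lane–Emden system

On an open set not containing the origin, with `z = x / |x|²` the gradient of `log |x|`, every
row of `rowW` is the divergence of a field, in the weak sense.
-/

open MeasureTheory Filter Set Topology Laplacian

namespace Vale.Agent.P100

variable {n : ℕ}

/-- `log |x|`. -/
noncomputable def logNormX (x : EuclideanSpace ℝ (Fin n)) : ℝ := Real.log (‖x‖ ^ 2) / 2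

theorem contDiffAt_logNormX {x : EuclideanSpace ℝ (Fin n)} (hx : x ≠ 0) {k : WithTop ℕ∞} :
    ContDiffAt ℝ k logNormX x := by
  have h : ‖x‖ ^ 2 ≠ 0 := pow_ne_zero _ (norm_ne_zero_iff.2 hx)
  exact (((contDiff_norm_sq ℝ).contDiffAt).log h).div_const 2

theorem fderiv_logNormX {x : EuclideanSpace ℝ (Fin n)} (hx : x ≠ 0) (i : Fin n) :
    fderiv ℝ logNormX x (eStd i) = x i / ‖x‖ ^ 2 := by
  have h : ‖x‖ ^ 2 ≠ 0 := pow_ne_zero _ (norm_ne_zero_iff.2 hx)
  have hd := (((hasStrictFDerivAt_norm_sq x).hasFDerivAt).log h).mul_const (2 : ℝ)⁻¹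
  rw [show logNormX (n := n) = fun y => Real.log (‖y‖ ^ 2) * (2 : ℝ)⁻¹ from
    funext fun y => div_eq_mul_inv _ _, hd.fderiv]
  simp [eStd, EuclideanSpace.inner_single_right]
  field_simp

theorem sum_sq_coord (x : EuclideanSpace ℝ (Fin n)) : ∑ i, x i * x i = ‖x‖ ^ 2 := by
  rw [EuclideanSpace.norm_sq_eq]
  exact Finset.sum_congr rfl fun i _ => by rw [Real.norm_eq_abs, sq_abs, sq]

theorem laplacian_logNormX {x : EuclideanSpace ℝ (Fin n)} (hx : x ≠ 0) :
    ∑ i, fderiv ℝ (fderiv ℝ logNormX) x (eStd i) (eStd i) =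
      ((n : ℝ) - 2) * dotv (fun i => x i / ‖x‖ ^ 2) (fun i => x i / ‖x‖ ^ 2) := by
  have hO : IsOpen ({0}ᶜ : Set (EuclideanSpace ℝ (Fin n))) := isOpen_compl_singleton
  have hX : ContDiffOn ℝ 2 (logNormX (n := n)) {0}ᶜ := fun y hy =>
    (contDiffAt_logNormX hy).contDiffWithinAt
  have h : ‖x‖ ^ 2 ≠ 0 := pow_ne_zero _ (norm_ne_zero_iff.2 hx)
  have each : ∀ i, fderiv ℝ (fderiv ℝ logNormX) x (eStd i) (eStd i) =
      1 / ‖x‖ ^ 2 - 2 * (x i * x i) / (‖x‖ ^ 2) ^ 2 := by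
    intro i
    rw [← hasD2 hO hX hx (eStd i) (eStd i)]
    have he : (fun y => fderiv ℝ logNormX y (eStd i)) =ᶠ[𝓝 x]
        fun y => EuclideanSpace.proj (𝕜 := ℝ) i y * (‖y‖ ^ 2)⁻¹ := by
      filter_upwards [hO.mem_nhds hx] with y hy
      rw [fderiv_logNormX hy i, div_eq_mul_inv]
      rfl
    rw [he.fderiv_eq]
    have hd := ((EuclideanSpace.proj (𝕜 := ℝ) i).hasFDerivAt (x := x)).fun_mul
      ((hasDerivAt_inv h).comp_hasFDerivAt x (hasStrictFDerivAt_norm_sq x).hasFDerivAt)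
    simp only [Function.comp_apply] at hd
    rw [hd.fderiv]
    simp [eStd, EuclideanSpace.inner_single_right]
    field_simp
    ring
  simp only [each, Finset.sum_sub_distrib, Finset.sum_const, Finset.card_univ, Fintype.card_fin,
    nsmul_eq_mul, dotv, div_mul_div_comm, ← Finset.sum_div, ← Finset.mul_sum, sum_sq_coord]
  field_simp

section continuity

theorem continuous_divT (p q : ℝ) (j : Fin 14) :
    Continuous fun d : Data n => divT p q d.1 d.2.1 d.2.2.1 d.2.2.2.1 d.2.2.2.2.1 d.2.2.2.2.2 j := by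
  fin_cases j <;> simp [divT, gradLapU, gradLapV, dotv, mulv, frob, Data] <;> fun_prop

theorem continuous_fld (j : Fin 14) (i : Fin n) :
    Continuous fun d : Data n => fld d.1 d.2.1 d.2.2.1 d.2.2.2.1 d.2.2.2.2.1 d.2.2.2.2.2 j i := by
  fin_cases j <;> simp [fld, dotv, mulv, Data] <;> fun_prop

theorem continuous_divWt (w₁ w₂ : ℝ) (j : Fin 14) :
    Continuous fun d : (Fin n → ℝ) × (Fin n → ℝ) × (Fin n → ℝ) × ℝ × ℝ =>
      divWt w₁ w₂ d.1 d.2.1 d.2.2.1 d.2.2.2.1 d.2.2.2.2 j := by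
  fin_cases j <;> simp [divWt, dotv] <;> fun_prop

theorem continuous_divX (p q w₁ w₂ : ℝ) (l : Fin 4) :
    Continuous fun d : (Fin n → ℝ) × (Fin n → ℝ) × (Fin n → ℝ) × ℝ × ℝ ×
      (Fin n → Fin n → ℝ) × (Fin n → Fin n → ℝ) =>
      divX p q w₁ w₂ d.1 d.2.1 d.2.2.1 d.2.2.2.1 d.2.2.2.2.1 d.2.2.2.2.2.1 d.2.2.2.2.2.2 l := by
  fin_cases l <;> simp [divX, dotv, mulv] <;> fun_prop

theorem continuous_fldX (l : Fin 4) (i : Fin n) :
    Continuous fun d : (Fin n → ℝ) × (Fin n → ℝ) × (Fin n → ℝ) × ℝ × ℝ =>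
      fldX d.1 d.2.1 d.2.2.1 d.2.2.2.1 d.2.2.2.2 l i := by
  fin_cases l <;> simp [fldX, dotv] <;> fun_prop

end continuity

variable {Ω : Set (EuclideanSpace ℝ (Fin n))} {φ U V : EuclideanSpace ℝ (Fin n) → ℝ}

theorem dotv_weight_add (M z a b g : Fin n → ℝ) (P w p : ℝ) :
    dotv (fun i => -(2 * M i) - P * (w * z i + p * b i - a i)) g =
      dotv (fun i => -(2 * M i) - P * (p * b i - a i)) g + -(w * P * dotv z g) := by
  simp only [dotv, Finset.mul_sum, ← Finset.sum_neg_distrib, ← Finset.sum_add_distrib]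
  exact Finset.sum_congr rfl fun i _ => by ring

theorem dotv_weight_mul (z a b g : Fin n → ℝ) (P w p : ℝ) :
    dotv (fun i => P * (w * z i + p * b i - a i)) g =
      P * (p * dotv b g - dotv a g) + w * P * dotv z g := by
  simp only [dotv, Finset.mul_sum, ← Finset.sum_sub_distrib, ← Finset.sum_add_distrib]
  exact Finset.sum_congr rfl fun i _ => by ring

theorem weight_rowH (M z a b g : Fin n → ℝ) (P w p F : ℝ) :
    dotv (fun i => -(2 * M i) - P * (w * z i + p * b i - a i)) g + F =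
      dotv (fun i => -(2 * M i) - P * (p * b i - a i)) g + F + -(w * P * dotv z g) := by
  rw [dotv_weight_add]; ring

theorem weight_rowP (z a b g : Fin n → ℝ) (P w p X : ℝ) :
    X + dotv (fun i => P * (w * z i + p * b i - a i)) g =
      X + P * (p * dotv b g - dotv a g) + w * P * dotv z g := by
  rw [dotv_weight_mul]; ring

theorem weight_rowZ (z a b : Fin n → ℝ) (P w p X : ℝ) :
    X + dotv (fun i => P * (w * z i + p * b i - a i)) z =
      X + P * (w * dotv z z + p * dotv z b - dotv z a) := by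
  rw [dotv_weight_mul, show dotv b z = dotv z b by simp [dotv, mul_comm],
    show dotv a z = dotv z a by simp [dotv, mul_comm]]
  ring

theorem weight_rowS (M g : Fin n → ℝ) (X : ℝ) :
    X + dotv (fun i => 2 * M i) g = 2 * dotv M g + X := by
  rw [dotv_const_mul]; ring

/-- A row with a Hessian, for a general source. -/
theorem hess_rowG (hΩ : IsOpen Ω) (hφ : ContDiff ℝ 1 φ) (hφc : HasCompactSupport φ)
    (hsub : tsupport φ ⊆ Ω) (hU : ContDiffOn ℝ 2 U Ω)
    {X W S : EuclideanSpace ℝ (Fin n) → ℝ} (hX : ContDiffOn ℝ 2 X Ω) (hW : ContDiffOn ℝ 1 W Ω)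
    (hS : ContDiffOn ℝ 1 S Ω) {dS : EuclideanSpace ℝ (Fin n) → Fin n → ℝ}
    (hdS : ∀ x ∈ Ω, ∀ i, fderiv ℝ S x (eStd i) = dS x i)
    (heq : ∀ x ∈ Ω, ∑ i, fderiv ℝ (fderiv ℝ U) x (eStd i) (eStd i) =
      -((∑ i, fderiv ℝ U x (eStd i) * fderiv ℝ U x (eStd i)) + S x)) :
    let a := fun x i => fderiv ℝ U x (eStd i)
    let g := fun x i => fderiv ℝ X x (eStd i)
    let H := fun x i j => fderiv ℝ (fderiv ℝ U) x (eStd i) (eStd j)
    let K := fun x i j => fderiv ℝ (fderiv ℝ X) x (eStd i) (eStd j)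
    ∫ x, φ x * (Real.exp (W x) * (dotv (fun i => -(2 * mulv (H x) (a x) i) - dS x i) (g x)
        + frob (H x) (K x) + ∑ i, fderiv ℝ W x (eStd i) * mulv (H x) (g x) i)) =
      -∫ x, Real.exp (W x) * ∑ i, fderiv ℝ φ x (eStd i) * mulv (H x) (g x) i := by
  intro a g H K
  set f : EuclideanSpace ℝ (Fin n) → ℝ := fun x =>
    -((∑ i, fderiv ℝ U x (eStd i) * fderiv ℝ U x (eStd i)) + S x) with hfdef
  have hdU : ∀ i, ContDiffOn ℝ 1 (fun y => fderiv ℝ U y (eStd i)) Ω := fun i =>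
    (hU.fderiv_of_isOpen hΩ (by norm_num)).clm_apply contDiffOn_const
  have hf : ContDiffOn ℝ 1 f Ω :=
    ((ContDiffOn.sum fun i _ => (hdU i).mul (hdU i)).add hS).neg
  have key := hess_field (μ := volume) hΩ eStd hφ hφc hsub hU hX hW
    (fun x hx => (heq x hx).symm) hf
  refine Eq.trans ?_ (key.trans ?_)
  · refine integral_congr_ae (Eventually.of_forall fun x => ?_)
    by_cases hx : x ∈ Ω
    · have hn := hΩ.mem_nhds hx
      have hA : ContDiffOn ℝ 1 (fun y => ∑ i, fderiv ℝ U y (eStd i) * fderiv ℝ U y (eStd i)) Ω :=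
        ContDiffOn.sum fun i _ => (hdU i).mul (hdU i)
      have hgl : ∀ j, fderiv ℝ f x (eStd j) = -(2 * mulv (H x) (a x) j) - dS x j := by
        intro j
        rw [((((hA.contDiffAt hn).differentiableAt one_ne_zero).hasFDerivAt).fun_add
          (((hS.contDiffAt hn).differentiableAt one_ne_zero).hasFDerivAt)).fun_neg.fderiv]
        simp only [neg_add_rev, ContinuousLinearMap.add_apply, ContinuousLinearMap.neg_apply]
        rw [fderiv_sum_mul hΩ hU hU hx j, hdS x hx j]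
        ring
      simp only [hfdef] at hgl
      simp only [hgl, dotv, frob, g, H, K]
      congr 3
      refine Finset.sum_congr rfl fun i _ => ?_
      rw [mulv, Finset.mul_sum]
      exact Finset.sum_congr rfl fun j _ => by ring
    · simp [image_eq_zero_of_notMem_tsupport fun h => hx (hsub h)]
  · refine congrArg Neg.neg (integral_congr_ae (Eventually.of_forall fun x => ?_))
    simp only [g, H, mulv, Finset.mul_sum]
    exact Finset.sum_congr rfl fun i _ => Finset.sum_congr rfl fun j _ => by ring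

/-- The data of the weighted system. -/
noncomputable def dataW (p q w₁ w₂ : ℝ) (U V : EuclideanSpace ℝ (Fin n) → ℝ)
    (x : EuclideanSpace ℝ (Fin n)) :
    (Fin n → ℝ) × (Fin n → ℝ) × (Fin n → ℝ) × ℝ × ℝ ×
      (Fin n → Fin n → ℝ) × (Fin n → Fin n → ℝ) :=
  (fun i => fderiv ℝ U x (eStd i), fun i => fderiv ℝ V x (eStd i),
    fun i => x i / ‖x‖ ^ 2, Real.exp (p * V x - U x + w₁ * logNormX x),
    Real.exp (q * U x - V x + w₂ * logNormX x),
    fun i j => fderiv ℝ (fderiv ℝ U) x (eStd i) (eStd j),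
    fun i j => fderiv ℝ (fderiv ℝ V) x (eStd i) (eStd j))

/-- The eighteen fields. -/
noncomputable def fldWAt (p q w₁ w₂ : ℝ) (U V : EuclideanSpace ℝ (Fin n) → ℝ)
    (j : Fin 14 ⊕ Fin 4) (x : EuclideanSpace ℝ (Fin n)) (i : Fin n) : ℝ :=
  let D := dataW p q w₁ w₂ U V x
  Sum.elim (fun j => fld D.1 D.2.1 D.2.2.2.1 D.2.2.2.2.1 D.2.2.2.2.2.1 D.2.2.2.2.2.2 j i)
    (fun l => fldX D.1 D.2.1 D.2.2.1 D.2.2.2.1 D.2.2.2.2.1 l i) j

/-- Their divergences. -/
noncomputable def divWAt (p q w₁ w₂ : ℝ) (U V : EuclideanSpace ℝ (Fin n) → ℝ)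
    (j : Fin 14 ⊕ Fin 4) (x : EuclideanSpace ℝ (Fin n)) : ℝ :=
  let D := dataW p q w₁ w₂ U V x
  Sum.elim (fun j => divT p q D.1 D.2.1 D.2.2.2.1 D.2.2.2.2.1 D.2.2.2.2.2.1 D.2.2.2.2.2.2 j +
      divWt w₁ w₂ D.1 D.2.1 D.2.2.1 D.2.2.2.1 D.2.2.2.2.1 j)
    (fun l => divX p q w₁ w₂ D.1 D.2.1 D.2.2.1 D.2.2.2.1 D.2.2.2.2.1 D.2.2.2.2.2.1
      D.2.2.2.2.2.2 l) j

/-- The weighted identity, row by row. -/
theorem row_eachW {p q w₁ w₂ lam mu : ℝ} (hΩ : IsOpen Ω)
    (h0 : (0 : EuclideanSpace ℝ (Fin n)) ∉ Ω) (hφ : ContDiff ℝ 1 φ)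
    (hφc : HasCompactSupport φ) (hsub : tsupport φ ⊆ Ω) (hU : ContDiffOn ℝ 2 U Ω)
    (hV : ContDiffOn ℝ 2 V Ω)
    (heqU : ∀ x ∈ Ω, ∑ i, fderiv ℝ (fderiv ℝ U) x (eStd i) (eStd i) =
      -((∑ i, fderiv ℝ U x (eStd i) * fderiv ℝ U x (eStd i)) +
        Real.exp (p * V x - U x + w₁ * logNormX x)))
    (heqV : ∀ x ∈ Ω, ∑ i, fderiv ℝ (fderiv ℝ V) x (eStd i) (eStd i) =
      -((∑ i, fderiv ℝ V x (eStd i) * fderiv ℝ V x (eStd i)) +
        Real.exp (q * U x - V x + w₂ * logNormX x)))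
    (j : Fin 14 ⊕ Fin 4) :
    ∫ x, φ x * (Real.exp (lam * U x + mu * V x) * (divWAt p q w₁ w₂ U V j x +
        ∑ i, (lam * fderiv ℝ U x (eStd i) + mu * fderiv ℝ V x (eStd i)) *
          fldWAt p q w₁ w₂ U V j x i)) =
      -∫ x, Real.exp (lam * U x + mu * V x) *
        ∑ i, fderiv ℝ φ x (eStd i) * fldWAt p q w₁ w₂ U V j x i := by
  have hne : ∀ x ∈ Ω, x ≠ 0 := fun x hx h => h0 (h ▸ hx)
  have hZ : ContDiffOn ℝ 2 (logNormX (n := n)) Ω := fun x hx =>
    (contDiffAt_logNormX (hne x hx)).contDiffWithinAt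
  have hU1 := hU.of_le (show (1 : WithTop ℕ∞) ≤ 2 from one_le_two)
  have hV1 := hV.of_le (show (1 : WithTop ℕ∞) ≤ 2 from one_le_two)
  have hZ1 := hZ.of_le (show (1 : WithTop ℕ∞) ≤ 2 from one_le_two)
  have hW : ContDiffOn ℝ 1 (fun y => lam * U y + mu * V y) Ω :=
    (contDiffOn_const.mul hU1).add (contDiffOn_const.mul hV1)
  have hWd : ∀ x ∈ Ω, ∀ (G : Fin n → ℝ),
      ∑ i, fderiv ℝ (fun y => lam * U y + mu * V y) x (eStd i) * G i =
        ∑ i, (lam * fderiv ℝ U x (eStd i) + mu * fderiv ℝ V x (eStd i)) * G i := by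
    intro x hx G
    refine Finset.sum_congr rfl fun i _ => ?_
    have hn := hΩ.mem_nhds hx
    rw [((((hU1.contDiffAt hn).differentiableAt one_ne_zero).hasFDerivAt.const_mul lam).fun_add
      (((hV1.contDiffAt hn).differentiableAt one_ne_zero).hasFDerivAt.const_mul mu)).fderiv]
    simp
  have conv : ∀ (T' : EuclideanSpace ℝ (Fin n) → ℝ)
      (F' : EuclideanSpace ℝ (Fin n) → Fin n → ℝ),
      (∀ x ∈ Ω, ∀ i, F' x i = fldWAt p q w₁ w₂ U V j x i) →
      (∀ x ∈ Ω, T' x = divWAt p q w₁ w₂ U V j x) →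
      ∫ x, φ x * (Real.exp (lam * U x + mu * V x) * (T' x +
          ∑ i, fderiv ℝ (fun y => lam * U y + mu * V y) x (eStd i) * F' x i)) =
        -∫ x, Real.exp (lam * U x + mu * V x) * ∑ i, fderiv ℝ φ x (eStd i) * F' x i →
      ∫ x, φ x * (Real.exp (lam * U x + mu * V x) * (divWAt p q w₁ w₂ U V j x +
        ∑ i, (lam * fderiv ℝ U x (eStd i) + mu * fderiv ℝ V x (eStd i)) *
          fldWAt p q w₁ w₂ U V j x i)) =
      -∫ x, Real.exp (lam * U x + mu * V x) *
        ∑ i, fderiv ℝ φ x (eStd i) * fldWAt p q w₁ w₂ U V j x i := by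
    intro T' F' hF' hT' h
    refine Eq.trans ?_ (h.trans (congrArg Neg.neg ?_))
    · refine integral_congr_ae (Eventually.of_forall fun x => ?_)
      by_cases hx : x ∈ Ω
      · simp only [hWd x hx, hF' x hx, hT' x hx]
      · simp [image_eq_zero_of_notMem_tsupport fun h => hx (hsub h)]
    · refine integral_congr_ae (Eventually.of_forall fun x => ?_)
      by_cases hx : x ∈ Ω
      · simp only [hF' x hx]
      · have : fderiv ℝ φ x = 0 := by
          rw [(notMem_tsupport_iff_eventuallyEq.1 fun h => hx (hsub h)).fderiv_eq]; simp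
        simp [this]
  have hdU : ∀ i, ContDiffOn ℝ 1 (fun y => fderiv ℝ U y (eStd i)) Ω := fun i =>
    (hU.fderiv_of_isOpen hΩ (by norm_num)).clm_apply contDiffOn_const
  have hdV : ∀ i, ContDiffOn ℝ 1 (fun y => fderiv ℝ V y (eStd i)) Ω := fun i =>
    (hV.fderiv_of_isOpen hΩ (by norm_num)).clm_apply contDiffOn_const
  set a := fun x i => fderiv ℝ U x (eStd i) with ha
  set b := fun x i => fderiv ℝ V x (eStd i) with hb
  set z := fun (x : EuclideanSpace ℝ (Fin n)) i => x i / ‖x‖ ^ 2 with hz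
  set P := fun x => Real.exp (p * V x - U x + w₁ * logNormX x) with hPd
  set Q := fun x => Real.exp (q * U x - V x + w₂ * logNormX x) with hQd
  have cA : ContDiffOn ℝ 1 (fun y => ∑ i, fderiv ℝ U y (eStd i) * fderiv ℝ U y (eStd i)) Ω :=
    ContDiffOn.sum fun i _ => (hdU i).mul (hdU i)
  have cC : ContDiffOn ℝ 1 (fun y => ∑ i, fderiv ℝ U y (eStd i) * fderiv ℝ V y (eStd i)) Ω :=
    ContDiffOn.sum fun i _ => (hdU i).mul (hdV i)
  have cB : ContDiffOn ℝ 1 (fun y => ∑ i, fderiv ℝ V y (eStd i) * fderiv ℝ V y (eStd i)) Ω :=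
    ContDiffOn.sum fun i _ => (hdV i).mul (hdV i)
  have cP : ContDiffOn ℝ 1 P Ω :=
    (((contDiffOn_const.mul hV1).sub hU1).add (contDiffOn_const.mul hZ1)).exp
  have cQ : ContDiffOn ℝ 1 Q Ω :=
    (((contDiffOn_const.mul hU1).sub hV1).add (contDiffOn_const.mul hZ1)).exp
  have hzd : ∀ x ∈ Ω, ∀ i, fderiv ℝ logNormX x (eStd i) = z x i := fun x hx i =>
    fderiv_logNormX (hne x hx) i
  have hPdiff : ∀ x ∈ Ω, ∀ i, fderiv ℝ P x (eStd i) =
      P x * (w₁ * z x i + p * b x i - a x i) := by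
    intro x hx i
    have hn := hΩ.mem_nhds hx
    rw [(((((hV.contDiffAt hn).differentiableAt two_ne_zero).hasFDerivAt.const_mul p).fun_sub
      ((hU.contDiffAt hn).differentiableAt two_ne_zero).hasFDerivAt).fun_add
      (((hZ.contDiffAt hn).differentiableAt two_ne_zero).hasFDerivAt.const_mul w₁)).exp.fderiv]
    simp [hzd x hx i, a, b, P]
    ring
  have hQdiff : ∀ x ∈ Ω, ∀ i, fderiv ℝ Q x (eStd i) =
      Q x * (w₂ * z x i + q * a x i - b x i) := by
    intro x hx i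
    have hn := hΩ.mem_nhds hx
    rw [(((((hU.contDiffAt hn).differentiableAt two_ne_zero).hasFDerivAt.const_mul q).fun_sub
      ((hV.contDiffAt hn).differentiableAt two_ne_zero).hasFDerivAt).fun_add
      (((hZ.contDiffAt hn).differentiableAt two_ne_zero).hasFDerivAt.const_mul w₂)).exp.fderiv]
    simp [hzd x hx i, a, b, Q]
    ring
  have rU := fun (X : EuclideanSpace ℝ (Fin n) → ℝ) (hX : ContDiffOn ℝ 2 X Ω) =>
    hess_rowG hΩ hφ hφc hsub hU hX hW cP hPdiff heqU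
  have rV := fun (X : EuclideanSpace ℝ (Fin n) → ℝ) (hX : ContDiffOn ℝ 2 X Ω) =>
    hess_rowG hΩ hφ hφc hsub hV hX hW cQ hQdiff heqV
  have gr := fun (g : EuclideanSpace ℝ (Fin n) → ℝ) (hg : ContDiffOn ℝ 1 g Ω)
    (dg : EuclideanSpace ℝ (Fin n) → Fin n → ℝ)
    (hdg : ∀ x ∈ Ω, ∀ i, fderiv ℝ g x (eStd i) = dg x i) =>
    And.intro (grad_row hΩ hφ hφc hsub hg hU hW hdg heqU)
      (And.intro (grad_row hΩ hφ hφc hsub hg hV hW hdg heqV)
        (grad_row hΩ hφ hφc hsub hg hZ hW hdg (fun x hx => laplacian_logNormX (hne x hx))))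
  have gA := fun x hx i => (fderiv_sum_mul hΩ hU hU (x := x) hx i).trans (two_mul _).symm
  have gB := fun x hx i => (fderiv_sum_mul hΩ hV hV (x := x) hx i).trans (two_mul _).symm
  have gC := fun x hx i => fderiv_sum_mul hΩ hU hV (x := x) hx i
  have hzc : ∀ x ∈ Ω, (fun i => fderiv ℝ logNormX x (eStd i)) = z x := fun x hx => funext (hzd x hx)
  rcases j with j | l
  · fin_cases j
    · exact conv _ _ (fun _ _ _ => rfl) (fun _ _ => weight_rowH _ _ _ _ _ _ _ _ _)
        (rU U hU)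
    · exact conv _ _ (fun _ _ _ => rfl) (fun _ _ => weight_rowH _ _ _ _ _ _ _ _ _)
        (rU V hV)
    · exact conv _ _ (fun _ _ _ => rfl) (fun _ _ => weight_rowH _ _ _ _ _ _ _ _ _)
        (rV U hU)
    · exact conv _ _ (fun _ _ _ => rfl) (fun _ _ => weight_rowH _ _ _ _ _ _ _ _ _)
        (rV V hV)
    · exact conv _ _ (fun _ _ _ => rfl) (fun _ _ => (congrArg (_ + ·) (dotv_const_mul _ _ _)).trans (add_zero _).symm)
        (gr _ cA _ gA).1
    · exact conv _ _ (fun _ _ _ => rfl) (fun _ _ => (congrArg (_ + ·) (dotv_const_mul _ _ _)).trans (add_zero _).symm)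
        (gr _ cA _ gA).2.1
    · exact conv _ _ (fun _ _ _ => rfl) (fun _ _ => (congrArg (_ + ·) (dotv_add _ _ _)).trans (add_zero _).symm)
        (gr _ cC _ gC).1
    · exact conv _ _ (fun _ _ _ => rfl) (fun _ _ => (congrArg (_ + ·) (dotv_add _ _ _)).trans (add_zero _).symm)
        (gr _ cC _ gC).2.1
    · exact conv _ _ (fun _ _ _ => rfl) (fun _ _ => (congrArg (_ + ·) (dotv_const_mul _ _ _)).trans (add_zero _).symm)
        (gr _ cB _ gB).1
    · exact conv _ _ (fun _ _ _ => rfl) (fun _ _ => (congrArg (_ + ·) (dotv_const_mul _ _ _)).trans (add_zero _).symm)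
        (gr _ cB _ gB).2.1
    · exact conv _ _ (fun _ _ _ => rfl) (fun _ _ => weight_rowP _ _ _ _ _ _ _ _)
        (gr _ cP _ hPdiff).1
    · exact conv _ _ (fun _ _ _ => rfl) (fun _ _ => weight_rowP _ _ _ _ _ _ _ _)
        (gr _ cP _ hPdiff).2.1
    · exact conv _ _ (fun _ _ _ => rfl) (fun _ _ => weight_rowP _ _ _ _ _ _ _ _)
        (gr _ cQ _ hQdiff).1
    · exact conv _ _ (fun _ _ _ => rfl) (fun _ _ => weight_rowP _ _ _ _ _ _ _ _)
        (gr _ cQ _ hQdiff).2.1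
  · fin_cases l
    · exact conv _ _ (fun x hx i => congrArg (fun r => _ * r) (hzd x hx i)) (fun x hx => (congrArg (fun v => _ + dotv _ v) (hzc x hx)).trans
        (weight_rowS _ _ _)) (gr _ cA _ gA).2.2
    · exact conv _ _ (fun x hx i => congrArg (fun r => _ * r) (hzd x hx i)) (fun x hx => (congrArg (fun v => _ + dotv _ v) (hzc x hx)).trans
        (weight_rowS _ _ _)) (gr _ cB _ gB).2.2
    · exact conv _ _ (fun x hx i => congrArg (fun r => _ * r) (hzd x hx i)) (fun x hx => (congrArg (fun v => _ + dotv _ v) (hzc x hx)).trans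
        (weight_rowZ _ _ _ _ _ _ _)) (gr _ cP _ hPdiff).2.2
    · exact conv _ _ (fun x hx i => congrArg (fun r => _ * r) (hzd x hx i)) (fun x hx => (congrArg (fun v => _ + dotv _ v) (hzc x hx)).trans
        (weight_rowZ _ _ _ _ _ _ _)) (gr _ cQ _ hQdiff).2.2

/-- The fields and their divergences are continuous. -/
theorem continuousOn_rowsW (p q w₁ w₂ : ℝ) (hΩ : IsOpen Ω)
    (h0 : (0 : EuclideanSpace ℝ (Fin n)) ∉ Ω) (hU : ContDiffOn ℝ 2 U Ω)
    (hV : ContDiffOn ℝ 2 V Ω) (j : Fin 14 ⊕ Fin 4) :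
    (∀ i, ContinuousOn (fun x => fldWAt p q w₁ w₂ U V j x i) Ω) ∧
      ContinuousOn (divWAt p q w₁ w₂ U V j) Ω := by
  have hne : ∀ x ∈ Ω, x ≠ 0 := fun x hx h => h0 (h ▸ hx)
  have cd1 : ∀ {w : EuclideanSpace ℝ (Fin n) → ℝ}, ContDiffOn ℝ 2 w Ω →
      ContinuousOn (fun x i => fderiv ℝ w x (eStd i)) Ω := fun hw => continuousOn_pi.2 fun i =>
    (hw.continuousOn_fderiv_of_isOpen hΩ (by norm_num)).clm_apply continuousOn_const
  have cd2 : ∀ {w : EuclideanSpace ℝ (Fin n) → ℝ}, ContDiffOn ℝ 2 w Ω →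
      ContinuousOn (fun x i j => fderiv ℝ (fderiv ℝ w) x (eStd i) (eStd j)) Ω := fun hw =>
    continuousOn_pi.2 fun i => continuousOn_pi.2 fun j =>
      (((hw.fderiv_of_isOpen hΩ (m := 1) (by norm_num)).continuousOn_fderiv_of_isOpen hΩ
        le_rfl).clm_apply continuousOn_const).clm_apply continuousOn_const
  have cn : ContinuousOn (logNormX (n := n)) Ω := fun x hx =>
    (contDiffAt_logNormX (k := 0) (hne x hx)).continuousAt.continuousWithinAt
  have cz : ContinuousOn (fun (x : EuclideanSpace ℝ (Fin n)) i => x i / ‖x‖ ^ 2) Ω :=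
    continuousOn_pi.2 fun i =>
      (EuclideanSpace.proj (𝕜 := ℝ) i).continuous.continuousOn.div
        (continuous_norm.pow 2).continuousOn
        fun x hx => pow_ne_zero _ (norm_ne_zero_iff.2 (hne x hx))
  have cP : ContinuousOn (fun x => Real.exp (p * V x - U x + w₁ * logNormX x)) Ω :=
    (((hV.continuousOn.const_mul p).sub hU.continuousOn).add (cn.const_mul w₁)).rexp
  have cQ : ContinuousOn (fun x => Real.exp (q * U x - V x + w₂ * logNormX x)) Ω :=
    (((hU.continuousOn.const_mul q).sub hV.continuousOn).add (cn.const_mul w₂)).rexp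
  have ca := cd1 hU
  have cb := cd1 hV
  have c5 := ca.prodMk (cb.prodMk (cz.prodMk (cP.prodMk cQ)))
  have c7 := ca.prodMk (cb.prodMk (cz.prodMk (cP.prodMk (cQ.prodMk ((cd2 hU).prodMk (cd2 hV))))))
  have c6 : ContinuousOn (fun x => ((fun i => fderiv ℝ U x (eStd i), fun i => fderiv ℝ V x (eStd i),
      Real.exp (p * V x - U x + w₁ * logNormX x), Real.exp (q * U x - V x + w₂ * logNormX x),
      fun i j => fderiv ℝ (fderiv ℝ U) x (eStd i) (eStd j),
      fun i j => fderiv ℝ (fderiv ℝ V) x (eStd i) (eStd j)) : Data n)) Ω :=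
    ca.prodMk (cb.prodMk (cP.prodMk (cQ.prodMk ((cd2 hU).prodMk (cd2 hV)))))
  rcases j with j | l
  · constructor
    · intro i
      exact ((continuous_fld j i).comp_continuousOn c6).congr fun _ _ => rfl
    · exact (((continuous_divT p q j).comp_continuousOn c6).add
        ((continuous_divWt w₁ w₂ j).comp_continuousOn c5)).congr fun _ _ => rfl
  · constructor
    · intro i
      exact ((continuous_fldX l i).comp_continuousOn c5).congr fun _ _ => rfl
    · exact ((continuous_divX p q w₁ w₂ l).comp_continuousOn c7).congr fun _ _ => rfl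

/-- **The weighted integral identity.** -/
theorem row_identityW {p q w₁ w₂ lam mu : ℝ} (c : Fin 14 → ℝ) (k : Fin 4 → ℝ) (hΩ : IsOpen Ω)
    (h0 : (0 : EuclideanSpace ℝ (Fin n)) ∉ Ω) (hφ : ContDiff ℝ 1 φ)
    (hφc : HasCompactSupport φ) (hsub : tsupport φ ⊆ Ω) {u v : EuclideanSpace ℝ (Fin n) → ℝ}
    (hu : ContDiffOn ℝ 2 u Ω) (hv : ContDiffOn ℝ 2 v Ω) (hu0 : ∀ x ∈ Ω, 0 < u x)
    (hv0 : ∀ x ∈ Ω, 0 < v x) (equ : ∀ x ∈ Ω, Δ u x = -(‖x‖ ^ w₁ * v x ^ p))
    (eqv : ∀ x ∈ Ω, Δ v x = -(‖x‖ ^ w₂ * u x ^ q)) :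
    Integrable (fun x => φ x * (u x ^ lam * v x ^ mu * rowW p q w₁ w₂ lam mu c k (logGrad u x)
        (logGrad v x) (fun i => x i / ‖x‖ ^ 2) (‖x‖ ^ w₁ * v x ^ p / u x)
        (‖x‖ ^ w₂ * u x ^ q / v x) (logHess u x) (logHess v x))) ∧
    ∫ x, φ x * (u x ^ lam * v x ^ mu * rowW p q w₁ w₂ lam mu c k (logGrad u x)
        (logGrad v x) (fun i => x i / ‖x‖ ^ 2) (‖x‖ ^ w₁ * v x ^ p / u x)
        (‖x‖ ^ w₂ * u x ^ q / v x) (logHess u x) (logHess v x)) =
      -∫ x, u x ^ lam * v x ^ mu * ∑ i, fderiv ℝ φ x (eStd i) *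
        ((∑ j, c j * fld (logGrad u x) (logGrad v x) (‖x‖ ^ w₁ * v x ^ p / u x)
            (‖x‖ ^ w₂ * u x ^ q / v x) (logHess u x) (logHess v x) j i) +
          ∑ l, k l * fldX (logGrad u x) (logGrad v x) (fun i => x i / ‖x‖ ^ 2)
            (‖x‖ ^ w₁ * v x ^ p / u x) (‖x‖ ^ w₂ * u x ^ q / v x) l i) := by
  set U := fun y => Real.log (u y) with hUdef
  set V := fun y => Real.log (v y) with hVdef
  have hU : ContDiffOn ℝ 2 U Ω := hu.log fun y hy => (hu0 y hy).ne'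
  have hV : ContDiffOn ℝ 2 V Ω := hv.log fun y hy => (hv0 y hy).ne'
  have hne : ∀ x ∈ Ω, x ≠ 0 := fun x hx h => h0 (h ▸ hx)
  have ew : ∀ x ∈ Ω, Real.exp (lam * U x + mu * V x) = u x ^ lam * v x ^ mu := fun x hx => by
    rw [Real.rpow_def_of_pos (hu0 x hx), Real.rpow_def_of_pos (hv0 x hx), ← Real.exp_add]
    simp only [U, V]; ring_nf
  have en : ∀ x ∈ Ω, ∀ w : ℝ, Real.exp (w * logNormX x) = ‖x‖ ^ w := fun x hx w => by
    rw [Real.rpow_def_of_pos (norm_pos_iff.2 (hne x hx)), logNormX, Real.log_pow]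
    push_cast; ring_nf
  have eP : ∀ x ∈ Ω, Real.exp (p * V x - U x + w₁ * logNormX x) = ‖x‖ ^ w₁ * v x ^ p / u x :=
    fun x hx => by
    rw [Real.exp_add, en x hx, Real.exp_sub, Real.exp_log (hu0 x hx),
      Real.rpow_def_of_pos (hv0 x hx), mul_comm p]
    simp only [V]; ring
  have eQ : ∀ x ∈ Ω, Real.exp (q * U x - V x + w₂ * logNormX x) = ‖x‖ ^ w₂ * u x ^ q / v x :=
    fun x hx => by
    rw [Real.exp_add, en x hx, Real.exp_sub, Real.exp_log (hv0 x hx),
      Real.rpow_def_of_pos (hu0 x hx), mul_comm q]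
    simp only [U]; ring
  have heqU : ∀ x ∈ Ω, ∑ i, fderiv ℝ (fderiv ℝ U) x (eStd i) (eStd i) =
      -((∑ i, fderiv ℝ U x (eStd i) * fderiv ℝ U x (eStd i)) +
        Real.exp (p * V x - U x + w₁ * logNormX x)) := by
    intro x hx
    rw [eP x hx, sum_log_second hΩ hu hu0 hx, equ x hx]
    simp only [logGrad, U]; ring
  have heqV : ∀ x ∈ Ω, ∑ i, fderiv ℝ (fderiv ℝ V) x (eStd i) (eStd i) =
      -((∑ i, fderiv ℝ V x (eStd i) * fderiv ℝ V x (eStd i)) +
        Real.exp (q * U x - V x + w₂ * logNormX x)) := by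
    intro x hx
    rw [eQ x hx, sum_log_second hΩ hv hv0 hx, eqv x hx]
    simp only [logGrad, V]; ring
  set K' : Fin 14 ⊕ Fin 4 → ℝ := Sum.elim c k with hK'
  set W := fun x => Real.exp (lam * U x + mu * V x) with hWdef
  set T : Fin 14 ⊕ Fin 4 → EuclideanSpace ℝ (Fin n) → ℝ := fun j x => divWAt p q w₁ w₂ U V j x +
    ∑ i, (lam * fderiv ℝ U x (eStd i) + mu * fderiv ℝ V x (eStd i)) *
      fldWAt p q w₁ w₂ U V j x i with hT
  have cd1 : ∀ {w : EuclideanSpace ℝ (Fin n) → ℝ}, ContDiffOn ℝ 2 w Ω → ∀ i,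
      ContinuousOn (fun x => fderiv ℝ w x (eStd i)) Ω := fun hw i =>
    (hw.continuousOn_fderiv_of_isOpen hΩ (by norm_num)).clm_apply continuousOn_const
  have cd2 : ∀ {w : EuclideanSpace ℝ (Fin n) → ℝ}, ContDiffOn ℝ 2 w Ω → ∀ i j,
      ContinuousOn (fun x => fderiv ℝ (fderiv ℝ w) x (eStd i) (eStd j)) Ω := fun hw i j =>
    (((hw.fderiv_of_isOpen hΩ (m := 1) (by norm_num)).continuousOn_fderiv_of_isOpen hΩ
      le_rfl).clm_apply continuousOn_const).clm_apply continuousOn_const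
  have cn : ContinuousOn (logNormX (n := n)) Ω := fun x hx =>
    (contDiffAt_logNormX (k := 0) (hne x hx)).continuousAt.continuousWithinAt
  have cW : ContinuousOn W Ω :=
    ((hU.continuousOn.const_mul lam).add (hV.continuousOn.const_mul mu)).rexp
  have cF : ∀ j i, ContinuousOn (fun x => fldWAt p q w₁ w₂ U V j x i) Ω := fun j =>
    (continuousOn_rowsW p q w₁ w₂ hΩ h0 hU hV j).1
  have cT : ∀ j, ContinuousOn (T j) Ω := fun j =>
    (continuousOn_rowsW p q w₁ w₂ hΩ h0 hU hV j).2.add (continuousOn_finsetSum _ fun i _ =>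
      (((cd1 hU i).const_mul lam).add ((cd1 hV i).const_mul mu)).mul (cF j i))
  have intT : ∀ j, Integrable (fun x => φ x * (W x * (K' j * T j x))) := fun j =>
    integrable_test_mul hΩ hφ.continuous hφc hsub (cW.mul (continuousOn_const.mul (cT j)))
  have intF : ∀ j, Integrable (fun x => W x *
      ∑ i, fderiv ℝ φ x (eStd i) * (K' j * fldWAt p q w₁ w₂ U V j x i)) := by
    intro j
    have := integrable_finsetSum (μ := volume) Finset.univ fun i _ =>
      integrable_deriv_mul (μ := volume) hΩ hφ hφc hsub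
        (cW.mul ((continuousOn_const (c := K' j)).mul (cF j i))) (eStd i)
    refine this.congr (Eventually.of_forall fun x => ?_)
    simp only [Finset.mul_sum, Pi.mul_apply]
    exact Finset.sum_congr rfl fun i _ => by ring
  have each : ∀ j, ∫ x, φ x * (W x * (K' j * T j x)) =
      -∫ x, W x * ∑ i, fderiv ℝ φ x (eStd i) * (K' j * fldWAt p q w₁ w₂ U V j x i) := by
    intro j
    have h := row_eachW (lam := lam) (mu := mu) hΩ h0 hφ hφc hsub hU hV heqU heqV j
    calc ∫ x, φ x * (W x * (K' j * T j x)) = K' j * ∫ x, φ x * (W x * T j x) := by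
          rw [← integral_const_mul]; congr 1; ext x; ring
      _ = _ := by
          rw [show ∫ x, φ x * (W x * T j x) = _ from h, mul_neg, ← integral_const_mul]
          congr 2; ext x
          rw [Finset.mul_sum, Finset.mul_sum, Finset.mul_sum]
          exact Finset.sum_congr rfl fun i _ => by ring
  have eL : ∀ x, φ x * (u x ^ lam * v x ^ mu * rowW p q w₁ w₂ lam mu c k (logGrad u x)
        (logGrad v x) (fun i => x i / ‖x‖ ^ 2) (‖x‖ ^ w₁ * v x ^ p / u x)
        (‖x‖ ^ w₂ * u x ^ q / v x) (logHess u x) (logHess v x)) =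
      ∑ j, φ x * (W x * (K' j * T j x)) := by
    intro x
    by_cases hx : x ∈ Ω
    · rw [← ew x hx, ← eP x hx, ← eQ x hx]
      simp only [← Finset.mul_sum]
      congr 2
      rw [Fintype.sum_sum_type]
      simp only [T, K', rowW, rowR, divWAt, fldWAt, dataW, Sum.elim_inl, Sum.elim_inr, logGrad,
        U, V]
      rw [← Finset.sum_add_distrib]
      refine congrArg₂ (· + ·) (Finset.sum_congr rfl fun j _ => ?_) rfl
      simp only [mul_add]
      rw [add_right_comm]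
      rfl
    · simp [image_eq_zero_of_notMem_tsupport fun h => hx (hsub h)]
  have eR : ∀ x, u x ^ lam * v x ^ mu * ∑ i, fderiv ℝ φ x (eStd i) *
        ((∑ j, c j * fld (logGrad u x) (logGrad v x) (‖x‖ ^ w₁ * v x ^ p / u x)
            (‖x‖ ^ w₂ * u x ^ q / v x) (logHess u x) (logHess v x) j i) +
          ∑ l, k l * fldX (logGrad u x) (logGrad v x) (fun i => x i / ‖x‖ ^ 2)
            (‖x‖ ^ w₁ * v x ^ p / u x) (‖x‖ ^ w₂ * u x ^ q / v x) l i) =
      ∑ j, W x * ∑ i, fderiv ℝ φ x (eStd i) * (K' j * fldWAt p q w₁ w₂ U V j x i) := by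
    intro x
    by_cases hx : x ∈ Ω
    · rw [← ew x hx, ← eP x hx, ← eQ x hx]
      rw [← Finset.mul_sum, Finset.sum_comm]
      simp only [W]
      congr 1
      refine Finset.sum_congr rfl fun i _ => ?_
      rw [← Finset.mul_sum, Fintype.sum_sum_type]
      rfl
    · have : fderiv ℝ φ x = 0 := by
        rw [(notMem_tsupport_iff_eventuallyEq.1 fun h => hx (hsub h)).fderiv_eq]; simp
      simp [this]
  simp only [eL, eR]
  refine ⟨integrable_finsetSum _ fun j _ => intT j, ?_⟩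
  rw [integral_finsetSum _ fun j _ => intT j, integral_finsetSum _ fun j _ => intF j,
    ← Finset.sum_neg_distrib]
  exact Finset.sum_congr rfl fun j _ => each j

end Vale.Agent.P100
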