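import Mathlib
import Vale.Agent.P100.CertG
import Vale.Agent.P100.Energy
import Vale.Agent.P100.Puncture

/-!
# From a weighted certificate to nonexistence

With two cut-offs, one near the origin and one at infinity, a certificate and the integral
identity give, for the weight `|x| ^ g u ^ lam v ^ mu` with `g ≥ 0`,
`∫ η ^ k w N ≤ C M ε ^ (n - 4) + C R ^ (n + g - 4 (1 + r₁ + r₂) - 2 (w₁ r₁ + w₂ r₂))`.
-/

open MeasureTheory Filter Set Metric Topology Laplacian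

namespace Vale.Agent.P100

variable {n : ℕ}

/-- The vector `x / |x|²` in coordinates. -/
noncomputable def zVec (x : EuclideanSpace ℝ (Fin n)) (i : Fin n) : ℝ := x i / ‖x‖ ^ 2

/-- The weighted algebraic data of a pair of functions. -/
noncomputable def solDataW (p q w₁ w₂ : ℝ) (u v : EuclideanSpace ℝ (Fin n) → ℝ)
    (x : EuclideanSpace ℝ (Fin n)) : Data n :=
  (logGrad u x, logGrad v x, ‖x‖ ^ w₁ * v x ^ p / u x, ‖x‖ ^ w₂ * u x ^ q / v x, logHess u x,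
    logHess v x)

/-- The weight `|x| ^ g u ^ lam v ^ mu`. -/
noncomputable def wgtG (g lam mu : ℝ) (u v : EuclideanSpace ℝ (Fin n) → ℝ)
    (x : EuclideanSpace ℝ (Fin n)) : ℝ :=
  ‖x‖ ^ g * (u x ^ lam * v x ^ mu)

/-- `rowG` at a pair of functions. -/
noncomputable def solRowG (p q w₁ w₂ g lam mu : ℝ) (c : Fin 14 → ℝ) (k : Fin 4 → ℝ)
    (u v : EuclideanSpace ℝ (Fin n) → ℝ) (x : EuclideanSpace ℝ (Fin n)) : ℝ :=
  rowG p q w₁ w₂ g lam mu c k (logGrad u x) (logGrad v x) (zVec x) (‖x‖ ^ w₁ * v x ^ p / u x)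
    (‖x‖ ^ w₂ * u x ^ q / v x) (logHess u x) (logHess v x)

/-- The flux at a pair of functions. -/
noncomputable def solFluxW (p q w₁ w₂ : ℝ) (c : Fin 14 → ℝ) (k : Fin 4 → ℝ)
    (u v : EuclideanSpace ℝ (Fin n) → ℝ) (x : EuclideanSpace ℝ (Fin n)) (i : Fin n) : ℝ :=
  fluxW c k (logGrad u x) (logGrad v x) (zVec x) (‖x‖ ^ w₁ * v x ^ p / u x)
    (‖x‖ ^ w₂ * u x ^ q / v x) (logHess u x) (logHess v x) i

/-- The integral identity of the rows with radial factor, as a statement. -/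
def IdentG (p q w₁ w₂ g lam mu : ℝ) (c : Fin 14 → ℝ) (k : Fin 4 → ℝ)
    (u v : EuclideanSpace ℝ (Fin n) → ℝ) : Prop :=
  ∀ φ : EuclideanSpace ℝ (Fin n) → ℝ, ContDiff ℝ 1 φ → HasCompactSupport φ →
    tsupport φ ⊆ {0}ᶜ →
    Integrable (fun x => φ x * (wgtG g lam mu u v x * solRowG p q w₁ w₂ g lam mu c k u v x)) ∧
    ∫ x, φ x * (wgtG g lam mu u v x * solRowG p q w₁ w₂ g lam mu c k u v x) =
    -∫ x, wgtG g lam mu u v x * ∑ i, fderiv ℝ φ x (eStd i) * solFluxW p q w₁ w₂ c k u v x i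

theorem abs_zVec_le (x : EuclideanSpace ℝ (Fin n)) (i : Fin n) : |zVec x i| ≤ ‖x‖⁻¹ := by
  rcases eq_or_ne x 0 with rfl | hx
  · simp [zVec]
  have h : 0 < ‖x‖ := norm_pos_iff.2 hx
  rw [zVec, abs_div, abs_of_pos (pow_pos h 2), div_le_iff₀ (pow_pos h 2)]
  calc |x i| ≤ ‖x‖ := by simpa using PiLp.norm_apply_le x i
    _ = ‖x‖⁻¹ * ‖x‖ ^ 2 := by field_simp

/-- The fields with `z` are of order two in the data and one in `1/|x|`. -/
theorem abs_fldX_le (a b z : Fin n → ℝ) (P Q : ℝ) (H K : Fin n → Fin n → ℝ) {ρ : ℝ} (i : Fin n)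
    (hz : |z i| ≤ ρ) (l : Fin 4) :
    |fldX a b z P Q l i| ≤ nrm a b P Q H K ^ (1 / 2 : ℝ) * ρ := by
  obtain ⟨hA, hB, hP, hQ, -, -⟩ := sq_dotv_le_nrm a b P Q H K
  have key : ∀ g : ℝ, g ^ 2 ≤ nrm a b P Q H K →
      |g * z i| ≤ nrm a b P Q H K ^ (1 / 2 : ℝ) * ρ := fun g hg => by
    rw [abs_mul, ← Real.sqrt_eq_rpow]
    exact mul_le_mul (Real.abs_le_sqrt hg) hz (abs_nonneg _) (Real.sqrt_nonneg _)
  fin_cases l
  · exact key _ hA
  · exact key _ hB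
  · exact key _ hP
  · exact key _ hQ

/-- The weight is controlled by the data and a power of `|x|`. -/
theorem weightW_le {p q r₁ r₂ ρ₁ ρ₂ u v M : ℝ} (h1 : 0 ≤ r₁) (h2 : 0 ≤ r₂) (hu : 0 < u)
    (hv : 0 < v) (hρ₁ : 0 < ρ₁) (hρ₂ : 0 < ρ₂) (hP : (ρ₁ * v ^ p / u) ^ 2 ≤ M)
    (hQ : (ρ₂ * u ^ q / v) ^ 2 ≤ M) :
    u ^ (-2 * r₁ + 2 * q * r₂) * v ^ (2 * p * r₁ - 2 * r₂) ≤
      ρ₁ ^ (-2 * r₁) * ρ₂ ^ (-2 * r₂) * M ^ (r₁ + r₂) := by
  have hM : 0 ≤ M := (sq_nonneg _).trans hP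
  have hkey : u ^ (-2 * r₁ + 2 * q * r₂) * v ^ (2 * p * r₁ - 2 * r₂) =
      ρ₁ ^ (-2 * r₁) * ρ₂ ^ (-2 * r₂) *
        (((ρ₁ * v ^ p / u) ^ 2) ^ r₁ * ((ρ₂ * u ^ q / v) ^ 2) ^ r₂) := by
    rw [← Real.rpow_natCast (ρ₁ * v ^ p / u), ← Real.rpow_natCast (ρ₂ * u ^ q / v),
      ← Real.rpow_mul (by positivity), ← Real.rpow_mul (by positivity),
      Real.div_rpow (by positivity) hu.le, Real.div_rpow (by positivity) hv.le,
      Real.mul_rpow hρ₁.le (by positivity), Real.mul_rpow hρ₂.le (by positivity),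
      ← Real.rpow_mul hv.le, ← Real.rpow_mul hu.le, Real.rpow_add hu, Real.rpow_sub hv,
      show -2 * r₁ = -(2 * r₁) by ring, show -2 * r₂ = -(2 * r₂) by ring,
      Real.rpow_neg hu.le, Real.rpow_neg hρ₁.le, Real.rpow_neg hρ₂.le]
    push_cast
    rw [show p * (2 * r₁) = 2 * p * r₁ by ring, show q * (2 * r₂) = 2 * q * r₂ by ring]
    field_simp
  rw [hkey, Real.rpow_add_of_nonneg hM h1 h2]
  refine mul_le_mul_of_nonneg_left ?_ (by positivity)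
  exact mul_le_mul (Real.rpow_le_rpow (sq_nonneg _) hP h1)
    (Real.rpow_le_rpow (sq_nonneg _) hQ h2) (by positivity) (by positivity)

theorem pow_le_rpow_pow {η t : ℝ} {j k : ℕ} (h0 : 0 ≤ η) (h1 : η ≤ 1) (hj : 1 ≤ j)
    (ht : (k : ℝ) * t ≤ j) : η ^ j ≤ (η ^ k) ^ t := by
  rcases h0.eq_or_lt with h | h
  · rw [← h, zero_pow (by omega : j ≠ 0)]
    positivity
  · rw [← Real.rpow_natCast, ← Real.rpow_natCast η k, ← Real.rpow_mul h.le]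
    exact Real.rpow_le_rpow_of_exponent_ge h h1 ht

/-- Absorption of the flux: the cubic and the quadratic part. -/
theorem flux_young {w N η G ρ δ : ℝ} {k : ℕ} (hw : 0 ≤ w) (hN : 0 ≤ N) (h0 : 0 ≤ η) (h1 : η ≤ 1)
    (hG : 0 ≤ G) (hρ : 0 ≤ ρ) (hδ : 0 < δ) (hk : 5 ≤ k) :
    G * (w * (η ^ (k - 1) * (ρ * N ^ (3 / 4 : ℝ) + ρ ^ 2 * N ^ (1 / 2 : ℝ)))) ≤
      2 * δ * (η ^ k * (w * N)) +
        (δ ^ (-3 : ℝ) * G ^ 4 + δ⁻¹ * G ^ 2) * (η ^ (k - 4) * (w * ρ ^ 4)) := by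
  have hX : 0 ≤ η ^ 4 * N := by positivity
  have e1 : (η ^ 4 * N) ^ (1 - 1 / (4 : ℝ)) = η ^ 3 * N ^ (3 / 4 : ℝ) := by
    rw [Real.mul_rpow (by positivity) hN, ← Real.rpow_natCast η 4, ← Real.rpow_mul h0,
      show ((4 : ℕ) : ℝ) * (1 - 1 / (4 : ℝ)) = ((3 : ℕ) : ℝ) by norm_num, Real.rpow_natCast]
    norm_num
  have e2 : (η ^ 4 * N) ^ (1 - 1 / (2 : ℝ)) = η ^ 2 * N ^ (1 / 2 : ℝ) := by
    rw [Real.mul_rpow (by positivity) hN, ← Real.rpow_natCast η 4, ← Real.rpow_mul h0,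
      show ((4 : ℕ) : ℝ) * (1 - 1 / (2 : ℝ)) = ((2 : ℕ) : ℝ) by norm_num, Real.rpow_natCast]
    norm_num
  have y1 := young_flux (d := 4) hX (mul_nonneg hG hρ) (by norm_num) hδ
  have y2 := young_flux (d := 2) hX (mul_nonneg hG (sq_nonneg ρ)) (by norm_num) hδ
  rw [e1, show (4 : ℝ) = ((4 : ℕ) : ℝ) by norm_num, Real.rpow_natCast] at y1
  rw [e2, show (1 : ℝ) - 2 = -1 by norm_num, Real.rpow_neg_one, Real.rpow_two] at y2
  rw [show (1 : ℝ) - ((4 : ℕ) : ℝ) = -3 by norm_num] at y1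
  have ek : η ^ k = η ^ (k - 4) * η ^ 4 := by rw [← pow_add]; congr 1; omega
  have ek3 : η ^ (k - 1) = η ^ (k - 4) * η ^ 3 := by rw [← pow_add]; congr 1; omega
  have h32 : η ^ 3 ≤ η ^ 2 := pow_le_pow_of_le_one h0 h1 (by norm_num)
  have hy : G * (η ^ 3 * (ρ * N ^ (3 / 4 : ℝ) + ρ ^ 2 * N ^ (1 / 2 : ℝ))) ≤
      2 * δ * (η ^ 4 * N) + (δ ^ (-3 : ℝ) * G ^ 4 + δ⁻¹ * G ^ 2) * ρ ^ 4 := by
    have h3 : G * (η ^ 3 * (ρ ^ 2 * N ^ (1 / 2 : ℝ))) ≤ G * ρ ^ 2 * (η ^ 2 * N ^ (1 / 2 : ℝ)) := by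
      rw [show G * ρ ^ 2 * (η ^ 2 * N ^ (1 / 2 : ℝ)) = G * (η ^ 2 * (ρ ^ 2 * N ^ (1 / 2 : ℝ))) by ring]
      gcongr
    rw [mul_add, mul_add]
    linarith
  calc G * (w * (η ^ (k - 1) * (ρ * N ^ (3 / 4 : ℝ) + ρ ^ 2 * N ^ (1 / 2 : ℝ))))
      = (w * η ^ (k - 4)) * (G * (η ^ 3 * (ρ * N ^ (3 / 4 : ℝ) + ρ ^ 2 * N ^ (1 / 2 : ℝ)))) := by
        rw [ek3]; ring
    _ ≤ (w * η ^ (k - 4)) * (2 * δ * (η ^ 4 * N) +
          (δ ^ (-3 : ℝ) * G ^ 4 + δ⁻¹ * G ^ 2) * ρ ^ 4) :=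
        mul_le_mul_of_nonneg_left hy (by positivity)
    _ = _ := by rw [ek]; ring

/-- Absorption of the weight at infinity. -/
theorem weight_young {w N η Y r g δ : ℝ} {k : ℕ} (hw : 0 < w) (hN : 0 ≤ N) (h0 : 0 ≤ η)
    (h1 : η ≤ 1) (hY : 0 ≤ Y) (hr : 0 ≤ r) (hwN : w ≤ Y * N ^ r) (hk : 4 * (1 + r) ≤ k)
    (hk5 : 5 ≤ k) (hg : 0 ≤ g) (hδ : 0 < δ) :
    η ^ (k - 4) * (w * g) ≤ δ * (η ^ k * (w * N)) + δ ^ (-r) * (g ^ (1 + r) * Y) := by
  have hr1 : 0 < 1 + r := by linarith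
  set t : ℝ := 1 - 1 / (1 + r) with ht
  have htr : t * (1 + r) = r := by rw [ht]; field_simp; ring
  have hw' : w ≤ Y ^ (1 / (1 + r)) * (w * N) ^ t := by
    have h := Real.rpow_le_rpow (mul_nonneg hw.le (Real.rpow_nonneg hw.le r))
      (show w * w ^ r ≤ Y * (w * N) ^ r by
        rw [Real.mul_rpow hw.le hN]
        calc w * w ^ r ≤ (Y * N ^ r) * w ^ r := by gcongr
          _ = _ := by ring)
      (one_div_nonneg.2 hr1.le)
    rw [show w * w ^ r = w ^ (1 + r) by rw [Real.rpow_add hw, Real.rpow_one],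
      ← Real.rpow_mul hw.le, mul_one_div_cancel hr1.ne', Real.rpow_one,
      Real.mul_rpow hY (Real.rpow_nonneg (mul_nonneg hw.le hN) _),
      ← Real.rpow_mul (mul_nonneg hw.le hN)] at h
    rwa [show t = r * (1 / (1 + r)) by rw [ht]; field_simp; ring]
  have hη : η ^ (k - 4) ≤ (η ^ k) ^ t := by
    refine pow_le_rpow_pow h0 h1 (by omega) ?_
    rw [Nat.cast_sub (by omega : 4 ≤ k)]
    push_cast
    refine le_of_mul_le_mul_right ?_ hr1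
    rw [mul_assoc, htr]
    nlinarith
  have y := young_flux (X := η ^ k * (w * N)) (g := g * Y ^ (1 / (1 + r))) (d := 1 + r)
    (δ := δ) (by positivity) (by positivity) (by linarith) hδ
  rw [Real.mul_rpow hg (Real.rpow_nonneg hY _), ← Real.rpow_mul hY,
    one_div_mul_cancel hr1.ne', Real.rpow_one, show (1 : ℝ) - (1 + r) = -r by ring] at y
  refine le_trans ?_ y
  rw [← ht, Real.mul_rpow (pow_nonneg h0 k) (mul_nonneg hw.le hN)]
  calc η ^ (k - 4) * (w * g) ≤ (η ^ k) ^ t * ((Y ^ (1 / (1 + r)) * (w * N) ^ t) * g) :=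
        mul_le_mul hη (mul_le_mul_of_nonneg_right hw' hg) (by positivity) (by positivity)
    _ = _ := by ring

theorem integral_indicator_const_closedBall {R : ℝ} (hR : 0 ≤ R) (c : ℝ) :
    Integrable ((closedBall (0 : EuclideanSpace ℝ (Fin n)) R).indicator fun _ => c) ∧
    ∫ x, (closedBall (0 : EuclideanSpace ℝ (Fin n)) R).indicator (fun _ => c) x =
      R ^ n * volume.real (closedBall (0 : EuclideanSpace ℝ (Fin n)) 1) * c := by
  refine ⟨(integrable_indicator_iff measurableSet_closedBall).2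
    (integrableOn_const (measure_closedBall_lt_top (μ := volume)).ne), ?_⟩
  rw [integral_indicator measurableSet_closedBall, setIntegral_const, smul_eq_mul,
    Measure.addHaar_real_closedBall' volume _ hR, finrank_euclideanSpace_fin]

/-- Cut-offs equal to one on `2 e' ≤ |x| ≤ R`, with gradient of size `1/|x|`. -/
theorem exists_cutoffs :
    ∃ L : ℝ, 0 ≤ L ∧ ∀ R e' : ℝ, 2 ≤ R → 0 < e' → e' ≤ 1 / 2 →
      ∃ η : EuclideanSpace ℝ (Fin n) → ℝ, ContDiff ℝ 1 η ∧ HasCompactSupport η ∧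
        tsupport η ⊆ closedBall 0 (2 * R) \ ball 0 e' ∧ (∀ x, η x ∈ Icc (0 : ℝ) 1) ∧
        (∀ x, 1 ≤ ‖x‖ → ‖x‖ ≤ 2 → η x = 1) ∧ (∀ x, ‖fderiv ℝ η x‖ ≤ L * ‖x‖⁻¹) ∧
        (∀ x, fderiv ℝ η x ≠ 0 →
          ‖x‖ ∈ Icc e' (2 * e') ∨ ‖x‖ ∈ Icc R (2 * R)) := by
  obtain ⟨α, hα2, hαc, hαI, hα1, hα0⟩ :=
    Puncture.exists_bump (E := EuclideanSpace ℝ (Fin n)) one_pos
  have hα : ContDiff ℝ 1 α := hα2.of_le one_le_two
  obtain ⟨L, hL⟩ := (hα.continuous_fderiv one_ne_zero).bounded_above_of_compact_support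
    (hαc.fderiv ℝ)
  have hL0 : 0 ≤ L := (norm_nonneg _).trans (hL 0)
  refine ⟨4 * L, by positivity, fun R e' hR he' he'2 => ?_⟩
  have hR0 : 0 < R := by linarith
  set η : EuclideanSpace ℝ (Fin n) → ℝ := fun x => α (R⁻¹ • x) - α (e'⁻¹ • x) with hηdef
  have nt : ∀ (t : ℝ) (x : EuclideanSpace ℝ (Fin n)), 0 < t → ‖t⁻¹ • x‖ = ‖x‖ / t :=
    fun t x ht => by
      rw [norm_smul, Real.norm_eq_abs, abs_of_pos (by positivity), inv_mul_eq_div]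
  have hin : ∀ x, ‖x‖ ≤ R → α (R⁻¹ • x) = 1 := fun x hx =>
    hα1 _ (by rw [nt R x hR0, div_le_one hR0]; exact hx)
  have hout : ∀ x, 2 * e' ≤ ‖x‖ → α (e'⁻¹ • x) = 0 := fun x hx =>
    hα0 _ (by rw [nt e' x he', le_div_iff₀ he']; linarith)
  have hηsupp : tsupport η ⊆ closedBall 0 (2 * R) \ ball 0 e' := by
    refine closure_minimal (fun x hx => ?_) (isClosed_closedBall.sdiff isOpen_ball)
    simp only [Function.mem_support, η] at hx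
    refine ⟨?_, ?_⟩
    · rw [mem_closedBall_zero_iff]
      by_contra h
      rw [not_le] at h
      exact hx (by
        rw [hout x (by linarith), hα0 _ (by rw [nt R x hR0, le_div_iff₀ hR0]; linarith), sub_zero])
    · rw [mem_ball_zero_iff, not_lt]
      by_contra h
      rw [not_le] at h
      exact hx (by
        rw [hin x (by linarith), hα1 _ (by rw [nt e' x he', div_le_one he']; linarith), sub_self])
  have hz : ∀ (t : ℝ) (x : EuclideanSpace ℝ (Fin n)), 0 < t → fderiv ℝ α (t⁻¹ • x) ≠ 0 →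
      t ≤ ‖x‖ ∧ ‖x‖ ≤ 2 * t := by
    intro t x ht hne
    constructor
    · by_contra h
      rw [not_le] at h
      refine hne ?_
      have : α =ᶠ[𝓝 (t⁻¹ • x)] fun _ => 1 := by
        filter_upwards [isOpen_ball.mem_nhds (mem_ball_zero_iff.2
          (show ‖t⁻¹ • x‖ < 1 by rw [nt t x ht, div_lt_one ht]; exact h))] with y hy
        exact hα1 y (mem_ball_zero_iff.1 hy).le
      rw [this.fderiv_eq]; simp
    · by_contra h
      rw [not_le] at h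
      refine hne ?_
      have : α =ᶠ[𝓝 (t⁻¹ • x)] fun _ => 0 := by
        filter_upwards [isClosed_closedBall.isOpen_compl.mem_nhds
          (show t⁻¹ • x ∈ (closedBall (0 : EuclideanSpace ℝ (Fin n)) 2)ᶜ by
            rw [mem_compl_iff, mem_closedBall_zero_iff, nt t x ht, not_le, lt_div_iff₀ ht]
            linarith)] with y hy
        refine hα0 y ?_
        rw [mem_compl_iff, mem_closedBall_zero_iff, not_le] at hy
        linarith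
      rw [this.fderiv_eq]; simp
  have hterm : ∀ (t : ℝ) (x : EuclideanSpace ℝ (Fin n)), 0 < t →
      ‖t⁻¹ • fderiv ℝ α (t⁻¹ • x)‖ ≤ 2 * L * ‖x‖⁻¹ := by
    intro t x ht
    by_cases hne : fderiv ℝ α (t⁻¹ • x) = 0
    · rw [hne, smul_zero, norm_zero]; positivity
    obtain ⟨h3, h4⟩ := hz t x ht hne
    have hx : 0 < ‖x‖ := lt_of_lt_of_le ht h3
    rw [norm_smul, Real.norm_eq_abs, abs_of_pos (by positivity)]
    calc t⁻¹ * ‖fderiv ℝ α (t⁻¹ • x)‖ ≤ (2 * ‖x‖⁻¹) * L := by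
          refine mul_le_mul ?_ (hL _) (norm_nonneg _) (by positivity)
          rw [← div_eq_mul_inv, inv_eq_one_div, div_le_div_iff₀ ht hx]
          linarith
      _ = _ := by ring
  have hd : ∀ x, fderiv ℝ η x =
      R⁻¹ • fderiv ℝ α (R⁻¹ • x) - e'⁻¹ • fderiv ℝ α (e'⁻¹ • x) := fun x =>
    ((Puncture.hasFDerivAt_scale hα R⁻¹ x).fun_sub (Puncture.hasFDerivAt_scale hα e'⁻¹ x)).fderiv
  refine ⟨η, (hα.comp (contDiff_id.const_smul R⁻¹)).sub (hα.comp (contDiff_id.const_smul e'⁻¹)),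
    (isCompact_closedBall 0 (2 * R)).of_isClosed_subset (isClosed_tsupport η)
      (hηsupp.trans sdiff_subset), hηsupp, fun x => ?_, fun x hx1 hx2 => ?_, fun x => ?_,
    fun x hne => ?_⟩
  · rcases le_or_gt ‖x‖ (2 * e') with h | h
    · simp only [η, hin x (by linarith)]
      constructor <;> linarith [(hαI (e'⁻¹ • x)).1, (hαI (e'⁻¹ • x)).2]
    · simpa [η, hout x h.le] using hαI (R⁻¹ • x)
  · simp only [η]
    rw [hin x (by linarith), hout x (by linarith), sub_zero]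
  · rw [hd]
    refine (norm_sub_le _ _).trans ?_
    linarith [hterm R x hR0, hterm e' x he']
  · rw [hd] at hne
    by_cases h5 : fderiv ℝ α (e'⁻¹ • x) = 0
    · refine Or.inr (hz R x hR0 fun h6 => hne ?_)
      simp [h5, h6]
    · exact Or.inl (hz e' x he' h5)

/-- The weighted data are continuous away from the origin. -/
theorem continuousOn_solDataW {p q w₁ w₂ : ℝ} {u v : EuclideanSpace ℝ (Fin n) → ℝ}
    (hu : ContDiffOn ℝ 2 u {0}ᶜ) (hv : ContDiffOn ℝ 2 v {0}ᶜ) (hu0 : ∀ x, 0 < u x)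
    (hv0 : ∀ x, 0 < v x) : ContinuousOn (solDataW p q w₁ w₂ u v) {0}ᶜ := by
  have hΩ : IsOpen ({0}ᶜ : Set (EuclideanSpace ℝ (Fin n))) := isOpen_compl_singleton
  have hL : ∀ {w : EuclideanSpace ℝ (Fin n) → ℝ}, ContDiffOn ℝ 2 w {0}ᶜ → (∀ y, 0 < w y) →
      ContinuousOn (logGrad w) {0}ᶜ ∧ ContinuousOn (logHess w) {0}ᶜ := by
    intro w hw hw0
    have h2 : ContDiffOn ℝ 2 (fun y => Real.log (w y)) {0}ᶜ := hw.log fun y _ => (hw0 y).ne'
    have h1 := h2.fderiv_of_isOpen hΩ (m := 1) (by norm_num)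
    exact ⟨continuousOn_pi.2 fun i => (h1.continuousOn.clm_apply continuousOn_const),
      continuousOn_pi.2 fun i => continuousOn_pi.2 fun j =>
        ((h1.continuousOn_fderiv_of_isOpen hΩ le_rfl).clm_apply
          continuousOn_const).clm_apply continuousOn_const⟩
  obtain ⟨au, hu2⟩ := hL hu hu0
  obtain ⟨av, hv2⟩ := hL hv hv0
  have cn : ∀ s : ℝ, ContinuousOn (fun x : EuclideanSpace ℝ (Fin n) => ‖x‖ ^ s) {0}ᶜ := fun s =>
    continuous_norm.continuousOn.rpow_const fun x hx => Or.inl (norm_ne_zero_iff.2 hx)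
  have cP : ContinuousOn (fun x => ‖x‖ ^ w₁ * v x ^ p / u x) {0}ᶜ :=
    ((cn w₁).mul (hv.continuousOn.rpow_const fun x _ => Or.inl (hv0 x).ne')).div
      hu.continuousOn fun x _ => (hu0 x).ne'
  have cQ : ContinuousOn (fun x => ‖x‖ ^ w₂ * u x ^ q / v x) {0}ᶜ :=
    ((cn w₂).mul (hu.continuousOn.rpow_const fun x _ => Or.inl (hu0 x).ne')).div
      hv.continuousOn fun x _ => (hv0 x).ne'
  exact au.prodMk (av.prodMk (cP.prodMk (cQ.prodMk (hu2.prodMk hv2))))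

/-- Size of the eighteen fields. -/
theorem abs_fields_le (c : Fin 14 → ℝ) (k : Fin 4 → ℝ) (a b z : Fin n → ℝ) (P Q : ℝ)
    (H K : Fin n → Fin n → ℝ) {ρ : ℝ} (hρ : 0 ≤ ρ) (i : Fin n) (hz : |z i| ≤ ρ) :
    |(∑ j, c j * fld a b P Q H K j i) + ∑ l, k l * fldX a b z P Q l i| ≤
      ((∑ j, |c j|) * (n + 1) + ∑ l, |k l|) *
        (nrm a b P Q H K ^ (3 / 4 : ℝ) + nrm a b P Q H K ^ (1 / 2 : ℝ) * ρ) := by
  have hN := nrm_nonneg a b P Q H K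
  have hN1 : 0 ≤ nrm a b P Q H K ^ (3 / 4 : ℝ) := Real.rpow_nonneg hN _
  have hN2 : 0 ≤ nrm a b P Q H K ^ (1 / 2 : ℝ) * ρ := mul_nonneg (Real.rpow_nonneg hN _) hρ
  have h4 : ∀ j, |c j * fld a b P Q H K j i| ≤
      |c j| * ((n + 1) * nrm a b P Q H K ^ (3 / 4 : ℝ)) := fun j => by
    rw [abs_mul]
    exact mul_le_mul_of_nonneg_left (abs_fld_le _ _ _ _ _ _ j i) (abs_nonneg _)
  have h5 : ∀ l, |k l * fldX a b z P Q l i| ≤
      |k l| * (nrm a b P Q H K ^ (1 / 2 : ℝ) * ρ) := fun l => by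
    rw [abs_mul]
    exact mul_le_mul_of_nonneg_left (abs_fldX_le a b z P Q H K i hz l) (abs_nonneg _)
  refine (abs_add_le _ _).trans ?_
  refine (add_le_add ((Finset.abs_sum_le_sum_abs _ _).trans (Finset.sum_le_sum fun j _ => h4 j))
    ((Finset.abs_sum_le_sum_abs _ _).trans (Finset.sum_le_sum fun l _ => h5 l))).trans ?_
  rw [← Finset.sum_mul, ← Finset.sum_mul]
  have hc0 : 0 ≤ ∑ j, |c j| := Finset.sum_nonneg fun j _ => abs_nonneg _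
  have hk0 : 0 ≤ ∑ l, |k l| := Finset.sum_nonneg fun l _ => abs_nonneg _
  nlinarith [mul_nonneg hk0 hN1, mul_nonneg (mul_nonneg hc0 hN2)
    (show (0 : ℝ) ≤ n + 1 by positivity)]

/-- The flux near the origin. -/
theorem flux_inner {w N η M t e' G δ : ℝ} {k : ℕ} (hw : 0 ≤ w) (hwM : w ≤ M) (hN : 0 ≤ N)
    (h0 : 0 ≤ η) (h1 : η ≤ 1) (he' : 0 < e') (het : e' ≤ t) (hG : 0 ≤ G) (hδ : 0 < δ)
    (hk : 5 ≤ k) :
    G * (w * (η ^ (k - 1) * (t⁻¹ * N ^ (3 / 4 : ℝ) + t⁻¹ ^ 2 * N ^ (1 / 2 : ℝ)))) ≤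
      2 * δ * (η ^ k * (w * N)) +
        (δ ^ (-3 : ℝ) * G ^ 4 + δ⁻¹ * G ^ 2) * M * e' ^ (-4 : ℝ) := by
  have ht : 0 < t := he'.trans_le het
  refine (flux_young hw hN h0 h1 hG (inv_nonneg.2 ht.le) hδ hk).trans (add_le_add le_rfl ?_)
  rw [mul_assoc _ M]
  refine mul_le_mul_of_nonneg_left ?_ (by positivity)
  refine (mul_le_of_le_one_left (by positivity) (pow_le_one₀ h0 h1)).trans ?_
  refine mul_le_mul hwM ?_ (by positivity) (hw.trans hwM)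
  rw [inv_pow, show t ^ 4 = t ^ ((4 : ℕ) : ℝ) from (Real.rpow_natCast t 4).symm,
    show ((4 : ℕ) : ℝ) = 4 by norm_num, ← Real.rpow_neg ht.le]
  exact Real.rpow_le_rpow_of_nonpos he' het (by norm_num)

/-- The flux at infinity. -/
theorem flux_outer {w N η t R r σ G δ δ' : ℝ} {k : ℕ} (hw : 0 < w) (hN : 0 ≤ N) (hr : 0 ≤ r)
    (hwN : w ≤ t ^ σ * N ^ r) (h0 : 0 ≤ η) (h1 : η ≤ 1) (hR : 0 < R) (hRt : R ≤ t)
    (htR : t ≤ 2 * R) (hG : 0 ≤ G) (hδ : 0 < δ) (hδ' : 0 < δ') (hk : 4 * (1 + r) ≤ k)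
    (hk5 : 5 ≤ k) :
    G * (w * (η ^ (k - 1) * (t⁻¹ * N ^ (3 / 4 : ℝ) + t⁻¹ ^ 2 * N ^ (1 / 2 : ℝ)))) ≤
      (2 * δ + (δ ^ (-3 : ℝ) * G ^ 4 + δ⁻¹ * G ^ 2) * δ') * (η ^ k * (w * N)) +
        (δ ^ (-3 : ℝ) * G ^ 4 + δ⁻¹ * G ^ 2) * δ' ^ (-r) * max 1 ((2 : ℝ) ^ σ) *
          R ^ (σ - 4 * (1 + r)) := by
  have ht : 0 < t := hR.trans_le hRt
  refine (flux_young hw.le hN h0 h1 hG (inv_nonneg.2 ht.le) hδ hk5).trans ?_
  have h9 := weight_young (w := w) (N := N) (η := η) (k := k) (g := t⁻¹ ^ 4) (δ := δ')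
    hw hN h0 h1 (Real.rpow_nonneg ht.le σ) hr hwN hk hk5 (by positivity) hδ'
  have h10 : (t⁻¹ ^ 4) ^ (1 + r) * t ^ σ ≤ max 1 ((2 : ℝ) ^ σ) * R ^ (σ - 4 * (1 + r)) := by
    have e4 : (t⁻¹ ^ 4) ^ (1 + r) = t ^ (-4 * (1 + r)) := by
      rw [Real.rpow_mul ht.le, inv_pow, Real.rpow_neg ht.le,
        show (4 : ℝ) = ((4 : ℕ) : ℝ) by norm_num, Real.rpow_natCast]
    have hσ' : t ^ σ ≤ max 1 ((2 : ℝ) ^ σ) * R ^ σ := by
      rcases le_or_gt 0 σ with hs | hs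
      · refine (Real.rpow_le_rpow ht.le htR hs).trans ?_
        rw [Real.mul_rpow (by norm_num) hR.le]
        exact mul_le_mul_of_nonneg_right (le_max_right _ _) (by positivity)
      · refine (Real.rpow_le_rpow_of_nonpos hR hRt hs.le).trans ?_
        exact le_mul_of_one_le_left (by positivity) (le_max_left _ _)
    rw [e4]
    calc t ^ (-4 * (1 + r)) * t ^ σ ≤ R ^ (-4 * (1 + r)) * (max 1 ((2 : ℝ) ^ σ) * R ^ σ) :=
          mul_le_mul (Real.rpow_le_rpow_of_nonpos hR hRt (by linarith)) hσ'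
            (by positivity) (by positivity)
      _ = _ := by
          rw [show σ - 4 * (1 + r) = -4 * (1 + r) + σ by ring, Real.rpow_add hR]; ring
  have hC : 0 ≤ δ ^ (-3 : ℝ) * G ^ 4 + δ⁻¹ * G ^ 2 := by positivity
  have h11 := mul_le_mul_of_nonneg_left
    (h9.trans (add_le_add le_rfl (mul_le_mul_of_nonneg_left h10 (by positivity)))) hC
  linarith

/-- The weighted quantity `|x| ^ g w N`. -/
noncomputable def solQuantG (p q w₁ w₂ g lam mu : ℝ) (u v : EuclideanSpace ℝ (Fin n) → ℝ)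
    (x : EuclideanSpace ℝ (Fin n)) : ℝ :=
  wgtG g lam mu u v x * nrmData (solDataW p q w₁ w₂ u v x)

theorem continuousOn_solQuantG {p q w₁ w₂ g lam mu : ℝ} {u v : EuclideanSpace ℝ (Fin n) → ℝ}
    (hu : ContDiffOn ℝ 2 u {0}ᶜ) (hv : ContDiffOn ℝ 2 v {0}ᶜ) (hu0 : ∀ x, 0 < u x)
    (hv0 : ∀ x, 0 < v x) : ContinuousOn (solQuantG p q w₁ w₂ g lam mu u v) {0}ᶜ :=
  ((continuous_norm.continuousOn.rpow_const fun x hx => Or.inl (norm_ne_zero_iff.2 hx)).mul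
    ((hu.continuousOn.rpow_const fun x _ => Or.inl (hu0 x).ne').mul
      (hv.continuousOn.rpow_const fun x _ => Or.inl (hv0 x).ne'))).mul
    (continuous_nrmData.comp_continuousOn (continuousOn_solDataW hu hv hu0 hv0))

theorem wgtG_nonneg {g lam mu : ℝ} {u v : EuclideanSpace ℝ (Fin n) → ℝ} (hu0 : ∀ x, 0 < u x)
    (hv0 : ∀ x, 0 < v x) (x : EuclideanSpace ℝ (Fin n)) : 0 ≤ wgtG g lam mu u v x :=
  mul_nonneg (Real.rpow_nonneg (norm_nonneg x) g)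
    (mul_nonneg (Real.rpow_pos_of_pos (hu0 x) _).le (Real.rpow_pos_of_pos (hv0 x) _).le)

theorem solQuantG_nonneg {p q w₁ w₂ g lam mu : ℝ} {u v : EuclideanSpace ℝ (Fin n) → ℝ}
    (hu0 : ∀ x, 0 < u x) (hv0 : ∀ x, 0 < v x) (x : EuclideanSpace ℝ (Fin n)) :
    0 ≤ solQuantG p q w₁ w₂ g lam mu u v x :=
  mul_nonneg (wgtG_nonneg hu0 hv0 x) (nrm_nonneg _ _ _ _ _ _)

/-- The certificate under the integral. -/
theorem cert_stepG {p q w₁ w₂ g r₁ r₂ ε : ℝ} {c : Fin 14 → ℝ} {k : Fin 4 → ℝ}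
    (hC : CertG n p q w₁ w₂ g r₁ r₂ c k ε) {u v φ : EuclideanSpace ℝ (Fin n) → ℝ}
    (hu : ContDiffOn ℝ 2 u {0}ᶜ) (hv : ContDiffOn ℝ 2 v {0}ᶜ) (hu0 : ∀ x, 0 < u x)
    (hv0 : ∀ x, 0 < v x) (equ : ∀ x, x ≠ 0 → Δ u x = -(‖x‖ ^ w₁ * v x ^ p))
    (eqv : ∀ x, x ≠ 0 → Δ v x = -(‖x‖ ^ w₂ * u x ^ q)) (hφ0 : ∀ x, 0 ≤ φ x)
    (hφs : tsupport φ ⊆ {0}ᶜ) (x : EuclideanSpace ℝ (Fin n)) :
    ε * (φ x * solQuantG p q w₁ w₂ g (-2 * r₁ + 2 * q * r₂) (2 * p * r₁ - 2 * r₂) u v x) ≤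
      φ x * (wgtG g (-2 * r₁ + 2 * q * r₂) (2 * p * r₁ - 2 * r₂) u v x *
        solRowG p q w₁ w₂ g (-2 * r₁ + 2 * q * r₂) (2 * p * r₁ - 2 * r₂) c k u v x) := by
  by_cases hx : x ∈ ({0}ᶜ : Set (EuclideanSpace ℝ (Fin n)))
  · have hΩ : IsOpen ({0}ᶜ : Set (EuclideanSpace ℝ (Fin n))) := isOpen_compl_singleton
    have hux := hu0 x
    have hvx := hv0 x
    have hx0 : 0 < ‖x‖ := norm_pos_iff.2 hx
    have sy : ∀ {w : EuclideanSpace ℝ (Fin n) → ℝ}, ContDiffOn ℝ 2 w {0}ᶜ → (∀ y, 0 < w y) →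
        ∀ i j, logHess w x i j = logHess w x j i := fun hw hw0 i j =>
      ((hw.log fun y _ => (hw0 y).ne').contDiffAt (hΩ.mem_nhds hx)).isSymmSndFDerivAt
        (by simp) _ _
    have tr : ∀ {w : EuclideanSpace ℝ (Fin n) → ℝ} (f : ℝ), ContDiffOn ℝ 2 w {0}ᶜ →
        (∀ y, 0 < w y) → Δ w x = -f →
        ∑ i, logHess w x i i = -(dotv (logGrad w x) (logGrad w x) + f / w x) := by
      intro w f hw hw0 he
      refine (sum_log_second hΩ hw (fun y _ => hw0 y) hx).trans ?_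
      rw [he, dotv]
      ring
    have hb := hC.bound (logGrad u x) (logGrad v x) (zVec x) (‖x‖ ^ w₁ * v x ^ p / u x)
      (‖x‖ ^ w₂ * u x ^ q / v x) (logHess u x) (logHess v x) (sy hu hu0) (sy hv hv0)
      (tr _ hu hu0 (equ x hx)) (tr _ hv hv0 (eqv x hx)) (by positivity) (by positivity)
    have h0 := mul_nonneg (hφ0 x) (wgtG_nonneg (g := g) (lam := -2 * r₁ + 2 * q * r₂)
      (mu := 2 * p * r₁ - 2 * r₂) hu0 hv0 x)
    refine le_trans (le_of_eq ?_) (le_trans (mul_le_mul_of_nonneg_left hb h0) (le_of_eq ?_))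
    · simp only [solQuantG, solDataW, nrmData]; ring
    · simp only [solRowG]; ring
  · simp [image_eq_zero_of_notMem_tsupport fun h => hx (hφs h)]

/-- The flux, pointwise. -/
theorem flux_stepG {p q w₁ w₂ g r₁ r₂ ε : ℝ} {c : Fin 14 → ℝ} {k : Fin 4 → ℝ}
    (hε : 0 < ε) (h1 : 0 ≤ r₁) (h2 : 0 ≤ r₂) (hg : 0 ≤ g)
    {u v η : EuclideanSpace ℝ (Fin n) → ℝ} (hu0 : ∀ x, 0 < u x) (hv0 : ∀ x, 0 < v x)
    (hη : ContDiff ℝ 1 η) {L M G Cy δ' R e' : ℝ} {m : ℕ} (hm5 : 5 ≤ m)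
    (hmr : 4 * (1 + (r₁ + r₂)) ≤ m) (hL0 : 0 ≤ L)
    (hM : ∀ x, ‖x‖ ≤ 1 → u x ^ (-2 * r₁ + 2 * q * r₂) * v x ^ (2 * p * r₁ - 2 * r₂) ≤ M)
    (hG : G = (m : ℝ) * (n * L) * ((∑ j, |c j|) * (n + 1) + ∑ l, |k l|))
    (hCy : Cy = (ε / 8) ^ (-3 : ℝ) * G ^ 4 + (ε / 8)⁻¹ * G ^ 2)
    (hδ'0 : 0 < δ') (hδC : Cy * δ' ≤ ε / 4) (hR0 : 0 < R) (he' : 0 < e') (he'2 : e' ≤ 1 / 2)
    (hηI : ∀ x, η x ∈ Icc (0 : ℝ) 1) (hDη : ∀ x, ‖fderiv ℝ η x‖ ≤ L * ‖x‖⁻¹)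
    (hDsupp : ∀ x, fderiv ℝ η x ≠ 0 → ‖x‖ ∈ Icc e' (2 * e') ∨ ‖x‖ ∈ Icc R (2 * R))
    (hηΩ : tsupport η ⊆ {0}ᶜ) (x : EuclideanSpace ℝ (Fin n)) :
    ‖wgtG g (-2 * r₁ + 2 * q * r₂) (2 * p * r₁ - 2 * r₂) u v x *
        ∑ i, fderiv ℝ (fun y => η y ^ m) x (eStd i) * solFluxW p q w₁ w₂ c k u v x i‖ ≤
      3 * ε / 4 * (η x ^ m *
          solQuantG p q w₁ w₂ g (-2 * r₁ + 2 * q * r₂) (2 * p * r₁ - 2 * r₂) u v x) +
        ((closedBall (0 : EuclideanSpace ℝ (Fin n)) (2 * e')).indicator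
          (fun _ => Cy * M * e' ^ (-4 : ℝ)) x +
         (closedBall (0 : EuclideanSpace ℝ (Fin n)) (2 * R)).indicator
          (fun _ => Cy * δ' ^ (-(r₁ + r₂)) * max 1 ((2 : ℝ) ^ (g - 2 * (w₁ * r₁ + w₂ * r₂))) *
            R ^ (g - 2 * (w₁ * r₁ + w₂ * r₂) - 4 * (1 + (r₁ + r₂)))) x) := by
  have hG0 : 0 ≤ G := by rw [hG]; positivity
  have hCy0 : 0 ≤ Cy := by rw [hCy]; positivity
  have hM0 : 0 ≤ M := by
    have := hu0 0; have := hv0 0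
    exact le_trans (by positivity) (hM 0 (by simp))
  have i1 : (0 : ℝ) ≤ (closedBall (0 : EuclideanSpace ℝ (Fin n)) (2 * e')).indicator
    (fun _ => Cy * M * e' ^ (-4 : ℝ)) x := indicator_nonneg (fun _ _ => by positivity) _
  have i2 : (0 : ℝ) ≤ (closedBall (0 : EuclideanSpace ℝ (Fin n)) (2 * R)).indicator
      (fun _ => Cy * δ' ^ (-(r₁ + r₂)) * max 1 ((2 : ℝ) ^ (g - 2 * (w₁ * r₁ + w₂ * r₂))) *
        R ^ (g - 2 * (w₁ * r₁ + w₂ * r₂) - 4 * (1 + (r₁ + r₂)))) x :=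
    indicator_nonneg (fun _ _ => by positivity) _
  obtain ⟨hη0, hη01⟩ := hηI x
  have hX : 0 ≤ 3 * ε / 4 * (η x ^ m *
      solQuantG p q w₁ w₂ g (-2 * r₁ + 2 * q * r₂) (2 * p * r₁ - 2 * r₂) u v x) :=
    mul_nonneg (by positivity) (mul_nonneg (pow_nonneg hη0 m) (solQuantG_nonneg hu0 hv0 x))
  by_cases hne : fderiv ℝ η x = 0
  · have h3 : fderiv ℝ (fun y => η y ^ m) x = 0 := by
      rw [((hη.differentiable one_ne_zero x).hasFDerivAt.pow m).fderiv, hne, smul_zero]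
    simp only [h3, zero_apply, zero_mul, Finset.sum_const_zero, mul_zero, norm_zero]
    linarith
  have hxΩ : x ∈ ({0}ᶜ : Set (EuclideanSpace ℝ (Fin n))) := hηΩ (support_fderiv_subset ℝ hne)
  have hx0 : 0 < ‖x‖ := norm_pos_iff.2 hxΩ
  set wt : ℝ := wgtG g (-2 * r₁ + 2 * q * r₂) (2 * p * r₁ - 2 * r₂) u v x with hwt
  have hwt0 : 0 < wt := by
    have := hu0 x; have := hv0 x
    rw [hwt, wgtG]; positivity
  set N : ℝ := nrm (logGrad u x) (logGrad v x) (‖x‖ ^ w₁ * v x ^ p / u x)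
    (‖x‖ ^ w₂ * u x ^ q / v x) (logHess u x) (logHess v x) with hN
  have hN0 : 0 ≤ N := nrm_nonneg _ _ _ _ _ _
  have hgx : solQuantG p q w₁ w₂ g (-2 * r₁ + 2 * q * r₂) (2 * p * r₁ - 2 * r₂) u v x = wt * N :=
    rfl
  have hdφ : ∀ i, |fderiv ℝ (fun y => η y ^ m) x (eStd i)| ≤
      m * η x ^ (m - 1) * (L * ‖x‖⁻¹) := by
    intro i
    rw [((hη.differentiable one_ne_zero x).hasFDerivAt.pow m).fderiv]
    have h3 : |fderiv ℝ η x (eStd i)| ≤ L * ‖x‖⁻¹ := by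
      refine ((fderiv ℝ η x).le_opNorm (eStd i)).trans ?_
      rw [show ‖eStd i‖ = 1 by simp [eStd], mul_one]
      exact hDη x
    simpa [abs_mul, abs_of_nonneg hη0] using
      mul_le_mul_of_nonneg_left h3 (show 0 ≤ (m : ℝ) * η x ^ (m - 1) by positivity)
  have hflux : ‖wt * ∑ i, fderiv ℝ (fun y => η y ^ m) x (eStd i) *
      solFluxW p q w₁ w₂ c k u v x i‖ ≤
      G * (wt * (η x ^ (m - 1) *
        (‖x‖⁻¹ * N ^ (3 / 4 : ℝ) + ‖x‖⁻¹ ^ 2 * N ^ (1 / 2 : ℝ)))) := by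
    rw [Real.norm_eq_abs, abs_mul, abs_of_pos hwt0]
    refine le_trans (mul_le_mul_of_nonneg_left ((Finset.abs_sum_le_sum_abs _ _).trans
      (Finset.sum_le_sum (g := fun _ => m * η x ^ (m - 1) * (L * ‖x‖⁻¹) *
        (((∑ j, |c j|) * (n + 1) + ∑ l, |k l|) *
          (N ^ (3 / 4 : ℝ) + N ^ (1 / 2 : ℝ) * ‖x‖⁻¹))) fun i _ => ?_)) hwt0.le) ?_
    · rw [abs_mul]
      exact mul_le_mul (hdφ i) (abs_fields_le c k _ _ _ _ _ _ _ (inv_nonneg.2 hx0.le) i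
        (abs_zVec_le x i)) (abs_nonneg _) (by positivity)
    · refine le_of_eq ?_
      rw [Finset.sum_const, Finset.card_univ, Fintype.card_fin, nsmul_eq_mul, hG]
      ring
  refine hflux.trans ?_
  rw [hgx]
  have hX' : 0 ≤ η x ^ m * (wt * N) := by positivity
  rcases hDsupp x hne with hcase | hcase
  · have hx1 : ‖x‖ ≤ 1 := by linarith [hcase.2]
    have hwM : wt ≤ M := by
      refine le_trans ?_ (hM x hx1)
      rw [hwt, wgtG]
      refine mul_le_of_le_one_left ?_ (Real.rpow_le_one hx0.le hx1 hg)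
      have := hu0 x; have := hv0 x
      positivity
    refine (flux_inner hwt0.le hwM hN0 hη0 hη01 he' hcase.1 hG0
      (show (0 : ℝ) < ε / 8 by positivity) hm5).trans ?_
    rw [indicator_of_mem (s := closedBall (0 : EuclideanSpace ℝ (Fin n)) (2 * e'))
      (mem_closedBall_zero_iff.2 hcase.2), ← hCy]
    linarith [mul_nonneg hε.le hX']
  · have hwN : wt ≤ ‖x‖ ^ (g - 2 * (w₁ * r₁ + w₂ * r₂)) * N ^ (r₁ + r₂) := by
      obtain ⟨-, -, hP2, hQ2, -, -⟩ := sq_dotv_le_nrm (logGrad u x) (logGrad v x)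
        (‖x‖ ^ w₁ * v x ^ p / u x) (‖x‖ ^ w₂ * u x ^ q / v x) (logHess u x) (logHess v x)
      rw [← hN] at hP2 hQ2
      rw [hwt, wgtG]
      refine (mul_le_mul_of_nonneg_left (weightW_le (p := p) (q := q) h1 h2 (hu0 x) (hv0 x)
        (Real.rpow_pos_of_pos hx0 w₁) (Real.rpow_pos_of_pos hx0 w₂) hP2 hQ2)
        (Real.rpow_nonneg hx0.le g)).trans_eq ?_
      rw [← Real.rpow_mul hx0.le, ← Real.rpow_mul hx0.le, ← mul_assoc, ← mul_assoc,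
        ← Real.rpow_add hx0, ← Real.rpow_add hx0]
      ring_nf
    refine (flux_outer hwt0 hN0 (add_nonneg h1 h2) hwN hη0 hη01 hR0 hcase.1 hcase.2 hG0
      (show (0 : ℝ) < ε / 8 by positivity) hδ'0 hmr hm5).trans ?_
    rw [indicator_of_mem (s := closedBall (0 : EuclideanSpace ℝ (Fin n)) (2 * R))
      (mem_closedBall_zero_iff.2 hcase.2), ← hCy]
    linarith [mul_le_mul_of_nonneg_right hδC hX', mul_nonneg hε.le hX']

/-- **Two-sided energy bound.** -/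
theorem energyG {p q w₁ w₂ g r₁ r₂ ε : ℝ} {c : Fin 14 → ℝ}
    {k : Fin 4 → ℝ} (hC : CertG n p q w₁ w₂ g r₁ r₂ c k ε)
    {u v : EuclideanSpace ℝ (Fin n) → ℝ} (hcu : Continuous u) (hcv : Continuous v)
    (hu : ContDiffOn ℝ 2 u {0}ᶜ) (hv : ContDiffOn ℝ 2 v {0}ᶜ) (hu0 : ∀ x, 0 < u x)
    (hv0 : ∀ x, 0 < v x) (equ : ∀ x, x ≠ 0 → Δ u x = -(‖x‖ ^ w₁ * v x ^ p))
    (eqv : ∀ x, x ≠ 0 → Δ v x = -(‖x‖ ^ w₂ * u x ^ q))
    (hid : IdentG p q w₁ w₂ g (-2 * r₁ + 2 * q * r₂) (2 * p * r₁ - 2 * r₂) c k u v) :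
    ∃ C₁ C₂ : ℝ, ∀ R e' : ℝ, 2 ≤ R → 0 < e' → e' ≤ 1 / 2 →
      ∫ x in closedBall (0 : EuclideanSpace ℝ (Fin n)) 2 \ ball 0 1,
        solQuantG p q w₁ w₂ g (-2 * r₁ + 2 * q * r₂) (2 * p * r₁ - 2 * r₂) u v x ≤
      C₁ * e' ^ ((n : ℝ) - 4) +
        C₂ * R ^ ((n : ℝ) + g - 4 * (1 + r₁ + r₂) - 2 * (w₁ * r₁ + w₂ * r₂)) := by
  have h1 := hC.r₁_nonneg
  have h2 := hC.r₂_nonneg
  have hε := hC.eps_pos
  obtain ⟨m, hm5, hmr⟩ : ∃ m : ℕ, 5 ≤ m ∧ 4 * (1 + (r₁ + r₂)) ≤ m :=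
    ⟨max 5 ⌈4 * (1 + (r₁ + r₂))⌉₊, le_max_left _ _,
      (Nat.le_ceil _).trans (Nat.cast_le.2 (le_max_right _ _))⟩
  obtain ⟨L, hL0, hcut⟩ := exists_cutoffs (n := n)
  obtain ⟨M, hM⟩ := (isCompact_closedBall (0 : EuclideanSpace ℝ (Fin n)) 1).exists_bound_of_continuousOn
    ((hcu.rpow_const fun x => Or.inl (hu0 x).ne').mul
      (hcv.rpow_const fun x => Or.inl (hv0 x).ne') :
      Continuous fun x => u x ^ (-2 * r₁ + 2 * q * r₂) * v x ^ (2 * p * r₁ - 2 * r₂)).continuousOn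
  set G : ℝ := (m : ℝ) * (n * L) * ((∑ j, |c j|) * (n + 1) + ∑ l, |k l|) with hG
  have hG0 : 0 ≤ G := by positivity
  set Cy : ℝ := (ε / 8) ^ (-3 : ℝ) * G ^ 4 + (ε / 8)⁻¹ * G ^ 2 with hCy
  have hCy0 : 0 ≤ Cy := by positivity
  set δ' : ℝ := ε / (4 * (Cy + 1)) with hδ'
  have hδ'0 : 0 < δ' := by positivity
  have hδC : Cy * δ' ≤ ε / 4 := by
    rw [hδ', mul_div_assoc', div_le_div_iff₀ (by positivity) (by norm_num)]
    nlinarith
  set V1 : ℝ := volume.real (closedBall (0 : EuclideanSpace ℝ (Fin n)) 1) with hV1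
  refine ⟨4 / ε * (Cy * M * 2 ^ n * V1), 4 / ε * (Cy * δ' ^ (-(r₁ + r₂)) *
    max 1 ((2 : ℝ) ^ (g - 2 * (w₁ * r₁ + w₂ * r₂))) * 2 ^ n * V1), fun R e' hR he' he'2 => ?_⟩
  obtain ⟨η, hη, hηc, hηsupp, hηI, hη1, hDη, hDsupp⟩ := hcut R e' hR he' he'2
  have hR0 : 0 < R := by linarith
  have hΩ : IsOpen ({0}ᶜ : Set (EuclideanSpace ℝ (Fin n))) := isOpen_compl_singleton
  have hηΩ : tsupport η ⊆ {0}ᶜ := hηsupp.trans fun x hx h0 => hx.2 (by
    rw [mem_singleton_iff.1 h0]; exact mem_ball_self he')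
  set φ : EuclideanSpace ℝ (Fin n) → ℝ := fun x => η x ^ m with hφdef
  have hφ : ContDiff ℝ 1 φ := hη.pow m
  have hφs : tsupport φ ⊆ tsupport η := by
    refine closure_mono fun x hx => ?_
    simp only [Function.mem_support, φ] at hx ⊢
    exact fun h => hx (by rw [h, zero_pow (by omega)])
  have hφc : HasCompactSupport φ := hηc.mono' fun x hx => hφs (subset_tsupport φ hx)
  obtain ⟨hint, hidn⟩ := hid φ hφ hφc (hφs.trans hηΩ)
  set F := solQuantG p q w₁ w₂ g (-2 * r₁ + 2 * q * r₂) (2 * p * r₁ - 2 * r₂) u v with hF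
  have cg : ContinuousOn F {0}ᶜ := continuousOn_solQuantG hu hv hu0 hv0
  have hφ0 : ∀ x, 0 ≤ φ x := fun x => pow_nonneg (hηI x).1 m
  have iwN : Integrable (fun x => φ x * F x) :=
    integrable_test_mul hΩ hφ.continuous hφc (hφs.trans hηΩ) cg
  have step1 : ε * ∫ x, φ x * F x ≤ ∫ x, φ x *
      (wgtG g (-2 * r₁ + 2 * q * r₂) (2 * p * r₁ - 2 * r₂) u v x *
        solRowG p q w₁ w₂ g (-2 * r₁ + 2 * q * r₂) (2 * p * r₁ - 2 * r₂) c k u v x) := by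
    rw [← integral_const_mul]
    exact integral_mono (iwN.const_mul ε) hint
      (cert_stepG hC hu hv hu0 hv0 equ eqv hφ0 (hφs.trans hηΩ))
  set a1 : ℝ := Cy * M * e' ^ (-4 : ℝ) with ha1
  set a2 : ℝ := Cy * δ' ^ (-(r₁ + r₂)) * max 1 ((2 : ℝ) ^ (g - 2 * (w₁ * r₁ + w₂ * r₂))) *
    R ^ (g - 2 * (w₁ * r₁ + w₂ * r₂) - 4 * (1 + (r₁ + r₂))) with ha2
  obtain ⟨iB1, vB1⟩ := integral_indicator_const_closedBall (n := n) (show 0 ≤ 2 * e' by linarith) a1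
  obtain ⟨iB2, vB2⟩ := integral_indicator_const_closedBall (n := n) (show 0 ≤ 2 * R by linarith) a2
  have iRhs : Integrable (fun x => 3 * ε / 4 * (φ x * F x) +
      ((closedBall (0 : EuclideanSpace ℝ (Fin n)) (2 * e')).indicator (fun _ => a1) x +
       (closedBall (0 : EuclideanSpace ℝ (Fin n)) (2 * R)).indicator (fun _ => a2) x)) :=
    (iwN.const_mul _).fun_add (iB1.fun_add iB2)
  have step3 := (neg_le_abs _).trans (le_of_eq_of_le (Real.norm_eq_abs _).symm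
    (norm_integral_le_of_norm_le (μ := volume) iRhs (Eventually.of_forall
      (flux_stepG (p := p) (q := q) (w₁ := w₁) (w₂ := w₂) (g := g) (c := c) (k := k) hε h1 h2
        hC.g_nonneg hu0 hv0 hη hm5 hmr hL0
        (fun x hx => (le_abs_self _).trans (hM x (mem_closedBall_zero_iff.2 hx))) hG hCy hδ'0 hδC
        hR0 he' he'2 hηI hDη hDsupp hηΩ))))
  rw [← hidn, integral_add (iwN.const_mul _) (iB1.fun_add iB2), integral_add iB1 iB2, vB1, vB2,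
    integral_const_mul] at step3
  have hlow : ∫ x in closedBall (0 : EuclideanSpace ℝ (Fin n)) 2 \ ball 0 1, F x ≤
      ∫ x, φ x * F x := by
    have hA0m : MeasurableSet (closedBall (0 : EuclideanSpace ℝ (Fin n)) 2 \ ball 0 1) :=
      measurableSet_closedBall.diff measurableSet_ball
    have hA0s : closedBall (0 : EuclideanSpace ℝ (Fin n)) 2 \ ball 0 1 ⊆ {0}ᶜ := fun x hx h0 =>
      hx.2 (by rw [mem_singleton_iff.1 h0]; exact mem_ball_self one_pos)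
    rw [← integral_indicator hA0m]
    refine integral_mono ((integrable_indicator_iff hA0m).2 ((cg.mono hA0s).integrableOn_compact
      ((isCompact_closedBall 0 2).diff isOpen_ball))) iwN fun x => ?_
    refine indicator_apply_le' (fun hx => ?_) fun _ =>
      mul_nonneg (hφ0 x) (solQuantG_nonneg hu0 hv0 x)
    have hx1 := mem_closedBall_zero_iff.1 hx.1
    have hx2 : 1 ≤ ‖x‖ := not_lt.1 fun h => hx.2 (mem_ball_zero_iff.2 h)
    simp [φ, hη1 x hx2 hx1]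
  have e1 : (2 * e') ^ n * V1 * a1 = Cy * M * 2 ^ n * V1 * e' ^ ((n : ℝ) - 4) := by
    rw [ha1, Real.rpow_sub he', mul_pow, Real.rpow_natCast, Real.rpow_neg he'.le]
    field_simp
  have e2 : (2 * R) ^ n * V1 * a2 = Cy * δ' ^ (-(r₁ + r₂)) *
      max 1 ((2 : ℝ) ^ (g - 2 * (w₁ * r₁ + w₂ * r₂))) * 2 ^ n * V1 *
      R ^ ((n : ℝ) + g - 4 * (1 + r₁ + r₂) - 2 * (w₁ * r₁ + w₂ * r₂)) := by
    rw [ha2, show (n : ℝ) + g - 4 * (1 + r₁ + r₂) - 2 * (w₁ * r₁ + w₂ * r₂) =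
      (n : ℝ) + (g - 2 * (w₁ * r₁ + w₂ * r₂) - 4 * (1 + (r₁ + r₂))) by ring,
      Real.rpow_add hR0, mul_pow, Real.rpow_natCast]
    ring
  rw [← hV1, e1, e2] at step3
  refine le_of_mul_le_mul_left ?_ (show (0 : ℝ) < ε / 4 by positivity)
  have h5 := mul_le_mul_of_nonneg_left hlow (show (0 : ℝ) ≤ ε / 4 by positivity)
  calc ε / 4 * _ ≤ ε / 4 * ∫ x, φ x * F x := h5
    _ ≤ Cy * M * 2 ^ n * V1 * e' ^ ((n : ℝ) - 4) + Cy * δ' ^ (-(r₁ + r₂)) *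
        max 1 ((2 : ℝ) ^ (g - 2 * (w₁ * r₁ + w₂ * r₂))) * 2 ^ n * V1 *
        R ^ ((n : ℝ) + g - 4 * (1 + r₁ + r₂) - 2 * (w₁ * r₁ + w₂ * r₂)) := by linarith
    _ = _ := by field_simp

/-- **A certificate with radial factor rules out solutions**, given the integral identity. -/
theorem no_solution_of_certG_ident (hn : 5 ≤ n) {p q w₁ w₂ g r₁ r₂ ε : ℝ} {c : Fin 14 → ℝ}
    {k : Fin 4 → ℝ} (hC : CertG n p q w₁ w₂ g r₁ r₂ c k ε)
    (hexp : (n : ℝ) + g - 4 * (1 + r₁ + r₂) - 2 * (w₁ * r₁ + w₂ * r₂) < 0)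
    {u v : EuclideanSpace ℝ (Fin n) → ℝ} (hcu : Continuous u) (hcv : Continuous v)
    (hu : ContDiffOn ℝ 2 u {0}ᶜ) (hv : ContDiffOn ℝ 2 v {0}ᶜ) (hu0 : ∀ x, 0 < u x)
    (hv0 : ∀ x, 0 < v x) (equ : ∀ x, x ≠ 0 → Δ u x = -(‖x‖ ^ w₁ * v x ^ p))
    (eqv : ∀ x, x ≠ 0 → Δ v x = -(‖x‖ ^ w₂ * u x ^ q))
    (hid : IdentG p q w₁ w₂ g (-2 * r₁ + 2 * q * r₂) (2 * p * r₁ - 2 * r₂) c k u v) : False := by
  obtain ⟨C₁, C₂, main⟩ := energyG hC hcu hcv hu hv hu0 hv0 equ eqv hid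
  set F := solQuantG p q w₁ w₂ g (-2 * r₁ + 2 * q * r₂) (2 * p * r₁ - 2 * r₂) u v with hF
  set A0 : Set (EuclideanSpace ℝ (Fin n)) := closedBall 0 2 \ ball 0 1 with hA0
  have hA0m : MeasurableSet A0 := measurableSet_closedBall.diff measurableSet_ball
  have hA0s : A0 ⊆ {0}ᶜ := fun x hx h0 =>
    hx.2 (by rw [mem_singleton_iff.1 h0]; exact mem_ball_self one_pos)
  have cg : ContinuousOn F {0}ᶜ := continuousOn_solQuantG hu hv hu0 hv0
  have hgpos : ∀ x ∈ A0, 0 < F x := fun x hx => by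
    have hx0 : 0 < ‖x‖ := norm_pos_iff.2 (hA0s hx)
    have := hu0 x; have := hv0 x
    rw [hF, solQuantG]
    refine mul_pos (by unfold wgtG; positivity)
      (lt_of_lt_of_le ?_ (sq_dotv_le_nrm _ _ _ _ _ _).2.2.1)
    have h : 0 < ‖x‖ ^ w₁ * v x ^ p / u x := by positivity
    exact pow_pos h 2
  have hI0pos : 0 < ∫ x in A0, F x := by
    refine (setIntegral_pos_iff_support_of_nonneg_ae ?_ ((cg.mono hA0s).integrableOn_compact
      ((isCompact_closedBall 0 2).diff isOpen_ball))).2 ?_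
    · filter_upwards [ae_restrict_mem hA0m] with x hx using (hgpos x hx).le
    · have hsub : ball (0 : EuclideanSpace ℝ (Fin n)) 2 \ closedBall 0 1 ⊆
          Function.support F ∩ A0 := fun x hx => by
        have hxA : x ∈ A0 :=
          ⟨ball_subset_closedBall hx.1, fun h => hx.2 (ball_subset_closedBall h)⟩
        exact ⟨(hgpos x hxA).ne', hxA⟩
      refine lt_of_lt_of_le ?_ (measure_mono hsub)
      refine (isOpen_ball.sdiff isClosed_closedBall).measure_pos volume ?_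
      refine ⟨EuclideanSpace.single (⟨0, by omega⟩ : Fin n) (3 / 2 : ℝ), ?_⟩
      simp
      norm_num
  have hn5 : (5 : ℝ) ≤ (n : ℝ) := by exact_mod_cast hn
  set e : ℝ := (n : ℝ) + g - 4 * (1 + r₁ + r₂) - 2 * (w₁ * r₁ + w₂ * r₂) with he
  have lim1 : Tendsto (fun e' : ℝ => C₁ * e' ^ ((n : ℝ) - 4)) (𝓝[>] 0) (𝓝 0) := by
    have h := ((Real.continuous_rpow_const
      (show (0 : ℝ) ≤ (n : ℝ) - 4 by linarith)).tendsto 0).const_mul C₁
    rw [Real.zero_rpow (by linarith), mul_zero] at h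
    exact h.mono_left nhdsWithin_le_nhds
  have main2 : ∀ R : ℝ, 2 ≤ R → ∫ x in A0, F x ≤ C₂ * R ^ e := by
    intro R hR
    refine ge_of_tendsto (by simpa using lim1.add_const (C₂ * R ^ e)) ?_
    filter_upwards [Ioo_mem_nhdsGT (show (0 : ℝ) < 1 / 2 by norm_num)] with e' he'
    exact main R e' hR he'.1 he'.2.le
  have lim2 : Tendsto (fun R : ℝ => C₂ * R ^ e) atTop (𝓝 0) := by
    simpa using (tendsto_rpow_neg_atTop (neg_pos.2 hexp)).const_mul C₂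
  exact hI0pos.not_ge (ge_of_tendsto lim2 (by
    filter_upwards [eventually_ge_atTop (2 : ℝ)] with R hR using main2 R hR))

end Vale.Agent.P100
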