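import Mathlib
import Vale.Agent.P100.WeightEnergy
import Vale.Agent.P100.RowW
import Vale.Agent.P100.ReducedCertW

/-!
# The weighted criterion

An algebraic certificate rules out positive solutions of the Hénon–Lane–Emden system, in the
problem's notion of a solution, in dimensions `n ≥ 5`.
-/

open MeasureTheory Set Laplacian

namespace Vale.Agent.P100

variable {n : ℕ}

theorem continuous_fldX_data (l : Fin 4) (i : Fin n) :
    Continuous fun d : Data n × (Fin n → ℝ) =>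
      fldX d.1.1 d.1.2.1 d.2 d.1.2.2.1 d.1.2.2.2.1 l i := by
  fin_cases l <;> simp [fldX, dotv, Data] <;> fun_prop

theorem continuous_fluxW (c : Fin 14 → ℝ) (k : Fin 4 → ℝ) (i : Fin n) :
    Continuous fun d : Data n × (Fin n → ℝ) => fluxW c k d.1.1 d.1.2.1 d.2 d.1.2.2.1 d.1.2.2.2.1
      d.1.2.2.2.2.1 d.1.2.2.2.2.2 i := by
  have h1 : ∀ j : Fin 14, Continuous fun d : Data n × (Fin n → ℝ) => fld d.1.1 d.1.2.1 d.1.2.2.1
      d.1.2.2.2.1 d.1.2.2.2.2.1 d.1.2.2.2.2.2 j i := fun j =>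
    (continuous_fld j i).comp continuous_fst
  unfold fluxW
  exact (continuous_finset_sum _ fun j _ => continuous_const.mul (h1 j)).add
    (continuous_finset_sum _ fun l _ => continuous_const.mul (continuous_fldX_data l i))

theorem continuousOn_solFluxW {p q w₁ w₂ : ℝ} (c : Fin 14 → ℝ) (k : Fin 4 → ℝ)
    {u v : EuclideanSpace ℝ (Fin n) → ℝ} (hu : ContDiffOn ℝ 2 u {0}ᶜ)
    (hv : ContDiffOn ℝ 2 v {0}ᶜ) (hu0 : ∀ x, 0 < u x) (hv0 : ∀ x, 0 < v x) (i : Fin n) :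
    ContinuousOn (fun x => solFluxW p q w₁ w₂ c k u v x i) {0}ᶜ := by
  have cz : ContinuousOn (zVec (n := n)) {0}ᶜ := continuousOn_pi.2 fun i =>
    (EuclideanSpace.proj (𝕜 := ℝ) i).continuous.continuousOn.div
      (continuous_norm.pow 2).continuousOn fun x hx => pow_ne_zero _ (norm_ne_zero_iff.2 hx)
  have cD : ContinuousOn (solDataW p q w₁ w₂ u v) {0}ᶜ := continuousOn_solDataW hu hv hu0 hv0
  have cc := (continuous_fluxW c k i).comp_continuousOn (cD.prodMk cz)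
  simp only [Function.comp_def, solDataW] at cc
  exact cc

/-- The radial factor `|x| ^ g` near a point off the origin. -/
theorem radial_fderiv (g : ℝ) {x : EuclideanSpace ℝ (Fin n)} (hx : x ≠ 0) (i : Fin n) :
    fderiv ℝ (fun y => Real.exp (g * logNormX y)) x (eStd i) = g * zVec x i * ‖x‖ ^ g ∧
      Real.exp (g * logNormX x) = ‖x‖ ^ g := by
  have he : Real.exp (g * logNormX x) = ‖x‖ ^ g := by
    rw [Real.rpow_def_of_pos (norm_pos_iff.2 hx), logNormX, Real.log_pow]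
    push_cast; ring_nf
  refine ⟨?_, he⟩
  rw [((((contDiffAt_logNormX (k := 1) hx).differentiableAt one_ne_zero).hasFDerivAt.const_mul
    g).exp).fderiv, ← he]
  simp [fderiv_logNormX hx i, zVec]
  ring

/-- Adding the radial factor to an integral identity `∫ φ W T = - ∫ W ∇φ·F`. -/
theorem identity_radial {g : ℝ} {φ W T : EuclideanSpace ℝ (Fin n) → ℝ}
    {F : EuclideanSpace ℝ (Fin n) → Fin n → ℝ} (hφ : ContDiff ℝ 1 φ) (hφc : HasCompactSupport φ)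
    (hsub : tsupport φ ⊆ {0}ᶜ) (cW : ContinuousOn W {0}ᶜ)
    (cF : ∀ i, ContinuousOn (fun x => F x i) {0}ᶜ)
    (hrow : ∀ ψ : EuclideanSpace ℝ (Fin n) → ℝ, ContDiff ℝ 1 ψ → HasCompactSupport ψ →
      tsupport ψ ⊆ {0}ᶜ → Integrable (fun x => ψ x * (W x * T x)) ∧
        ∫ x, ψ x * (W x * T x) = -∫ x, W x * ∑ i, fderiv ℝ ψ x (eStd i) * F x i) :
    Integrable (fun x => φ x * (‖x‖ ^ g * W x * (T x + g * dotv (zVec x) (F x)))) ∧
      ∫ x, φ x * (‖x‖ ^ g * W x * (T x + g * dotv (zVec x) (F x))) =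
        -∫ x, ‖x‖ ^ g * W x * ∑ i, fderiv ℝ φ x (eStd i) * F x i := by
  have hΩ : IsOpen ({0}ᶜ : Set (EuclideanSpace ℝ (Fin n))) := isOpen_compl_singleton
  set f : EuclideanSpace ℝ (Fin n) → ℝ := fun x => Real.exp (g * logNormX x) with hf
  have hf1 : ContDiffOn ℝ 1 f {0}ᶜ := fun x hx =>
    ((contDiffAt_const.mul (contDiffAt_logNormX hx)).exp).contDiffWithinAt
  obtain ⟨hint, hid⟩ := hrow _ (contDiff_test_mul hΩ hφ hsub hf1) hφc.mul_right
    (tsupport_mul_subset_left.trans hsub)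
  have cz : ∀ i, ContinuousOn (fun x : EuclideanSpace ℝ (Fin n) => zVec x i) {0}ᶜ := fun i =>
    (EuclideanSpace.proj (𝕜 := ℝ) i).continuous.continuousOn.div
      (continuous_norm.pow 2).continuousOn fun x hx => pow_ne_zero _ (norm_ne_zero_iff.2 hx)
  have cn : ContinuousOn (fun x : EuclideanSpace ℝ (Fin n) => ‖x‖ ^ g) {0}ᶜ :=
    continuous_norm.continuousOn.rpow_const fun x hx => Or.inl (norm_ne_zero_iff.2 hx)
  have cdot : ContinuousOn (fun x => dotv (zVec x) (F x)) {0}ᶜ :=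
    continuousOn_finsetSum _ fun i _ => (cz i).mul (cF i)
  have i2 : Integrable (fun x => φ x * (g * (‖x‖ ^ g * (W x * dotv (zVec x) (F x))))) :=
    integrable_test_mul hΩ hφ.continuous hφc hsub (continuousOn_const.mul (cn.mul (cW.mul cdot)))
  have i3 : Integrable (fun x => ‖x‖ ^ g * W x * ∑ i, fderiv ℝ φ x (eStd i) * F x i) := by
    have := integrable_finsetSum (μ := volume) Finset.univ fun i _ =>
      integrable_deriv_mul (μ := volume) hΩ hφ hφc hsub ((cn.mul cW).mul (cF i)) (eStd i)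
    refine this.congr (Filter.Eventually.of_forall fun x => ?_)
    simp only [Finset.mul_sum, Pi.mul_apply]
    exact Finset.sum_congr rfl fun i _ => by ring
  have split : ∀ x, φ x * (‖x‖ ^ g * W x * (T x + g * dotv (zVec x) (F x))) =
      φ x * f x * (W x * T x) + φ x * (g * (‖x‖ ^ g * (W x * dotv (zVec x) (F x)))) := fun x => by
    by_cases hx : x = 0
    · simp [image_eq_zero_of_notMem_tsupport (f := φ) fun h => (hsub h) hx]
    · by_cases hi : Nonempty (Fin n)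
      · obtain ⟨i⟩ := hi
        simp only [f, (radial_fderiv g hx i).2]
        ring
      · exact absurd (by ext i; exact absurd ⟨i⟩ hi) hx
  have flux : ∀ x, W x * ∑ i, fderiv ℝ (fun y => φ y * f y) x (eStd i) * F x i =
      φ x * (g * (‖x‖ ^ g * (W x * dotv (zVec x) (F x)))) +
        ‖x‖ ^ g * W x * ∑ i, fderiv ℝ φ x (eStd i) * F x i := fun x => by
    by_cases hx : x = 0
    · have h0 : x ∉ tsupport φ := fun h => (hsub h) hx
      simp [fderiv_test_mul hΩ hφ hsub hf1, image_eq_zero_of_notMem_tsupport h0,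
        (notMem_tsupport_iff_eventuallyEq.1 h0).fderiv_eq]
    · simp only [fderiv_test_mul hΩ hφ hsub hf1, dotv, Finset.mul_sum, ← Finset.sum_add_distrib]
      refine Finset.sum_congr rfl fun i _ => ?_
      simp only [f, (radial_fderiv g hx i).1, (radial_fderiv g hx i).2]
      ring
  refine ⟨(hint.add i2).congr (Filter.Eventually.of_forall fun x => (split x).symm), ?_⟩
  simp only [split]
  rw [integral_add hint i2, hid]
  simp only [flux]
  rw [integral_add i2 i3]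
  ring

/-- The identity with a radial factor follows from the one without. -/
theorem identG_of_solution {p q w₁ w₂ : ℝ} (g lam mu : ℝ) (c : Fin 14 → ℝ) (k : Fin 4 → ℝ)
    {u v : EuclideanSpace ℝ (Fin n) → ℝ} (hu : ContDiffOn ℝ 2 u {0}ᶜ)
    (hv : ContDiffOn ℝ 2 v {0}ᶜ) (hu0 : ∀ x, 0 < u x) (hv0 : ∀ x, 0 < v x)
    (equ : ∀ x, x ≠ 0 → Δ u x = -(‖x‖ ^ w₁ * v x ^ p))
    (eqv : ∀ x, x ≠ 0 → Δ v x = -(‖x‖ ^ w₂ * u x ^ q)) :
    IdentG p q w₁ w₂ g lam mu c k u v := fun _ hφ hφc hsub =>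
  identity_radial (W := fun x => u x ^ lam * v x ^ mu)
    (T := fun x => rowW p q w₁ w₂ lam mu c k (logGrad u x) (logGrad v x) (zVec x)
      (‖x‖ ^ w₁ * v x ^ p / u x) (‖x‖ ^ w₂ * u x ^ q / v x) (logHess u x) (logHess v x))
    (F := solFluxW p q w₁ w₂ c k u v) hφ hφc hsub
    ((hu.continuousOn.rpow_const fun x _ => Or.inl (hu0 x).ne').mul
      (hv.continuousOn.rpow_const fun x _ => Or.inl (hv0 x).ne'))
    (continuousOn_solFluxW c k hu hv hu0 hv0) fun _ hψ hψc hψs =>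
      row_identityW c k isOpen_compl_singleton (fun h => h rfl) hψ hψc hψs hu hv
        (fun x _ => hu0 x) (fun x _ => hv0 x) (fun x hx => equ x hx) (fun x hx => eqv x hx)

/-- A certificate with radial factor and negative degree rules out solutions. -/
theorem no_solution_of_certG (hn : 5 ≤ n) {p q w₁ w₂ g r₁ r₂ ε : ℝ} {c : Fin 14 → ℝ}
    {k : Fin 4 → ℝ} (hC : CertG n p q w₁ w₂ g r₁ r₂ c k ε)
    (hexp : (n : ℝ) + g - 4 * (1 + r₁ + r₂) - 2 * (w₁ * r₁ + w₂ * r₂) < 0) :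
    ¬ ∃ u v : EuclideanSpace ℝ (Fin n) → ℝ,
      Continuous u ∧ Continuous v ∧ ContDiffOn ℝ 2 u {0}ᶜ ∧ ContDiffOn ℝ 2 v {0}ᶜ ∧
      (∀ x, 0 < u x) ∧ (∀ x, 0 < v x) ∧ (∀ x, x ≠ 0 → Δ u x = -(‖x‖ ^ w₁ * v x ^ p)) ∧
      (∀ x, x ≠ 0 → Δ v x = -(‖x‖ ^ w₂ * u x ^ q)) := by
  rintro ⟨u, v, hcu, hcv, hu, hv, hu0, hv0, equ, eqv⟩
  exact no_solution_of_certG_ident hn hC hexp hcu hcv hu hv hu0 hv0 equ eqv
    (identG_of_solution g _ _ c k hu hv hu0 hv0 equ eqv)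

/-- A weighted certificate with a negative degree rules out solutions. -/
theorem no_solution_of_certW (hn : 5 ≤ n) {p q w₁ w₂ r₁ r₂ ε : ℝ} {c : Fin 14 → ℝ}
    {k : Fin 4 → ℝ} (hC : CertW n p q w₁ w₂ r₁ r₂ c k ε)
    (hexp : (n : ℝ) - 4 * (1 + r₁ + r₂) - 2 * (w₁ * r₁ + w₂ * r₂) < 0) :
    ¬ ∃ u v : EuclideanSpace ℝ (Fin n) → ℝ,
      Continuous u ∧ Continuous v ∧ ContDiffOn ℝ 2 u {0}ᶜ ∧ ContDiffOn ℝ 2 v {0}ᶜ ∧
      (∀ x, 0 < u x) ∧ (∀ x, 0 < v x) ∧ (∀ x, x ≠ 0 → Δ u x = -(‖x‖ ^ w₁ * v x ^ p)) ∧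
      (∀ x, x ≠ 0 → Δ v x = -(‖x‖ ^ w₂ * u x ^ q)) :=
  no_solution_of_certG hn hC.toG (by linarith)

/-- The criterion for the weight `(u v) ^ L`: an inequality for the scalar form rules out solutions
as soon as `n - 4 < L (α + β)`, where `α + β = ((2 + w₁) (1 + q) + (2 + w₂) (1 + p)) / (p q - 1)`. -/
theorem no_solution_of_redFormW (hn : 5 ≤ n)
    {p q w₁ w₂ L t x₁ y₁ x₂ y₂ π₁ ρ χ ψ k₁ k₂ k₃ k₄ ε : ℝ} (hp : 0 < p) (hq : 0 < q)
    (hpq : 1 < p * q) (hL : 0 ≤ L)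
    (hexp : (n : ℝ) - 4 < L * (((2 + w₁) * (1 + q) + (2 + w₂) * (1 + p)) / (p * q - 1)))
    (hε : 0 < ε) (hε1 : ε < 1) (hεt : ε < t)
    (hform : ∀ A B C P Q za zb Z : ℝ, 0 ≤ A → 0 ≤ B → 0 ≤ Z → C ^ 2 ≤ A * B →
      za ^ 2 ≤ A * Z → zb ^ 2 ≤ B * Z → 0 < P → 0 < Q →
      0 ≤ redFormW n p q w₁ w₂ L L t x₁ y₁ x₂ y₂ π₁ ρ χ ψ k₁ k₂ k₃ k₄ ε A B C P Q za zb Z) :
    ¬ ∃ u v : EuclideanSpace ℝ (Fin n) → ℝ,
      Continuous u ∧ Continuous v ∧ ContDiffOn ℝ 2 u {0}ᶜ ∧ ContDiffOn ℝ 2 v {0}ᶜ ∧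
      (∀ x, 0 < u x) ∧ (∀ x, 0 < v x) ∧ (∀ x, x ≠ 0 → Δ u x = -(‖x‖ ^ w₁ * v x ^ p)) ∧
      (∀ x, x ≠ 0 → Δ v x = -(‖x‖ ^ w₂ * u x ^ q)) := by
  have hd : 0 < p * q - 1 := by linarith
  set r₁ : ℝ := L * (1 + q) / (2 * (p * q - 1)) with hr₁
  set r₂ : ℝ := L * (1 + p) / (2 * (p * q - 1)) with hr₂
  have e1 : L = -2 * r₁ + 2 * q * r₂ := by
    rw [hr₁, hr₂, show -2 * (L * (1 + q) / (2 * (p * q - 1))) + 2 * q * (L * (1 + p) /
      (2 * (p * q - 1))) = L * (p * q - 1) / (p * q - 1) by rw [← div_div, ← div_div]; ring,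
      mul_div_cancel_right₀ _ hd.ne']
  have e2 : L = 2 * p * r₁ - 2 * r₂ := by
    rw [hr₁, hr₂, show 2 * p * (L * (1 + q) / (2 * (p * q - 1))) - 2 * (L * (1 + p) /
      (2 * (p * q - 1))) = L * (p * q - 1) / (p * q - 1) by rw [← div_div, ← div_div]; ring,
      mul_div_cancel_right₀ _ hd.ne']
  refine no_solution_of_certW hn (certW_of_redFormW (r₁ := r₁) (r₂ := r₂) (by omega) hε hε1 hεt
    (by rw [hr₁]; positivity) (by rw [hr₂]; positivity) e1 e2 hform) ?_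
  have e3 : L * (((2 + w₁) * (1 + q) + (2 + w₂) * (1 + p)) / (p * q - 1)) =
      4 * (r₁ + r₂) + 2 * (w₁ * r₁ + w₂ * r₂) := by
    rw [hr₁, hr₂]; field_simp; ring
  linarith

end Vale.Agent.P100
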