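import Mathlib
import Vale.Agent.P100.Super

/-!
Elementary nonexistence of positive supersolutions of the weighted system
`-Δu ≥ ‖x‖ ^ w₁ v ^ p`, `-Δv ≥ ‖x‖ ^ w₂ u ^ q` with weights `w₁, w₂ ≤ 0`: a weight `≤ -2`,
or `p * q ≤ 1`, or an exponent pair of Serrin type.
-/

open InnerProductSpace Laplacian Filter Topology Set Metric Real

namespace Vale.Agent.P100.Super

variable {E : Type*} [NormedAddCommGroup E] [InnerProductSpace ℝ E] [FiniteDimensional ℝ E]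

omit [InnerProductSpace ℝ E] [FiniteDimensional ℝ E] in
theorem rhsW_neg {v : E → ℝ} (hvp : ∀ x, 0 < v x) (w p : ℝ) {x : E} (hx : x ≠ 0) :
    -(‖x‖ ^ w * v x ^ p) < 0 :=
  neg_neg_of_pos (mul_pos (Real.rpow_pos_of_pos (norm_pos_iff.2 hx) w)
    (Real.rpow_pos_of_pos (hvp x) p))

/-- Interior gain with a lower bound on the boundary sphere. -/
theorem interior_gain_bdry (hn : 2 ≤ Module.finrank ℝ E) {u : E → ℝ} (huc : Continuous u)
    (hu : ContDiffOn ℝ 2 u {(0 : E)}ᶜ) {R B m : ℝ} (hR : 0 < R) (hB : 0 < B)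
    (hbd : ∀ y : E, ‖y‖ = 2 * R → m ≤ u y)
    (hlap : ∀ y : E, y ≠ 0 → ‖y‖ ≤ 2 * R → Δ u y ≤ -B) {x : E} (hx : ‖x‖ ≤ R) :
    m + 3 * B * R ^ 2 / (4 * (Module.finrank ℝ E + 1)) ≤ u x := by
  set c : ℝ := B / (4 * (Module.finrank ℝ E + 1)) with hc
  have hc0 : 0 < c := by positivity
  have hq : ContDiff ℝ 2 (fun y : E => ‖y‖ ^ 2) := contDiff_id.norm_sq ℝ
  have hmain := min_principle_puncture hn (isCompact_closedBall (0 : E) (2 * R)) isOpen_ball
    ball_subset_closedBall (f := fun y => u y + c • ‖y‖ ^ 2) ?_ ?_ ?_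
    (m := m + c * (2 * R) ^ 2) ?_ x (by simpa using hx.trans (by linarith))
  · simp only [smul_eq_mul] at hmain
    have h2 : c * ‖x‖ ^ 2 ≤ c * R ^ 2 := by gcongr
    have h3 : 3 * B * R ^ 2 / (4 * (Module.finrank ℝ E + 1)) = c * (2 * R) ^ 2 - c * R ^ 2 := by
      rw [hc]; ring
    linarith
  · exact (huc.add (hq.continuous.const_smul c)).continuousOn
  · exact fun y _ hy0 =>
      (hu.contDiffAt (isOpen_compl_singleton.mem_nhds hy0)).add (hq.contDiffAt.const_smul c)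
  · intro y hy hy0
    have e1 : Δ (fun y => u y + c • ‖y‖ ^ 2) y = Δ u y + c • Δ (fun y : E => ‖y‖ ^ 2) y := by
      rw [← laplacian_smul c hq.contDiffAt]
      exact (hu.contDiffAt (isOpen_compl_singleton.mem_nhds hy0)).laplacian_add
        (hq.contDiffAt.const_smul c)
    rw [e1, lap_norm_sq, smul_eq_mul]
    have h4 : c * (2 * Module.finrank ℝ E) < B := by
      rw [hc, div_mul_eq_mul_div, div_lt_iff₀ (by positivity)]
      have hn : (0 : ℝ) ≤ Module.finrank ℝ E := Nat.cast_nonneg _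
      nlinarith
    have := hlap y hy0 (le_of_lt (by simpa using hy))
    linarith
  · intro y hy hy'
    have h : ‖y‖ = 2 * R := le_antisymm (by simpa using hy) (by simpa using hy')
    simp only [smul_eq_mul, h]
    linarith [hbd y h]

/-- No positive function continuous at the origin has `-Δu ≥ ‖x‖ ^ w v ^ p` with `w ≤ -2`. -/
theorem no_supersolutionW_le_neg_two (hn : 2 ≤ Module.finrank ℝ E) {u v : E → ℝ} {p w : ℝ}
    (hp : 0 < p) (hw : w ≤ -2) (huc : Continuous u) (hvc : Continuous v)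
    (hu : ContDiffOn ℝ 2 u {(0 : E)}ᶜ) (hup : ∀ x, 0 < u x) (hvp : ∀ x, 0 < v x)
    (hul : ∀ x, x ≠ 0 → Δ u x ≤ -(‖x‖ ^ w * v x ^ p)) : False := by
  obtain ⟨z0, -, hz0⟩ := (isCompact_closedBall (0 : E) 1).exists_isMinOn
    ⟨0, by simp⟩ hvc.continuousOn
  set b : ℝ := v z0 ^ p
  have hb : 0 < b := Real.rpow_pos_of_pos (hvp z0) p
  set g : ℝ := 3 * b / (16 * (Module.finrank ℝ E + 1)) with hg
  have hg0 : 0 < g := by positivity
  have key : ∀ k : ℕ, ∀ R : ℝ, 0 < R → R * 2 ^ k ≤ 1 → ∀ x : E, ‖x‖ ≤ R → k * g ≤ u x := by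
    intro k
    induction k with
    | zero => exact fun R _ _ x _ => by simpa using (hup x).le
    | succ k ih =>
      intro R hR hR1 x hx
      have h2k : (1 : ℝ) ≤ 2 ^ k := one_le_pow₀ one_le_two
      have hk : 2 * R * 2 ^ k ≤ 1 := (le_of_eq (by rw [pow_succ]; ring)).trans hR1
      have h2 : 2 * R ≤ 1 := (le_mul_of_one_le_right (by positivity) h2k).trans hk
      have hlap : ∀ y : E, y ≠ 0 → ‖y‖ ≤ 2 * R → Δ u y ≤ -(b / (2 * R) ^ 2) := by
        intro y hy0 hy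
        refine (hul y hy0).trans (neg_le_neg ?_)
        have hyp : 0 < ‖y‖ := norm_pos_iff.2 hy0
        have h3 : ((2 * R) ^ 2)⁻¹ ≤ ‖y‖ ^ w := by
          refine le_trans ?_ (Real.rpow_le_rpow_of_exponent_ge hyp (hy.trans h2) hw)
          rw [Real.rpow_neg hyp.le, Real.rpow_two]
          gcongr
        rw [div_eq_mul_inv, mul_comm]
        exact mul_le_mul h3 (Real.rpow_le_rpow (hvp z0).le
          (hz0 (by simpa using hy.trans h2)) hp.le) hb.le (by positivity)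
      have h := interior_gain_bdry hn huc hu hR (B := b / (2 * R) ^ 2) (m := k * g)
        (by positivity) (fun y hy => ih (2 * R) (by positivity) hk y hy.le) hlap hx
      refine le_trans (le_of_eq ?_) h
      have e : 3 * (b / (2 * R) ^ 2) * R ^ 2 / (4 * (Module.finrank ℝ E + 1)) = g := by
        rw [hg]; field_simp; ring
      rw [e]; push_cast; ring
  obtain ⟨k, hk⟩ := exists_nat_gt (u 0 / g)
  have h := key k ((2 ^ k)⁻¹) (by positivity)
    (le_of_eq (inv_mul_cancel₀ (by positivity))) 0 (by simp)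
  rw [div_lt_iff₀ hg0] at hk
  linarith

/-- The gain inequality with a weight `w ≤ 0`. -/
theorem gainW (hn : 2 ≤ Module.finrank ℝ E) {u v : E → ℝ} (huc : Continuous u) (hvc : Continuous v)
    (hu : ContDiffOn ℝ 2 u {(0 : E)}ᶜ) (hv : ContDiffOn ℝ 2 v {(0 : E)}ᶜ)
    (hup : ∀ x, 0 < u x) (hvp : ∀ x, 0 < v x) (hvl : ∀ x, x ≠ 0 → Δ v x < 0) {p w : ℝ}
    (hp : 0 < p) (hw : w ≤ 0) (hul : ∀ x, x ≠ 0 → Δ u x ≤ -(‖x‖ ^ w * v x ^ p)) {R : ℝ}
    (hR : 0 < R) {b : ℝ} (hb : 0 < b) (hbv : ∀ z : E, ‖z‖ ≤ R → b ≤ v z) {x : E} (hx : ‖x‖ ≤ R) :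
    3 / (4 * (Module.finrank ℝ E + 1)) * ((1 / 4 : ℝ) ^ (Module.finrank ℝ E + 1 : ℝ)) ^ p * 2 ^ w
      * R ^ (2 + w) * b ^ p ≤ u x := by
  set a : ℝ := Module.finrank ℝ E + 1 with ha'
  have ha : 0 < a := by positivity
  have hlow : ∀ y : E, ‖y‖ ≤ 2 * R → (1 / 4 : ℝ) ^ a * b ≤ v y := by
    intro y hy
    have hk : (1 / 4 : ℝ) ^ a ≤ 1 :=
      Real.rpow_le_one (by norm_num) (by norm_num) ha.le
    rcases le_total ‖y‖ R with h | h
    · exact le_trans (mul_le_of_le_one_left hb.le hk) (hbv y h)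
    · have han : (Module.finrank ℝ E : ℝ) ≤ 2 * (a + 1) := by
        have : (0 : ℝ) ≤ Module.finrank ℝ E := Nat.cast_nonneg _
        linarith
      refine le_trans ?_ (exterior_bound hvc hv hvp hvl ha han hR hb.le hbv h)
      rw [mul_comm b]
      have hy0 : 0 < ‖y‖ := lt_of_lt_of_le hR h
      refine mul_le_mul_of_nonneg_right (Real.rpow_le_rpow (by norm_num) ?_ ha.le) hb.le
      rw [div_le_div_iff₀ (by norm_num) (by positivity)]
      nlinarith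
  have hlap : ∀ y : E, y ≠ 0 → ‖y‖ ≤ 2 * R →
      Δ u y ≤ -((2 * R) ^ w * ((1 / 4 : ℝ) ^ a * b) ^ p) := fun y hy0 hy =>
    (hul y hy0).trans (neg_le_neg (mul_le_mul
      (Real.rpow_le_rpow_of_nonpos (norm_pos_iff.2 hy0) hy hw)
      (Real.rpow_le_rpow (by positivity) (hlow y hy) hp.le) (by positivity) (by positivity)))
  have := interior_gain hn huc hu hup hR (by positivity) hlap hx
  rw [Real.mul_rpow (by positivity) hb.le, Real.mul_rpow zero_le_two hR.le] at this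
  refine le_trans (le_of_eq ?_) this
  rw [ha', Real.rpow_add hR, Real.rpow_two]
  ring

/-- The two weighted gain inequalities composed. -/
theorem ball_min_ineqW (hn : 2 ≤ Module.finrank ℝ E) {u v : E → ℝ} {p q w₁ w₂ : ℝ} (hp : 0 < p)
    (hq : 0 < q) (hw₁ : w₁ ≤ 0) (hw₂ : w₂ ≤ 0) (huc : Continuous u) (hvc : Continuous v)
    (hu : ContDiffOn ℝ 2 u {(0 : E)}ᶜ) (hv : ContDiffOn ℝ 2 v {(0 : E)}ᶜ)
    (hup : ∀ x, 0 < u x) (hvp : ∀ x, 0 < v x)
    (hul : ∀ x, x ≠ 0 → Δ u x ≤ -(‖x‖ ^ w₁ * v x ^ p))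
    (hvl : ∀ x, x ≠ 0 → Δ v x ≤ -(‖x‖ ^ w₂ * u x ^ q)) :
    ∃ K : ℝ, 0 < K ∧ ∀ R : ℝ, 0 < R → ∃ a : E, ‖a‖ ≤ R ∧ (∀ z : E, ‖z‖ ≤ R → u a ≤ u z) ∧
      K * R ^ (2 + w₁ + (2 + w₂) * p) * u a ^ (p * q) ≤ u a := by
  have hu' : ∀ x, x ≠ 0 → Δ u x < 0 := fun x hx =>
    lt_of_le_of_lt (hul x hx) (rhsW_neg hvp w₁ p hx)
  have hv' : ∀ x, x ≠ 0 → Δ v x < 0 := fun x hx =>
    lt_of_le_of_lt (hvl x hx) (rhsW_neg hup w₂ q hx)
  set κ : ℝ := (1 / 4 : ℝ) ^ (Module.finrank ℝ E + 1 : ℝ)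
  set c : ℝ := 3 / (4 * (Module.finrank ℝ E + 1))
  have hκ : 0 < κ := by positivity
  have hc : 0 < c := by positivity
  refine ⟨c * κ ^ p * 2 ^ w₁ * (c * κ ^ q * 2 ^ w₂) ^ p, by positivity, fun R hR => ?_⟩
  obtain ⟨xu, hxu, hxu'⟩ := (isCompact_closedBall (0 : E) R).exists_isMinOn
    ⟨0, by simpa using hR.le⟩ huc.continuousOn
  obtain ⟨xv, hxv, hxv'⟩ := (isCompact_closedBall (0 : E) R).exists_isMinOn
    ⟨0, by simpa using hR.le⟩ hvc.continuousOn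
  have hxu0 : ‖xu‖ ≤ R := by simpa using hxu
  have hxv0 : ‖xv‖ ≤ R := by simpa using hxv
  refine ⟨xu, hxu0, fun z hz => hxu' (by simpa using hz), ?_⟩
  have g1 : c * κ ^ p * 2 ^ w₁ * R ^ (2 + w₁) * v xv ^ p ≤ u xu :=
    gainW hn huc hvc hu hv hup hvp hv' hp hw₁ hul hR (hvp xv)
      (fun z hz => hxv' (by simpa using hz)) hxu0
  have g2 : c * κ ^ q * 2 ^ w₂ * R ^ (2 + w₂) * u xu ^ q ≤ v xv :=
    gainW hn hvc huc hv hu hvp hup hu' hq hw₂ hvl hR (hup xu)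
      (fun z hz => hxu' (by simpa using hz)) hxv0
  have hux := hup xu
  have g4 : (c * κ ^ q * 2 ^ w₂) ^ p * R ^ ((2 + w₂) * p) * u xu ^ (p * q) ≤ v xv ^ p := by
    rw [Real.rpow_mul hR.le, mul_comm p q, Real.rpow_mul hux.le,
      ← Real.mul_rpow (by positivity) (by positivity),
      ← Real.mul_rpow (by positivity) (by positivity)]
    exact Real.rpow_le_rpow (by positivity) g2 hp.le
  refine le_trans (le_of_eq ?_) ((mul_le_mul_of_nonneg_left g4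
    (by positivity : 0 ≤ c * κ ^ p * 2 ^ w₁ * R ^ (2 + w₁))).trans g1)
  rw [Real.rpow_add hR (2 + w₁)]
  ring

/-- No positive weighted supersolutions when `p * q ≤ 1` and one weight exceeds `-2`. -/
theorem no_supersolutionW_mul_le_one (hn : 2 ≤ Module.finrank ℝ E) {u v : E → ℝ} {p q w₁ w₂ : ℝ}
    (hp : 0 < p) (hq : 0 < q) (hw₁ : w₁ ≤ 0) (hw₂ : w₂ ≤ 0) (hpos : 0 < 2 + w₁ + (2 + w₂) * p)
    (hpq : p * q ≤ 1) (huc : Continuous u) (hvc : Continuous v)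
    (hu : ContDiffOn ℝ 2 u {(0 : E)}ᶜ) (hv : ContDiffOn ℝ 2 v {(0 : E)}ᶜ)
    (hup : ∀ x, 0 < u x) (hvp : ∀ x, 0 < v x)
    (hul : ∀ x, x ≠ 0 → Δ u x ≤ -(‖x‖ ^ w₁ * v x ^ p))
    (hvl : ∀ x, x ≠ 0 → Δ v x ≤ -(‖x‖ ^ w₂ * u x ^ q)) : False := by
  obtain ⟨K, hK, hkey⟩ := ball_min_ineqW hn hp hq hw₁ hw₂ huc hvc hu hv hup hvp hul hvl
  set e : ℝ := 2 + w₁ + (2 + w₂) * p
  have hev : ∀ᶠ R : ℝ in atTop, K * R ^ e ≤ u 0 ^ (1 - p * q) := by
    filter_upwards [eventually_gt_atTop 0] with R hR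
    obtain ⟨a, ha, hmin, h⟩ := hkey R hR
    have h6 : K * R ^ e ≤ u a ^ (1 - p * q) := by
      rw [Real.rpow_sub (hup a), Real.rpow_one, le_div_iff₀ (Real.rpow_pos_of_pos (hup a) _)]
      exact h
    exact h6.trans (Real.rpow_le_rpow (hup a).le (hmin 0 (by simpa using hR.le)) (by linarith))
  have ht : Tendsto (fun R : ℝ => K * R ^ e) atTop atTop :=
    (tendsto_rpow_atTop hpos).const_mul_atTop hK
  obtain ⟨R, h1, h2⟩ := (hev.and (ht.eventually_gt_atTop (u 0 ^ (1 - p * q)))).exists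
  linarith

/-- No positive weighted supersolutions when `(n - 2) (p q - 1) < (2 + w₁) + (2 + w₂) p`. -/
theorem no_supersolutionW_exponent {u v : E → ℝ} {p q w₁ w₂ : ℝ} (hp : 0 < p) (hq : 0 < q)
    (hw₁ : w₁ ≤ 0) (hw₂ : w₂ ≤ 0) (hn : 3 ≤ Module.finrank ℝ E) (hpq : 1 < p * q)
    (hexp : ((Module.finrank ℝ E : ℝ) - 2) * (p * q - 1) < 2 + w₁ + (2 + w₂) * p)
    (huc : Continuous u) (hvc : Continuous v) (hu : ContDiffOn ℝ 2 u {(0 : E)}ᶜ)
    (hv : ContDiffOn ℝ 2 v {(0 : E)}ᶜ) (hup : ∀ x, 0 < u x) (hvp : ∀ x, 0 < v x)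
    (hul : ∀ x, x ≠ 0 → Δ u x ≤ -(‖x‖ ^ w₁ * v x ^ p))
    (hvl : ∀ x, x ≠ 0 → Δ v x ≤ -(‖x‖ ^ w₂ * u x ^ q)) : False := by
  obtain ⟨K, hK, hkey⟩ := ball_min_ineqW (by omega) hp hq hw₁ hw₂ huc hvc hu hv hup hvp hul hvl
  obtain ⟨a1, -, hmin1, -⟩ := hkey 1 one_pos
  set N : ℝ := (Module.finrank ℝ E : ℝ) with hN0
  have hN : 3 ≤ N := by rw [hN0]; exact_mod_cast hn
  have hu' : ∀ x, x ≠ 0 → Δ u x < 0 := fun x hx =>
    lt_of_le_of_lt (hul x hx) (rhsW_neg hvp w₁ p hx)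
  set s : ℝ := 2 + w₁ + (2 + w₂) * p
  set e : ℝ := s - (N - 2) * (p * q - 1)
  have hev : ∀ᶠ R : ℝ in atTop, K * u a1 ^ (p * q - 1) * R ^ e ≤ 1 := by
    filter_upwards [eventually_ge_atTop 1] with R hR1
    have hR : 0 < R := by linarith
    obtain ⟨a, ha, hmin, h⟩ := hkey R hR
    have hlow : u a1 * R ^ (-(N - 2)) ≤ u a := by
      rcases le_total ‖a‖ 1 with h1 | h1
      · refine le_trans (mul_le_of_le_one_right (hup a1).le ?_) (hmin1 a h1)
        exact Real.rpow_le_one_of_one_le_of_nonpos hR1 (by linarith)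
      · refine le_trans ?_ (exterior_bound huc hu hup hu' (a := (N - 2) / 2) (by linarith)
          (by linarith) one_pos (hup a1).le hmin1 h1)
        refine mul_le_mul_of_nonneg_left ?_ (hup a1).le
        have ha0 : 0 < ‖a‖ := by linarith
        rw [one_pow, one_div, Real.inv_rpow (sq_nonneg _), ← Real.rpow_neg (sq_nonneg _),
          ← Real.rpow_two, ← Real.rpow_mul (norm_nonneg a)]
        rw [show 2 * -((N - 2) / 2) = -(N - 2) by ring]
        exact Real.rpow_le_rpow_of_nonpos ha0 ha (by linarith)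
    have hua := hup a
    have h5 : K * R ^ s * u a ^ (p * q - 1) ≤ 1 := by
      rw [Real.rpow_sub hua, Real.rpow_one, ← mul_div_assoc, div_le_iff₀ hua]
      linarith
    refine le_trans (le_of_eq ?_) ((mul_le_mul_of_nonneg_left (Real.rpow_le_rpow
      (mul_pos (hup a1) (Real.rpow_pos_of_pos hR _)).le hlow (by linarith : 0 ≤ p * q - 1))
      (by positivity)).trans h5)
    rw [Real.mul_rpow (hup a1).le (Real.rpow_pos_of_pos hR _).le, ← Real.rpow_mul hR.le,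
      show e = s + -(N - 2) * (p * q - 1) by simp only [e]; ring, Real.rpow_add hR]
    ring
  have hc : 0 < K * u a1 ^ (p * q - 1) := mul_pos hK (Real.rpow_pos_of_pos (hup a1) _)
  have ht : Tendsto (fun R : ℝ => K * u a1 ^ (p * q - 1) * R ^ e) atTop atTop :=
    (tendsto_rpow_atTop (by simp only [e]; linarith)).const_mul_atTop hc
  obtain ⟨R, h1, h2⟩ := (hev.and (ht.eventually_gt_atTop 1)).exists
  linarith

/-- All elementary cases for weights `w₁, w₂ ≤ 0`: a weight `≤ -2`, `p q ≤ 1`, or one of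
`α, β` exceeds `n - 2` (written without division). -/
theorem no_supersolutionW_trivial (hn : 3 ≤ Module.finrank ℝ E) {u v : E → ℝ} {p q w₁ w₂ : ℝ}
    (hp : 0 < p) (hq : 0 < q) (hw₁ : w₁ ≤ 0) (hw₂ : w₂ ≤ 0)
    (hcase : w₁ ≤ -2 ∨ w₂ ≤ -2 ∨ p * q ≤ 1 ∨
      ((Module.finrank ℝ E : ℝ) - 2) * (p * q - 1) < 2 + w₁ + (2 + w₂) * p ∨
      ((Module.finrank ℝ E : ℝ) - 2) * (p * q - 1) < 2 + w₂ + (2 + w₁) * q)
    (huc : Continuous u) (hvc : Continuous v) (hu : ContDiffOn ℝ 2 u {(0 : E)}ᶜ)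
    (hv : ContDiffOn ℝ 2 v {(0 : E)}ᶜ) (hup : ∀ x, 0 < u x) (hvp : ∀ x, 0 < v x)
    (hul : ∀ x, x ≠ 0 → Δ u x ≤ -(‖x‖ ^ w₁ * v x ^ p))
    (hvl : ∀ x, x ≠ 0 → Δ v x ≤ -(‖x‖ ^ w₂ * u x ^ q)) : False := by
  rcases le_or_gt w₁ (-2) with a1 | a1
  · exact no_supersolutionW_le_neg_two (by omega) hp a1 huc hvc hu hup hvp hul
  rcases le_or_gt w₂ (-2) with a2 | a2
  · exact no_supersolutionW_le_neg_two (by omega) hq a2 hvc huc hv hvp hup hvl
  have hpos : 0 < 2 + w₁ + (2 + w₂) * p := by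
    have := mul_pos (by linarith : (0 : ℝ) < 2 + w₂) hp
    linarith
  rcases le_or_gt (p * q) 1 with h | h
  · exact no_supersolutionW_mul_le_one (by omega) hp hq hw₁ hw₂ hpos h huc hvc hu hv hup hvp hul hvl
  rcases hcase with c | c | c | c | c
  · linarith
  · linarith
  · linarith
  · exact no_supersolutionW_exponent hp hq hw₁ hw₂ hn h c huc hvc hu hv hup hvp hul hvl
  · exact no_supersolutionW_exponent hq hp hw₂ hw₁ hn (by rwa [mul_comm])
      (by rwa [mul_comm q p]) hvc huc hv hu hvp hup hvl hul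

end Vale.Agent.P100.Super
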