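import Mathlib
import Vale.Agent.P100.CriterionW
import Vale.Agent.P100.ConeForm
import Vale.Agent.P100.SuperW

/-!
# Assembly for the Hénon–Lane–Emden system with equal weights

For a common weight `w ∈ (-2, 0]` certificates come from the unweighted scalar form in the real
dimension `N = 2 (n + w) / (2 + w)`. Weights `≤ -2` and the elementary ranges are handled here.
-/

open Laplacian

namespace Vale.Agent.P100

variable {n : ℕ}

/-- The dimension seen by a common weight `w`. -/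
noncomputable def coneDim (n : ℕ) (w : ℝ) : ℝ := 2 * ((n : ℝ) + w) / (2 + w)

theorem natCast_le_coneDim (hn : 2 ≤ n) {w : ℝ} (hw : -2 < w) (hw0 : w ≤ 0) :
    (n : ℝ) ≤ coneDim n w := by
  have h2 : (2 : ℝ) ≤ n := by exact_mod_cast hn
  rw [coneDim, le_div_iff₀ (by linarith)]
  nlinarith [mul_nonneg (neg_nonneg.2 hw0) (show (0 : ℝ) ≤ (n : ℝ) - 2 by linarith)]

/-- Parameters of a reduced certificate in real dimension `N`, valid for all `P, Q > 0`, with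
weight `(u v) ^ L` and energy exponent above `N - 4`. -/
def HasParamsN (N p q : ℝ) : Prop :=
  ∃ L t x₁ y₁ x₂ y₂ π₁ ρ χ ψ ε : ℝ, 0 ≤ L ∧
    (N - 4) * (p * q - 1) < L * (2 * (p + q + 2)) ∧ 0 < ε ∧ ε < 1 ∧ ε < t ∧
    ∀ A B C P Q : ℝ, 0 ≤ A → 0 ≤ B → C ^ 2 ≤ A * B → 0 < P → 0 < Q →
      0 ≤ redFormN N p q L L t x₁ y₁ x₂ y₂ π₁ ρ χ ψ ε A B C P Q

/-- Parameters in the real dimension rule out solutions with a common weight. -/
theorem no_solutionG_of_params (hn : 5 ≤ n) {w : ℝ} (hw : -2 < w) (hw0 : w ≤ 0) {p q : ℝ}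
    (hp : 0 < p) (hq : 0 < q) (hpq : 1 < p * q) (h : HasParamsN (coneDim n w) p q) :
    ¬ ∃ u v : EuclideanSpace ℝ (Fin n) → ℝ,
      Continuous u ∧ Continuous v ∧ ContDiffOn ℝ 2 u {0}ᶜ ∧ ContDiffOn ℝ 2 v {0}ᶜ ∧
      (∀ x, 0 < u x) ∧ (∀ x, 0 < v x) ∧ (∀ x, x ≠ 0 → Δ u x = -(‖x‖ ^ w * v x ^ p)) ∧
      (∀ x, x ≠ 0 → Δ v x = -(‖x‖ ^ w * u x ^ q)) := by
  obtain ⟨L, t, x₁, y₁, x₂, y₂, π₁, ρ, χ, ψ, ε, hL0, hexp, hε, hε1, hεt, hform⟩ := h
  have hd : 0 < p * q - 1 := by linarith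
  have hw2 : 0 < 2 + w := by linarith
  set r₁ : ℝ := L * (1 + q) / (2 * (p * q - 1)) with hr₁
  set r₂ : ℝ := L * (1 + p) / (2 * (p * q - 1)) with hr₂
  have e1 : L = -2 * r₁ + 2 * q * r₂ := by
    rw [hr₁, hr₂, show -2 * (L * (1 + q) / (2 * (p * q - 1))) + 2 * q * (L * (1 + p) /
      (2 * (p * q - 1))) = L * (p * q - 1) / (p * q - 1) by rw [← div_div, ← div_div]; ring,
      mul_div_cancel_right₀ _ hd.ne']
  have e2 : L = 2 * p * r₁ - 2 * r₂ := by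
    rw [hr₁, hr₂, show 2 * p * (L * (1 + q) / (2 * (p * q - 1))) - 2 * (L * (1 + p) /
      (2 * (p * q - 1))) = L * (p * q - 1) / (p * q - 1) by rw [← div_div, ← div_div]; ring,
      mul_div_cancel_right₀ _ hd.ne']
  obtain ⟨ε', hC⟩ := certG_of_redFormN (n := n) (r₁ := r₁) (r₂ := r₂) (by omega) hw hw0 rfl hε hε1
    hεt (by rw [hr₁]; positivity) (by rw [hr₂]; positivity) e1 e2 hform
  refine no_solution_of_certG hn hC ?_
  have e3 : (n : ℝ) + -w - 4 * (1 + r₁ + r₂) - 2 * (w * r₁ + w * r₂) =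
      (2 + w) / (2 * (p * q - 1)) *
        ((coneDim n w - 4) * (p * q - 1) - L * (2 * (p + q + 2))) := by
    have hN4 : coneDim n w - 4 = 2 * ((n : ℝ) - 4 - w) / (2 + w) := by
      rw [coneDim]; field_simp; ring
    rw [hr₁, hr₂, hN4]
    generalize hdd : p * q - 1 = d at hd
    field_simp
    ring
  rw [e3]
  exact mul_neg_of_pos_of_neg (div_pos hw2 (by linarith)) (by linarith)

/-- The elementary cases for solutions. -/
theorem no_solutionW_trivial (hn : 3 ≤ n) {p q w₁ w₂ : ℝ} (hp : 0 < p) (hq : 0 < q)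
    (hw₁ : w₁ ≤ 0) (hw₂ : w₂ ≤ 0)
    (hcase : w₁ ≤ -2 ∨ w₂ ≤ -2 ∨ p * q ≤ 1 ∨
      ((n : ℝ) - 2) * (p * q - 1) < 2 + w₁ + (2 + w₂) * p ∨
      ((n : ℝ) - 2) * (p * q - 1) < 2 + w₂ + (2 + w₁) * q)
    {u v : EuclideanSpace ℝ (Fin n) → ℝ} (huc : Continuous u) (hvc : Continuous v)
    (hu : ContDiffOn ℝ 2 u {0}ᶜ) (hv : ContDiffOn ℝ 2 v {0}ᶜ) (hup : ∀ x, 0 < u x)
    (hvp : ∀ x, 0 < v x) (equ : ∀ x, x ≠ 0 → Δ u x = -(‖x‖ ^ w₁ * v x ^ p))
    (eqv : ∀ x, x ≠ 0 → Δ v x = -(‖x‖ ^ w₂ * u x ^ q)) : False :=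
  Super.no_supersolutionW_trivial (by rw [finrank_euclideanSpace_fin]; exact hn) hp hq hw₁ hw₂
    (by rw [finrank_euclideanSpace_fin]; exact hcase) huc hvc hu hv hup hvp
    (fun x hx => (equ x hx).le) (fun x hx => (eqv x hx).le)

/-- **Assembly.** In a symmetric range `S`, parameters in dimension `coneDim n w` for `q ≤ p`
outside the elementary ranges give nonexistence for every pair of the range and every common weight
`w ≤ 0`. -/
theorem no_entire_solutionG_of_params (hn : 5 ≤ n) {w : ℝ} (hw0 : w ≤ 0) {S : ℝ → ℝ → Prop}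
    (hS : ∀ p q, S p q → S q p)
    (hcert : -2 < w → ∀ p q : ℝ, 0 < q → q ≤ p → 1 < p * q →
      2 * (p + 1) ≤ (coneDim n w - 2) * (p * q - 1) → S p q → HasParamsN (coneDim n w) p q)
    {p q : ℝ} (hp : 0 < p) (hq : 0 < q) (hpqS : S p q) :
    ¬ ∃ u v : EuclideanSpace ℝ (Fin n) → ℝ,
      Continuous u ∧ Continuous v ∧ ContDiffOn ℝ 2 u {0}ᶜ ∧ ContDiffOn ℝ 2 v {0}ᶜ ∧
      (∀ x, 0 < u x) ∧ (∀ x, 0 < v x) ∧ (∀ x, x ≠ 0 → Δ u x = -(‖x‖ ^ w * v x ^ p)) ∧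
      (∀ x, x ≠ 0 → Δ v x = -(‖x‖ ^ w * u x ^ q)) := by
  rintro ⟨u, v, huc, hvc, hu, hv, hup, hvp, equ, eqv⟩
  by_cases hc : w ≤ -2 ∨ w ≤ -2 ∨ p * q ≤ 1 ∨
      ((n : ℝ) - 2) * (p * q - 1) < 2 + w + (2 + w) * p ∨
      ((n : ℝ) - 2) * (p * q - 1) < 2 + w + (2 + w) * q
  · exact no_solutionW_trivial (by omega) hp hq hw0 hw0 hc huc hvc hu hv hup hvp equ eqv
  push Not at hc
  obtain ⟨hw, -, hpq, h4, h5⟩ := hc
  have key : ∀ a : ℝ, 2 + w + (2 + w) * a ≤ ((n : ℝ) - 2) * (p * q - 1) →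
      2 * (a + 1) ≤ (coneDim n w - 2) * (p * q - 1) := by
    intro a ha
    have hw2 : (0 : ℝ) < 2 + w := by linarith
    rw [show coneDim n w - 2 = 2 * ((n : ℝ) - 2) / (2 + w) by
      rw [coneDim]; field_simp; ring, div_mul_eq_mul_div, le_div_iff₀ hw2]
    linarith
  rcases le_total q p with hqp | hqp
  · exact no_solutionG_of_params hn hw hw0 hp hq hpq (hcert hw p q hq hqp hpq (key p h4) hpqS)
      ⟨u, v, huc, hvc, hu, hv, hup, hvp, equ, eqv⟩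
  · have hqp1 : 1 < q * p := by rwa [mul_comm]
    exact no_solutionG_of_params hn hw hw0 hq hp hqp1
      (hcert hw q p hp hqp hqp1 (by rw [mul_comm q p]; exact key q h5) (hS p q hpqS))
      ⟨v, u, hvc, huc, hv, hu, hvp, hup, eqv, equ⟩

end Vale.Agent.P100
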