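import Mathlib
import Vale.Agent.P100.Compare

/-!
# Comparison of the components with a common radial weight

For a positive solution of `-Δu = |x|^w v^p`, `-Δv = |x|^w u^q` off the origin, `-2 < w ≤ 0`,
`q ≤ p` and `1 < p`: `v^(p+1)/(p+1) ≤ u^(q+1)/(q+1)`. The averages of `v` are not bounded below
because `R² R^w → ∞`.
-/

open MeasureTheory Filter Topology
open scoped InnerProductSpace

namespace Vale.Agent.P100

variable {n : ℕ}

/-- If the averages of `v` stayed above a positive constant, positive superharmonic functions with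
`-ΔU ≥ c₀ ρ v^p` on balls of radius `ρ` (`p > 1`, `c₀ ρ ρ²` unbounded) and bounded value at the
centre could not exist. -/
theorem exists_avg_lt_var {v : EuclideanSpace ℝ (Fin n) → ℝ} {p A : ℝ} {c₀ : ℝ → ℝ} (hp : 1 < p)
    (hc₀ : ∀ ρ, 1 ≤ ρ → 0 < c₀ ρ) (hbigc : Tendsto (fun ρ => c₀ ρ * ρ ^ 2) atTop atTop)
    (hv : Continuous v) (hv0 : ∀ x, 0 ≤ v x) (x : EuclideanSpace ℝ (Fin n))
    (H : ∀ ρ : ℝ, 1 ≤ ρ → ∃ u : EuclideanSpace ℝ (Fin n) → ℝ, ContDiff ℝ 2 u ∧ (∀ y, 0 ≤ u y) ∧
      u x ≤ A ∧ (∀ y, Laplacian.laplacian u y ≤ 0) ∧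
      ∀ y, ‖y - x‖ ≤ ρ → Laplacian.laplacian u y ≤ -(c₀ ρ * (v y) ^ p))
    {ε : ℝ} (hε : 0 < ε) (R₁ : ℝ) :
    ∃ R, R₁ ≤ R ∧ 0 ≤ R ∧ avg v x R < ε := by
  by_contra hcon
  push Not at hcon
  set P := ∫ y : EuclideanSpace ℝ (Fin n), avgPot y
  have hP : 0 < P := integral_avgPot_pos
  set K := ε / (2 ^ n * (2048 / 81)) / P with hK
  have hK0 : 0 < K := by positivity
  set c := K ^ p * P with hc
  have hc0 : 0 < c := by positivity
  have hvp : Continuous fun z => (v z) ^ p := hv.rpow_const fun _ => Or.inr (by linarith)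
  set S := 2 * max R₁ 0
  have hS : 0 ≤ S := by positivity
  have hlow : ∀ R : ℝ, S ≤ R → c ≤ ∫ y, (v (x + R • y)) ^ p * avgPot y := by
    intro R hR
    have h1 : ε / (2 ^ n * (2048 / 81)) ≤ ∫ y, v (x + R • y) * avgPot y := by
      rw [div_le_iff₀' (by positivity)]
      have h3 := le_max_left R₁ 0
      have h4 := le_max_right R₁ 0
      exact (hcon (R / 2) (by simp only [S] at hR; linarith) (by linarith)).trans
        (avg_half_le hv hv0 x R)
    have ht : ∀ t : ℝ, 0 ≤ t → K ^ p + p * K ^ (p - 1) * (t - K) ≤ t ^ p := by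
      intro t ht
      have hs : -1 ≤ t / K - 1 := by have := div_nonneg ht hK0.le; linarith
      have := one_add_mul_self_le_rpow_one_add hs hp.le
      rw [add_sub_cancel, Real.div_rpow ht hK0.le, le_div_iff₀ (Real.rpow_pos_of_pos hK0 p)] at this
      have e : K ^ p = K ^ (p - 1) * K := by
        rw [← Real.rpow_add_one hK0.ne']; ring_nf
      refine le_trans (le_of_eq ?_) this
      rw [e]; field_simp
    have i1 := integrable_mul_avgPot (g := fun y : EuclideanSpace ℝ (Fin n) => v (x + R • y))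
      (by fun_prop)
    have i2 := integrable_mul_avgPot (g := fun y : EuclideanSpace ℝ (Fin n) => (v (x + R • y)) ^ p)
      (hvp.comp (f := fun y : EuclideanSpace ℝ (Fin n) => x + R • y) (by fun_prop))
    have i3 : Integrable fun y : EuclideanSpace ℝ (Fin n) => avgPot y :=
      continuous_avgPot.integrable_of_hasCompactSupport hasCompactSupport_avgPot
    have i4 : Integrable fun y : EuclideanSpace ℝ (Fin n) =>
        (K ^ p - p * K ^ (p - 1) * K) * avgPot y +
        p * K ^ (p - 1) * (v (x + R • y) * avgPot y) := (i3.const_mul _).add (i1.const_mul _)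
    have h2 := integral_mono i4 i2 fun y => by
      have := mul_le_mul_of_nonneg_right (ht _ (hv0 (x + R • y))) (avgPot_nonneg y)
      simp only
      linarith
    rw [integral_add (i3.const_mul _) (i1.const_mul _), integral_const_mul, integral_const_mul] at h2
    have hKP : K * P = ε / (2 ^ n * (2048 / 81)) := by rw [hK]; field_simp
    have hp0 : 0 ≤ p * K ^ (p - 1) := by positivity
    have := mul_le_mul_of_nonneg_left h1 hp0
    rw [← hKP] at this
    nlinarith [h2, this]
  set T := max 0 (A * ∫ y : EuclideanSpace ℝ (Fin n), avgW y) + 1 with hT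
  have hT0 : 0 < T := by positivity
  obtain ⟨R₀, hR1, hR2, hR3⟩ : ∃ R₀, 1 ≤ R₀ ∧ 2 * S ≤ R₀ ∧ 8 * T / (3 * c) ≤ c₀ R₀ * R₀ ^ 2 :=
    ((eventually_ge_atTop (1 : ℝ)).and ((eventually_ge_atTop (2 * S)).and
      (hbigc.eventually_ge_atTop _))).exists.imp fun _ h => ⟨h.1, h.2.1, h.2.2⟩
  have hk := hc₀ R₀ hR1
  have hS0 : S ≤ R₀ := by linarith
  obtain ⟨u, hu, hu0, huA, hsup, hbig⟩ := H R₀ hR1
  have hd := fun R => hasDerivAt_avg hu x R
  have hmono : AntitoneOn (avg u x) (Set.Ici 0) := by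
    refine antitoneOn_of_hasDerivWithinAt_nonpos (convex_Ici 0)
      (fun R _ => (hd R).continuousAt.continuousWithinAt)
      (fun R _ => (hd R).hasDerivWithinAt) ?_
    intro R hR
    rw [interior_Ici] at hR
    exact mul_nonpos_of_nonneg_of_nonpos (le_of_lt hR) (integral_nonpos fun y =>
      mul_nonpos_of_nonpos_of_nonneg (hsup _) (avgPot_nonneg y))
  have hanti : AntitoneOn (fun R => avg u x R + c₀ R₀ * c / 2 * R ^ 2) (Set.Icc S R₀) := by
    refine antitoneOn_of_hasDerivWithinAt_nonpos (convex_Icc S R₀)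
      (fun R _ => ((hd R).add ((hasDerivAt_pow 2 R).const_mul (c₀ R₀ * c / 2))
        ).continuousAt.continuousWithinAt)
      (fun R _ => ((hd R).add ((hasDerivAt_pow 2 R).const_mul (c₀ R₀ * c / 2))
        ).hasDerivWithinAt) ?_
    intro R hR
    rw [interior_Icc] at hR
    have hR0 : 0 ≤ R := hS.trans hR.1.le
    have i2 := integrable_mul_avgPot (g := fun y : EuclideanSpace ℝ (Fin n) => (v (x + R • y)) ^ p)
      (hvp.comp (f := fun y : EuclideanSpace ℝ (Fin n) => x + R • y) (by fun_prop))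
    have hle : (∫ y, Laplacian.laplacian u (x + R • y) * avgPot y)
        ≤ ∫ y, -(c₀ R₀ * ((v (x + R • y)) ^ p * avgPot y)) := by
      refine integral_mono (integrable_mul_avgPot ((continuous_laplacian hu).comp (by fun_prop)))
        (i2.const_mul _).neg fun y => ?_
      rcases le_or_gt ‖y‖ 1 with hy | hy
      · have hin : ‖x + R • y - x‖ ≤ R₀ := by
          rw [add_sub_cancel_left, norm_smul, Real.norm_of_nonneg hR0]
          calc R * ‖y‖ ≤ R * 1 := mul_le_mul_of_nonneg_left hy hR0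
            _ ≤ R₀ := by linarith [hR.2]
        have := mul_le_mul_of_nonneg_right (hbig _ hin) (avgPot_nonneg y)
        simp only
        linarith
      · simp [avgPot_eq_zero hy.le]
    rw [integral_neg, integral_const_mul] at hle
    have := mul_le_mul_of_nonneg_left
      (hle.trans (neg_le_neg (mul_le_mul_of_nonneg_left (hlow R hR.1.le) hk.le))) hR0
    norm_num
    linarith
  have h1 := hanti (Set.left_mem_Icc.2 hS0) (Set.right_mem_Icc.2 hS0) hS0
  have h2 := hmono (Set.mem_Ici.2 le_rfl) (Set.mem_Ici.2 hS) hS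
  rw [avg_zero] at h2
  have h3 : 0 ≤ avg u x R₀ := integral_nonneg fun y => mul_nonneg (hu0 _) (avgW_nonneg y)
  have h4 : u x * ∫ y : EuclideanSpace ℝ (Fin n), avgW y ≤ T - 1 := by
    rw [hT, add_sub_cancel_right]
    exact (mul_le_mul_of_nonneg_right huA integral_avgW_pos.le).trans (le_max_right _ _)
  rw [div_le_iff₀ (by positivity)] at hR3
  have h5 := mul_le_mul_of_nonneg_left (pow_le_pow_left₀ (by positivity) hR2 2)
    (mul_nonneg hk.le hc0.le)
  simp only at h1
  nlinarith

/-- Truncation of `u + |x|^(2-n)` for a weighted supersolution. -/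
theorem exists_truncW (hn : 3 ≤ n) {p w : ℝ} (hp : 1 < p) (hw0 : w ≤ 0)
    {u v v' : EuclideanSpace ℝ (Fin n) → ℝ} (huc : Continuous u)
    (hu : ∀ y ≠ 0, ContDiffAt ℝ 2 u y) (hu0 : ∀ y, 0 ≤ u y) (hv : ∀ y, 0 ≤ v y)
    (hv'0 : ∀ y, 0 ≤ v' y) (hv' : ∀ y, v' y ≤ v y) (hv'1 : ∀ y, ‖y‖ ≤ 1 → v' y = 0)
    (equ : ∀ y ≠ 0, Laplacian.laplacian u y ≤ -(‖y‖ ^ w * (v y) ^ p))
    {x : EuclideanSpace ℝ (Fin n)} (hx : x ≠ 0) {ρ : ℝ} (hρ : 0 ≤ ρ) :
    ∃ U : EuclideanSpace ℝ (Fin n) → ℝ, ContDiff ℝ 2 U ∧ (∀ y, 0 ≤ U y) ∧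
      U x ≤ u x + newton x + 2 ∧ (∀ y, Laplacian.laplacian U y ≤ 0) ∧
      ∀ y, ‖y - x‖ ≤ ρ →
        Laplacian.laplacian U y ≤ -(1 / 2 * (‖x‖ + ρ) ^ w * (v' y) ^ p) := by
  set T := ‖x‖ + ρ with hT
  have hT0 : 0 < T := by have := norm_pos_iff.2 hx; linarith
  have hk : 0 < (T ^ w) ^ (1 / p) := by positivity
  have hkp : ((T ^ w) ^ (1 / p)) ^ p = T ^ w := by
    rw [← Real.rpow_mul (by positivity), one_div_mul_cancel (by linarith), Real.rpow_one]
  obtain ⟨U, hU1, hU2, hU3, hU4, hU5⟩ := exists_trunc hn hp huc hu hu0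
    (v := fun y => if ‖y‖ ≤ T then (T ^ w) ^ (1 / p) * v y else 0)
    (v' := fun y => if ‖y‖ ≤ T then (T ^ w) ^ (1 / p) * v' y else 0)
    (fun y => by split_ifs; exacts [mul_nonneg hk.le (hv y), le_rfl])
    (fun y => by split_ifs; exacts [mul_nonneg hk.le (hv'0 y), le_rfl])
    (fun y => by split_ifs; exacts [mul_le_mul_of_nonneg_left (hv' y) hk.le, le_rfl])
    (fun y hy => by simp [hv'1 y hy])
    (fun y hy => (equ y hy).trans (neg_le_neg (by
      split_ifs with h
      · rw [Real.mul_rpow hk.le (hv y), hkp]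
        exact mul_le_mul_of_nonneg_right
          (Real.rpow_le_rpow_of_nonpos (norm_pos_iff.2 hy) h hw0) (Real.rpow_nonneg (hv y) p)
      · rw [Real.zero_rpow (by linarith : p ≠ 0)]
        exact mul_nonneg (Real.rpow_nonneg (norm_nonneg y) w) (Real.rpow_nonneg (hv y) p))))
    hx ρ
  refine ⟨U, hU1, hU2, hU3, hU4, fun y hy => (hU5 y hy).trans (le_of_eq ?_)⟩
  rw [if_pos (by have := norm_le_norm_add_norm_sub' y x; linarith),
    Real.mul_rpow hk.le (hv'0 y), hkp]
  ring

/-- The averages of `v` are not bounded below, for weighted supersolutions off the origin. -/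
theorem exists_avg_lt_puncturedW (hn : 3 ≤ n) {p w : ℝ} (hp : 1 < p) (hw : -2 < w) (hw0 : w ≤ 0)
    {u v : EuclideanSpace ℝ (Fin n) → ℝ} (huc : Continuous u) (hvc : Continuous v)
    (hu : ∀ y ≠ 0, ContDiffAt ℝ 2 u y) (hu0 : ∀ y, 0 ≤ u y) (hv0 : ∀ y, 0 ≤ v y)
    (equ : ∀ y ≠ 0, Laplacian.laplacian u y ≤ -(‖y‖ ^ w * (v y) ^ p))
    {x : EuclideanSpace ℝ (Fin n)} (hx : x ≠ 0) {ε : ℝ}
    (hε : 0 < ε) : ∃ R, 0 ≤ R ∧ avg v x R < ε := by
  set η := fun y : EuclideanSpace ℝ (Fin n) => min (max (‖y‖ - 1) 0) 1 with hη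
  set v' := fun y => η y * v y with hv'
  set k := fun y => v y - v' y with hk
  have hη0 : ∀ y, 0 ≤ η y := fun y => le_min (le_max_right _ _) zero_le_one
  have hη1 : ∀ y, η y ≤ 1 := fun y => min_le_right _ _
  have hv'c : Continuous v' := by simp only [hv', hη]; fun_prop
  have hkc : Continuous k := hvc.sub hv'c
  have hk0 : ∀ y, 0 ≤ k y := fun y =>
    sub_nonneg.2 (mul_le_of_le_one_left (hv0 y) (hη1 y))
  have hks : HasCompactSupport k :=
    HasCompactSupport.intro (isCompact_closedBall (0 : EuclideanSpace ℝ (Fin n)) 2) fun y hy => by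
      simp only [Metric.mem_closedBall, dist_zero_right, not_le] at hy
      have : η y = 1 := min_eq_right (le_max_of_le_left (by linarith))
      simp [hk, hv', this]
  set R₁ := 2 * (∫ y, k y) / ε + 1 with hR₁
  have hI : 0 ≤ ∫ y, k y := integral_nonneg hk0
  have hx0 : 0 < ‖x‖ := norm_pos_iff.2 hx
  have hbig : Tendsto (fun ρ : ℝ => 1 / 2 * (‖x‖ + ρ) ^ w * ρ ^ 2) atTop atTop := by
    refine tendsto_atTop_mono' _ ?_ ((tendsto_rpow_atTop (show 0 < 2 + w by linarith)).const_mul_atTop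
      (show 0 < 1 / 2 * (2 : ℝ) ^ w by positivity))
    filter_upwards [eventually_ge_atTop ‖x‖] with ρ hρ
    have hρ0 : 0 < ρ := hx0.trans_le hρ
    have := Real.rpow_le_rpow_of_nonpos (show 0 < ‖x‖ + ρ by linarith)
      (show ‖x‖ + ρ ≤ 2 * ρ by linarith) hw0
    rw [Real.mul_rpow (by norm_num) hρ0.le] at this
    rw [add_comm 2 w, Real.rpow_add hρ0, Real.rpow_two]
    nlinarith [sq_nonneg ρ]
  obtain ⟨R, hR, -, hlt⟩ := exists_avg_lt_var (v := v')
    (c₀ := fun ρ => 1 / 2 * (‖x‖ + ρ) ^ w) hp (fun ρ hρ => by positivity) hbig hv'c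
    (fun y => mul_nonneg (hη0 y) (hv0 y)) x
    (fun ρ hρ => exists_truncW hn hp hw0 huc hu hu0 hv0 (fun y => mul_nonneg (hη0 y) (hv0 y))
      (fun y => mul_le_of_le_one_left (hv0 y) (hη1 y))
      (fun y hy => by simp [hη, max_eq_right (sub_nonpos.2 hy)]) equ hx (zero_le_one.trans hρ))
    (half_pos hε) R₁
  have hR1 : 1 ≤ R := le_trans (by
    have : 0 ≤ 2 * (∫ y, k y) / ε := by positivity
    linarith) hR
  have hR0 : 0 < R := by linarith
  refine ⟨R, hR0.le, ?_⟩
  have e1 : avg v x R = avg v' x R + avg k x R := by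
    unfold avg
    rw [← integral_add (integrable_mul_avgW (by fun_prop)) (integrable_mul_avgW (by fun_prop))]
    simp only [hk]
    congr 1
    ext y
    ring
  have hint : Integrable fun z : EuclideanSpace ℝ (Fin n) => k (x + z) :=
    (hkc.comp (by fun_prop)).integrable_of_hasCompactSupport
      (hks.comp_homeomorph (Homeomorph.addLeft x))
  have e2 : avg k x R ≤ (R ^ n)⁻¹ * ∫ y, k y := by
    calc avg k x R ≤ ∫ y, k (x + R • y) := by
          refine integral_mono_of_nonneg (Eventually.of_forall fun y =>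
            mul_nonneg (hk0 _) (avgW_nonneg y)) (hint.comp_smul hR0.ne')
            (Eventually.of_forall fun y => mul_le_of_le_one_right (hk0 _) ?_)
          exact pow_le_one₀ (le_max_right _ _) (max_le (by nlinarith [norm_nonneg y]) zero_le_one)
      _ = (R ^ n)⁻¹ * ∫ y, k y := by
          rw [Measure.integral_comp_smul_of_nonneg (μ := (volume : Measure (EuclideanSpace ℝ (Fin n))))
            (f := fun z => k (x + z)) R (hR := hR0.le), finrank_euclideanSpace_fin, smul_eq_mul,
            integral_add_left_eq_self (μ := (volume : Measure (EuclideanSpace ℝ (Fin n)))) k x]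
  have e3 : (R ^ n)⁻¹ * ∫ y, k y < ε / 2 := by
    rw [inv_mul_lt_iff₀ (by positivity)]
    have h1 : R ≤ R ^ n := le_self_pow₀ hR1 (by omega)
    have h2 : 2 * (∫ y, k y) / ε + 1 ≤ R ^ n := hR.trans h1
    rw [div_add_one hε.ne', div_le_iff₀ hε] at h2
    linarith
  linarith

/-- The gap is subharmonic where it is positive, for a common weight `c ≥ 0`. -/
theorem laplacian_gap_nonnegW {p q c : ℝ} (hq : 0 < q) (hqp : q ≤ p) (hc : 0 ≤ c)
    {u v : EuclideanSpace ℝ (Fin n) → ℝ} {z : EuclideanSpace ℝ (Fin n)}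
    (hu : ContDiffAt ℝ 2 u z) (hv : ContDiffAt ℝ 2 v z) (hu0 : 0 < u z)
    (equ : Laplacian.laplacian u z = -(c * (v z) ^ p))
    (eqv : Laplacian.laplacian v z = -(c * (u z) ^ q))
    (hz : 0 < gap p q u v z) : 0 ≤ Laplacian.laplacian (gap p q u v) z := by
  have hp1 : 0 < p + 1 := by linarith
  have hq1 : 0 < q + 1 := by linarith
  set s := (q + 1) / (p + 1) with hs
  have hs0 : 0 < s := by positivity
  have hs1 : s ≤ 1 := (div_le_one hp1).2 (by linarith)
  set l := ((p + 1) / (q + 1)) ^ (1 / (p + 1)) with hl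
  have hl0 : 0 < l := by positivity
  have hlp : l ^ (p + 1) = (p + 1) / (q + 1) := by
    rw [hl, ← Real.rpow_mul (by positivity), one_div, inv_mul_cancel₀ hp1.ne', Real.rpow_one]
  have hus : ContDiffAt ℝ 2 (fun y => (u y) ^ s) z := hu.rpow_const_of_ne hu0.ne'
  have hLs : Laplacian.laplacian (fun y => (u y) ^ s) z ≤
      s * (u z) ^ (s - 1) * Laplacian.laplacian u z := by
    rw [laplacian_comp hu (g := fun t => t ^ s) (g' := fun t => s * t ^ (s - 1))
      (g'' := fun t => s * ((s - 1) * t ^ (s - 1 - 1))) isOpen_Ioi (Set.mem_Ioi.2 hu0)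
      (fun t ht => Real.hasDerivAt_rpow_const (Or.inl (ne_of_gt ht)))
      (fun t ht => (Real.hasDerivAt_rpow_const (Or.inl (ne_of_gt ht))).const_mul s)]
    have : s * ((s - 1) * (u z) ^ (s - 1 - 1)) ≤ 0 :=
      mul_nonpos_of_nonneg_of_nonpos hs0.le
        (mul_nonpos_of_nonpos_of_nonneg (by linarith) (Real.rpow_nonneg hu0.le _))
    have := mul_nonpos_of_nonpos_of_nonneg this
      (Finset.sum_nonneg fun i (_ : i ∈ Finset.univ) => sq_nonneg (fderiv ℝ u z (stdB i)))
    linarith
  have hlin : Laplacian.laplacian (gap p q u v) z = Laplacian.laplacian v z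
      - l * Laplacian.laplacian (fun y => (u y) ^ s) z := by
    have e : gap p q u v = v + (-l) • fun y => (u y) ^ s := by
      ext; simp [gap, hl, hs]; ring
    rw [e, hv.laplacian_add (f₂ := (-l) • fun y => (u y) ^ s) (hus.const_smul (-l)),
      InnerProductSpace.laplacian_smul (-l) hus]
    simp
    ring
  have hvz : l * (u z) ^ s ≤ v z := by simp only [gap, ← hl, ← hs] at hz; linarith
  have hpow : l ^ p * (u z) ^ (s * p) ≤ (v z) ^ p := by
    rw [Real.rpow_mul hu0.le, ← Real.mul_rpow hl0.le (Real.rpow_nonneg hu0.le _)]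
    exact Real.rpow_le_rpow (by positivity) hvz (by linarith)
  have hexp : s * (u z) ^ (s - 1) * l * (l ^ p * (u z) ^ (s * p)) = (u z) ^ q := by
    have e1 : (u z) ^ (s - 1) * (u z) ^ (s * p) = (u z) ^ q := by
      rw [← Real.rpow_add hu0]
      congr 1
      rw [hs]; field_simp; ring
    have e2 : l * l ^ p = (p + 1) / (q + 1) := by
      rw [mul_comm, ← Real.rpow_add_one hl0.ne', hlp]
    calc s * (u z) ^ (s - 1) * l * (l ^ p * (u z) ^ (s * p))
        = s * (l * l ^ p) * ((u z) ^ (s - 1) * (u z) ^ (s * p)) := by ring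
      _ = (u z) ^ q := by rw [e1, e2, hs]; field_simp
  rw [hlin, eqv]
  rw [equ] at hLs
  have h1 := mul_le_mul_of_nonneg_left hpow (show 0 ≤ s * (u z) ^ (s - 1) * l by positivity)
  have h2 := mul_le_mul_of_nonneg_left hLs hl0.le
  rw [hexp] at h1
  nlinarith [mul_le_mul_of_nonneg_left h1 hc]

/-- **Comparison of the components** for a common weight `-2 < w ≤ 0`. -/
theorem comparison_puncturedW (hn : 3 ≤ n) {p q w : ℝ} (hq : 0 < q) (hqp : q ≤ p) (hp : 1 < p)
    (hw : -2 < w) (hw0 : w ≤ 0) {u v : EuclideanSpace ℝ (Fin n) → ℝ} (huc : Continuous u)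
    (hvc : Continuous v) (hu : ContDiffOn ℝ 2 u {0}ᶜ) (hv : ContDiffOn ℝ 2 v {0}ᶜ)
    (hu0 : ∀ x, 0 < u x) (hv0 : ∀ x, 0 < v x)
    (equ : ∀ x ≠ 0, Laplacian.laplacian u x = -(‖x‖ ^ w * (v x) ^ p))
    (eqv : ∀ x ≠ 0, Laplacian.laplacian v x = -(‖x‖ ^ w * (u x) ^ q)) :
    ∀ x, (v x) ^ (p + 1) / (p + 1) ≤ (u x) ^ (q + 1) / (q + 1) := by
  have hp1 : 0 < p + 1 := by linarith
  have hq1 : 0 < q + 1 := by linarith
  have hu' : ∀ y ≠ 0, ContDiffAt ℝ 2 u y := fun y hy =>
    hu.contDiffAt (isOpen_compl_singleton.mem_nhds hy)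
  have hv' : ∀ y ≠ 0, ContDiffAt ℝ 2 v y := fun y hy =>
    hv.contDiffAt (isOpen_compl_singleton.mem_nhds hy)
  have key : ∀ x ≠ 0, gap p q u v x ≤ 0 := by
    intro x hx
    refine le_of_forall_pos_le_add fun δ hδ => ?_
    set ε := δ / (newton x + 1)
    have hε : 0 < ε := by have := newton_nonneg x; positivity
    set f := fun y : EuclideanSpace ℝ (Fin n) =>
      if y = 0 then 0 else hPos (gap p q u v y - ε * newton y) with hf
    obtain ⟨C, hC0, hC⟩ := exists_bound hvc 1
    have hf0 : f =ᶠ[𝓝 0] fun _ => 0 := by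
      filter_upwards [newton_large hn (C / ε),
        Metric.closedBall_mem_nhds (0 : EuclideanSpace ℝ (Fin n)) one_pos] with y hy hy1
      by_cases h : y = 0
      · simp [hf, h]
      · have h1 := (gap_le (v := v) hp1 hq1 (hu0 y).le).trans (hC y (by simpa using hy1))
        have h2 := mul_le_mul_of_nonneg_left (hy h) hε.le
        rw [mul_div_cancel₀ C hε.ne'] at h2
        simp only [hf, h, if_false, hPos, max_eq_right (show gap p q u v y - ε * newton y ≤ 0 by
          linarith), Real.arctan_zero, sub_zero]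
    have hne : ∀ y : EuclideanSpace ℝ (Fin n), y ≠ 0 →
        f =ᶠ[𝓝 y] fun z => hPos (gap p q u v z - ε * newton z) :=
      fun y hy => by filter_upwards [eventually_ne_nhds hy] with z hz using if_neg hz
    have hcd : ∀ y : EuclideanSpace ℝ (Fin n), y ≠ 0 →
        ContDiffAt ℝ 2 (fun z => gap p q u v z - ε * newton z) y :=
      fun y hy => (contDiffAt_gap (hu' y hy) (hv' y hy) (hu0 y).ne').sub
        (contDiffAt_const.mul (contDiffAt_newton hy))
    have hfx : f x ≤ 0 := by
      refine nonpos_of_subharmonic (contDiff_iff_contDiffAt.2 fun y => ?_) hvc (fun y => ?_)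
        (fun y => ?_) x fun e he => exists_avg_lt_puncturedW hn hp hw hw0 huc hvc hu'
          (fun y => (hu0 y).le) (fun y => (hv0 y).le) (fun y hy => (equ y hy).le) hx he
      · by_cases hy : y = 0
        · subst hy; exact contDiffAt_const.congr_of_eventuallyEq hf0
        · exact ((contDiff_hPos.contDiffAt).comp y (hcd y hy)).congr_of_eventuallyEq (hne y hy)
      · by_cases hy : y = 0
        · simp only [hf, hy, if_true]; exact (hv0 0).le
        · simp only [hf, hy, if_false]
          refine (hPos_le _).trans (max_le ?_ (hv0 y).le)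
          have := gap_le (v := v) hp1 hq1 (hu0 y).le
          have := mul_nonneg hε.le (newton_nonneg y)
          linarith
      · by_cases hy : y = 0
        · subst hy
          rw [(InnerProductSpace.laplacian_congr_nhds hf0).self_of_nhds]
          simp
        · rw [(InnerProductSpace.laplacian_congr_nhds (hne y hy)).self_of_nhds]
          refine laplacian_hPos_comp (hcd y hy) fun hz => ?_
          have h1 := laplacian_gap_nonnegW hq hqp (Real.rpow_nonneg (norm_nonneg y) w) (hu' y hy)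
            (hv' y hy) (hu0 y) (equ y hy) (eqv y hy)
            (by have := mul_nonneg hε.le (newton_nonneg y); linarith)
          have e : (fun z => gap p q u v z - ε * newton z) = gap p q u v + (-ε) • newton := by
            ext; simp; ring
          rw [e, (contDiffAt_gap (hu' y hy) (hv' y hy) (hu0 y).ne').laplacian_add
              (f₂ := (-ε) • newton) ((contDiffAt_newton hy).const_smul (-ε)),
            InnerProductSpace.laplacian_smul (-ε) (contDiffAt_newton hy), laplacian_newton hy]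
          simpa using h1
    simp only [hf, hx, if_false] at hfx
    have := le_of_hPos_nonpos hfx
    have : ε * newton x ≤ δ := by
      rw [div_mul_eq_mul_div, div_le_iff₀ (by have := newton_nonneg x; linarith)]
      nlinarith
    linarith
  intro x
  by_cases hx : x = 0
  · subst hx
    have : Nontrivial (EuclideanSpace ℝ (Fin n)) := Module.nontrivial_of_finrank_pos (R := ℝ)
      (by rw [finrank_euclideanSpace_fin]; omega)
    have := Module.punctured_nhds_neBot ℝ (EuclideanSpace ℝ (Fin n))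
      (0 : EuclideanSpace ℝ (Fin n))
    have hc : Continuous fun y => (u y) ^ (q + 1) / (q + 1) - (v y) ^ (p + 1) / (p + 1) :=
      ((huc.rpow_const fun _ => Or.inr hq1.le).div_const _).sub
        ((hvc.rpow_const fun _ => Or.inr hp1.le).div_const _)
    have hsub : ({(0 : EuclideanSpace ℝ (Fin n))}ᶜ : Set (EuclideanSpace ℝ (Fin n))) ⊆
        {y | (0 : ℝ) ≤ (u y) ^ (q + 1) / (q + 1) - (v y) ^ (p + 1) / (p + 1)} := fun y hy =>
      sub_nonneg.2 (le_of_gap_nonpos hp1 hq1 (hu0 y) (hv0 y) (key y hy))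
    exact sub_nonneg.1 ((isClosed_le continuous_const hc).closure_subset_iff.2 hsub
      (dense_compl_singleton (0 : EuclideanSpace ℝ (Fin n)) 0))
  · exact le_of_gap_nonpos hp1 hq1 (hu0 x) (hv0 x) (key x hx)

end Vale.Agent.P100
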