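import Mathlib
import Vale.Agent.P100.Criterion
import Vale.Agent.P100.WeightEnergy

/-!
# A criterion with a bounded positive factor of the coefficients

The coefficients are `c j z` with `|c j z| ≤ B h z` and the row is at least `ε h z` times the full
norm, where `0 < h ≤ 1` on `(0, κ]`. Two cut-offs give a contradiction for `5 ≤ n < 4 (1 + r₁ + r₂)`
and any two nonnegative `r₁`, `r₂`; no estimate on spheres is needed, and `h` may tend to zero.
-/

open MeasureTheory Filter Set Metric Topology Laplacian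

namespace Vale.Agent.P100

variable {n : ℕ}

/-- An integral identity `∫ φ W T = -∫ W ∇φ · F` with `T ≥ ε N`,
`|F| ≤ G N ^ (3/4)` and `W ≤ N ^ r` bounds `∫ W N` on an annulus. -/
theorem energy_of_identity (hn : 5 ≤ n) {r ε G₀ M : ℝ} (hr : 0 ≤ r)
    (hε : 0 < ε) (hG₀ : 0 ≤ G₀) {W N T : EuclideanSpace ℝ (Fin n) → ℝ}
    {F : EuclideanSpace ℝ (Fin n) → Fin n → ℝ}
    (cW : ContinuousOn W {0}ᶜ) (cN : ContinuousOn N {0}ᶜ)
    (hW : ∀ x, x ≠ 0 → 0 < W x) (hN : ∀ x, x ≠ 0 → 0 < N x)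
    (hM : ∀ x, x ≠ 0 → ‖x‖ ≤ 1 → W x ≤ M) (hWN : ∀ x, x ≠ 0 → W x ≤ N x ^ r)
    (hT : ∀ x, x ≠ 0 → ε * N x ≤ T x)
    (hF : ∀ x, x ≠ 0 → ∀ i, |F x i| ≤ G₀ * N x ^ (3 / 4 : ℝ))
    (hid : ∀ φ : EuclideanSpace ℝ (Fin n) → ℝ, ContDiff ℝ 1 φ → HasCompactSupport φ →
      tsupport φ ⊆ {0}ᶜ → Integrable (fun x => φ x * (W x * T x)) ∧
        ∫ x, φ x * (W x * T x) = -∫ x, W x * ∑ i, fderiv ℝ φ x (eStd i) * F x i) :
    ∃ C₁ C₂ : ℝ, ∀ R e' : ℝ, 2 ≤ R → 0 < e' → e' ≤ 1 / 2 →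
      ∫ x in closedBall (0 : EuclideanSpace ℝ (Fin n)) 2 \ ball 0 1, W x * N x ≤
        C₁ * e' ^ ((n : ℝ) - 4) + C₂ * R ^ ((n : ℝ) - 4 * (1 + r)) := by
  have hΩ : IsOpen ({0}ᶜ : Set (EuclideanSpace ℝ (Fin n))) := isOpen_compl_singleton
  obtain ⟨m, hm5, hmr⟩ : ∃ m : ℕ, 5 ≤ m ∧ 4 * (1 + r) ≤ m :=
    ⟨max 5 ⌈4 * (1 + r)⌉₊, le_max_left _ _,
      (Nat.le_ceil _).trans (Nat.cast_le.2 (le_max_right _ _))⟩
  obtain ⟨L, hL0, hcut⟩ := exists_cutoffs (n := n)
  have hn5 : (5 : ℝ) ≤ n := by exact_mod_cast hn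
  set e₁ : EuclideanSpace ℝ (Fin n) := EuclideanSpace.single (⟨0, by omega⟩ : Fin n) (1 : ℝ)
    with he₁
  have hM0 : 0 ≤ M := by
    have hx : e₁ ≠ 0 := by rw [← norm_ne_zero_iff, he₁]; simp
    exact (hW e₁ hx).le.trans (hM e₁ hx (by rw [he₁]; simp))
  set G : ℝ := (m : ℝ) * (n * L) * G₀ with hG
  have hG0 : 0 ≤ G := by positivity
  set Cy : ℝ := (ε / 8) ^ (-3 : ℝ) * G ^ 4 + (ε / 8)⁻¹ * G ^ 2 with hCy
  have hCy0 : 0 ≤ Cy := by positivity
  set δ' : ℝ := ε / (4 * (Cy + 1)) with hδ'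
  have hδ'0 : 0 < δ' := by positivity
  have hδC : Cy * δ' ≤ ε / 4 := by
    rw [hδ', mul_div_assoc', div_le_div_iff₀ (by positivity) (by norm_num)]
    nlinarith
  set V1 : ℝ := volume.real (closedBall (0 : EuclideanSpace ℝ (Fin n)) 1) with hV1
  set wN := fun x => W x * N x with hwN
  have cg : ContinuousOn wN {0}ᶜ := cW.mul cN
  set A0 : Set (EuclideanSpace ℝ (Fin n)) := closedBall 0 2 \ ball 0 1 with hA0
  have hA0m : MeasurableSet A0 := measurableSet_closedBall.diff measurableSet_ball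
  have hA0s : A0 ⊆ {0}ᶜ := fun x hx h0 =>
    hx.2 (by rw [mem_singleton_iff.1 h0]; exact mem_ball_self one_pos)
  set s : ℝ := (n : ℝ) - 4 * (1 + r) with hs
  refine ⟨4 / ε * (Cy * M * 2 ^ n * V1),
    4 / ε * (Cy * δ' ^ (-r) * max 1 ((2 : ℝ) ^ (0 : ℝ)) * 2 ^ n * V1), fun R e' hR he' he'2 => ?_⟩
  obtain ⟨η, hη, hηc, hηsupp, hηI, hη1, hDη, hDsupp⟩ := hcut R e' hR he' he'2
  have hR0 : 0 < R := by linarith
  have hηΩ : tsupport η ⊆ {0}ᶜ := hηsupp.trans fun x hx h0 => hx.2 (by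
    rw [mem_singleton_iff.1 h0]; exact mem_ball_self he')
  set φ : EuclideanSpace ℝ (Fin n) → ℝ := fun x => η x ^ m with hφdef
  have hφ : ContDiff ℝ 1 φ := hη.pow m
  have hφs : tsupport φ ⊆ tsupport η := by
    refine closure_mono fun x hx => ?_
    simp only [Function.mem_support, φ] at hx ⊢
    exact fun h => hx (by rw [h, zero_pow (by omega)])
  have hφc : HasCompactSupport φ := hηc.mono' fun x hx => hφs (subset_tsupport φ hx)
  obtain ⟨hint, hidn⟩ := hid φ hφ hφc (hφs.trans hηΩ)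
  have hφ0 : ∀ x, 0 ≤ φ x := fun x => pow_nonneg (hηI x).1 m
  have hφN : ∀ x, 0 ≤ φ x * wN x := fun x => by
    by_cases hx : x = 0
    · simp [image_eq_zero_of_notMem_tsupport (f := φ) fun h => hφs.trans hηΩ h hx]
    · exact mul_nonneg (hφ0 x) (mul_nonneg (hW x hx).le (hN x hx).le)
  have iwN : Integrable (fun x => φ x * wN x) :=
    integrable_test_mul hΩ hφ.continuous hφc (hφs.trans hηΩ) cg
  have step1 : ε * ∫ x, φ x * wN x ≤ ∫ x, φ x * (W x * T x) := by
    rw [← integral_const_mul]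
    refine integral_mono (iwN.const_mul ε) hint fun x => ?_
    by_cases hx : x = 0
    · simp [image_eq_zero_of_notMem_tsupport (f := φ) fun h => hφs.trans hηΩ h hx]
    · refine le_trans (le_of_eq ?_)
        (mul_le_mul_of_nonneg_left (mul_le_mul_of_nonneg_left (hT x hx) (hW x hx).le) (hφ0 x))
      simp only [wN]; ring
  set a1 : ℝ := Cy * M * e' ^ (-4 : ℝ) with ha1
  set a2 : ℝ := Cy * δ' ^ (-r) * max 1 ((2 : ℝ) ^ (0 : ℝ)) * R ^ ((0 : ℝ) - 4 * (1 + r))
    with ha2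
  have ha10 : 0 ≤ a1 := by positivity
  have ha20 : 0 ≤ a2 := by positivity
  have point : ∀ x, ‖W x * ∑ i, fderiv ℝ φ x (eStd i) * F x i‖ ≤ 3 * ε / 4 * (φ x * wN x) +
      ((closedBall (0 : EuclideanSpace ℝ (Fin n)) (2 * e')).indicator (fun _ => a1) x +
       (closedBall (0 : EuclideanSpace ℝ (Fin n)) (2 * R)).indicator (fun _ => a2) x) := by
    intro x
    have i1 : (0 : ℝ) ≤ (closedBall (0 : EuclideanSpace ℝ (Fin n)) (2 * e')).indicator
      (fun _ => a1) x := indicator_nonneg (fun _ _ => ha10) _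
    have i2 : (0 : ℝ) ≤ (closedBall (0 : EuclideanSpace ℝ (Fin n)) (2 * R)).indicator
      (fun _ => a2) x := indicator_nonneg (fun _ _ => ha20) _
    have hX : 0 ≤ φ x * wN x := hφN x
    by_cases hne : fderiv ℝ η x = 0
    · have h3 : fderiv ℝ φ x = 0 := by
        rw [((hη.differentiable one_ne_zero x).hasFDerivAt.pow m).fderiv, hne, smul_zero]
      simp only [h3, zero_apply, zero_mul, Finset.sum_const_zero, mul_zero, norm_zero]
      linarith [mul_nonneg hε.le hX]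
    have hxΩ : x ∈ ({0}ᶜ : Set (EuclideanSpace ℝ (Fin n))) := hηΩ (support_fderiv_subset ℝ hne)
    have hx0 : 0 < ‖x‖ := norm_pos_iff.2 hxΩ
    obtain ⟨hη0, hη01⟩ := hηI x
    have hw := hW x hxΩ
    have hN0 := (hN x hxΩ).le
    have hdφ : ∀ i, |fderiv ℝ φ x (eStd i)| ≤ m * η x ^ (m - 1) * (L * ‖x‖⁻¹) := by
      intro i
      rw [((hη.differentiable one_ne_zero x).hasFDerivAt.pow m).fderiv]
      have h3 : |fderiv ℝ η x (eStd i)| ≤ L * ‖x‖⁻¹ := by
        refine ((fderiv ℝ η x).le_opNorm (eStd i)).trans ?_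
        rw [show ‖eStd i‖ = 1 by simp [eStd], mul_one]
        exact hDη x
      simpa [abs_mul, abs_of_nonneg hη0] using
        mul_le_mul_of_nonneg_left h3 (show 0 ≤ (m : ℝ) * η x ^ (m - 1) by positivity)
    have hflux : ‖W x * ∑ i, fderiv ℝ φ x (eStd i) * F x i‖ ≤ G * (W x * (η x ^ (m - 1) *
        (‖x‖⁻¹ * N x ^ (3 / 4 : ℝ) + ‖x‖⁻¹ ^ 2 * N x ^ (1 / 2 : ℝ)))) := by
      rw [Real.norm_eq_abs, abs_mul, abs_of_pos hw]
      refine le_trans (mul_le_mul_of_nonneg_left ((Finset.abs_sum_le_sum_abs _ _).trans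
        (Finset.sum_le_sum (g := fun _ => m * η x ^ (m - 1) * (L * ‖x‖⁻¹) *
          (G₀ * (N x ^ (3 / 4 : ℝ) + N x ^ (1 / 2 : ℝ) * ‖x‖⁻¹))) fun i _ => ?_)) hw.le) ?_
      · rw [abs_mul]
        refine mul_le_mul (hdφ i) ((hF x hxΩ i).trans ?_) (abs_nonneg _) (by positivity)
        exact mul_le_mul_of_nonneg_left (le_add_of_nonneg_right (by positivity)) hG₀
      · refine le_of_eq ?_
        rw [Finset.sum_const, Finset.card_univ, Fintype.card_fin, nsmul_eq_mul, hG]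
        ring
    refine hflux.trans ?_
    have hX' : 0 ≤ η x ^ m * (W x * N x) := by positivity
    rcases hDsupp x hne with hcase | hcase
    · refine (flux_inner hw.le (hM x hxΩ (by linarith [hcase.2])) hN0 hη0 hη01 he' hcase.1 hG0
        (show (0 : ℝ) < ε / 8 by positivity) hm5).trans ?_
      rw [indicator_of_mem (s := closedBall (0 : EuclideanSpace ℝ (Fin n)) (2 * e'))
        (mem_closedBall_zero_iff.2 hcase.2), ← hCy]
      simp only [φ, wN, a1]
      linarith [mul_nonneg hε.le hX']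
    · refine (flux_outer (σ := 0) hw hN0 hr (by rw [Real.rpow_zero, one_mul]; exact hWN x hxΩ)
        hη0 hη01 hR0 hcase.1 hcase.2 hG0 (show (0 : ℝ) < ε / 8 by positivity) hδ'0 hmr hm5).trans ?_
      rw [indicator_of_mem (s := closedBall (0 : EuclideanSpace ℝ (Fin n)) (2 * R))
        (mem_closedBall_zero_iff.2 hcase.2), ← hCy]
      simp only [φ, wN, a2]
      linarith [mul_le_mul_of_nonneg_right hδC hX', mul_nonneg hε.le hX']
  obtain ⟨iB1, vB1⟩ :=
    integral_indicator_const_closedBall (n := n) (show 0 ≤ 2 * e' by linarith) a1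
  obtain ⟨iB2, vB2⟩ :=
    integral_indicator_const_closedBall (n := n) (show 0 ≤ 2 * R by linarith) a2
  have step3 := (neg_le_abs _).trans (le_of_eq_of_le (Real.norm_eq_abs _).symm
    (norm_integral_le_of_norm_le (μ := volume) ((iwN.const_mul _).fun_add (iB1.fun_add iB2))
      (Eventually.of_forall point)))
  rw [← hidn, integral_add (iwN.const_mul _) (iB1.fun_add iB2), integral_add iB1 iB2, vB1, vB2,
    integral_const_mul] at step3
  have hlow : ∫ x in A0, wN x ≤ ∫ x, φ x * wN x := by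
    rw [← integral_indicator hA0m]
    refine integral_mono ((integrable_indicator_iff hA0m).2 ((cg.mono hA0s).integrableOn_compact
      ((isCompact_closedBall 0 2).diff isOpen_ball))) iwN fun x => ?_
    refine indicator_apply_le' (fun hx => ?_) fun _ => hφN x
    have hx1 := mem_closedBall_zero_iff.1 hx.1
    have hx2 : 1 ≤ ‖x‖ := not_lt.1 fun h => hx.2 (mem_ball_zero_iff.2 h)
    simp [φ, hη1 x hx2 hx1]
  have e1 : (2 * e') ^ n * V1 * a1 = Cy * M * 2 ^ n * V1 * e' ^ ((n : ℝ) - 4) := by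
    rw [ha1, Real.rpow_sub he', mul_pow, Real.rpow_natCast, Real.rpow_neg he'.le]
    field_simp
  have e2 : (2 * R) ^ n * V1 * a2 =
      Cy * δ' ^ (-r) * max 1 ((2 : ℝ) ^ (0 : ℝ)) * 2 ^ n * V1 * R ^ s := by
    rw [ha2, hs, show (n : ℝ) - 4 * (1 + r) = (n : ℝ) + (0 - 4 * (1 + r)) by ring,
      Real.rpow_add hR0, mul_pow, Real.rpow_natCast]
    ring
  rw [← hV1, e1, e2] at step3
  refine le_of_mul_le_mul_left ?_ (show (0 : ℝ) < ε / 4 by positivity)
  refine le_trans (mul_le_mul_of_nonneg_left hlow (by positivity)) ?_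
  calc ε / 4 * ∫ x, φ x * wN x ≤ Cy * M * 2 ^ n * V1 * e' ^ ((n : ℝ) - 4) +
        Cy * δ' ^ (-r) * max 1 ((2 : ℝ) ^ (0 : ℝ)) * 2 ^ n * V1 * R ^ s := by linarith
    _ = _ := by field_simp

/-- **Two cut-offs.** An integral identity `∫ φ W T = -∫ W ∇φ · F` with `T ≥ ε N`,
`|F| ≤ G N ^ (3/4)` and `W ≤ N ^ r` is impossible for `5 ≤ n < 4 (1 + r)`. -/
theorem false_of_identity (hn : 5 ≤ n) {r ε G₀ M : ℝ} (hr : 0 ≤ r) (hexp : (n : ℝ) < 4 * (1 + r))
    (hε : 0 < ε) (hG₀ : 0 ≤ G₀) {W N T : EuclideanSpace ℝ (Fin n) → ℝ}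
    {F : EuclideanSpace ℝ (Fin n) → Fin n → ℝ}
    (cW : ContinuousOn W {0}ᶜ) (cN : ContinuousOn N {0}ᶜ)
    (hW : ∀ x, x ≠ 0 → 0 < W x) (hN : ∀ x, x ≠ 0 → 0 < N x)
    (hM : ∀ x, x ≠ 0 → ‖x‖ ≤ 1 → W x ≤ M) (hWN : ∀ x, x ≠ 0 → W x ≤ N x ^ r)
    (hT : ∀ x, x ≠ 0 → ε * N x ≤ T x)
    (hF : ∀ x, x ≠ 0 → ∀ i, |F x i| ≤ G₀ * N x ^ (3 / 4 : ℝ))
    (hid : ∀ φ : EuclideanSpace ℝ (Fin n) → ℝ, ContDiff ℝ 1 φ → HasCompactSupport φ →
      tsupport φ ⊆ {0}ᶜ → Integrable (fun x => φ x * (W x * T x)) ∧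
        ∫ x, φ x * (W x * T x) = -∫ x, W x * ∑ i, fderiv ℝ φ x (eStd i) * F x i) : False := by
  obtain ⟨C₁, C₂, main⟩ := energy_of_identity hn hr hε hG₀ cW cN hW hN hM hWN hT hF hid
  have hn5 : (5 : ℝ) ≤ n := by exact_mod_cast hn
  set wN := fun x => W x * N x with hwN
  have cg : ContinuousOn wN {0}ᶜ := cW.mul cN
  set A0 : Set (EuclideanSpace ℝ (Fin n)) := closedBall 0 2 \ ball 0 1 with hA0
  have hA0m : MeasurableSet A0 := measurableSet_closedBall.diff measurableSet_ball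
  have hA0s : A0 ⊆ {0}ᶜ := fun x hx h0 =>
    hx.2 (by rw [mem_singleton_iff.1 h0]; exact mem_ball_self one_pos)
  set s : ℝ := (n : ℝ) - 4 * (1 + r) with hs
  have hI0pos : 0 < ∫ x in A0, wN x := by
    refine (setIntegral_pos_iff_support_of_nonneg_ae ?_ ((cg.mono hA0s).integrableOn_compact
      ((isCompact_closedBall 0 2).diff isOpen_ball))).2 ?_
    · filter_upwards [ae_restrict_mem hA0m] with x hx
      exact (mul_pos (hW x (hA0s hx)) (hN x (hA0s hx))).le
    · have hsub : ball (0 : EuclideanSpace ℝ (Fin n)) 2 \ closedBall 0 1 ⊆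
          Function.support wN ∩ A0 := fun x hx => by
        have hxA : x ∈ A0 :=
          ⟨ball_subset_closedBall hx.1, fun h => hx.2 (ball_subset_closedBall h)⟩
        exact ⟨(mul_pos (hW x (hA0s hxA)) (hN x (hA0s hxA))).ne', hxA⟩
      refine lt_of_lt_of_le ?_ (measure_mono hsub)
      refine (isOpen_ball.sdiff isClosed_closedBall).measure_pos volume ?_
      refine ⟨EuclideanSpace.single (⟨0, by omega⟩ : Fin n) (3 / 2 : ℝ), ?_⟩
      simp
      norm_num
  have lim1 : Tendsto (fun e' : ℝ => C₁ * e' ^ ((n : ℝ) - 4)) (𝓝[>] 0) (𝓝 0) := by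
    have h := ((Real.continuous_rpow_const
      (show (0 : ℝ) ≤ (n : ℝ) - 4 by linarith)).tendsto 0).const_mul C₁
    rw [Real.zero_rpow (by linarith), mul_zero] at h
    exact h.mono_left nhdsWithin_le_nhds
  have main2 : ∀ R : ℝ, 2 ≤ R → ∫ x in A0, wN x ≤ C₂ * R ^ s := by
    intro R hR
    refine ge_of_tendsto (by simpa using lim1.add_const (C₂ * R ^ s)) ?_
    filter_upwards [Ioo_mem_nhdsGT (show (0 : ℝ) < 1 / 2 by norm_num)] with e' he'
    exact main R e' hR he'.1 he'.2.le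
  have lim2 : Tendsto (fun R : ℝ => C₂ * R ^ s) atTop (𝓝 0) := by
    have := (tendsto_rpow_neg_atTop (show 0 < -s by linarith)).const_mul C₂
    simpa using this
  exact hI0pos.not_ge (ge_of_tendsto lim2 (by
    filter_upwards [eventually_ge_atTop (2 : ℝ)] with R hR using main2 R hR))

/-- **The criterion with a factor.** -/
theorem no_solution_of_boundH (hn : 5 ≤ n) {p q r₁ r₂ ε B : ℝ} (c : Fin 14 → ℝ → ℝ) (h : ℝ → ℝ)
    {S₀ : Set ℝ} (hS : IsOpen S₀) (hI : Ioc 0 ((p + 1) / (q + 1)) ⊆ S₀) (hq : 0 < q)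
    (hqp : q ≤ p) (hpq : 1 < p * q) (h1 : 0 ≤ r₁) (h2 : 0 ≤ r₂)
    (hexp : (n : ℝ) < 4 * (1 + r₁ + r₂)) (hε : 0 < ε) (hc : ∀ j, ContDiffOn ℝ 1 (c j) S₀)
    (hh : ContinuousOn h (Ioc 0 ((p + 1) / (q + 1))))
    (hh0 : ∀ z ∈ Ioc (0 : ℝ) ((p + 1) / (q + 1)), 0 < h z ∧ h z ≤ 1)
    (hB : ∀ j, ∀ z ∈ Ioc (0 : ℝ) ((p + 1) / (q + 1)), |c j z| ≤ B * h z)
    (hb : ∀ (a b : Fin n → ℝ) (P Q : ℝ) (H K : Fin n → Fin n → ℝ),
      (∀ i j, H i j = H j i) → (∀ i j, K i j = K j i) →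
      ∑ i, H i i = -(dotv a a + P) → ∑ i, K i i = -(dotv b b + Q) →
      0 < P → 0 < Q → P ≤ (p + 1) / (q + 1) * Q →
      ε * h (P / Q) * nrm a b P Q H K ≤
        rowZ p q (-2 * r₁ + 2 * q * r₂) (2 * p * r₁ - 2 * r₂) c a b P Q H K) :
    ¬ ∃ u v : EuclideanSpace ℝ (Fin n) → ℝ, IsSol p q u v := by
  rintro ⟨u, v, hs⟩
  have hp1 : 1 < p := by nlinarith
  set lam : ℝ := -2 * r₁ + 2 * q * r₂
  set mu : ℝ := 2 * p * r₁ - 2 * r₂
  set κ : ℝ := (p + 1) / (q + 1) with hκdef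
  set Ω : Set (EuclideanSpace ℝ (Fin n)) := {0}ᶜ with hΩdef
  have hΩ : IsOpen Ω := isOpen_compl_singleton
  have hu0 := hs.posU
  have hv0 := hs.posV
  have hcmp := souplet_comparison_punctured (by omega) hq hqp hp1 u v hs.contU hs.contV hs.smoothU
    hs.smoothV hs.posU hs.posV hs.eqU hs.eqV
  have hcone : ∀ x, v x ^ p / u x ≤ κ * (u x ^ q / v x) := fun x => by
    have hux := hu0 x
    have hvx := hv0 x
    have h3 := hcmp x
    rw [div_le_iff₀ (by linarith)] at h3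
    have h4 : v x ^ (p + 1) ≤ κ * u x ^ (q + 1) := by
      rw [hκdef]; exact h3.trans_eq (by field_simp)
    rw [Real.rpow_add hux, Real.rpow_add hvx, Real.rpow_one, Real.rpow_one] at h4
    rw [← mul_div_assoc, div_le_div_iff₀ hux hvx]
    linarith
  set zs := fun x => (v x ^ p / u x) / (u x ^ q / v x) with hzs
  have hzm : ∀ x, zs x ∈ Ioc (0 : ℝ) κ := fun x => by
    have := hu0 x
    have := hv0 x
    refine ⟨by simp only [zs]; positivity, ?_⟩
    simp only [zs]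
    rw [div_le_iff₀ (by positivity)]
    exact hcone x
  have cu := hs.contU
  have cv := hs.contV
  have czs : Continuous zs :=
    ((cv.rpow_const fun x => Or.inl (hv0 x).ne').div cu fun x => (hu0 x).ne').div
      ((cu.rpow_const fun x => Or.inl (hu0 x).ne').div cv fun x => (hv0 x).ne') fun x => by
        have := hu0 x
        have := hv0 x
        positivity
  set w := fun x => u x ^ lam * v x ^ mu with hw
  have cw : Continuous w := (cu.rpow_const fun x => Or.inl (hu0 x).ne').mul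
    (cv.rpow_const fun x => Or.inl (hv0 x).ne')
  have hw0 : ∀ x, 0 < w x := fun x => by
    have := hu0 x; have := hv0 x
    simp only [w]; positivity
  set W := fun x => w x * h (zs x) with hWdef
  set N := fun x => nrmData (solData p q u v x) with hNdef
  obtain ⟨M, hM⟩ := (isCompact_closedBall (0 : EuclideanSpace ℝ (Fin n)) 1).exists_bound_of_continuousOn
    cw.continuousOn
  have hWw : ∀ x, W x ≤ w x := fun x => mul_le_of_le_one_right (hw0 x).le (hh0 _ (hzm x)).2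
  have hNP : ∀ x, (v x ^ p / u x) ^ 2 ≤ N x ∧ (u x ^ q / v x) ^ 2 ≤ N x := fun x =>
    ⟨(sq_dotv_le_nrm _ _ _ _ _ _).2.2.1, (sq_dotv_le_nrm _ _ _ _ _ _).2.2.2.1⟩
  have hN0 : ∀ x, 0 < N x := fun x => by
    have := hu0 x; have := hv0 x
    exact lt_of_lt_of_le (by positivity) (hNP x).1
  have cN : ContinuousOn N Ω := by
    have := (continuousOn_weight_quant (r₁ := 0) (r₂ := 0) (p := p) (q := q) hΩ
      (continuous_nrmData (n := n)) hs.smoothU hs.smoothV (fun x _ => hu0 x) (fun x _ => hv0 x))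
    simpa [solWeight, N] using this
  refine false_of_identity (n := n) hn (r := r₁ + r₂) (ε := ε) (G₀ := (∑ _j : Fin 14, |B|) * (n + 1))
    (M := M) (W := W) (N := N)
    (T := fun x => rowZ p q lam mu c (logGrad u x) (logGrad v x) (v x ^ p / u x) (u x ^ q / v x)
      (logHess u x) (logHess v x) / h (zs x))
    (F := fun x i => (∑ j, c j (zs x) * fld (logGrad u x) (logGrad v x) (v x ^ p / u x)
      (u x ^ q / v x) (logHess u x) (logHess v x) j i) / h (zs x))
    (add_nonneg h1 h2) (by linarith) hε (by positivity)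
    (cw.continuousOn.mul (hh.comp czs.continuousOn fun x _ => hzm x)) cN
    (fun x _ => mul_pos (hw0 x) (hh0 _ (hzm x)).1) (fun x _ => hN0 x)
    (fun x _ hx => (hWw x).trans
      ((le_abs_self _).trans (hM x (mem_closedBall_zero_iff.2 hx))))
    (fun x _ => (hWw x).trans (solWeight_le h1 h2 (hu0 x) (hv0 x) (hNP x).1 (hNP x).2))
    (fun x hx => ?_) (fun x _ i => ?_) fun φ hφ hφc hφs => ?_
  · have hn' := hΩ.mem_nhds hx
    have sy : ∀ {g : EuclideanSpace ℝ (Fin n) → ℝ}, ContDiffOn ℝ 2 g Ω → (∀ y, 0 < g y) →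
        ∀ i j, logHess g x i j = logHess g x j i := fun hg hg0 i j =>
      ((hg.log fun y _ => (hg0 y).ne').contDiffAt hn').isSymmSndFDerivAt (by simp) _ _
    have tr : ∀ {g z : EuclideanSpace ℝ (Fin n) → ℝ} (s : ℝ), ContDiffOn ℝ 2 g Ω →
        (∀ y, 0 < g y) → Δ g x = -(z x) ^ s →
        ∑ i, logHess g x i i = -(dotv (logGrad g x) (logGrad g x) + z x ^ s / g x) := by
      intro g z s hg hg0 he
      refine (sum_log_second hΩ hg (fun y _ => hg0 y) hx).trans ?_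
      rw [he, dotv]
      ring
    have := hu0 x
    have := hv0 x
    rw [le_div_iff₀ (hh0 _ (hzm x)).1]
    refine le_trans (le_of_eq ?_) (hb (logGrad u x) (logGrad v x) (v x ^ p / u x) (u x ^ q / v x)
      (logHess u x) (logHess v x) (sy hs.smoothU hu0) (sy hs.smoothV hv0)
      (tr p hs.smoothU hu0 (hs.eqU x hx)) (tr q hs.smoothV hv0 (hs.eqV x hx))
      (by positivity) (by positivity) (hcone x))
    simp only [N, zs, solData, nrmData]
    ring
  · have hz := hzm x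
    rw [abs_div, abs_of_pos (hh0 _ hz).1, div_le_iff₀ (hh0 _ hz).1, Finset.sum_mul, Finset.sum_mul,
      Finset.sum_mul]
    refine (Finset.abs_sum_le_sum_abs _ _).trans (Finset.sum_le_sum fun j _ => ?_)
    rw [abs_mul]
    refine le_trans (mul_le_mul ((hB j _ hz).trans (mul_le_mul_of_nonneg_right (le_abs_self B)
      (hh0 _ hz).1.le)) (abs_fld_le _ _ _ _ _ _ j i) (abs_nonneg _)
      (mul_nonneg (abs_nonneg _) (hh0 _ hz).1.le)) (le_of_eq ?_)
    simp only [N, solData, nrmData]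
    ring
  · have hsub : tsupport φ ⊆ Ω := hφs
    obtain ⟨a₀, ha₀, hza⟩ := exists_pos_le_of_isCompact hφc czs.continuousOn fun x _ => (hzm x).1
    have hext : ∀ j, ∃ g : ℝ → ℝ, ContDiff ℝ 1 g ∧ ∀ z ∈ Icc a₀ κ, g =ᶠ[𝓝 z] c j := fun j =>
      exists_contDiff_eq_near hS (fun z hz => hI ⟨ha₀.trans_le hz.1, hz.2⟩) (hc j)
    choose g hg hgc using hext
    obtain ⟨hint, hidn⟩ := row_identity (p := p) (q := q) (lam := lam) (mu := mu) hg hΩ hφ hφc
      hsub hs.smoothU hs.smoothV (fun x _ => hu0 x) (fun x _ => hv0 x) (fun x hx => hs.eqU x hx)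
      (fun x hx => hs.eqV x hx)
    have hzI : ∀ x ∈ tsupport φ, zs x ∈ Icc a₀ κ := fun x hx => ⟨hza x hx, (hzm x).2⟩
    have eI : ∀ x, φ x * (W x * (rowZ p q lam mu c (logGrad u x) (logGrad v x) (v x ^ p / u x)
        (u x ^ q / v x) (logHess u x) (logHess v x) / h (zs x))) =
        φ x * (u x ^ lam * v x ^ mu * rowZ p q lam mu g (logGrad u x) (logGrad v x)
          (v x ^ p / u x) (u x ^ q / v x) (logHess u x) (logHess v x)) := fun x => by
      by_cases hx : x ∈ tsupport φ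
      · have er : ∀ (a b : Fin n → ℝ) (H K : Fin n → Fin n → ℝ),
            rowZ p q lam mu g a b (v x ^ p / u x) (u x ^ q / v x) H K =
              rowZ p q lam mu c a b (v x ^ p / u x) (u x ^ q / v x) H K := fun a b H K => by
          unfold rowZ
          refine Finset.sum_congr rfl fun j _ => ?_
          have e := hgc j (zs x) (hzI x hx)
          simp only [zs] at e
          rw [e.deriv_eq, e.eq_of_nhds]
        simp only [er, W, w]
        rw [mul_assoc (u x ^ lam * v x ^ mu), mul_div_cancel₀ _ (hh0 _ (hzm x)).1.ne']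
      · simp [image_eq_zero_of_notMem_tsupport hx]
    have eF : ∀ x, W x * ∑ i, fderiv ℝ φ x (eStd i) *
        ((∑ j, c j (zs x) * fld (logGrad u x) (logGrad v x) (v x ^ p / u x)
          (u x ^ q / v x) (logHess u x) (logHess v x) j i) / h (zs x)) =
        u x ^ lam * v x ^ mu * ∑ i, fderiv ℝ φ x (eStd i) *
        ∑ j, g j ((v x ^ p / u x) / (u x ^ q / v x)) *
          fld (logGrad u x) (logGrad v x) (v x ^ p / u x) (u x ^ q / v x) (logHess u x)
            (logHess v x) j i := fun x => by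
      by_cases hx : x ∈ tsupport φ
      · have e : ∀ j, g j ((v x ^ p / u x) / (u x ^ q / v x)) = c j (zs x) := fun j =>
          (hgc j _ (hzI x hx)).eq_of_nhds
        simp only [e, W, w, Finset.mul_sum]
        refine Finset.sum_congr rfl fun i _ => ?_
        rw [Finset.sum_div, Finset.mul_sum, Finset.mul_sum]
        refine Finset.sum_congr rfl fun j _ => ?_
        have := (hh0 _ (hzm x)).1.ne'
        generalize h (zs x) = t at this ⊢
        field_simp
      · have : fderiv ℝ φ x = 0 := by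
          rw [(notMem_tsupport_iff_eventuallyEq.1 hx).fderiv_eq]; simp
        simp [this]
    simp only [eI, eF]
    exact ⟨hint, hidn⟩

end Vale.Agent.P100
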