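import Mathlib

/-!
# Corner inequalities for the two binary forms

With `N = n - 2`, `x = α/(α+β)`, `w = 1/(α+β)` both discriminants are quadratics in `(x, w)`.
The corner values are polynomials in `m = N - 3` and in `d = 1/(2√(m+15))`.
-/

namespace Vale.Agent.P100

/-- Discriminant of the form from both equations. -/
noncomputable def discL (N x w : ℝ) : ℝ :=
  ((-(N + 2) + 2 / N - (1 + 27 / 20 / N) / N) +
      ((1 + 27 / 20 / N) / N - (1 - 7 / 5 / N) / N) * x + -(4 * (N + 2)) * w) ^ 2 -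
    4 * (((N + 2) * (1 + 1 / N) / 2 + (1 + 27 / 20 / N)) +
        ((N + 6) * (1 + 1 / N) / 2 - (N + 2) * (1 + 1 / N) / 2 - (1 + 27 / 20 / N) -
          (1 + 27 / 20 / N) / N) * x + 2 * (1 + 27 / 20 / N) * w) *
      (((N + 6) * (1 + 1 / N) / 2 - (1 - 7 / 5 / N) / N) +
        ((N + 2) * (1 + 1 / N) / 2 - (N + 6) * (1 + 1 / N) / 2 + (1 - 7 / 5 / N) +
          (1 - 7 / 5 / N) / N) * x + 2 * (1 - 7 / 5 / N) * w)

/-- Discriminant of the form using the square in `P - kQ`. -/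
noncomputable def discQ (N x w : ℝ) : ℝ :=
  (((N + 2) + (1 + 27 / 20 / N) / N + (1 - 1 / 4 / N)) +
      -((N + 2) + (1 + 27 / 20 / N) / N + (1 - 1 / 4 / N) + 2 / N + (1 + 21 / 20 / N)) * x +
      2 * (N + 2) * w) ^ 2 -
    4 * (((N + 2) * (1 + 1 / N) / 2 + (1 + 27 / 20 / N)) +
        ((1 - 1 / 4 / N) - (1 + 27 / 20 / N) / N - (N + 2) * (1 + 1 / N) / 2 -
          (1 + 27 / 20 / N)) * x + 2 * (1 + 27 / 20 / N) * w) *
      (((N + 6) * (1 + 1 / N) / 2 - (1 + 21 / 20 / N)) +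
        -((N + 6) * (1 + 1 / N) / 2 - (1 + 21 / 20 / N)) * x)

/-- The `x`-derivative of `discQ`. -/
noncomputable def discQ' (N x w : ℝ) : ℝ :=
  2 * -((N + 2) + (1 + 27 / 20 / N) / N + (1 - 1 / 4 / N) + 2 / N + (1 + 21 / 20 / N)) *
    (((N + 2) + (1 + 27 / 20 / N) / N + (1 - 1 / 4 / N)) +
      -((N + 2) + (1 + 27 / 20 / N) / N + (1 - 1 / 4 / N) + 2 / N + (1 + 21 / 20 / N)) * x +
      2 * (N + 2) * w) -
    4 * (((1 - 1 / 4 / N) - (1 + 27 / 20 / N) / N - (N + 2) * (1 + 1 / N) / 2 -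
          (1 + 27 / 20 / N)) *
      (((N + 6) * (1 + 1 / N) / 2 - (1 + 21 / 20 / N)) +
        -((N + 6) * (1 + 1 / N) / 2 - (1 + 21 / 20 / N)) * x) +
      -((N + 6) * (1 + 1 / N) / 2 - (1 + 21 / 20 / N)) *
      (((N + 2) * (1 + 1 / N) / 2 + (1 + 27 / 20 / N)) +
        ((1 - 1 / 4 / N) - (1 + 27 / 20 / N) / N - (N + 2) * (1 + 1 / N) / 2 -
          (1 + 27 / 20 / N)) * x + 2 * (1 + 27 / 20 / N) * w))

/-- `d ≥ 4/(m+31)`. -/
theorem four_le_mul_d {m d : ℝ} (hm : 0 ≤ m) (hd : 0 < d) (h : 4 * (m + 15) * d ^ 2 = 1) :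
    4 ≤ d * (m + 31) := by
  by_contra hcon
  push Not at hcon
  have h1 : (d * (m + 31)) ^ 2 < 4 ^ 2 := pow_lt_pow_left₀ hcon (by positivity) two_ne_zero
  have h2 : 4 * (m + 15) * (d * (m + 31)) ^ 2 < 4 * (m + 15) * 4 ^ 2 :=
    mul_lt_mul_of_pos_left h1 (by linarith)
  have h3 : 4 * (m + 15) * (d * (m + 31)) ^ 2 = (m + 31) ^ 2 := by
    linear_combination (m + 31) ^ 2 * h
  linarith [sq_nonneg (m - 1)]

theorem discL_s0 {m d : ℝ} (hm : 0 ≤ m) (hd : 0 < d) (h : 4 * (m + 15) * d ^ 2 = 1) :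
    discL (m + 3) (1 / (1 + d)) 0 < 0 := by
  have hN : m + 3 ≠ 0 := by positivity
  have hd1 : 1 + d ≠ 0 := by positivity
  have e1 : (1 + d) ^ 2 * (m + 3) ^ 4 * discL (m + 3) (1 / (1 + d)) 0 =
      ((-131573 / 25) + (-378793 / 50) * m ^ 1 + (-21346 / 5) * m ^ 2 + (-11729 / 10) * m ^ 3 +
        (-781 / 5) * m ^ 4 + (-8) * m ^ 5) + ((-643959 / 50) + (-441306 / 25) * m ^ 1 +
        (-237676 / 25) * m ^ 2 + (-5013 / 2) * m ^ 3 + (-3219 / 10) * m ^ 4 + (-16) * m ^ 5) * d +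
        ((-2857623 / 400) + (-472843 / 50) * m ^ 1 + (-24756 / 5) * m ^ 2 + (-6387 / 5) * m ^ 3 +
        (-1617 / 10) * m ^ 4 + (-8) * m ^ 5) * d ^ 2 := by
    unfold discL; field_simp; ring
  have h1 : 0 ≤ (3863754 / 5 + 27766278 / 25 * m ^ 1 + 16025784 / 25 * m ^ 2 +
        4710454 / 25 * m ^ 3 + 29340 * m ^ 4 + 11238 / 5 * m ^ 5 + 64 * m ^ 6) := by positivity
  have h2 : 0 < (5240600073 / 400 + 7920955231 / 400 * m ^ 1 + 604139571 / 50 * m ^ 2 +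
        94891337 / 25 * m ^ 3 + 1294145 / 2 * m ^ 4 + 115425 / 2 * m ^ 5 + 11804 / 5 * m ^ 6 +
        32 * m ^ 7) := by positivity
  have h4 := mul_nonneg h1 (sub_nonneg.2 (four_le_mul_d hm hd h))
  have e2 : 4 * (m + 15) * (m + 31) *
      (((-131573 / 25) + (-378793 / 50) * m ^ 1 + (-21346 / 5) * m ^ 2 + (-11729 / 10) * m ^ 3 +
        (-781 / 5) * m ^ 4 + (-8) * m ^ 5) + ((-643959 / 50) + (-441306 / 25) * m ^ 1 +
        (-237676 / 25) * m ^ 2 + (-5013 / 2) * m ^ 3 + (-3219 / 10) * m ^ 4 + (-16) * m ^ 5) * d +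
        ((-2857623 / 400) + (-472843 / 50) * m ^ 1 + (-24756 / 5) * m ^ 2 + (-6387 / 5) * m ^ 3 +
        (-1617 / 10) * m ^ 4 + (-8) * m ^ 5) * d ^ 2) =
      -(5240600073 / 400 + 7920955231 / 400 * m ^ 1 + 604139571 / 50 * m ^ 2 +
        94891337 / 25 * m ^ 3 + 1294145 / 2 * m ^ 4 + 115425 / 2 * m ^ 5 + 11804 / 5 * m ^ 6 +
        32 * m ^ 7) - (3863754 / 5 + 27766278 / 25 * m ^ 1 + 16025784 / 25 * m ^ 2 +
        4710454 / 25 * m ^ 3 + 29340 * m ^ 4 + 11238 / 5 * m ^ 5 + 64 * m ^ 6) * (d * (m +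
        31) - 4) := by
    linear_combination (m + 31) * ((-2857623 / 400) + (-472843 / 50) * m ^ 1 +
        (-24756 / 5) * m ^ 2 + (-6387 / 5) * m ^ 3 + (-1617 / 10) * m ^ 4 + (-8) * m ^ 5) * h
  refine neg_of_mul_neg_right (e1.trans_lt ?_) (by positivity)
  exact neg_of_mul_neg_right (e2.trans_lt (by linarith)) (by positivity)

theorem discL_s1 {m d : ℝ} (hm : 0 ≤ m) (hd : 0 < d) (h : 4 * (m + 15) * d ^ 2 = 1) :
    discL (m + 3) (1 / (1 + d)) (1 / (m + 3) / (1 + d)) < 0 := by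
  have hN : m + 3 ≠ 0 := by positivity
  have hd1 : 1 + d ≠ 0 := by positivity
  have e1 : (1 + d) ^ 2 * (m + 3) ^ 4 * discL (m + 3) (1 / (1 + d)) (1 / (m + 3) / (1 + d)) =
      (31279 / 25 + 60333 / 50 * m ^ 1 + 2164 / 5 * m ^ 2 + 673 / 10 * m ^ 3 + 19 / 5 * m ^ 4) +
        ((-502587 / 50) + (-318663 / 25) * m ^ 1 + (-157876 / 25) * m ^ 2 + (-15223 / 10) * m ^ 3 +
        (-1779 / 10) * m ^ 4 + (-8) * m ^ 5) * d + ((-2857623 / 400) + (-472843 / 50) * m ^ 1 +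
        (-24756 / 5) * m ^ 2 + (-6387 / 5) * m ^ 3 + (-1617 / 10) * m ^ 4 +
        (-8) * m ^ 5) * d ^ 2 := by
    unfold discL; field_simp; ring
  have h1 : 0 ≤ (3015522 / 5 + 20124954 / 25 * m ^ 1 + 10747212 / 25 * m ^ 2 +
        2914954 / 25 * m ^ 3 + 83816 / 5 * m ^ 4 + 5958 / 5 * m ^ 5 + 32 * m ^ 6) := by positivity
  have h2 : 0 < (122690313 / 400 + 418279327 / 400 * m ^ 1 + 8504599 / 10 * m ^ 2 +
        1506517 / 5 * m ^ 3 + 104321 / 2 * m ^ 4 + 42077 / 10 * m ^ 5 +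
        604 / 5 * m ^ 6) := by positivity
  have h4 := mul_nonneg h1 (sub_nonneg.2 (four_le_mul_d hm hd h))
  have e2 : 4 * (m + 15) * (m + 31) *
      ((31279 / 25 + 60333 / 50 * m ^ 1 + 2164 / 5 * m ^ 2 + 673 / 10 * m ^ 3 + 19 / 5 * m ^ 4) +
        ((-502587 / 50) + (-318663 / 25) * m ^ 1 + (-157876 / 25) * m ^ 2 + (-15223 / 10) * m ^ 3 +
        (-1779 / 10) * m ^ 4 + (-8) * m ^ 5) * d + ((-2857623 / 400) + (-472843 / 50) * m ^ 1 +
        (-24756 / 5) * m ^ 2 + (-6387 / 5) * m ^ 3 + (-1617 / 10) * m ^ 4 + (-8) * m ^ 5) * d ^ 2) =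
      -(122690313 / 400 + 418279327 / 400 * m ^ 1 + 8504599 / 10 * m ^ 2 + 1506517 / 5 * m ^ 3 +
        104321 / 2 * m ^ 4 + 42077 / 10 * m ^ 5 + 604 / 5 * m ^ 6) - (3015522 / 5 +
        20124954 / 25 * m ^ 1 + 10747212 / 25 * m ^ 2 + 2914954 / 25 * m ^ 3 + 83816 / 5 * m ^ 4 +
        5958 / 5 * m ^ 5 + 32 * m ^ 6) * (d * (m + 31) - 4) := by
    linear_combination (m + 31) * ((-2857623 / 400) + (-472843 / 50) * m ^ 1 +
        (-24756 / 5) * m ^ 2 + (-6387 / 5) * m ^ 3 + (-1617 / 10) * m ^ 4 + (-8) * m ^ 5) * h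
  refine neg_of_mul_neg_right (e1.trans_lt ?_) (by positivity)
  exact neg_of_mul_neg_right (e2.trans_lt (by linarith)) (by positivity)

theorem discL_h0 {m d : ℝ} (hm : 0 ≤ m) (hd : 0 < d) (h : 4 * (m + 15) * d ^ 2 = 1) :
    discL (m + 3) (1 / 2) 0 < 0 := by
  have hN : m + 3 ≠ 0 := by positivity
  have hd1 : 1 + d ≠ 0 := by positivity
  have e1 : (2 * (1 + d)) ^ 2 * (m + 3) ^ 4 * discL (m + 3) (1 / 2) 0 =
      ((-10114463 / 400) + (-867124 / 25) * m ^ 1 + (-468186 / 25) * m ^ 2 + (-24784 / 5) * m ^ 3 +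
        (-3199 / 5) * m ^ 4 + (-32) * m ^ 5) + ((-10114463 / 200) + (-1734248 / 25) * m ^ 1 +
        (-936372 / 25) * m ^ 2 + (-49568 / 5) * m ^ 3 + (-6398 / 5) * m ^ 4 + (-64) * m ^ 5) * d +
        ((-10114463 / 400) + (-867124 / 25) * m ^ 1 + (-468186 / 25) * m ^ 2 +
        (-24784 / 5) * m ^ 3 + (-3199 / 5) * m ^ 4 + (-32) * m ^ 5) * d ^ 2 := by
    unfold discL; field_simp; ring
  have h1 : 0 ≤ (30343389 / 10 + 218224223 / 50 * m ^ 1 + 63119312 / 25 * m ^ 2 +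
        18615888 / 25 * m ^ 3 + 582152 / 5 * m ^ 4 + 44792 / 5 * m ^ 5 +
        256 * m ^ 6) := by positivity
  have h2 : 0 < (23981391773 / 400 + 7018010907 / 80 * m ^ 1 + 5203054119 / 100 * m ^ 2 +
        398879178 / 25 * m ^ 3 + 66687529 / 25 * m ^ 4 + 1172679 / 5 * m ^ 5 + 47516 / 5 * m ^ 6 +
        128 * m ^ 7) := by positivity
  have h4 := mul_nonneg h1 (sub_nonneg.2 (four_le_mul_d hm hd h))
  have e2 : 4 * (m + 15) * (m + 31) *
      (((-10114463 / 400) + (-867124 / 25) * m ^ 1 + (-468186 / 25) * m ^ 2 +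
        (-24784 / 5) * m ^ 3 + (-3199 / 5) * m ^ 4 + (-32) * m ^ 5) + ((-10114463 / 200) +
        (-1734248 / 25) * m ^ 1 + (-936372 / 25) * m ^ 2 + (-49568 / 5) * m ^ 3 +
        (-6398 / 5) * m ^ 4 + (-64) * m ^ 5) * d + ((-10114463 / 400) + (-867124 / 25) * m ^ 1 +
        (-468186 / 25) * m ^ 2 + (-24784 / 5) * m ^ 3 + (-3199 / 5) * m ^ 4 +
        (-32) * m ^ 5) * d ^ 2) =
      -(23981391773 / 400 + 7018010907 / 80 * m ^ 1 + 5203054119 / 100 * m ^ 2 +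
        398879178 / 25 * m ^ 3 + 66687529 / 25 * m ^ 4 + 1172679 / 5 * m ^ 5 + 47516 / 5 * m ^ 6 +
        128 * m ^ 7) - (30343389 / 10 + 218224223 / 50 * m ^ 1 + 63119312 / 25 * m ^ 2 +
        18615888 / 25 * m ^ 3 + 582152 / 5 * m ^ 4 + 44792 / 5 * m ^ 5 + 256 * m ^ 6) * (d * (m +
        31) - 4) := by
    linear_combination (m + 31) * ((-10114463 / 400) + (-867124 / 25) * m ^ 1 +
        (-468186 / 25) * m ^ 2 + (-24784 / 5) * m ^ 3 + (-3199 / 5) * m ^ 4 + (-32) * m ^ 5) * h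
  refine neg_of_mul_neg_right (e1.trans_lt ?_) (by positivity)
  exact neg_of_mul_neg_right (e2.trans_lt (by linarith)) (by positivity)

theorem discL_h1 {m d : ℝ} (hm : 0 ≤ m) (hd : 0 < d) (h : 4 * (m + 15) * d ^ 2 = 1) :
    discL (m + 3) (1 / 2) (1 / (m + 3) / (1 + d)) < 0 := by
  have hN : m + 3 ≠ 0 := by positivity
  have hd1 : 1 + d ≠ 0 := by positivity
  have e1 : (2 * (1 + d)) ^ 2 * (m + 3) ^ 4 * discL (m + 3) (1 / 2) (1 / (m + 3) / (1 + d)) =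
      (29933 / 80 + 4528 / 25 * m ^ 1 + 914 / 25 * m ^ 2 + 4 * m ^ 3 + 1 / 5 * m ^ 4) +
        ((-7773311 / 200) + (-1237076 / 25) * m ^ 1 + (-616072 / 25) * m ^ 2 +
        (-29884 / 5) * m ^ 3 + (-3518 / 5) * m ^ 4 + (-32) * m ^ 5) * d + ((-10114463 / 400) +
        (-867124 / 25) * m ^ 1 + (-468186 / 25) * m ^ 2 + (-24784 / 5) * m ^ 3 +
        (-3199 / 5) * m ^ 4 + (-32) * m ^ 5) * d ^ 2 := by
    unfold discL; field_simp; ring
  have h1 : 0 ≤ (23319933 / 10 + 156222431 / 50 * m ^ 1 + 41912624 / 25 * m ^ 2 +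
        11429488 / 25 * m ^ 3 + 330616 / 5 * m ^ 4 + 23672 / 5 * m ^ 5 +
        128 * m ^ 6) := by positivity
  have h2 : 0 < (3766360733 / 400 + 5277034119 / 400 * m ^ 1 + 721843111 / 100 * m ^ 2 +
        9931074 / 5 * m ^ 3 + 7200729 / 25 * m ^ 4 + 102583 / 5 * m ^ 5 +
        2716 / 5 * m ^ 6) := by positivity
  have h4 := mul_nonneg h1 (sub_nonneg.2 (four_le_mul_d hm hd h))
  have e2 : 4 * (m + 15) * (m + 31) *
      ((29933 / 80 + 4528 / 25 * m ^ 1 + 914 / 25 * m ^ 2 + 4 * m ^ 3 + 1 / 5 * m ^ 4) +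
        ((-7773311 / 200) + (-1237076 / 25) * m ^ 1 + (-616072 / 25) * m ^ 2 +
        (-29884 / 5) * m ^ 3 + (-3518 / 5) * m ^ 4 + (-32) * m ^ 5) * d + ((-10114463 / 400) +
        (-867124 / 25) * m ^ 1 + (-468186 / 25) * m ^ 2 + (-24784 / 5) * m ^ 3 +
        (-3199 / 5) * m ^ 4 + (-32) * m ^ 5) * d ^ 2) =
      -(3766360733 / 400 + 5277034119 / 400 * m ^ 1 + 721843111 / 100 * m ^ 2 +
        9931074 / 5 * m ^ 3 + 7200729 / 25 * m ^ 4 + 102583 / 5 * m ^ 5 +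
        2716 / 5 * m ^ 6) - (23319933 / 10 + 156222431 / 50 * m ^ 1 + 41912624 / 25 * m ^ 2 +
        11429488 / 25 * m ^ 3 + 330616 / 5 * m ^ 4 + 23672 / 5 * m ^ 5 + 128 * m ^ 6) * (d * (m +
        31) - 4) := by
    linear_combination (m + 31) * ((-10114463 / 400) + (-867124 / 25) * m ^ 1 +
        (-468186 / 25) * m ^ 2 + (-24784 / 5) * m ^ 3 + (-3199 / 5) * m ^ 4 + (-32) * m ^ 5) * h
  refine neg_of_mul_neg_right (e1.trans_lt ?_) (by positivity)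
  exact neg_of_mul_neg_right (e2.trans_lt (by linarith)) (by positivity)

theorem discL_t0 {m : ℝ} (hm : 0 ≤ m) : discL (m + 3) (15 / 16 * (1 - 1 / (m + 3))) 0 < 0 := by
  have hN : m + 3 ≠ 0 := by positivity
  have e1 : (16 * (m + 3)) ^ 2 * (m + 3) ^ 4 * discL (m + 3) (15 / 16 * (1 - 1 / (m + 3))) 0 =
      -(1400605983 / 100 + 2827207431 / 100 * m ^ 1 + 9767660847 / 400 * m ^ 2 +
        291861044 / 25 * m ^ 3 + 3328470 * m ^ 4 + 2820903 / 5 * m ^ 5 + 262116 / 5 * m ^ 6 +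
        2048 * m ^ 7) := by
    unfold discL; field_simp; ring
  have h1 : 0 < (1400605983 / 100 + 2827207431 / 100 * m ^ 1 + 9767660847 / 400 * m ^ 2 +
        291861044 / 25 * m ^ 3 + 3328470 * m ^ 4 + 2820903 / 5 * m ^ 5 + 262116 / 5 * m ^ 6 +
        2048 * m ^ 7) := by positivity
  exact neg_of_mul_neg_right (e1.trans_lt (neg_neg_of_pos h1)) (by positivity)

theorem discL_t1 {m : ℝ} (hm : 0 ≤ m) : discL (m + 3) (15 / 16 * (1 - 1 / (m + 3))) (15 / 16 / (m +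
        3)) < 0 := by
  have hN : m + 3 ≠ 0 := by positivity
  have e1 : (16 * (m + 3)) ^ 2 * (m + 3) ^ 4 * discL (m + 3) (15 / 16 * (1 - 1 / (m +
        3))) (15 / 16 / (m + 3)) =
      -(56699343 / 100 + 91037151 / 100 * m ^ 1 + 282094287 / 400 * m ^ 2 + 8762174 / 25 * m ^ 3 +
        116352 * m ^ 4 + 120663 / 5 * m ^ 5 + 13716 / 5 * m ^ 6 + 128 * m ^ 7) := by
    unfold discL; field_simp; ring
  have h1 : 0 < (56699343 / 100 + 91037151 / 100 * m ^ 1 + 282094287 / 400 * m ^ 2 +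
        8762174 / 25 * m ^ 3 + 116352 * m ^ 4 + 120663 / 5 * m ^ 5 + 13716 / 5 * m ^ 6 +
        128 * m ^ 7) := by positivity
  exact neg_of_mul_neg_right (e1.trans_lt (neg_neg_of_pos h1)) (by positivity)

theorem discL_u1 {m : ℝ} (hm : 0 ≤ m) : discL (m + 3) (1 / 2) (15 / 16 / (m + 3)) < 0 := by
  have hN : m + 3 ≠ 0 := by positivity
  have e1 : 32 ^ 2 * (m + 3) ^ 4 * discL (m + 3) (1 / 2) (15 / 16 / (m + 3)) =
      -(13102448 / 25 + 18404464 / 25 * m ^ 1 + 9503616 / 25 * m ^ 2 + 468544 / 5 * m ^ 3 +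
        55744 / 5 * m ^ 4 + 512 * m ^ 5) := by
    unfold discL; field_simp; ring
  have h1 : 0 < (13102448 / 25 + 18404464 / 25 * m ^ 1 + 9503616 / 25 * m ^ 2 +
        468544 / 5 * m ^ 3 + 55744 / 5 * m ^ 4 + 512 * m ^ 5) := by positivity
  exact neg_of_mul_neg_right (e1.trans_lt (neg_neg_of_pos h1)) (by positivity)

theorem discQ_s0 {m d : ℝ} (hm : 0 ≤ m) (hd : 0 < d) (h : 4 * (m + 15) * d ^ 2 = 1) :
    discQ (m + 3) (1 / (1 + d)) 0 < 0 := by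
  have hN : m + 3 ≠ 0 := by positivity
  have hd1 : 1 + d ≠ 0 := by positivity
  have e1 : (1 + d) ^ 2 * (m + 3) ^ 4 * discQ (m + 3) (1 / (1 + d)) 0 =
      (131769 / 400 + 65703 / 200 * m ^ 1 + 47281 / 400 * m ^ 2 + 181 / 10 * m ^ 3 + 1 * m ^ 4) +
        ((-137187 / 50) + (-794691 / 200) * m ^ 1 + (-89361 / 40) * m ^ 2 + (-3038 / 5) * m ^ 3 +
        (-398 / 5) * m ^ 4 + (-4) * m ^ 5) * d + ((-388881 / 100) + (-256869 / 50) * m ^ 1 +
        (-1063707 / 400) * m ^ 2 + (-673) * m ^ 3 + (-831 / 10) * m ^ 4 +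
        (-4) * m ^ 5) * d ^ 2 := by
    unfold discQ; field_simp; ring
  have h1 : 0 ≤ (823122 / 5 + 12469113 / 50 * m ^ 1 + 3748383 / 25 * m ^ 2 + 453921 / 10 * m ^ 3 +
        36032 / 5 * m ^ 4 + 2792 / 5 * m ^ 5 + 16 * m ^ 6) := by positivity
  have h2 : 0 < (8316243 / 50 + 48902499 / 100 * m ^ 1 + 162277941 / 400 * m ^ 2 +
        59344539 / 400 * m ^ 3 + 2641149 / 100 * m ^ 4 + 21843 / 10 * m ^ 5 +
        64 * m ^ 6) := by positivity
  have h4 := mul_nonneg h1 (sub_nonneg.2 (four_le_mul_d hm hd h))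
  have e2 : 4 * (m + 15) * (m + 31) *
      ((131769 / 400 + 65703 / 200 * m ^ 1 + 47281 / 400 * m ^ 2 + 181 / 10 * m ^ 3 + 1 * m ^ 4) +
        ((-137187 / 50) + (-794691 / 200) * m ^ 1 + (-89361 / 40) * m ^ 2 + (-3038 / 5) * m ^ 3 +
        (-398 / 5) * m ^ 4 + (-4) * m ^ 5) * d + ((-388881 / 100) + (-256869 / 50) * m ^ 1 +
        (-1063707 / 400) * m ^ 2 + (-673) * m ^ 3 + (-831 / 10) * m ^ 4 + (-4) * m ^ 5) * d ^ 2) =
      -(8316243 / 50 + 48902499 / 100 * m ^ 1 + 162277941 / 400 * m ^ 2 + 59344539 / 400 * m ^ 3 +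
        2641149 / 100 * m ^ 4 + 21843 / 10 * m ^ 5 + 64 * m ^ 6) - (823122 / 5 +
        12469113 / 50 * m ^ 1 + 3748383 / 25 * m ^ 2 + 453921 / 10 * m ^ 3 + 36032 / 5 * m ^ 4 +
        2792 / 5 * m ^ 5 + 16 * m ^ 6) * (d * (m + 31) - 4) := by
    linear_combination (m + 31) * ((-388881 / 100) + (-256869 / 50) * m ^ 1 +
        (-1063707 / 400) * m ^ 2 + (-673) * m ^ 3 + (-831 / 10) * m ^ 4 + (-4) * m ^ 5) * h
  refine neg_of_mul_neg_right (e1.trans_lt ?_) (by positivity)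
  exact neg_of_mul_neg_right (e2.trans_lt (by linarith)) (by positivity)

theorem discQ_s1 {m d : ℝ} (hm : 0 ≤ m) (hd : 0 < d) (h : 4 * (m + 15) * d ^ 2 = 1) :
    discQ (m + 3) (1 / (1 + d)) (1 / (m + 3) / (1 + d)) < 0 := by
  have hN : m + 3 ≠ 0 := by positivity
  have hd1 : 1 + d ≠ 0 := by positivity
  have e1 : (1 + d) ^ 2 * (m + 3) ^ 4 * discQ (m + 3) (1 / (1 + d)) (1 / (m + 3) / (1 + d)) =
      (56169 / 400 + 32943 / 200 * m ^ 1 + 28801 / 400 * m ^ 2 + 139 / 10 * m ^ 3 + 1 * m ^ 4) +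
        ((-18603 / 25) + (-155943 / 200) * m ^ 1 + (-12273 / 40) * m ^ 2 + (-54) * m ^ 3 +
        (-18 / 5) * m ^ 4) * d + ((-388881 / 100) + (-256869 / 50) * m ^ 1 +
        (-1063707 / 400) * m ^ 2 + (-673) * m ^ 3 + (-831 / 10) * m ^ 4 +
        (-4) * m ^ 5) * d ^ 2 := by
    unfold discQ; field_simp; ring
  have h1 : 0 ≤ (223236 / 5 + 2487969 / 50 * m ^ 1 + 538209 / 25 * m ^ 2 + 44673 / 10 * m ^ 3 +
        432 * m ^ 4 + 72 / 5 * m ^ 5) := by positivity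
  have h2 : 0 < (1897803 / 50 + 2997747 / 100 * m ^ 1 + 711537 / 80 * m ^ 2 +
        652059 / 400 * m ^ 3 + 27149 / 100 * m ^ 4 + 251 / 10 * m ^ 5) := by positivity
  have h4 := mul_nonneg h1 (sub_nonneg.2 (four_le_mul_d hm hd h))
  have e2 : 4 * (m + 15) * (m + 31) *
      ((56169 / 400 + 32943 / 200 * m ^ 1 + 28801 / 400 * m ^ 2 + 139 / 10 * m ^ 3 + 1 * m ^ 4) +
        ((-18603 / 25) + (-155943 / 200) * m ^ 1 + (-12273 / 40) * m ^ 2 + (-54) * m ^ 3 +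
        (-18 / 5) * m ^ 4) * d + ((-388881 / 100) + (-256869 / 50) * m ^ 1 +
        (-1063707 / 400) * m ^ 2 + (-673) * m ^ 3 + (-831 / 10) * m ^ 4 + (-4) * m ^ 5) * d ^ 2) =
      -(1897803 / 50 + 2997747 / 100 * m ^ 1 + 711537 / 80 * m ^ 2 + 652059 / 400 * m ^ 3 +
        27149 / 100 * m ^ 4 + 251 / 10 * m ^ 5) - (223236 / 5 + 2487969 / 50 * m ^ 1 +
        538209 / 25 * m ^ 2 + 44673 / 10 * m ^ 3 + 432 * m ^ 4 + 72 / 5 * m ^ 5) * (d * (m +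
        31) - 4) := by
    linear_combination (m + 31) * ((-388881 / 100) + (-256869 / 50) * m ^ 1 +
        (-1063707 / 400) * m ^ 2 + (-673) * m ^ 3 + (-831 / 10) * m ^ 4 + (-4) * m ^ 5) * h
  refine neg_of_mul_neg_right (e1.trans_lt ?_) (by positivity)
  exact neg_of_mul_neg_right (e2.trans_lt (by linarith)) (by positivity)

theorem discQ_t0 {m : ℝ} (hm : 0 ≤ m) : discQ (m + 3) (15 / 16 * (1 - 1 / (m + 3))) 0 < 0 := by
  have hN : m + 3 ≠ 0 := by positivity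
  have e1 : (16 * (m + 3)) ^ 2 * (m + 3) ^ 4 * discQ (m + 3) (15 / 16 * (1 - 1 / (m + 3))) 0 =
      -(244511379 / 100 + 418115223 / 100 * m ^ 1 + 1205534979 / 400 * m ^ 2 +
        118024821 / 100 * m ^ 3 + 6720012 / 25 * m ^ 4 + 351421 / 10 * m ^ 5 + 23961 / 10 * m ^ 6 +
        64 * m ^ 7) := by
    unfold discQ; field_simp; ring
  have h1 : 0 < (244511379 / 100 + 418115223 / 100 * m ^ 1 + 1205534979 / 400 * m ^ 2 +
        118024821 / 100 * m ^ 3 + 6720012 / 25 * m ^ 4 + 351421 / 10 * m ^ 5 + 23961 / 10 * m ^ 6 +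
        64 * m ^ 7) := by positivity
  exact neg_of_mul_neg_right (e1.trans_lt (neg_neg_of_pos h1)) (by positivity)

theorem discQ_t1 {m : ℝ} (hm : 0 ≤ m) : discQ (m + 3) (15 / 16 * (1 - 1 / (m + 3))) (15 / 16 / (m +
        3)) < 0 := by
  have hN : m + 3 ≠ 0 := by positivity
  have e1 : (16 * (m + 3)) ^ 2 * (m + 3) ^ 4 * discQ (m + 3) (15 / 16 * (1 - 1 / (m +
        3))) (15 / 16 / (m + 3)) =
      -(47307159 / 100 + 54759753 / 100 * m ^ 1 + 94461219 / 400 * m ^ 2 + 4355811 / 100 * m ^ 3 +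
        49212 / 25 * m ^ 4 + (-2969 / 10) * m ^ 5 + (-39 / 10) * m ^ 6 + 4 * m ^ 7) := by
    unfold discQ; field_simp; ring
  have h1 : 0 < (47307159 / 100 + 54759753 / 100 * m ^ 1 + 94461219 / 400 * m ^ 2 +
        4355811 / 100 * m ^ 3 + 49212 / 25 * m ^ 4 + (-2969 / 10) * m ^ 5 + (-39 / 10) * m ^ 6 +
        4 * m ^ 7) := by
    have := mul_nonneg (pow_nonneg hm 4)
      (mul_nonneg (mul_nonneg (sq_nonneg (m - 27 / 5)) (by linarith : (0 : ℝ) ≤ m + 19 / 2))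
        (by norm_num : (0 : ℝ) ≤ 4))
    have := mul_nonneg (pow_nonneg hm 4) (sq_nonneg (m - 5))
    linarith [pow_nonneg hm 1, pow_nonneg hm 2, pow_nonneg hm 3, pow_nonneg hm 4, pow_nonneg hm 6]
  exact neg_of_mul_neg_right (e1.trans_lt (neg_neg_of_pos h1)) (by positivity)

theorem discQ'_s0 {m d : ℝ} (hm : 0 ≤ m) (hd : 0 < d) :
    0 ≤ discQ' (m + 3) (1 / (1 + d)) 0 := by
  have hN : m + 3 ≠ 0 := by positivity
  have hd1 : 1 + d ≠ 0 := by positivity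
  have e1 : (1 + d) * (m + 3) ^ 4 * discQ' (m + 3) (1 / (1 + d)) 0 =
      (680517 / 200 + 926097 / 200 * m ^ 1 + 247043 / 100 * m ^ 2 + 3219 / 5 * m ^ 3 +
        408 / 5 * m ^ 4 + 4 * m ^ 5) + (125847 / 25 + 1260261 / 200 * m ^ 1 +
        308451 / 100 * m ^ 2 + 3692 / 5 * m ^ 3 + 433 / 5 * m ^ 4 + 4 * m ^ 5) * d := by
    unfold discQ'; field_simp; ring
  exact nonneg_of_mul_nonneg_right (by rw [e1]; positivity) (by positivity : 0 < (1 + d) * (m +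
        3) ^ 4)

theorem discQ'_s1 {m d : ℝ} (hm : 0 ≤ m) (hd : 0 < d) :
    0 ≤ discQ' (m + 3) (1 / (1 + d)) (1 / (m + 3) / (1 + d)) := by
  have hN : m + 3 ≠ 0 := by positivity
  have hd1 : 1 + d ≠ 0 := by positivity
  have e1 : (1 + d) * (m + 3) ^ 4 * discQ' (m + 3) (1 / (1 + d)) (1 / (m + 3) / (1 + d)) =
      (62793 / 200 + 62589 / 200 * m ^ 1 + 12103 / 100 * m ^ 2 + 22 * m ^ 3 + 8 / 5 * m ^ 4) +
        (125847 / 25 + 1260261 / 200 * m ^ 1 + 308451 / 100 * m ^ 2 + 3692 / 5 * m ^ 3 +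
        433 / 5 * m ^ 4 + 4 * m ^ 5) * d := by
    unfold discQ'; field_simp; ring
  exact nonneg_of_mul_nonneg_right (by rw [e1]; positivity) (by positivity : 0 < (1 + d) * (m +
        3) ^ 4)

theorem discQ'_t0 {m : ℝ} (hm : 0 ≤ m) :
    0 ≤ discQ' (m + 3) (15 / 16 * (1 - 1 / (m + 3))) 0 := by
  have hN : m + 3 ≠ 0 := by positivity
  have e1 : (16 * (m + 3)) * (m + 3) ^ 4 * discQ' (m + 3) (15 / 16 * (1 - 1 / (m + 3))) 0 =
      (19268739 / 100 + 61682139 / 200 * m ^ 1 + 10269633 / 50 * m ^ 2 + 1818654 / 25 * m ^ 3 +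
        72011 / 5 * m ^ 4 + 7513 / 5 * m ^ 5 + 64 * m ^ 6) := by
    unfold discQ'; field_simp; ring
  exact nonneg_of_mul_nonneg_right (by rw [e1]; positivity) (by positivity : 0 < (16 * (m +
        3)) * (m + 3) ^ 4)

theorem discQ'_t1 {m : ℝ} (hm : 0 ≤ m) :
    0 ≤ discQ' (m + 3) (15 / 16 * (1 - 1 / (m + 3))) (15 / 16 / (m + 3)) := by
  have hN : m + 3 ≠ 0 := by positivity
  have e1 : (16 * (m + 3)) * (m + 3) ^ 4 * discQ' (m + 3) (15 / 16 * (1 - 1 / (m +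
        3))) (15 / 16 / (m + 3)) =
      (5369949 / 100 + 13558419 / 200 * m ^ 1 + 872664 / 25 * m ^ 2 + 238104 / 25 * m ^ 3 +
        7376 / 5 * m ^ 4 + 613 / 5 * m ^ 5 + 4 * m ^ 6) := by
    unfold discQ'; field_simp; ring
  exact nonneg_of_mul_nonneg_right (by rw [e1]; positivity) (by positivity : 0 < (16 * (m +
        3)) * (m + 3) ^ 4)

end Vale.Agent.P100
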