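import Mathlib
import Vale.Agent.P100.ReducedCert

/-!
# A closed-form certificate with weight `(uv)^((n-3)/(n-2))`

Strict positivity of the scalar form gives a certificate (compactness and homogeneity). For the
closed-form coefficients the form at `ε = 0` is a sum of manifestly nonnegative terms, vanishing
only on the diagonal `a = b`, `P = Q = 0`, where an arbitrarily small change of one coefficient
makes it positive.
-/

open Filter Topology Set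

namespace Vale.Agent.P100

variable {n : ℕ}

/-- The compact cross-section of the cone. -/
def scalSimplex (κ : ℝ) : Set (ℝ × ℝ × ℝ × ℝ × ℝ) :=
  {x | 0 ≤ x.1 ∧ 0 ≤ x.2.1 ∧ x.2.2.1 ^ 2 ≤ x.1 * x.2.1 ∧ 0 ≤ x.2.2.2.1 ∧ 0 ≤ x.2.2.2.2 ∧
    x.2.2.2.1 ≤ κ * x.2.2.2.2 ∧ x.1 + x.2.1 + x.2.2.2.1 + x.2.2.2.2 = 1}

theorem isCompact_scalSimplex (κ : ℝ) : IsCompact (scalSimplex κ) := by
  have hc : IsClosed (scalSimplex κ) := by
    simp only [scalSimplex, ofPred_and]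
    exact (isClosed_le continuous_const (by fun_prop)).inter
      ((isClosed_le continuous_const (by fun_prop)).inter
      ((isClosed_le (by fun_prop) (by fun_prop)).inter
      ((isClosed_le continuous_const (by fun_prop)).inter
      ((isClosed_le continuous_const (by fun_prop)).inter
      ((isClosed_le (by fun_prop) (by fun_prop)).inter
      (isClosed_eq (by fun_prop) continuous_const))))))
  refine (isCompact_Icc (a := ((-1 : ℝ), (-1 : ℝ), (-1 : ℝ), (-1 : ℝ), (-1 : ℝ)))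
    (b := (1, 1, 1, 1, 1))).of_isClosed_subset hc ?_
  rintro ⟨A, B, C, P, Q⟩ ⟨hA, hB, hC, hP, hQ, -, h1⟩
  simp only at hA hB hC hP hQ h1
  have hC1 : |C| ≤ 1 := abs_le_of_sq_le_sq (by nlinarith) zero_le_one
  rw [abs_le] at hC1
  refine ⟨⟨?_, ?_, ?_, ?_, ?_⟩, ⟨?_, ?_, ?_, ?_, ?_⟩⟩ <;> simp only <;> linarith

theorem redForm_smul (n : ℕ) (p q lam mu t x₁ y₁ x₂ y₂ π₁ ρ χ ψ ε s A B C P Q : ℝ) :
    redForm n p q lam mu t x₁ y₁ x₂ y₂ π₁ ρ χ ψ ε (s * A) (s * B) (s * C) (s * P) (s * Q) =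
      s ^ 2 * redForm n p q lam mu t x₁ y₁ x₂ y₂ π₁ ρ χ ψ ε A B C P Q := by
  simp only [redForm, hessQ]; ring

/-- Strict positivity at `ε = 0` gives a certificate. -/
theorem exists_cert_of_redForm_pos {p q κ r₁ r₂ lam mu t x₁ y₁ x₂ y₂ π₁ ρ χ ψ : ℝ} (hn : 0 < n)
    (ht : 0 < t) (h₁ : 0 ≤ r₁) (h₂ : 0 ≤ r₂) (hlam : lam = -2 * r₁ + 2 * q * r₂)
    (hmu : mu = 2 * p * r₁ - 2 * r₂)
    (hpos : ∀ x ∈ scalSimplex κ, 0 < redForm n p q lam mu t x₁ y₁ x₂ y₂ π₁ ρ χ ψ 0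
      x.1 x.2.1 x.2.2.1 x.2.2.2.1 x.2.2.2.2) :
    ∃ ε, Cert n p q κ r₁ r₂ (redCoeff t x₁ y₁ x₂ y₂ π₁ ρ χ ψ) ε := by
  set F : ℝ × (ℝ × ℝ × ℝ × ℝ × ℝ) → ℝ := fun z => redForm n p q lam mu t x₁ y₁ x₂ y₂ π₁ ρ χ ψ
    z.1 z.2.1 z.2.2.1 z.2.2.2.1 z.2.2.2.2.1 z.2.2.2.2.2 with hF
  have hev : ∀ᶠ ε in 𝓝 (0 : ℝ), ∀ x ∈ scalSimplex κ, 0 < F (ε, x) := by
    refine (isCompact_scalSimplex κ).eventually_forall_of_forall_eventually fun x hx => ?_
    refine ContinuousAt.eventually_lt continuousAt_const ?_ (hpos x hx)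
    simp only [hF, redForm, hessQ]
    fun_prop (disch := (simp; try linarith))
  obtain ⟨δ, hδ, hball⟩ := Metric.eventually_nhds_iff.1 hev
  set ε := min (δ / 2) (min (1 / 2) (t / 2)) with hε
  have hε0 : 0 < ε := lt_min (by linarith) (lt_min (by norm_num) (by linarith))
  have hεδ : ε ≤ δ / 2 := min_le_left _ _
  have hε2 : ε ≤ 1 / 2 ∧ ε ≤ t / 2 :=
    ⟨(min_le_right _ _).trans (min_le_left _ _), (min_le_right _ _).trans (min_le_right _ _)⟩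
  refine ⟨ε, cert_of_redForm hn hε0 (by linarith) (by linarith) h₁ h₂ hlam hmu
    fun A B C P Q hA hB hC hP hQ hPQ => ?_⟩
  set S := A + B + P + Q with hS
  have hS0 : 0 < S := by linarith
  have hmem : (A / S, B / S, C / S, P / S, Q / S) ∈ scalSimplex κ := by
    refine ⟨by positivity, by positivity, ?_, by positivity, by positivity, ?_, ?_⟩ <;> simp only
    · rw [div_pow, div_mul_div_comm, ← sq S]; gcongr
    · rw [← mul_div_assoc]; gcongr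
    · field_simp; rw [hS]
  have h := hball (y := ε) (by rw [Real.dist_eq, sub_zero, abs_of_pos hε0]; linarith) _ hmem
  have e := redForm_smul n p q lam mu t x₁ y₁ x₂ y₂ π₁ ρ χ ψ ε S (A / S) (B / S) (C / S) (P / S)
    (Q / S)
  simp only [mul_div_cancel₀ _ hS0.ne'] at e
  rw [e]
  exact mul_nonneg (sq_nonneg S) h.le

/-- The form with `x = L/2`, `y = -(1+e)/2 + δ`, `e = 1/(n-2)`, `L = 1 - e`. -/
noncomputable def closedForm (n : ℕ) (p q π₁ ρ χ ψ δ : ℝ) (x : ℝ × ℝ × ℝ × ℝ × ℝ) : ℝ :=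
  redForm n p q (1 - 1 / ((n : ℝ) - 2)) (1 - 1 / ((n : ℝ) - 2)) 1
    ((1 - 1 / ((n : ℝ) - 2)) / 2) (-(1 + 1 / ((n : ℝ) - 2)) / 2 + δ)
    ((1 - 1 / ((n : ℝ) - 2)) / 2) (-(1 + 1 / ((n : ℝ) - 2)) / 2 + δ) π₁ ρ χ ψ 0
    x.1 x.2.1 x.2.2.1 x.2.2.2.1 x.2.2.2.2

/-- first coefficient of `P·|a|²` (resp. `Q·|b|²`) -/
noncomputable def cfA (n : ℕ) (π₁ : ℝ) : ℝ :=
  (1 + 1 / ((n : ℝ) - 2)) * (1 / 2 + 2 / n - π₁)

/-- coefficient of `P·|b|²` (resp. `Q·|a|²`) -/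
noncomputable def cfB (n : ℕ) (p ρ : ℝ) : ℝ :=
  (1 + 1 / ((n : ℝ) - 2)) / 2 + ρ * (p - 1 / ((n : ℝ) - 2))

/-- coefficient of `P (a·b)` (resp. `Q (a·b)`) -/
noncomputable def cfG (n : ℕ) (p π₁ ρ : ℝ) : ℝ :=
  -p * (1 - π₁) + 2 * (1 / ((n : ℝ) - 2)) / n + π₁ * (1 - 1 / ((n : ℝ) - 2)) -
    1 / ((n : ℝ) - 2) * ρ

theorem closedForm_zero (hn : 3 ≤ n) (p q π₁ ρ χ ψ A B C P Q : ℝ) :
    closedForm n p q π₁ ρ χ ψ 0 (A, B, C, P, Q) =
      (1 + 1 / ((n : ℝ) - 2)) / (2 * n) * ((A + B) * (A + B - 2 * C)) +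
      1 / ((n : ℝ) - 2) / n * (A * B - C ^ 2) +
      P * (cfA n π₁ * A + cfG n p π₁ ρ * C + cfB n p ρ * B) +
      Q * (cfA n ψ * B + cfG n q ψ χ * C + cfB n q χ * A) +
      ((1 / (n : ℝ) - π₁) * P ^ 2 - (ρ + χ) * (P * Q) + (1 / (n : ℝ) - ψ) * Q ^ 2) := by
  have h3 : (3 : ℝ) ≤ n := by exact_mod_cast hn
  have hn0 : (n : ℝ) ≠ 0 := by linarith
  have hn2 : (n : ℝ) - 2 ≠ 0 := by linarith
  simp only [closedForm, redForm, hessQ, cfA, cfB, cfG]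
  field_simp
  ring

/-- A binary form in `(|a|, |b|)` with these signs is positive. -/
theorem cross_pos {a₁ b₁ g A B C : ℝ} (ha : 0 < a₁) (hb : 0 < b₁) (hg : g ^ 2 < 4 * a₁ * b₁)
    (hA : 0 ≤ A) (hB : 0 ≤ B) (hC : C ^ 2 ≤ A * B) (hne : 0 < A + B) :
    0 < a₁ * A + g * C + b₁ * B := by
  have h1 : 0 < a₁ * A + b₁ * B := by
    rcases eq_or_lt_of_le hA with h | h
    · subst h; have := mul_pos hb (by linarith : (0 : ℝ) < B); linarith
    · have := mul_pos ha h; have := mul_nonneg hb.le hB; linarith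
  by_contra hcon
  push Not at hcon
  have h2 : (a₁ * A + b₁ * B) ^ 2 ≤ (g * C) ^ 2 := by
    rw [← neg_sq (g * C)]
    exact pow_le_pow_left₀ h1.le (by linarith) 2
  have h3 : (g * C) ^ 2 ≤ g ^ 2 * (A * B) := by
    rw [mul_pow]; exact mul_le_mul_of_nonneg_left hC (sq_nonneg g)
  rcases eq_or_lt_of_le (mul_nonneg hA hB) with h | h
  · rw [← h, mul_zero] at h3
    linarith [pow_pos h1 2]
  · have h4 := mul_lt_mul_of_pos_right hg h
    nlinarith [sq_nonneg (a₁ * A - b₁ * B)]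

/-- At `δ = 0` the closed form is nonnegative and vanishes only on the diagonal. -/
theorem closedForm_zero_sign (hn : 3 ≤ n) {p q κ π₁ ρ χ ψ A B C P Q : ℝ} (_hκ : 0 ≤ κ)
    (ha₁ : 0 < cfA n π₁) (hb₁ : 0 < cfB n p ρ)
    (hg₁ : cfG n p π₁ ρ ^ 2 < 4 * cfA n π₁ * cfB n p ρ)
    (ha₂ : 0 < cfA n ψ) (hb₂ : 0 < cfB n q χ)
    (hg₂ : cfG n q ψ χ ^ 2 < 4 * cfA n ψ * cfB n q χ)
    (hPQ : ∀ z : ℝ, 0 ≤ z → z ≤ κ →
      0 < (1 / (n : ℝ) - π₁) * z ^ 2 - (ρ + χ) * z + (1 / (n : ℝ) - ψ))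
    (hA : 0 ≤ A) (hB : 0 ≤ B) (hC : C ^ 2 ≤ A * B) (hP : 0 ≤ P) (hQ : 0 ≤ Q) (hPκ : P ≤ κ * Q)
    (h1 : A + B + P + Q = 1) :
    0 ≤ closedForm n p q π₁ ρ χ ψ 0 (A, B, C, P, Q) ∧
      (closedForm n p q π₁ ρ χ ψ 0 (A, B, C, P, Q) = 0 →
        A = 1 / 2 ∧ B = 1 / 2 ∧ C = 1 / 2 ∧ P = 0 ∧ Q = 0) := by
  have h3 : (3 : ℝ) ≤ n := by exact_mod_cast hn
  have hn0 : (0 : ℝ) < n := by linarith
  rw [closedForm_zero hn]
  set e := 1 / ((n : ℝ) - 2) with he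
  have he0 : 0 < e := by rw [he]; exact div_pos one_pos (by linarith)
  have hC2 : 2 * C ≤ A + B := by nlinarith [sq_nonneg (A - B)]
  have t1 : 0 ≤ (1 + e) / (2 * n) * ((A + B) * (A + B - 2 * C)) :=
    mul_nonneg (by positivity) (mul_nonneg (by linarith) (by linarith))
  have t2 : 0 ≤ e / n * (A * B - C ^ 2) := mul_nonneg (by positivity) (by linarith)
  have hAB : A + B = 0 → A = 0 ∧ B = 0 ∧ C = 0 := fun h => by
    have hA0 : A = 0 := by linarith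
    have hB0 : B = 0 := by linarith
    subst hA0 hB0
    refine ⟨rfl, rfl, ?_⟩
    rw [mul_zero] at hC
    exact pow_eq_zero_iff two_ne_zero |>.1 (le_antisymm hC (sq_nonneg C))
  have t3 : 0 ≤ P * (cfA n π₁ * A + cfG n p π₁ ρ * C + cfB n p ρ * B) := by
    rcases eq_or_lt_of_le (add_nonneg hA hB) with h0 | h0
    · obtain ⟨rfl, rfl, rfl⟩ := hAB h0.symm
      simp
    · exact mul_nonneg hP (cross_pos ha₁ hb₁ hg₁ hA hB hC h0).le
  have t4 : 0 ≤ Q * (cfA n ψ * B + cfG n q ψ χ * C + cfB n q χ * A) := by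
    rcases eq_or_lt_of_le (add_nonneg hA hB) with h0 | h0
    · obtain ⟨rfl, rfl, rfl⟩ := hAB h0.symm
      simp
    · exact mul_nonneg hQ
        (cross_pos ha₂ hb₂ hg₂ hB hA (by rwa [mul_comm]) (by linarith)).le
  rcases eq_or_lt_of_le hQ with h | h
  · subst h
    have hP0 : P = 0 := le_antisymm (by simpa using hPκ) hP
    subst hP0
    simp only [zero_mul, mul_zero, zero_pow two_ne_zero, add_zero, sub_zero] at *
    refine ⟨by linarith, fun hz => ?_⟩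
    have hz1 : (1 + e) / (2 * n) * ((A + B) * (A + B - 2 * C)) = 0 := by linarith
    have hz2 : e / n * (A * B - C ^ 2) = 0 := by linarith
    rw [h1, one_mul, mul_eq_zero] at hz1
    rw [mul_eq_zero] at hz2
    have hC' : C = 1 / 2 := by
      rcases hz1 with hz1 | hz1
      · exact absurd hz1 (by positivity)
      · linarith
    have hAB' : A * B = 1 / 4 := by
      rcases hz2 with hz2 | hz2
      · exact absurd hz2 (by positivity)
      · rw [hC'] at hz2; linarith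
    have : (A - B) ^ 2 = 0 := by linear_combination (A + B + 1) * h1 - 4 * hAB'
    rw [sq_eq_zero_iff] at this
    exact ⟨by linarith, by linarith, hC', trivial, trivial⟩
  · have hW : 0 < (1 / (n : ℝ) - π₁) * P ^ 2 - (ρ + χ) * (P * Q) + (1 / (n : ℝ) - ψ) * Q ^ 2 := by
      have := hPQ (P / Q) (by positivity) ((div_le_iff₀ h).2 hPκ)
      have e1 : (1 / (n : ℝ) - π₁) * P ^ 2 - (ρ + χ) * (P * Q) + (1 / (n : ℝ) - ψ) * Q ^ 2 =
          Q ^ 2 * ((1 / (n : ℝ) - π₁) * (P / Q) ^ 2 - (ρ + χ) * (P / Q) +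
          (1 / (n : ℝ) - ψ)) := by field_simp
      rw [e1]; positivity
    exact ⟨by linarith, fun hz => by linarith⟩

/-- **The closed-form certificate.** -/
theorem exists_cert_closedForm (hn : 3 ≤ n) {p q κ π₁ ρ χ ψ : ℝ} (hp : 0 < p) (hq : 0 < q)
    (hpq : 1 < p * q) (hκ : 0 ≤ κ)
    (ha₁ : 0 < cfA n π₁) (hb₁ : 0 < cfB n p ρ)
    (hg₁ : cfG n p π₁ ρ ^ 2 < 4 * cfA n π₁ * cfB n p ρ)
    (ha₂ : 0 < cfA n ψ) (hb₂ : 0 < cfB n q χ)
    (hg₂ : cfG n q ψ χ ^ 2 < 4 * cfA n ψ * cfB n q χ)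
    (hPQ : ∀ z : ℝ, 0 ≤ z → z ≤ κ →
      0 < (1 / (n : ℝ) - π₁) * z ^ 2 - (ρ + χ) * z + (1 / (n : ℝ) - ψ)) :
    ∃ c : Fin 14 → ℝ, ∃ ε, Cert n p q κ ((1 - 1 / ((n : ℝ) - 2)) * (1 + q) / (2 * (p * q - 1)))
      ((1 - 1 / ((n : ℝ) - 2)) * (1 + p) / (2 * (p * q - 1))) c ε := by
  have h3 : (3 : ℝ) ≤ n := by exact_mod_cast hn
  set e := 1 / ((n : ℝ) - 2) with he
  have he0 : 0 < e := by rw [he]; exact div_pos one_pos (by linarith)
  have he1 : e ≤ 1 := by rw [he, div_le_one (by linarith)]; linarith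
  set G := fun δ x => closedForm n p q π₁ ρ χ ψ δ x with hG
  set R₁ := fun x => (G 1 x - G (-1) x) / 2 with hR₁
  set R₂ := fun x => (G 1 x + G (-1) x) / 2 - G 0 x with hR₂
  have hquad : ∀ δ x, G δ x = G 0 x + δ * (R₁ x + δ * R₂ x) := fun δ x => by
    simp only [hR₁, hR₂, hG, closedForm, redForm, hessQ]; ring
  have hcont : ∀ δ, Continuous (G δ) := fun δ => by
    simp only [hG, closedForm, redForm, hessQ]; fun_prop
  -- sign and zero set at δ = 0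
  have hzero : ∀ x ∈ scalSimplex κ, 0 ≤ G 0 x ∧
      (G 0 x = 0 → x = (1 / 2, 1 / 2, 1 / 2, 0, 0)) := by
    rintro ⟨A, B, C, P, Q⟩ ⟨hA, hB, hC, hP, hQ, hPκ, h1⟩
    obtain ⟨k1, k2⟩ := closedForm_zero_sign (p := p) (q := q) hn hκ ha₁ hb₁ hg₁ ha₂ hb₂ hg₂ hPQ
      hA hB hC hP hQ hPκ h1
    refine ⟨k1, fun hz => ?_⟩
    obtain ⟨rfl, rfl, rfl, rfl, rfl⟩ := k2 hz
    rfl
  have hR₁pos : 0 < R₁ (1 / 2, 1 / 2, 1 / 2, 0, 0) := by
    have hev : R₁ (1 / 2, 1 / 2, 1 / 2, 0, 0) = 1 / 2 * (1 + e - 1 / n - 2 * e / n) := by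
      have hn0 : (n : ℝ) ≠ 0 := by linarith
      have hn2 : (n : ℝ) - 2 ≠ 0 := by linarith
      simp only [hR₁, hG, closedForm, redForm, hessQ, he]
      field_simp
      ring
    rw [hev]
    have h1 : 1 / (n : ℝ) ≤ 1 / 3 := by gcongr
    have h2 : 2 * e / n ≤ 2 * e / 3 := by gcongr
    linarith
  have hev : ∀ᶠ δ in 𝓝 (0 : ℝ), ∀ x ∈ scalSimplex κ, x ∈ scalSimplex κ → 0 < δ → 0 < G δ x := by
    refine (isCompact_scalSimplex κ).eventually_forall_of_forall_eventually fun x hx => ?_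
    have hR₁c : Continuous R₁ := ((hcont 1).sub (hcont (-1))).div_const 2
    have hR₂c : Continuous R₂ := (((hcont 1).add (hcont (-1))).div_const 2).sub (hcont 0)
    obtain ⟨h0, hz⟩ := hzero x hx
    rcases eq_or_lt_of_le h0 with h | h
    · have hpos : 0 < R₁ x + 0 * R₂ x := by rw [hz h.symm]; simpa using hR₁pos
      have hc : Continuous fun z : ℝ × (ℝ × ℝ × ℝ × ℝ × ℝ) => R₁ z.2 + z.1 * R₂ z.2 := by fun_prop
      have hG0 : ∀ᶠ z : ℝ × (ℝ × ℝ × ℝ × ℝ × ℝ) in 𝓝 (0, x), 0 < R₁ z.2 + z.1 * R₂ z.2 :=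
        hc.continuousAt.eventually_const_lt hpos
      have hmem : ∀ᶠ z : ℝ × (ℝ × ℝ × ℝ × ℝ × ℝ) in 𝓝 (0, x), z.2 ∈ scalSimplex κ →
          0 < z.1 → 0 < G z.1 z.2 := by
        filter_upwards [hG0] with z hz1 hz2 hz3
        rw [hquad]
        exact add_pos_of_nonneg_of_pos (hzero _ hz2).1 (mul_pos hz3 hz1)
      exact hmem
    · have hc : Continuous fun z : ℝ × (ℝ × ℝ × ℝ × ℝ × ℝ) => G z.1 z.2 := by
        simp only [hG, closedForm, redForm, hessQ]; fun_prop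
      filter_upwards [hc.continuousAt.eventually_const_lt (show 0 < G (0 : ℝ) x from h)] with z hz _ _
      exact hz
  obtain ⟨δ, hδ, hball⟩ := Metric.eventually_nhds_iff.1 hev
  have hδ2 : 0 < δ / 2 := by linarith
  have hpos : ∀ x ∈ scalSimplex κ, 0 < G (δ / 2) x := fun x hx =>
    hball (by rw [Real.dist_eq, sub_zero, abs_of_pos hδ2]; linarith) x hx hx hδ2
  have hne : p * q - 1 ≠ 0 := by linarith
  have hr : ∀ s : ℝ, 0 < s → 0 ≤ (1 - e) * (1 + s) / (2 * (p * q - 1)) := fun s hs =>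
    div_nonneg (mul_nonneg (by linarith) (by linarith)) (by nlinarith)
  exact ⟨_, exists_cert_of_redForm_pos (by omega) one_pos (hr q hq) (hr p hp)
    (lam := 1 - e) (mu := 1 - e)
    (by rw [← mul_div_assoc, ← mul_div_assoc, ← add_div, eq_div_iff (mul_ne_zero two_ne_zero hne)]
        ring)
    (by rw [← mul_div_assoc, ← mul_div_assoc, ← sub_div, eq_div_iff (mul_ne_zero two_ne_zero hne)]
        ring) hpos⟩

end Vale.Agent.P100
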