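import Mathlib
import Vale.Agent.P100.Assembly
import Vale.Agent.P100.ClosedForm

/-!
# Parameters with unequal scales on the two equations

With `k = (p+1)/(q+1)`, `t = k^2`, weight `(uv)^(1-e)`, `e = 1/(n-2)`, `ρ = c₂ k/n`, `χ = c k/n`,
the scalar form is positive as soon as two binary quadratic forms are positive definite. The
second one uses the square `(P - kQ)^2/n` together with the term in `|a-b|^2`.
-/

open Filter Topology Set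

namespace Vale.Agent.P100

variable {n : ℕ}

/-- Strict positivity at `ε = 0` gives positivity for some `ε > 0`. -/
theorem exists_eps_laneForm {p q κ lam mu t x₁ y₁ x₂ y₂ π₁ ρ χ ψ : ℝ}
    (ht : 0 < t)
    (hpos : ∀ x ∈ scalSimplex κ, 0 < redForm n p q lam mu t x₁ y₁ x₂ y₂ π₁ ρ χ ψ 0
      x.1 x.2.1 x.2.2.1 x.2.2.2.1 x.2.2.2.2) :
    ∃ ε, 0 < ε ∧ ε < 1 ∧ ε < t ∧ ∀ A B C P Q : ℝ, 0 ≤ A → 0 ≤ B → C ^ 2 ≤ A * B → 0 < P →
      0 < Q → P ≤ κ * Q → 0 ≤ redForm n p q lam mu t x₁ y₁ x₂ y₂ π₁ ρ χ ψ ε A B C P Q := by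
  set F : ℝ × (ℝ × ℝ × ℝ × ℝ × ℝ) → ℝ := fun z => redForm n p q lam mu t x₁ y₁ x₂ y₂ π₁ ρ χ ψ
    z.1 z.2.1 z.2.2.1 z.2.2.2.1 z.2.2.2.2.1 z.2.2.2.2.2 with hF
  have hev : ∀ᶠ ε in 𝓝 (0 : ℝ), ∀ x ∈ scalSimplex κ, 0 < F (ε, x) := by
    refine (isCompact_scalSimplex κ).eventually_forall_of_forall_eventually fun x hx => ?_
    refine ContinuousAt.eventually_lt continuousAt_const ?_ (hpos x hx)
    simp only [hF, redForm, hessQ]
    fun_prop (disch := (simp; try linarith))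
  obtain ⟨δ, hδ, hball⟩ := Metric.eventually_nhds_iff.1 hev
  set ε := min (δ / 2) (min (1 / 2) (t / 2)) with hε
  have hε0 : 0 < ε := lt_min (by linarith) (lt_min (by norm_num) (by linarith))
  have hεδ : ε ≤ δ / 2 := min_le_left _ _
  have hε2 : ε ≤ 1 / 2 ∧ ε ≤ t / 2 :=
    ⟨(min_le_right _ _).trans (min_le_left _ _), (min_le_right _ _).trans (min_le_right _ _)⟩
  refine ⟨ε, hε0, by linarith, by linarith, fun A B C P Q hA hB hC hP hQ hPQ => ?_⟩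
  set S := A + B + P + Q with hS
  have hS0 : 0 < S := by linarith
  have hmem : (A / S, B / S, C / S, P / S, Q / S) ∈ scalSimplex κ := by
    refine ⟨by positivity, by positivity, ?_, by positivity, by positivity, ?_, ?_⟩ <;> simp only
    · rw [div_pow, div_mul_div_comm, ← sq S]; gcongr
    · rw [← mul_div_assoc]; gcongr
    · field_simp; rw [hS]
  have h := hball (y := ε) (by rw [Real.dist_eq, sub_zero, abs_of_pos hε0]; linarith) _ hmem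
  have e := redForm_smul n p q lam mu t x₁ y₁ x₂ y₂ π₁ ρ χ ψ ε S (A / S) (B / S) (C / S) (P / S)
    (Q / S)
  simp only [mul_div_cancel₀ _ hS0.ne'] at e
  rw [e]
  exact mul_nonneg (sq_nonneg S) h.le

/-- The form with scale `t = k^2` and the perturbation `δ` of one coefficient. -/
noncomputable def laneForm (n : ℕ) (p q k c c₂ δ : ℝ) (x : ℝ × ℝ × ℝ × ℝ × ℝ) : ℝ :=
  redForm n p q (1 - 1 / ((n : ℝ) - 2)) (1 - 1 / ((n : ℝ) - 2)) (k ^ 2)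
    ((1 - 1 / ((n : ℝ) - 2)) / 2) (-(1 + 1 / ((n : ℝ) - 2)) / 2 + δ)
    (k ^ 2 * (1 - 1 / ((n : ℝ) - 2)) / 2) (-(k ^ 2 * (1 + 1 / ((n : ℝ) - 2))) / 2)
    0 (c₂ * k / n) (c * k / n) 0 0
    x.1 x.2.1 x.2.2.1 x.2.2.2.1 x.2.2.2.2

theorem laneForm_zero (hn : 3 ≤ n) (p q k c c₂ A B C P Q : ℝ) :
    laneForm n p q k c c₂ 0 (A, B, C, P, Q) =
      (1 + 1 / ((n : ℝ) - 2)) / (2 * n) * ((A + k ^ 2 * B) * (A + B - 2 * C)) +
      (1 + k ^ 2) * (1 / ((n : ℝ) - 2) / (2 * n)) * (A * B - C ^ 2) +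
      P * ((1 + 1 / ((n : ℝ) - 2)) * (1 / 2 + 2 / n) * A +
        (-p + 2 * (1 / ((n : ℝ) - 2)) / n - 1 / ((n : ℝ) - 2) * (c₂ * k / n)) * C +
        (k ^ 2 * ((1 + 1 / ((n : ℝ) - 2)) / 2) + c₂ * k / n * (p - 1 / ((n : ℝ) - 2))) * B) +
      Q * (((1 + 1 / ((n : ℝ) - 2)) / 2 + c * k / n * (q - 1 / ((n : ℝ) - 2))) * A +
        (k ^ 2 * (-q + 2 * (1 / ((n : ℝ) - 2)) / n) - 1 / ((n : ℝ) - 2) * (c * k / n)) * C +
        k ^ 2 * ((1 + 1 / ((n : ℝ) - 2)) * (1 / 2 + 2 / n)) * B) +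
      ((P - k * Q) ^ 2 / n + (2 - c - c₂) * (k / n) * (P * Q)) := by
  have h3 : (3 : ℝ) ≤ n := by exact_mod_cast hn
  have hn0 : (n : ℝ) ≠ 0 := by linarith
  have hn2 : (n : ℝ) - 2 ≠ 0 := by linarith
  rcases eq_or_ne k 0 with hk | hk
  · subst hk
    simp only [laneForm, redForm, hessQ]
    field_simp
    ring
  simp only [laneForm, redForm, hessQ]
  field_simp
  ring

/-- `(x-y)(r₁ x + r₂ k y)` is controlled by `|a-b|^2 (|a|^2 + k^2 |b|^2)`. -/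
theorem cross_sq_le {r₁ r₂ k A B C x y s : ℝ} (hx : x ^ 2 = A) (hy : y ^ 2 = B) (hC : C ≤ x * y)
    (hr : r₁ ^ 2 + r₂ ^ 2 ≤ s) :
    ((x - y) * (r₁ * x + r₂ * k * y)) ^ 2 ≤ s * ((A + k ^ 2 * B) * (A + B - 2 * C)) := by
  have h1 : (x - y) ^ 2 ≤ A + B - 2 * C := by rw [← hx, ← hy]; linarith [sub_sq x y]
  have h2 : (r₁ * x + r₂ * k * y) ^ 2 ≤ s * (A + k ^ 2 * B) := by
    have : (r₁ * x + r₂ * k * y) ^ 2 ≤ (r₁ ^ 2 + r₂ ^ 2) * (A + k ^ 2 * B) := by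
      rw [← hx, ← hy]; linarith [sq_nonneg (r₁ * k * y - r₂ * x)]
    refine this.trans (mul_le_mul_of_nonneg_right hr ?_)
    rw [← hx, ← hy]; positivity
  rw [mul_pow]
  calc (x - y) ^ 2 * (r₁ * x + r₂ * k * y) ^ 2 ≤ (A + B - 2 * C) * (s * (A + k ^ 2 * B)) :=
        mul_le_mul h1 h2 (sq_nonneg _) ((sq_nonneg _).trans h1)
    _ = _ := by ring

/-- Positive definite binary forms are nonnegative. -/
theorem cross_nonneg_strict {a g b A B C : ℝ} (ha : 0 < a) (hb : 0 < b) (hg : g ^ 2 < 4 * a * b)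
    (hA : 0 ≤ A) (hB : 0 ≤ B) (hC : C ^ 2 ≤ A * B) : 0 ≤ a * A + g * C + b * B := by
  rcases eq_or_lt_of_le (add_nonneg hA hB) with h | h
  · have hA0 : A = 0 := by linarith
    have hB0 : B = 0 := by linarith
    rw [hA0, hB0, mul_zero] at hC
    rw [hA0, hB0, pow_eq_zero_iff two_ne_zero |>.1 (le_antisymm hC (sq_nonneg C))]
    simp
  · exact (cross_pos ha hb hg hA hB hC h).le

/-- Regrouping along `P = kQ - kW`. -/
theorem lane_key {m k r₁ r₂ τ ω γ a₁ g₁ b₁ a₂ g₂ b₂ x y C P Q : ℝ} (hm : m ≠ 0) (hk : k ≠ 0) :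
    τ * ((x ^ 2 + k ^ 2 * y ^ 2) * (x ^ 2 + y ^ 2 - 2 * C)) + ω * (x ^ 2 * y ^ 2 - C ^ 2) +
      P * (a₁ * x ^ 2 + g₁ * C + b₁ * y ^ 2) + Q * (b₂ * x ^ 2 + g₂ * C + a₂ * y ^ 2) +
      ((P - k * Q) ^ 2 / m + γ * (P * Q)) =
    ω * (x ^ 2 * y ^ 2 - C ^ 2) +
      P / k * ((k * a₁ + b₂) * x ^ 2 + (k * g₁ + g₂) * C + (k * b₁ + a₂) * y ^ 2) +
      (Q - P / k) * ((b₂ + k / m * r₁) * x ^ 2 + (g₂ + k / m * (r₂ * k - r₁)) * (x * y) +
        (a₂ - k / m * (r₂ * k)) * y ^ 2) +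
      (Q - P / k) * (-g₂ * (x * y - C)) +
      (τ * ((x ^ 2 + k ^ 2 * y ^ 2) * (x ^ 2 + y ^ 2 - 2 * C)) -
        ((x - y) * (r₁ * x + r₂ * k * y)) ^ 2 / (4 * m)) +
      (k * (Q - P / k) - (x - y) * (r₁ * x + r₂ * k * y) / 2) ^ 2 / m + γ * (P * Q) := by
  field_simp
  ring

/-- Sign and zero set of a form of this shape. -/
theorem lane_sign {m k r₁ r₂ τ ω γ a₁ g₁ b₁ a₂ g₂ b₂ A B C P Q : ℝ}
    (hm : 0 < m) (hk : 0 < k) (hω : 0 ≤ ω) (hγ : 0 < γ) (hτ : 0 < τ)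
    (hr : r₁ ^ 2 + r₂ ^ 2 ≤ 4 * m * τ) (hg : g₂ ≤ 0)
    (haL : 0 < k * a₁ + b₂) (hbL : 0 < k * b₁ + a₂)
    (hL : (k * g₁ + g₂) ^ 2 < 4 * (k * a₁ + b₂) * (k * b₁ + a₂))
    (haQ : 0 < b₂ + k / m * r₁) (hbQ : 0 < a₂ - k / m * (r₂ * k))
    (hQf : (g₂ + k / m * (r₂ * k - r₁)) ^ 2 < 4 * (b₂ + k / m * r₁) * (a₂ - k / m * (r₂ * k)))
    (hA : 0 ≤ A) (hB : 0 ≤ B) (hC : C ^ 2 ≤ A * B) (hP : 0 ≤ P) (hQ : 0 ≤ Q) (hPk : P ≤ k * Q)
    (h1 : A + B + P + Q = 1) {E : ℝ}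
    (hE : E = τ * ((A + k ^ 2 * B) * (A + B - 2 * C)) + ω * (A * B - C ^ 2) +
      P * (a₁ * A + g₁ * C + b₁ * B) + Q * (b₂ * A + g₂ * C + a₂ * B) +
      ((P - k * Q) ^ 2 / m + γ * (P * Q))) :
    0 ≤ E ∧ (E = 0 → A = 1 / 2 ∧ B = 1 / 2 ∧ C = 1 / 2 ∧ P = 0 ∧ Q = 0) := by
  obtain ⟨x, hx0, rfl⟩ : ∃ x, 0 ≤ x ∧ x ^ 2 = A := ⟨√A, Real.sqrt_nonneg A, Real.sq_sqrt hA⟩
  obtain ⟨y, hy0, rfl⟩ : ∃ y, 0 ≤ y ∧ y ^ 2 = B := ⟨√B, Real.sqrt_nonneg B, Real.sq_sqrt hB⟩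
  have hCxy : C ≤ x * y := by
    refine (abs_le_of_sq_le_sq' ?_ (mul_nonneg hx0 hy0)).2
    rw [mul_pow]; exact hC
  rw [lane_key (r₁ := r₁) (r₂ := r₂) hm.ne' hk.ne'] at hE
  have hW : 0 ≤ Q - P / k := by
    rw [sub_nonneg, div_le_iff₀ hk]; linarith
  have hxy : (x * y) ^ 2 ≤ x ^ 2 * y ^ 2 := le_of_eq (mul_pow x y 2)
  have t1 : 0 ≤ ω * (x ^ 2 * y ^ 2 - C ^ 2) := mul_nonneg hω (by linarith)
  have hfL := cross_nonneg_strict haL hbL hL hA hB hC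
  have hfQ := cross_nonneg_strict haQ hbQ hQf hA hB hxy
  have t2 : 0 ≤ P / k * ((k * a₁ + b₂) * x ^ 2 + (k * g₁ + g₂) * C + (k * b₁ + a₂) * y ^ 2) :=
    mul_nonneg (div_nonneg hP hk.le) hfL
  have t3 := mul_nonneg hW hfQ
  have t3' : 0 ≤ (Q - P / k) * (-g₂ * (x * y - C)) :=
    mul_nonneg hW (mul_nonneg (by linarith) (by linarith))
  have t4 : 0 ≤ τ * ((x ^ 2 + k ^ 2 * y ^ 2) * (x ^ 2 + y ^ 2 - 2 * C)) -
      ((x - y) * (r₁ * x + r₂ * k * y)) ^ 2 / (4 * m) := by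
    rw [sub_nonneg, div_le_iff₀ (by linarith)]
    refine (cross_sq_le rfl rfl hCxy hr).trans (le_of_eq ?_)
    ring
  have t5 : 0 ≤ (k * (Q - P / k) - (x - y) * (r₁ * x + r₂ * k * y) / 2) ^ 2 / m := by positivity
  have t6 : 0 ≤ γ * (P * Q) := mul_nonneg hγ.le (mul_nonneg hP hQ)
  refine ⟨by linarith, fun h0 => ?_⟩
  have h5 : k * (Q - P / k) - (x - y) * (r₁ * x + r₂ * k * y) / 2 = 0 := by
    have : (k * (Q - P / k) - (x - y) * (r₁ * x + r₂ * k * y) / 2) ^ 2 / m = 0 := by linarith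
    rw [div_eq_zero_iff, sq_eq_zero_iff] at this
    exact this.resolve_right hm.ne'
  have h6 : P * Q = 0 := by
    have : γ * (P * Q) = 0 := by linarith
    exact (mul_eq_zero.1 this).resolve_left hγ.ne'
  rcases eq_or_lt_of_le hQ with hQ0 | hQ0
  · subst hQ0
    have hP0 : P = 0 := le_antisymm (by linarith) hP
    subst hP0
    simp only [zero_div, sub_zero, mul_zero, zero_sub, neg_eq_zero] at h5
    have hT : τ * ((x ^ 2 + k ^ 2 * y ^ 2) * (x ^ 2 + y ^ 2 - 2 * C)) = 0 := by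
      have : ((x - y) * (r₁ * x + r₂ * k * y)) ^ 2 / (4 * m) = 0 := by
        rw [show (x - y) * (r₁ * x + r₂ * k * y) = 0 by linarith]; simp
      linarith
    have hAk : 0 < x ^ 2 + k ^ 2 * y ^ 2 := by
      rcases eq_or_lt_of_le hA with h | h
      · have hB1 : y ^ 2 = 1 := by linarith
        rw [← h, hB1]; positivity
      · positivity
    have h2C : x ^ 2 + y ^ 2 - 2 * C = 0 :=
      (mul_eq_zero.1 ((mul_eq_zero.1 hT).resolve_left hτ.ne')).resolve_left hAk.ne'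
    have hC' : C = 1 / 2 := by linarith
    have hd : (x ^ 2 - y ^ 2) ^ 2 ≤ 0 := by
      rw [show (x ^ 2 - y ^ 2) ^ 2 = (x ^ 2 + y ^ 2) ^ 2 - 4 * (x ^ 2 * y ^ 2) by ring,
        show x ^ 2 + y ^ 2 = 1 by linarith]
      rw [hC'] at hC; linarith
    have : x ^ 2 - y ^ 2 = 0 := pow_eq_zero_iff two_ne_zero |>.1 (le_antisymm hd (sq_nonneg _))
    exact ⟨by linarith, by linarith, hC', rfl, rfl⟩
  · exfalso
    have hP0 : P = 0 := (mul_eq_zero.1 h6).resolve_right hQ0.ne'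
    subst hP0
    simp only [zero_div, sub_zero] at h5 t3 t3'
    rcases eq_or_lt_of_le (add_nonneg hA hB) with hAB | hAB
    · have hx : x = 0 := by rw [← sq_eq_zero_iff]; linarith
      have hy : y = 0 := by rw [← sq_eq_zero_iff]; linarith
      rw [hx, hy] at h5
      simp only [sub_zero, zero_mul, zero_div, mul_eq_zero] at h5
      rcases h5 with h | h <;> linarith
    · have hp := mul_pos hQ0 (cross_pos haQ hbQ hQf hA hB hxy hAB)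
      simp only [zero_div, sub_zero, zero_mul, mul_zero, add_zero] at hE t5
      linarith

/-- **Parameters from two binary forms.** -/
theorem hasParams_lane (hn : 4 ≤ n) {p q k c c₂ r₁ r₂ e : ℝ}
    (he : e = 1 / ((n : ℝ) - 2)) (hk : 0 < k) (hkdef : k = (p + 1) / (q + 1)) (hc : c + c₂ < 2)
    (hr : r₁ ^ 2 + r₂ ^ 2 ≤ 2 * (1 + e))
    (hg : k ^ 2 * (-q + 2 * e / n) - e * (c * k / n) ≤ 0)
    (haL : 0 < k * ((1 + e) * (1 / 2 + 2 / n)) + ((1 + e) / 2 + c * k / n * (q - e)))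
    (hbL : 0 < k * (k ^ 2 * ((1 + e) / 2) + c₂ * k / n * (p - e)) +
      k ^ 2 * ((1 + e) * (1 / 2 + 2 / n)))
    (hL : (k * (-p + 2 * e / n - e * (c₂ * k / n)) +
        (k ^ 2 * (-q + 2 * e / n) - e * (c * k / n))) ^ 2 <
      4 * (k * ((1 + e) * (1 / 2 + 2 / n)) + ((1 + e) / 2 + c * k / n * (q - e))) *
        (k * (k ^ 2 * ((1 + e) / 2) + c₂ * k / n * (p - e)) +
          k ^ 2 * ((1 + e) * (1 / 2 + 2 / n))))
    (haQ : 0 < (1 + e) / 2 + c * k / n * (q - e) + k / n * r₁)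
    (hbQ : 0 < k ^ 2 * ((1 + e) * (1 / 2 + 2 / n)) - k / n * (r₂ * k))
    (hQf : (k ^ 2 * (-q + 2 * e / n) - e * (c * k / n) + k / n * (r₂ * k - r₁)) ^ 2 <
      4 * ((1 + e) / 2 + c * k / n * (q - e) + k / n * r₁) *
        (k ^ 2 * ((1 + e) * (1 / 2 + 2 / n)) - k / n * (r₂ * k))) :
    HasParams n p q := by
  have h4 : (4 : ℝ) ≤ n := by exact_mod_cast hn
  have h3 : (3 : ℝ) ≤ n := by linarith
  have he0 : 0 < e := by rw [he]; exact div_pos one_pos (by linarith)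
  have he1 : e ≤ 1 / 2 := by rw [he]; gcongr; linarith
  set G := fun δ x => laneForm n p q k c c₂ δ x with hG
  set R₁ := fun x => (G 1 x - G (-1) x) / 2 with hR₁
  set R₂ := fun x => (G 1 x + G (-1) x) / 2 - G 0 x with hR₂
  have hquad : ∀ δ x, G δ x = G 0 x + δ * (R₁ x + δ * R₂ x) := fun δ x => by
    simp only [hR₁, hR₂, hG, laneForm, redForm, hessQ]; ring
  have hcont : ∀ δ, Continuous (G δ) := fun δ => by
    simp only [hG, laneForm, redForm, hessQ]; fun_prop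
  have hzero : ∀ x ∈ scalSimplex k, 0 ≤ G 0 x ∧
      (G 0 x = 0 → x = (1 / 2, 1 / 2, 1 / 2, 0, 0)) := by
    rintro ⟨A, B, C, P, Q⟩ ⟨hA, hB, hC, hP, hQ, hPk, h1⟩
    have hn0 : (0 : ℝ) < n := by linarith
    have hτ : r₁ ^ 2 + r₂ ^ 2 ≤ 4 * (n : ℝ) * ((1 + e) / (2 * n)) :=
      hr.trans (le_of_eq (by field_simp; ring))
    obtain ⟨k1, k2⟩ := lane_sign (ω := (1 + k ^ 2) * (e / (2 * n))) (γ := (2 - c - c₂) * (k / n))
      hn0 hk (by positivity) (mul_pos (by linarith) (by positivity)) (by positivity) hτ hg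
      haL hbL hL haQ hbQ hQf hA hB hC hP hQ hPk h1
      (E := laneForm n p q k c c₂ 0 (A, B, C, P, Q))
      (by rw [laneForm_zero (by omega), ← he])
    refine ⟨k1, fun hz => ?_⟩
    obtain ⟨rfl, rfl, rfl, rfl, rfl⟩ := k2 hz
    rfl
  have hR₁pos : 0 < R₁ (1 / 2, 1 / 2, 1 / 2, 0, 0) := by
    have hev : R₁ (1 / 2, 1 / 2, 1 / 2, 0, 0) = 1 / 4 * (1 + e - 1 / n - 2 * e / n) := by
      have hn0 : (n : ℝ) ≠ 0 := by linarith
      have hn2 : (n : ℝ) - 2 ≠ 0 := by linarith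
      simp only [hR₁, hG, laneForm, redForm, hessQ, he]
      field_simp
      ring
    rw [hev]
    have h1 : 1 / (n : ℝ) ≤ 1 / 3 := by gcongr
    have h2 : 2 * e / n ≤ 2 * e / 3 := by gcongr
    linarith
  have hev : ∀ᶠ δ in 𝓝 (0 : ℝ), ∀ x ∈ scalSimplex k, x ∈ scalSimplex k → 0 < δ → 0 < G δ x := by
    refine (isCompact_scalSimplex k).eventually_forall_of_forall_eventually fun x hx => ?_
    have hR₁c : Continuous R₁ := ((hcont 1).sub (hcont (-1))).div_const 2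
    have hR₂c : Continuous R₂ := (((hcont 1).add (hcont (-1))).div_const 2).sub (hcont 0)
    obtain ⟨h0, hz⟩ := hzero x hx
    rcases eq_or_lt_of_le h0 with h | h
    · have hpos : 0 < R₁ x + 0 * R₂ x := by rw [hz h.symm]; simpa using hR₁pos
      have hc' : Continuous fun z : ℝ × (ℝ × ℝ × ℝ × ℝ × ℝ) => R₁ z.2 + z.1 * R₂ z.2 := by fun_prop
      have hG0 : ∀ᶠ z : ℝ × (ℝ × ℝ × ℝ × ℝ × ℝ) in 𝓝 (0, x), 0 < R₁ z.2 + z.1 * R₂ z.2 :=
        hc'.continuousAt.eventually_const_lt hpos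
      have hmem : ∀ᶠ z : ℝ × (ℝ × ℝ × ℝ × ℝ × ℝ) in 𝓝 (0, x), z.2 ∈ scalSimplex k →
          0 < z.1 → 0 < G z.1 z.2 := by
        filter_upwards [hG0] with z hz1 hz2 hz3
        rw [hquad]
        exact add_pos_of_nonneg_of_pos (hzero _ hz2).1 (mul_pos hz3 hz1)
      exact hmem
    · have hc' : Continuous fun z : ℝ × (ℝ × ℝ × ℝ × ℝ × ℝ) => G z.1 z.2 := by
        simp only [hG, laneForm, redForm, hessQ]; fun_prop
      filter_upwards [hc'.continuousAt.eventually_const_lt (show 0 < G (0 : ℝ) x from h)] with z hz _ _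
      exact hz
  obtain ⟨δ, hδ, hball⟩ := Metric.eventually_nhds_iff.1 hev
  have hδ2 : 0 < δ / 2 := by linarith
  have hpos : ∀ x ∈ scalSimplex k, 0 < G (δ / 2) x := fun x hx =>
    hball (by rw [Real.dist_eq, sub_zero, abs_of_pos hδ2]; linarith) x hx hx hδ2
  obtain ⟨ε, hε, hε1, hεt, hform⟩ := exists_eps_laneForm (by positivity : 0 < k ^ 2) hpos
  rw [← he] at hform
  refine ⟨1 - e, _, _, _, _, _, _, _, _, _, ε, ?_, by linarith, ?_, hε, hε1, hεt,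
    fun A B C P Q hA hB hC hP hQ hPQ => hform A B C P Q hA hB hC hP hQ (by rw [hkdef]; exact hPQ)⟩
  · linarith
  · have h2 : e * ((n : ℝ) - 2) = 1 := by
      rw [he, div_mul_cancel₀]; linarith
    linarith

end Vale.Agent.P100
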