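import Mathlib
import Vale.Agent.P100.LaneForm
import Vale.Agent.P100.LaneCorners

/-!
# The range covered by the scaled closed form

For `q ≤ p`, `α = 2(p+1)/(pq-1)`, `β = 2(q+1)/(pq-1)`, `N = n - 2`: parameters exist if `α ≤ N` and
`α + β ≥ (1 + 1/(2√(N+12))) N`, or `α ≤ N - 1` and `α + β ≥ (16/15) N`.
-/

namespace Vale.Agent.P100

/-- A convex quadratic is negative between two points where it is negative. -/
theorem quad_neg_between {a b c lo hi s : ℝ} (ha : 0 ≤ a) (h1 : a * lo ^ 2 + b * lo + c < 0)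
    (h2 : a * hi ^ 2 + b * hi + c < 0) (hlo : lo ≤ s) (hhi : s ≤ hi) :
    a * s ^ 2 + b * s + c < 0 := by
  rcases eq_or_lt_of_le (hlo.trans hhi) with h | h
  · rw [show s = lo by linarith]; exact h1
  by_contra hcon
  push Not at hcon
  have e : (hi - lo) * (a * s ^ 2 + b * s + c) =
      (hi - s) * (a * lo ^ 2 + b * lo + c) + (s - lo) * (a * hi ^ 2 + b * hi + c) -
        a * (hi - lo) * ((s - lo) * (hi - s)) := by ring
  have n0 := mul_nonneg (sub_nonneg.2 h.le) hcon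
  have n3 := mul_nonneg (mul_nonneg ha (sub_nonneg.2 h.le))
    (mul_nonneg (sub_nonneg.2 hlo) (sub_nonneg.2 hhi))
  rcases eq_or_lt_of_le hlo with hl | hl
  · subst hl; linarith
  · have n1 := mul_nonpos_of_nonneg_of_nonpos (sub_nonneg.2 hhi) h1.le
    have n2 := mul_neg_of_pos_of_neg (sub_pos.2 hl) h2
    linarith

variable {N : ℝ}

/-- `discL` is negative on a box if it is negative at the corners. -/
theorem discL_neg_of_corners (hN : 3 ≤ N) {x w s W : ℝ} (hx0 : 1 / 2 ≤ x) (hx1 : x ≤ s)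
    (hw0 : 0 ≤ w) (hw1 : w ≤ W) (c1 : discL N (1 / 2) 0 < 0) (c2 : discL N (1 / 2) W < 0)
    (c3 : discL N s 0 < 0) (c4 : discL N s W < 0) : discL N x w < 0 := by
  set c := (1 + 27 / 20 / N) with hc
  set c₂ := (1 - 7 / 5 / N) with hc₂
  have he : 0 < 1 / N ∧ 1 / N ≤ 1 / 3 := ⟨by positivity, by gcongr⟩
  have hcb : 0 ≤ c ∧ c ≤ 2 := by
    rw [hc]; constructor <;> linarith [show 27 / 20 / N = 27 / 20 * (1 / N) by ring]
  have hc₂b : 0 ≤ c₂ ∧ c₂ ≤ 2 := by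
    rw [hc₂]; constructor <;> linarith [show 7 / 5 / N = 7 / 5 * (1 / N) by ring]
  have inW : ∀ y, discL N y 0 < 0 → discL N y W < 0 → discL N y w < 0 := by
    intro y h0 h1
    obtain ⟨B, C, hq⟩ : ∃ B C, ∀ z, discL N y z = 16 * ((N + 2) ^ 2 - c * c₂) * z ^ 2 + B * z + C :=
      ⟨(discL N y 1 - discL N y (-1)) / 2, discL N y 0, fun z => by simp only [discL, hc, hc₂]; ring⟩
    rw [hq] at h0 h1 ⊢
    refine quad_neg_between ?_ h0 h1 hw0 hw1
    have h4 : c * c₂ ≤ 2 * 2 := mul_le_mul hcb.2 hc₂b.2 hc₂b.1 (by norm_num)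
    have h5 : (2 : ℝ) ^ 2 ≤ (N + 2) ^ 2 := pow_le_pow_left₀ (by norm_num) (by linarith) 2
    linarith
  obtain ⟨B, C, hq⟩ : ∃ B C, ∀ z, discL N z w =
      (((c - c₂) / N) ^ 2 + 4 * (2 * (1 + 1 / N) - c * (1 + 1 / N)) *
        (2 * (1 + 1 / N) - c₂ * (1 + 1 / N))) * z ^ 2 + B * z + C :=
    ⟨(discL N 1 w - discL N (-1) w) / 2, discL N 0 w, fun z => by
      have hN0 : N ≠ 0 := by linarith
      simp only [discL, hc, hc₂]; field_simp; ring⟩
  have h1 := inW _ c1 c2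
  have h2 := inW _ c3 c4
  rw [hq] at h1 h2 ⊢
  refine quad_neg_between ?_ h1 h2 hx0 hx1
  have : 0 ≤ (2 * (1 + 1 / N) - c * (1 + 1 / N)) * (2 * (1 + 1 / N) - c₂ * (1 + 1 / N)) := by
    rw [← sub_mul, ← sub_mul]
    exact mul_nonneg (mul_nonneg (by linarith) (by linarith)) (mul_nonneg (by linarith) (by linarith))
  linarith [sq_nonneg ((c - c₂) / N)]

/-- The `x`-coefficient of `discQ` is nonpositive. -/
theorem discQ_concave (hN : 3 ≤ N) (x y w : ℝ) :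
    discQ N x w ≤ discQ N y w + discQ' N y w * (x - y) := by
  obtain ⟨m, hm, rfl⟩ : ∃ m, 0 ≤ m ∧ N = m + 3 := ⟨N - 3, by linarith, by ring⟩
  set X := -((m + 3 + 2) + (1 + 27 / 20 / (m + 3)) / (m + 3) + (1 - 1 / 4 / (m + 3)) + 2 / (m + 3) +
    (1 + 21 / 20 / (m + 3))) with hX
  set U := (1 - 1 / 4 / (m + 3)) - (1 + 27 / 20 / (m + 3)) / (m + 3) -
    (m + 3 + 2) * (1 + 1 / (m + 3)) / 2 - (1 + 27 / 20 / (m + 3)) with hU
  set V := -((m + 3 + 6) * (1 + 1 / (m + 3)) / 2 - (1 + 21 / 20 / (m + 3))) with hV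
  have e : discQ (m + 3) x w = discQ (m + 3) y w + discQ' (m + 3) y w * (x - y) +
      (X ^ 2 - 4 * U * V) * (x - y) ^ 2 := by
    simp only [discQ, discQ', hX, hU, hV]; ring
  have hneg : X ^ 2 - 4 * U * V ≤ 0 := by
    have hN0 : m + 3 ≠ 0 := by positivity
    have : (m + 3) ^ 4 * (X ^ 2 - 4 * U * V) ≤ 0 := by
      rw [hX, hU, hV]
      field_simp
      linarith [pow_nonneg hm 2, pow_nonneg hm 3, pow_nonneg hm 4]
    exact nonpos_of_mul_nonpos_right this (by positivity)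
  linarith [mul_nonpos_of_nonpos_of_nonneg hneg (sq_nonneg (x - y))]

/-- `discQ` is negative to the left of `s` if it is negative and increasing at `s`. -/
theorem discQ_neg_of_corners (hN : 3 ≤ N) {x w s W : ℝ} (hx1 : x ≤ s) (hw0 : 0 ≤ w) (hw1 : w ≤ W)
    (c1 : discQ N s 0 < 0) (c2 : discQ N s W < 0) (d1 : 0 ≤ discQ' N s 0)
    (d2 : 0 ≤ discQ' N s W) : discQ N x w < 0 := by
  have h0 : discQ N x 0 < 0 := by
    have := discQ_concave hN x s 0
    linarith [mul_nonpos_of_nonneg_of_nonpos d1 (sub_nonpos.2 hx1)]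
  have h1 : discQ N x W < 0 := by
    have := discQ_concave hN x s W
    linarith [mul_nonpos_of_nonneg_of_nonpos d2 (sub_nonpos.2 hx1)]
  obtain ⟨B, C, hq⟩ : ∃ B C, ∀ z, discQ N x z = 4 * (N + 2) ^ 2 * z ^ 2 + B * z + C :=
    ⟨(discQ N x 1 - discQ N x (-1)) / 2, discQ N x 0, fun z => by simp only [discQ]; ring⟩
  rw [hq] at h0 h1 ⊢
  exact quad_neg_between (by positivity) h0 h1 hw0 hw1

/-- Both discriminants are negative on the range. -/
theorem disc_neg_of_range (hN : 3 ≤ N) {α β : ℝ} (hβ : 0 < β) (hαβ : β ≤ α) (hαN : α ≤ N)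
    (h : N * (1 + 1 / (2 * √(N + 12))) ≤ α + β ∨ (α ≤ N - 1 ∧ 16 / 15 * N ≤ α + β)) :
    discL N (α / (α + β)) (1 / (α + β)) < 0 ∧ discQ N (α / (α + β)) (1 / (α + β)) < 0 := by
  obtain ⟨m, hm, rfl⟩ : ∃ m, 0 ≤ m ∧ N = m + 3 := ⟨N - 3, by linarith, by ring⟩
  have hσ : 0 < α + β := by linarith
  have hw0 : 0 ≤ 1 / (α + β) := by positivity
  have hx0 : 1 / 2 ≤ α / (α + β) := by rw [le_div_iff₀ hσ]; linarith
  rcases h with h | ⟨hα1, h⟩
  · set d := 1 / (2 * √(m + 3 + 12)) with hd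
    have hs : 0 < √(m + 3 + 12) := Real.sqrt_pos.2 (by linarith)
    have hd0 : 0 < d := by positivity
    have hd2 : 4 * (m + 15) * d ^ 2 = 1 := by
      rw [hd, div_pow, mul_pow, one_pow, Real.sq_sqrt (by linarith)]
      field_simp
      ring
    have hx1 : α / (α + β) ≤ 1 / (1 + d) := by
      rw [div_le_div_iff₀ hσ (by positivity)]
      linarith [mul_le_mul_of_nonneg_right hαN (by linarith : 0 ≤ 1 + d)]
    have hw1 : 1 / (α + β) ≤ 1 / (m + 3) / (1 + d) := by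
      rw [div_div]; exact one_div_le_one_div_of_le (by positivity) h
    exact ⟨discL_neg_of_corners hN hx0 hx1 hw0 hw1 (discL_h0 hm hd0 hd2) (discL_h1 hm hd0 hd2)
        (discL_s0 hm hd0 hd2) (discL_s1 hm hd0 hd2),
      discQ_neg_of_corners hN hx1 hw0 hw1 (discQ_s0 hm hd0 hd2) (discQ_s1 hm hd0 hd2)
        (discQ'_s0 hm hd0) (discQ'_s1 hm hd0)⟩
  · have hx1 : α / (α + β) ≤ 15 / 16 * (1 - 1 / (m + 3)) := by
      rw [div_le_iff₀ hσ]
      calc α ≤ m + 3 - 1 := hα1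
        _ = 15 / 16 * (1 - 1 / (m + 3)) * (16 / 15 * (m + 3)) := by field_simp
        _ ≤ _ := mul_le_mul_of_nonneg_left h
            (mul_nonneg (by norm_num) (by rw [sub_nonneg, div_le_one (by linarith)]; linarith))
    have hw1 : 1 / (α + β) ≤ 15 / 16 / (m + 3) := by
      rw [div_le_div_iff₀ hσ (by positivity)]; linarith
    have hh : discL (m + 3) (1 / 2) 0 < 0 := by
      set d := 1 / (2 * √(m + 15))
      have hs : 0 < √(m + 15) := Real.sqrt_pos.2 (by linarith)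
      refine discL_h0 (d := d) hm (by positivity) ?_
      rw [div_pow, mul_pow, one_pow, Real.sq_sqrt (by linarith)]
      field_simp
      ring
    exact ⟨discL_neg_of_corners hN hx0 hx1 hw0 hw1 hh (discL_u1 hm)
        (discL_t0 hm) (discL_t1 hm),
      discQ_neg_of_corners hN hx1 hw0 hw1 (discQ_t0 hm) (discQ_t1 hm)
        (discQ'_t0 hm) (discQ'_t1 hm)⟩

/-- **Parameters on the range.** -/
theorem hasParams_range {n : ℕ} (hn : 5 ≤ n) {p q : ℝ} (hq : 0 < q) (hqp : q ≤ p) (hpq : 1 < p * q)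
    (hser : 2 * (p + 1) ≤ ((n : ℝ) - 2) * (p * q - 1))
    (h : ((n : ℝ) - 2) * (1 + 1 / (2 * √((n : ℝ) + 10))) ≤
          2 * (p + 1) / (p * q - 1) + 2 * (q + 1) / (p * q - 1) ∨
        (2 * (p + 1) / (p * q - 1) ≤ (n : ℝ) - 3 ∧
          16 / 15 * ((n : ℝ) - 2) ≤ 2 * (p + 1) / (p * q - 1) + 2 * (q + 1) / (p * q - 1))) :
    HasParams n p q := by
  have h5 : (5 : ℝ) ≤ n := by exact_mod_cast hn
  have hd : 0 < p * q - 1 := by linarith
  set α := 2 * (p + 1) / (p * q - 1) with hα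
  set β := 2 * (q + 1) / (p * q - 1) with hβ
  set N := (n : ℝ) - 2 with hN
  have hN3 : 3 ≤ N := by linarith
  have hN0 : N ≠ 0 := by linarith
  have hβ0 : 0 < β := div_pos (by linarith) hd
  have hαβ : β ≤ α := div_le_div_of_nonneg_right (by linarith) hd.le
  have hα0 : 0 < α := hβ0.trans_le hαβ
  have hαN : α ≤ N := by rw [hα, div_le_iff₀ hd]; linarith
  have hσ : α + β ≠ 0 := by linarith
  have hαm : α * (p * q - 1) = 2 * (p + 1) := div_mul_cancel₀ _ hd.ne'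
  have hβm : β * (p * q - 1) = 2 * (q + 1) := div_mul_cancel₀ _ hd.ne'
  have hp_eq : p = (α + 2) / β := by
    rw [eq_div_iff hβ0.ne']
    exact mul_right_cancel₀ hd.ne' (by linear_combination p * hβm - hαm)
  have hq_eq : q = (β + 2) / α := by
    rw [eq_div_iff hα0.ne']
    exact mul_right_cancel₀ hd.ne' (by linear_combination q * hαm - hβm)
  have hk : (p + 1) / (q + 1) = α / β := by rw [hα, hβ]; field_simp
  obtain ⟨hL, hQ⟩ := disc_neg_of_range hN3 hβ0 hαβ hαN (by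
    rcases h with h | ⟨h1, h2⟩
    · exact Or.inl (by rw [show N + 12 = (n : ℝ) + 10 by rw [hN]; ring]; exact h)
    · exact Or.inr ⟨by linarith, h2⟩)
  set c := 1 + 27 / 20 / N with hc
  set c₂ := 1 - 7 / 5 / N with hc₂
  set r₁ := 1 - 1 / 4 / N with hr₁
  set r₂ := 1 + 21 / 20 / N with hr₂
  have hu : 0 < 1 / N ∧ 1 / N ≤ 1 / 3 := ⟨by positivity, by gcongr⟩
  have hcd : ∀ a : ℝ, a / N = a * (1 / N) := fun a => by ring
  have hc0 : 0 ≤ c ∧ c ≤ 3 / 2 := by constructor <;> linarith [hcd (27 / 20)]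
  have hc₂0 : 0 ≤ c₂ ∧ c₂ ≤ 1 := by constructor <;> linarith [hcd (7 / 5)]
  have hr₁0 : 1 / 2 ≤ r₁ ∧ r₂ ≤ 3 / 2 := by constructor <;> linarith [hcd (1 / 4), hcd (21 / 20)]
  have hce : c * (1 / N) ≤ 1 / 2 := le_trans (mul_le_mul hc0.2 hu.2 hu.1.le (by norm_num)) (by norm_num)
  have hce₂ : c₂ * (1 / N) ≤ 1 / 2 :=
    le_trans (mul_le_mul hc₂0.2 hu.2 hu.1.le (by norm_num)) (by norm_num)
  have hn0 : (0 : ℝ) < n := by linarith
  have hbase : 1 ≤ (1 + 1 / N) * ((n : ℝ) + 4) / 2 ∧ 0 ≤ (1 + 1 / N) * n / 2 := by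
    refine ⟨?_, by positivity⟩
    linarith [mul_nonneg hu.1.le (by linarith : (0 : ℝ) ≤ (n : ℝ) + 4)]
  have hA1 : 0 < (1 + 1 / N) * ((n : ℝ) + 4) / 2 * α + (1 + 1 / N) * n / 2 * β +
      c * (β + 2 - 1 / N * α) := by
    have := mul_le_mul_of_nonneg_right hbase.1 hα0.le
    have := mul_nonneg hbase.2 hβ0.le
    have := mul_nonneg hc0.1 (by linarith : (0 : ℝ) ≤ β + 2)
    linarith [mul_le_mul_of_nonneg_right hce hα0.le]
  have hB1 : 0 < (1 + 1 / N) * ((n : ℝ) + 4) / 2 * β + (1 + 1 / N) * n / 2 * α +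
      c₂ * (α + 2 - 1 / N * β) := by
    have := mul_le_mul_of_nonneg_right hbase.1 hβ0.le
    have := mul_nonneg hbase.2 hα0.le
    have := mul_nonneg hc₂0.1 (by linarith : (0 : ℝ) ≤ α + 2)
    linarith [mul_le_mul_of_nonneg_right hce₂ hβ0.le]
  have hA2 : 0 < (1 + 1 / N) * n / 2 * β + c * (β + 2 - 1 / N * α) + r₁ * α := by
    have h1 : 0 < (1 + 1 / N) * n / 2 * β := by positivity
    have := mul_nonneg hc0.1 (by linarith : (0 : ℝ) ≤ β + 2)
    linarith [mul_le_mul_of_nonneg_right hce hα0.le, mul_le_mul_of_nonneg_right hr₁0.1 hα0.le]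
  have hB2 : 0 < (1 + 1 / N) * ((n : ℝ) + 4) / 2 - r₂ := by
    linarith [mul_nonneg hu.1.le (by linarith : (0 : ℝ) ≤ (n : ℝ) + 4)]
  have hnN : (n : ℝ) = N + 2 := by linarith
  refine hasParams_lane (n := n) (k := α / β) (c := c) (c₂ := c₂) (r₁ := r₁) (r₂ := r₂)
    (e := 1 / N) (by omega) (by rw [hN]) (by positivity) hk.symm ?_ ?_ ?_ ?_ ?_ ?_ ?_ ?_ ?_
  · linarith [hcd (27 / 20), hcd (7 / 5)]
  · linarith [hcd (1 / 4), hcd (21 / 20), show r₁ ^ 2 + r₂ ^ 2 =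
      2 + 8 / 5 * (1 / N) + 233 / 200 * (1 / N) ^ 2 by rw [hr₁, hr₂]; ring,
      mul_le_mul_of_nonneg_left hu.2 hu.1.le]
  · have hq2 : 2 * (1 / N) / n ≤ q := by
      rw [hq_eq, le_div_iff₀ hα0]
      have : 2 * (1 / N) / n * α ≤ 2 * (1 / N) / n * N :=
        mul_le_mul_of_nonneg_left hαN (by positivity)
      have h2 : 2 * (1 / N) / n * N = 2 / n := by field_simp
      have h3 : 2 / (n : ℝ) ≤ 2 / 1 := by gcongr; linarith
      linarith
    have := mul_nonpos_of_nonneg_of_nonpos (sq_nonneg (α / β))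
      (by linarith : -q + 2 * (1 / N) / n ≤ 0)
    have : 0 ≤ 1 / N * (c * (α / β) / n) :=
      mul_nonneg hu.1.le (div_nonneg (mul_nonneg hc0.1 (by positivity)) hn0.le)
    linarith
  · rw [hq_eq]
    refine (div_pos hA1 (mul_pos hn0 hβ0)).trans_eq ?_
    field_simp
    ring
  · rw [hp_eq]
    refine (mul_pos (pow_pos (div_pos hα0 hβ0) 2) (div_pos hB1 (mul_pos hn0 hβ0))).trans_eq ?_
    field_simp
    ring
  · rw [hq_eq, hp_eq, ← sub_neg]
    refine lt_of_eq_of_lt (b := (α / β) ^ 2 * (α + β) ^ 2 / (n * β) ^ 2 *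
      discL N (α / (α + β)) (1 / (α + β))) ?_ (mul_neg_of_pos_of_neg (by positivity) hL)
    simp only [discL, hnN, hc, hc₂]
    field_simp
    ring
  · rw [hq_eq]
    refine (div_pos hA2 (mul_pos hn0 hβ0)).trans_eq ?_
    field_simp
  · refine (mul_pos (pow_pos (div_pos hα0 hβ0) 2) (div_pos hB2 hn0)).trans_eq ?_
    field_simp
    ring
  · rw [hq_eq, ← sub_neg]
    refine lt_of_eq_of_lt (b := (α / β) ^ 2 * (α + β) ^ 2 / (n * β) ^ 2 *
      discQ N (α / (α + β)) (1 / (α + β))) ?_ (mul_neg_of_pos_of_neg (by positivity) hQ)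
    simp only [discQ, hnN, hc, hr₁, hr₂]
    field_simp
    ring

end Vale.Agent.P100
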