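import Mathlib
import Vale.Agent.P100.Assembly
import Vale.Agent.P100.ClosedForm

/-!
# Parameters from decoupled scalar conditions

With weight `(uv)^L` the scalar form at `ε = 0` splits into a quartic in `(|a|, |b|)`, two linear
forms multiplying `P` and `Q`, and a quadratic form in `(P, Q)`. If the quartic and the quadratic
form are positive and the linear forms are nonnegative, some `ε > 0` gives `HasParams`.
-/

open Filter Topology Set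

namespace Vale.Agent.P100

variable {n : ℕ}

/-- coefficient of `|a|⁴` (`X = L - 2 + 2 x₁`) -/
noncomputable def cAA (n : ℕ) (L x₁ : ℝ) : ℝ :=
  1 / n - (L - 2 + 2 * x₁) / n - (L - 2 + 2 * x₁) ^ 2 * (1 - 1 / n) / 4 + x₁ * (L - 1)

/-- coefficient of `|b|⁴` -/
noncomputable def cBB (n : ℕ) (L t x₂ : ℝ) : ℝ :=
  t / n - (t * (L - 2) + 2 * x₂) / n - (t * (L - 2) + 2 * x₂) ^ 2 * (1 - 1 / n) / (4 * t) +
    x₂ * (L - 1)

/-- coefficient of `|a|² (a·b)` -/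
noncomputable def cAC (n : ℕ) (L x₁ y₁ : ℝ) : ℝ :=
  -(L + 2 * y₁) / n - (L - 2 + 2 * x₁) * (L + 2 * y₁) * (1 - 1 / n) / 2 + L * (x₁ + y₁)

/-- coefficient of `|b|² (a·b)` -/
noncomputable def cBC (n : ℕ) (L t x₂ y₂ : ℝ) : ℝ :=
  -(t * L + 2 * y₂) / n - (t * (L - 2) + 2 * x₂) * (t * L + 2 * y₂) * (1 - 1 / n) / (2 * t) +
    L * (x₂ + y₂)

/-- coefficient of `|a|²|b|²` -/
noncomputable def cAB (L t y₁ y₂ : ℝ) : ℝ :=
  -(L + 2 * y₁) ^ 2 / 8 - (t * L + 2 * y₂) ^ 2 / (8 * t) + (y₁ + y₂) * (L - 1)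

/-- coefficient of `(a·b)²` -/
noncomputable def cCC (n : ℕ) (L t y₁ y₂ : ℝ) : ℝ :=
  -((L + 2 * y₁) ^ 2 / 4 + (t * L + 2 * y₂) ^ 2 / (4 * t)) * (1 / 2 - 1 / n)

/-- coefficient of `P |a|²` -/
noncomputable def cPA (n : ℕ) (L x₁ π₁ : ℝ) : ℝ :=
  2 / n - (L - 2 + 2 * x₁) / n + 1 - x₁ + π₁ * (L - 2)

/-- coefficient of `P (a·b)` -/
noncomputable def cPC (n : ℕ) (p L y₁ π₁ ρ : ℝ) : ℝ :=
  -(L + 2 * y₁) / n - p + π₁ * (p + L) + ρ * (L - 1)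

/-- coefficient of `P |b|²` -/
noncomputable def cPB (p L y₂ ρ : ℝ) : ℝ := -y₂ + ρ * (p - 1 + L)

/-- coefficient of `Q |b|²` -/
noncomputable def cQB (n : ℕ) (L t x₂ ψ : ℝ) : ℝ :=
  2 * t / n - (t * (L - 2) + 2 * x₂) / n + t - x₂ + ψ * (L - 2)

/-- coefficient of `Q (a·b)` -/
noncomputable def cQC (n : ℕ) (q L t y₂ ψ χ : ℝ) : ℝ :=
  -(t * L + 2 * y₂) / n - t * q + ψ * (q + L) + χ * (L - 1)

/-- coefficient of `Q |a|²` -/
noncomputable def cQA (q L y₁ χ : ℝ) : ℝ := -y₁ + χ * (q - 1 + L)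

theorem redForm_split (n : ℕ) (p q L t x₁ y₁ x₂ y₂ π₁ ρ χ ψ A B C P Q : ℝ) (hn : (n : ℝ) ≠ 0)
    (ht : t ≠ 0) :
    redForm n p q L L t x₁ y₁ x₂ y₂ π₁ ρ χ ψ 0 A B C P Q =
      (cAA n L x₁ * A ^ 2 + cBB n L t x₂ * B ^ 2 + cAC n L x₁ y₁ * (A * C) +
        cBC n L t x₂ y₂ * (B * C) + cAB L t y₁ y₂ * (A * B) + cCC n L t y₁ y₂ * C ^ 2) +
      P * (cPA n L x₁ π₁ * A + cPC n p L y₁ π₁ ρ * C + cPB p L y₂ ρ * B) +
      Q * (cQB n L t x₂ ψ * B + cQC n q L t y₂ ψ χ * C + cQA q L y₁ χ * A) +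
      ((1 / (n : ℝ) - π₁) * P ^ 2 - (ρ + χ) * (P * Q) + (t / (n : ℝ) - ψ) * Q ^ 2) := by
  simp only [redForm, hessQ, cAA, cBB, cAC, cBC, cAB, cCC, cPA, cPC, cPB, cQB, cQC, cQA, sub_zero]
  field_simp
  ring

/-- A quartic, concave in `C`, is positive on the cone `C² ≤ AB` when its boundary binary quartic
is positive. -/
theorem quartic_pos {cA cB d₁ d₂ m k : ℝ} (hk : k ≤ 0) (hA : 0 < cA)
    (hline : ∀ r : ℝ, 0 < cA * r ^ 4 + d₁ * r ^ 3 + (m + k) * r ^ 2 + d₂ * r + cB)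
    {A B C : ℝ} (hA0 : 0 ≤ A) (hB0 : 0 ≤ B) (hC : C ^ 2 ≤ A * B) (hne : 0 < A + B) :
    0 < cA * A ^ 2 + cB * B ^ 2 + d₁ * (A * C) + d₂ * (B * C) + m * (A * B) + k * C ^ 2 := by
  have hB : 0 < cB := by simpa using hline 0
  obtain ⟨r, hr, rfl⟩ : ∃ r, 0 ≤ r ∧ r ^ 2 = A :=
    ⟨Real.sqrt A, Real.sqrt_nonneg A, Real.sq_sqrt hA0⟩
  obtain ⟨s, hs, rfl⟩ : ∃ s, 0 ≤ s ∧ s ^ 2 = B :=
    ⟨Real.sqrt B, Real.sqrt_nonneg B, Real.sq_sqrt hB0⟩
  have hCabs : |C| ≤ r * s := abs_le_of_sq_le_sq (by rw [mul_pow]; exact hC) (mul_nonneg hr hs)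
  rcases eq_or_lt_of_le (mul_nonneg hr hs) with h0 | h0
  · have hC0 : C = 0 := abs_eq_zero.1 (le_antisymm (hCabs.trans_eq h0.symm) (abs_nonneg _))
    have hrs : r ^ 2 * s ^ 2 = 0 := by rw [← mul_pow, ← h0]; ring
    subst hC0
    rw [hrs]
    have h1 : 0 ≤ cA * (r ^ 2) ^ 2 := by positivity
    have h2 : 0 ≤ cB * (s ^ 2) ^ 2 := by positivity
    rcases eq_or_lt_of_le (sq_nonneg r) with h | h
    · have : 0 < cB * (s ^ 2) ^ 2 := mul_pos hB (pow_pos (by linarith) 2)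
      simp only [mul_zero, add_zero, zero_pow two_ne_zero]
      linarith
    · have : 0 < cA * (r ^ 2) ^ 2 := mul_pos hA (pow_pos h 2)
      simp only [mul_zero, add_zero, zero_pow two_ne_zero]
      linarith
  · have hs0 : 0 < s := lt_of_le_of_ne hs fun h => by rw [← h, mul_zero] at h0; exact lt_irrefl _ h0
    have hp := hline (r / s)
    have hm := hline (-(r / s))
    set Fp := cA * (r / s) ^ 4 + d₁ * (r / s) ^ 3 + (m + k) * (r / s) ^ 2 + d₂ * (r / s) + cB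
    set Fm := cA * (-(r / s)) ^ 4 + d₁ * (-(r / s)) ^ 3 + (m + k) * (-(r / s)) ^ 2 +
      d₂ * (-(r / s)) + cB
    rw [abs_le] at hCabs
    have key : 2 * (r * s) * (cA * (r ^ 2) ^ 2 + cB * (s ^ 2) ^ 2 + d₁ * (r ^ 2 * C) +
        d₂ * (s ^ 2 * C) + m * (r ^ 2 * s ^ 2) + k * C ^ 2) =
        (r * s + C) * (s ^ 4 * Fp) + (r * s - C) * (s ^ 4 * Fm) +
        2 * (r * s) * -k * ((r * s + C) * (r * s - C)) := by
      simp only [Fp, Fm]; field_simp; ring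
    refine pos_of_mul_pos_right (a := 2 * (r * s)) ?_ (by positivity)
    rw [key]
    have h4 : 0 < s ^ 4 := pow_pos hs0 4
    have k1 : 0 ≤ 2 * (r * s) * -k * ((r * s + C) * (r * s - C)) :=
      mul_nonneg (mul_nonneg (by positivity) (by linarith))
        (mul_nonneg (by linarith) (by linarith))
    rcases eq_or_lt_of_le (by linarith : 0 ≤ r * s + C) with h | h
    · have : 0 < (r * s - C) * (s ^ 4 * Fm) := mul_pos (by linarith) (mul_pos h4 hm)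
      rw [← h] at k1 ⊢
      rw [zero_mul, zero_add]
      linarith
    · have : 0 < (r * s + C) * (s ^ 4 * Fp) := mul_pos h (mul_pos h4 hp)
      have : 0 ≤ (r * s - C) * (s ^ 4 * Fm) := mul_nonneg (by linarith) (mul_pos h4 hm).le
      linarith

/-- A binary form with `g² ≤ 4 a b` is nonnegative. -/
theorem cross_nonneg {a₁ b₁ g A B C : ℝ} (ha : 0 ≤ a₁) (hb : 0 ≤ b₁) (hg : g ^ 2 ≤ 4 * a₁ * b₁)
    (hA : 0 ≤ A) (hB : 0 ≤ B) (hC : C ^ 2 ≤ A * B) : 0 ≤ a₁ * A + g * C + b₁ * B := by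
  have h1 : 0 ≤ a₁ * A + b₁ * B := by positivity
  have h2 : (g * C) ^ 2 ≤ (a₁ * A + b₁ * B) ^ 2 := by
    rw [mul_pow]
    calc g ^ 2 * C ^ 2 ≤ 4 * a₁ * b₁ * (A * B) :=
          mul_le_mul hg hC (sq_nonneg C) (by positivity)
      _ ≤ _ := by linarith [sq_nonneg (a₁ * A - b₁ * B)]
  linarith [(abs_le.1 (abs_le_of_sq_le_sq h2 h1)).1]

/-- Strict positivity at `ε = 0` gives a small positive `ε`. -/
theorem exists_eps_of_redForm_pos {p q κ lam mu t x₁ y₁ x₂ y₂ π₁ ρ χ ψ : ℝ} (ht : 0 < t)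
    (hpos : ∀ x ∈ scalSimplex κ, 0 < redForm n p q lam mu t x₁ y₁ x₂ y₂ π₁ ρ χ ψ 0
      x.1 x.2.1 x.2.2.1 x.2.2.2.1 x.2.2.2.2) :
    ∃ ε : ℝ, 0 < ε ∧ ε < 1 ∧ ε < t ∧ ∀ A B C P Q : ℝ, 0 ≤ A → 0 ≤ B → C ^ 2 ≤ A * B → 0 < P →
      0 < Q → P ≤ κ * Q → 0 ≤ redForm n p q lam mu t x₁ y₁ x₂ y₂ π₁ ρ χ ψ ε A B C P Q := by
  set F : ℝ × (ℝ × ℝ × ℝ × ℝ × ℝ) → ℝ := fun z => redForm n p q lam mu t x₁ y₁ x₂ y₂ π₁ ρ χ ψ
    z.1 z.2.1 z.2.2.1 z.2.2.2.1 z.2.2.2.2.1 z.2.2.2.2.2 with hF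
  have hev : ∀ᶠ ε in 𝓝 (0 : ℝ), ∀ x ∈ scalSimplex κ, 0 < F (ε, x) := by
    refine (isCompact_scalSimplex κ).eventually_forall_of_forall_eventually fun x hx => ?_
    refine ContinuousAt.eventually_lt continuousAt_const ?_ (hpos x hx)
    simp only [hF, redForm, hessQ]
    fun_prop (disch := (simp; try linarith))
  obtain ⟨δ, hδ, hball⟩ := Metric.eventually_nhds_iff.1 hev
  set ε := min (δ / 2) (min (1 / 2) (t / 2)) with hε
  have hε0 : 0 < ε := lt_min (by linarith) (lt_min (by norm_num) (by linarith))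
  have hεδ : ε ≤ δ / 2 := min_le_left _ _
  have hε2 : ε ≤ 1 / 2 ∧ ε ≤ t / 2 :=
    ⟨(min_le_right _ _).trans (min_le_left _ _), (min_le_right _ _).trans (min_le_right _ _)⟩
  refine ⟨ε, hε0, by linarith, by linarith, fun A B C P Q hA hB hC hP hQ hPQ => ?_⟩
  set S := A + B + P + Q with hS
  have hS0 : 0 < S := by linarith
  have hmem : (A / S, B / S, C / S, P / S, Q / S) ∈ scalSimplex κ := by
    refine ⟨by positivity, by positivity, ?_, by positivity, by positivity, ?_, ?_⟩ <;> simp only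
    · rw [div_pow, div_mul_div_comm, ← sq S]; gcongr
    · rw [← mul_div_assoc]; gcongr
    · field_simp; rw [hS]
  have h := hball (y := ε) (by rw [Real.dist_eq, sub_zero, abs_of_pos hε0]; linarith) _ hmem
  have e := redForm_smul n p q lam mu t x₁ y₁ x₂ y₂ π₁ ρ χ ψ ε S (A / S) (B / S) (C / S) (P / S)
    (Q / S)
  simp only [mul_div_cancel₀ _ hS0.ne'] at e
  rw [e]
  exact mul_nonneg (sq_nonneg S) h.le

/-- **Decoupled conditions.** (0) the boundary quartic is positive; (I), (II) the linear forms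
multiplying `P` and `Q` are nonnegative; (III) the `(P, Q)` form is positive on `P ≤ κ Q`. -/
theorem hasParams_of_conditions (hn : 3 ≤ n) {p q L t x₁ y₁ x₂ y₂ π₁ ρ χ ψ : ℝ}
    (hL0 : 0 < L) (hL2 : L < 2) (hLn : (n : ℝ) - 5 ≤ L * ((n : ℝ) - 3)) (ht : 0 < t)
    (h0A : 0 < cAA n L x₁)
    (h0 : ∀ r : ℝ, 0 < cAA n L x₁ * r ^ 4 + cAC n L x₁ y₁ * r ^ 3 +
      (cAB L t y₁ y₂ + cCC n L t y₁ y₂) * r ^ 2 + cBC n L t x₂ y₂ * r + cBB n L t x₂)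
    (hIa : 0 ≤ cPA n L x₁ π₁) (hIb : 0 ≤ cPB p L y₂ ρ)
    (hIg : cPC n p L y₁ π₁ ρ ^ 2 ≤ 4 * cPA n L x₁ π₁ * cPB p L y₂ ρ)
    (hIIa : 0 ≤ cQA q L y₁ χ) (hIIb : 0 ≤ cQB n L t x₂ ψ)
    (hIIg : cQC n q L t y₂ ψ χ ^ 2 ≤ 4 * cQB n L t x₂ ψ * cQA q L y₁ χ)
    (hIII : ∀ z : ℝ, 0 ≤ z → z ≤ (p + 1) / (q + 1) →
      0 < (1 / (n : ℝ) - π₁) * z ^ 2 - (ρ + χ) * z + (t / (n : ℝ) - ψ)) :
    HasParams n p q := by
  have h3 : (3 : ℝ) ≤ n := by exact_mod_cast hn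
  have hk : cCC n L t y₁ y₂ ≤ 0 := by
    have : (1 : ℝ) / n ≤ 1 / 3 := by gcongr
    refine mul_nonpos_of_nonpos_of_nonneg ?_ (by linarith)
    have : 0 ≤ (L + 2 * y₁) ^ 2 / 4 + (t * L + 2 * y₂) ^ 2 / (4 * t) := by positivity
    linarith
  obtain ⟨ε, hε, hε1, hεt, hf⟩ := exists_eps_of_redForm_pos (n := n) (p := p) (q := q)
    (κ := (p + 1) / (q + 1)) (lam := L) (mu := L) (x₁ := x₁) (y₁ := y₁) (x₂ := x₂) (y₂ := y₂)
    (π₁ := π₁) (ρ := ρ) (χ := χ) (ψ := ψ) ht (by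
      rintro ⟨A, B, C, P, Q⟩ ⟨hA, hB, hC, hP, hQ, hPκ, h1⟩
      simp only at hA hB hC hP hQ hPκ h1 ⊢
      rw [redForm_split n p q L t x₁ y₁ x₂ y₂ π₁ ρ χ ψ A B C P Q (by linarith) ht.ne']
      have t1 := mul_nonneg hP (cross_nonneg hIa hIb hIg hA hB hC)
      have t2 := mul_nonneg hQ (cross_nonneg hIIb hIIa hIIg hB hA (by rwa [mul_comm]))
      rcases eq_or_lt_of_le hQ with h | h
      · subst h
        have hP0 : P = 0 := le_antisymm (by simpa using hPκ) hP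
        subst hP0
        simp only [zero_mul, mul_zero, zero_pow two_ne_zero, add_zero, sub_zero] at *
        exact quartic_pos hk h0A h0 hA hB hC (by linarith)
      · have hw := hIII (P / Q) (by positivity) ((div_le_iff₀ h).2 hPκ)
        have e1 : (1 / (n : ℝ) - π₁) * P ^ 2 - (ρ + χ) * (P * Q) + (t / (n : ℝ) - ψ) * Q ^ 2 =
            Q ^ 2 * ((1 / (n : ℝ) - π₁) * (P / Q) ^ 2 - (ρ + χ) * (P / Q) +
            (t / (n : ℝ) - ψ)) := by field_simp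
        rw [e1]
        have t3 : 0 < Q ^ 2 * ((1 / (n : ℝ) - π₁) * (P / Q) ^ 2 - (ρ + χ) * (P / Q) +
            (t / (n : ℝ) - ψ)) := mul_pos (pow_pos h 2) hw
        rcases eq_or_lt_of_le (add_nonneg hA hB) with h0' | h0'
        · have hA0 : A = 0 := by linarith
          have hB0 : B = 0 := by linarith
          subst hA0 hB0
          rw [mul_zero] at hC
          have hC0 : C = 0 := pow_eq_zero_iff two_ne_zero |>.1 (le_antisymm hC (sq_nonneg C))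
          subst hC0
          simp only [mul_zero, zero_pow two_ne_zero, add_zero, zero_add] at *
          linarith
        · have := quartic_pos hk h0A h0 hA hB hC h0'
          linarith)
  exact ⟨L, t, x₁, y₁, x₂, y₂, π₁, ρ, χ, ψ, ε, hL0, hL2, hLn, hε, hε1, hεt, hf⟩

end Vale.Agent.P100
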