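import Mathlib
import Vale.Agent.P100.ReducedCertW

/-!
# Eliminating `z` from the weighted scalar form

Since `(z·a)² ≤ |a|²|z|²`, with `k₃ = k₄ = 0` the terms involving `z` cost at most
`g²/(4K₁) + h²/(4K₂)`, where `g`, `h` are linear in `A, B, C, P, Q`. So positivity of a quadratic
form in these five scalars gives a weighted certificate.
-/

open Filter Topology Set

namespace Vale.Agent.P100

variable {n : ℕ}

/-- The coefficient of `z·a` (with swapped arguments: of `z·b`). -/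
noncomputable def linW (n : ℕ) (s s' X Y Y' k k' lam cP cQ A B C P Q : ℝ) : ℝ :=
  -(2 * k) * (A + P) / n - (X * k * (1 - 1 / n) * A + Y * k * (1 / 2 - 1 / n) * C) / s -
    Y' * k' * B / (2 * s') + lam * (k * A + k' * B) + cP * P + cQ * Q

/-- The coefficient of `(z·a)²` after using `|a|²|z|² ≥ (z·a)²`. -/
noncomputable def capW (n : ℕ) (s k : ℝ) : ℝ := k * ((n : ℝ) - 2) - k ^ 2 * (1 - 1 / n) / s

/-- The unweighted form minus the cost of eliminating `z`. -/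
noncomputable def lossFormW (n : ℕ) (p q w₁ w₂ lam mu t x₁ y₁ x₂ y₂ π₁ ρ χ ψ k₁ k₂ ε
    A B C P Q : ℝ) : ℝ :=
  redForm n p q lam mu t x₁ y₁ x₂ y₂ π₁ ρ χ ψ ε A B C P Q -
  linW n (1 - ε) (t - ε) (lam - 2 + 2 * x₁) (mu + 2 * y₁) (t * lam + 2 * y₂) k₁ k₂ lam
      (w₁ * (π₁ - 1)) (w₂ * χ) A B C P Q ^ 2 / (4 * capW n (1 - ε) k₁) -
  linW n (t - ε) (1 - ε) (t * (mu - 2) + 2 * x₂) (t * lam + 2 * y₂) (mu + 2 * y₁) k₂ k₁ mu
      (w₂ * (ψ - t)) (w₁ * ρ) B A C Q P ^ 2 / (4 * capW n (t - ε) k₂)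

/-- Completing the square in a linear and a quadratic term. -/
theorem neg_sq_div_le {K g x : ℝ} (hK : 0 < K) : -(g ^ 2 / (4 * K)) ≤ g * x + K * x ^ 2 := by
  have h : g * x + K * x ^ 2 + g ^ 2 / (4 * K) = (2 * K * x + g) ^ 2 / (4 * K) := by
    field_simp
    ring
  have : 0 ≤ (2 * K * x + g) ^ 2 / (4 * K) := by positivity
  linarith

theorem lossFormW_le (hn : 3 ≤ n) {p q w₁ w₂ lam mu t x₁ y₁ x₂ y₂ π₁ ρ χ ψ k₁ k₂ ε : ℝ}
    (hε1 : ε < 1) (hεt : ε < t) (h₁ : 0 < capW n (1 - ε) k₁) (h₂ : 0 < capW n (t - ε) k₂)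
    {A B C P Q za zb Z : ℝ} (hza : za ^ 2 ≤ A * Z) (hzb : zb ^ 2 ≤ B * Z) :
    lossFormW n p q w₁ w₂ lam mu t x₁ y₁ x₂ y₂ π₁ ρ χ ψ k₁ k₂ ε A B C P Q ≤
      redFormW n p q w₁ w₂ lam mu t x₁ y₁ x₂ y₂ π₁ ρ χ ψ k₁ k₂ 0 0 ε A B C P Q za zb Z := by
  have hn3 : (3 : ℝ) ≤ n := by exact_mod_cast hn
  have hn' : (n : ℝ) ≠ 0 := by linarith
  have h12 : (1 : ℝ) / n ≤ 1 / 2 := by gcongr; linarith
  have cap : ∀ s k : ℝ, 0 < s → 0 < capW n s k →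
      0 ≤ k * ((n : ℝ) - 2) - k ^ 2 / (2 * s) := by
    intro s k hs hc
    have e : k * ((n : ℝ) - 2) - k ^ 2 / (2 * s) = capW n s k + k ^ 2 * (1 / 2 - 1 / n) / s := by
      simp only [capW]
      field_simp
      ring
    have : 0 ≤ k ^ 2 * (1 / 2 - 1 / n) / s :=
      div_nonneg (mul_nonneg (sq_nonneg k) (by linarith)) hs.le
    linarith
  have c1 := cap _ _ (sub_pos.2 hε1) h₁
  have c2 := cap _ _ (sub_pos.2 hεt) h₂
  have m1 := mul_nonneg c1 (sub_nonneg.2 hza)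
  have m2 := mul_nonneg c2 (sub_nonneg.2 hzb)
  have q1 := neg_sq_div_le (x := za) (g := linW n (1 - ε) (t - ε) (lam - 2 + 2 * x₁) (mu + 2 * y₁)
    (t * lam + 2 * y₂) k₁ k₂ lam (w₁ * (π₁ - 1)) (w₂ * χ) A B C P Q) h₁
  have q2 := neg_sq_div_le (x := zb) (g := linW n (t - ε) (1 - ε) (t * (mu - 2) + 2 * x₂)
    (t * lam + 2 * y₂) (mu + 2 * y₁) k₂ k₁ mu (w₂ * (ψ - t)) (w₁ * ρ) B A C Q P) h₂
  have e : redFormW n p q w₁ w₂ lam mu t x₁ y₁ x₂ y₂ π₁ ρ χ ψ k₁ k₂ 0 0 ε A B C P Q za zb Z =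
      redForm n p q lam mu t x₁ y₁ x₂ y₂ π₁ ρ χ ψ ε A B C P Q +
      (linW n (1 - ε) (t - ε) (lam - 2 + 2 * x₁) (mu + 2 * y₁) (t * lam + 2 * y₂) k₁ k₂ lam
          (w₁ * (π₁ - 1)) (w₂ * χ) A B C P Q * za + capW n (1 - ε) k₁ * za ^ 2) +
      (linW n (t - ε) (1 - ε) (t * (mu - 2) + 2 * x₂) (t * lam + 2 * y₂) (mu + 2 * y₁) k₂ k₁ mu
          (w₂ * (ψ - t)) (w₁ * ρ) B A C Q P * zb + capW n (t - ε) k₂ * zb ^ 2) +
      (k₁ * ((n : ℝ) - 2) - k₁ ^ 2 / (2 * (1 - ε))) * (A * Z - za ^ 2) +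
      (k₂ * ((n : ℝ) - 2) - k₂ ^ 2 / (2 * (t - ε))) * (B * Z - zb ^ 2) := by
    have hs : (1 - ε) ≠ 0 := (sub_pos.2 hε1).ne'
    have ht : (t - ε) ≠ 0 := (sub_pos.2 hεt).ne'
    simp only [redFormW, hessW, redForm, linW, capW]
    field_simp
    ring
  rw [lossFormW, e]
  linarith

/-- The normalised scalar variables. -/
def scalSimplexW : Set (ℝ × ℝ × ℝ × ℝ × ℝ) :=
  {x | 0 ≤ x.1 ∧ 0 ≤ x.2.1 ∧ x.2.2.1 ^ 2 ≤ x.1 * x.2.1 ∧ 0 ≤ x.2.2.2.1 ∧ 0 ≤ x.2.2.2.2 ∧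
    x.1 + x.2.1 + x.2.2.2.1 + x.2.2.2.2 = 1}

theorem isCompact_scalSimplexW : IsCompact scalSimplexW := by
  refine Metric.isCompact_of_isClosed_isBounded ?_ ?_
  · simp only [scalSimplexW, Set.ofPred_and]
    refine ((isClosed_le continuous_const (by fun_prop)).inter
      ((isClosed_le continuous_const (by fun_prop)).inter
      ((isClosed_le (by fun_prop) (by fun_prop)).inter
      ((isClosed_le continuous_const (by fun_prop)).inter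
      ((isClosed_le continuous_const (by fun_prop)).inter
        (isClosed_eq (by fun_prop) continuous_const))))))
  · refine (Metric.isBounded_closedBall (x := (0 : ℝ × ℝ × ℝ × ℝ × ℝ)) (r := 1)).subset ?_
    rintro ⟨A, B, C, P, Q⟩ ⟨hA, hB, hC, hP, hQ, h1⟩
    simp only at hA hB hC hP hQ h1
    have hC1 : |C| ≤ 1 := by
      rw [← sq_le_sq₀ (abs_nonneg C) zero_le_one, sq_abs, one_pow]
      refine hC.trans (mul_le_one₀ ?_ hB ?_) <;> linarith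
    simp only [Metric.mem_closedBall, dist_zero_right, Prod.norm_def, Real.norm_eq_abs]
    simp only [max_le_iff]
    refine ⟨?_, ?_, hC1, ?_, ?_⟩ <;> (rw [abs_of_nonneg (by assumption)]; linarith)

theorem lossFormW_smul (n : ℕ) (p q w₁ w₂ lam mu t x₁ y₁ x₂ y₂ π₁ ρ χ ψ k₁ k₂ ε S
    A B C P Q : ℝ) :
    lossFormW n p q w₁ w₂ lam mu t x₁ y₁ x₂ y₂ π₁ ρ χ ψ k₁ k₂ ε (S * A) (S * B) (S * C) (S * P)
        (S * Q) =
      S ^ 2 * lossFormW n p q w₁ w₂ lam mu t x₁ y₁ x₂ y₂ π₁ ρ χ ψ k₁ k₂ ε A B C P Q := by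
  simp only [lossFormW, redForm, hessQ, linW]
  ring

/-- **Weighted certificate from a quadratic form in five scalars.** -/
theorem certW_of_lossFormW (hn : 3 ≤ n)
    {p q w₁ w₂ r₁ r₂ lam mu t x₁ y₁ x₂ y₂ π₁ ρ χ ψ k₁ k₂ : ℝ} (ht : 0 < t)
    (hr₁ : 0 ≤ r₁) (hr₂ : 0 ≤ r₂) (hlam : lam = -2 * r₁ + 2 * q * r₂)
    (hmu : mu = 2 * p * r₁ - 2 * r₂) (h₁ : 0 < capW n 1 k₁) (h₂ : 0 < capW n t k₂)
    (hpos : ∀ A B C P Q : ℝ, 0 ≤ A → 0 ≤ B → C ^ 2 ≤ A * B → 0 ≤ P → 0 ≤ Q →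
      0 < A + B + P + Q →
      0 < lossFormW n p q w₁ w₂ lam mu t x₁ y₁ x₂ y₂ π₁ ρ χ ψ k₁ k₂ 0 A B C P Q) :
    ∃ ε : ℝ, CertW n p q w₁ w₂ r₁ r₂ (redCoeff t x₁ y₁ x₂ y₂ π₁ ρ χ ψ) ![k₁, k₂, 0, 0] ε := by
  set F : ℝ × (ℝ × ℝ × ℝ × ℝ × ℝ) → ℝ := fun z =>
    lossFormW n p q w₁ w₂ lam mu t x₁ y₁ x₂ y₂ π₁ ρ χ ψ k₁ k₂
      z.1 z.2.1 z.2.2.1 z.2.2.2.1 z.2.2.2.2.1 z.2.2.2.2.2 with hF
  have hev : ∀ᶠ ε in 𝓝 (0 : ℝ), ∀ x ∈ scalSimplexW, 0 < F (ε, x) := by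
    refine isCompact_scalSimplexW.eventually_forall_of_forall_eventually fun x hx => ?_
    obtain ⟨hA, hB, hC, hP, hQ, h1⟩ := hx
    refine ContinuousAt.eventually_lt continuousAt_const ?_
      (hpos _ _ _ _ _ hA hB hC hP hQ (by rw [h1]; exact one_pos))
    simp only [capW, one_div, div_one] at h₁ h₂
    simp only [hF, lossFormW, redForm, hessQ, linW, capW]
    fun_prop (disch := first | (norm_num; done) | (intro hh; simp at hh; linarith))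
  have hc : ∀ᶠ ε in 𝓝 (0 : ℝ), 0 < capW n (1 - ε) k₁ ∧ 0 < capW n (t - ε) k₂ := by
    refine (ContinuousAt.eventually_lt continuousAt_const ?_ (by simpa using h₁)).and
      (ContinuousAt.eventually_lt continuousAt_const ?_ (by simpa using h₂)) <;>
    · unfold capW
      fun_prop (disch := (simp; try linarith))
  obtain ⟨δ, hδ, hball⟩ := Metric.eventually_nhds_iff.1 (hev.and hc)
  set ε := min (δ / 2) (min (1 / 2) (t / 2)) with hε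
  have hε0 : 0 < ε := lt_min (by linarith) (lt_min (by norm_num) (by linarith))
  have hεδ : ε ≤ δ / 2 := min_le_left _ _
  have hε2 : ε ≤ 1 / 2 ∧ ε ≤ t / 2 :=
    ⟨(min_le_right _ _).trans (min_le_left _ _), (min_le_right _ _).trans (min_le_right _ _)⟩
  obtain ⟨hb, hc1, hc2⟩ := hball (y := ε)
    (by rw [Real.dist_eq, sub_zero, abs_of_pos hε0]; linarith)
  refine ⟨ε, certW_of_redFormW (by omega) hε0 (by linarith) (by linarith) hr₁ hr₂ hlam hmu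
    fun A B C P Q za zb Z hA hB _ hC hza hzb hP hQ => ?_⟩
  refine le_trans ?_ (lossFormW_le hn (by linarith) (by linarith) hc1 hc2 hza hzb)
  set S := A + B + P + Q with hS
  have hS0 : 0 < S := by linarith
  have hmem : (A / S, B / S, C / S, P / S, Q / S) ∈ scalSimplexW := by
    refine ⟨by positivity, by positivity, ?_, by positivity, by positivity, ?_⟩ <;> simp only
    · rw [div_pow, div_mul_div_comm, ← sq S]; gcongr
    · field_simp; rw [hS]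
  have h := hb _ hmem
  have e := lossFormW_smul n p q w₁ w₂ lam mu t x₁ y₁ x₂ y₂ π₁ ρ χ ψ k₁ k₂ ε S (A / S) (B / S)
    (C / S) (P / S) (Q / S)
  simp only [mul_div_cancel₀ _ hS0.ne'] at e
  rw [e]
  exact mul_nonneg (sq_nonneg S) h.le

end Vale.Agent.P100
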