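import Mathlib
import Vale.Agent.P100.Decoupled

/-!
# The free-weight family with vanishing `(P, Q)` part

Variables: weight `(uv)^(1 - l)`, `t`, shifts `ξ, η, ζ, ν` (`x₁ = 1 - ξ/2`, `y₁ = -η/2`,
`x₂ = t (1 - ζ/2)`, `y₂ = -t ν/2`) and `ρ = -χ`, with `π₁ → 1/n`, `ψ → t/n`. Then the `(P, Q)`
form is as small as one likes and three conditions remain: a binary quartic and two quadratic
inequalities.
-/

open Filter Topology

namespace Vale.Agent.P100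

/-- coefficient of `r⁴` -/
noncomputable def flG (n : ℕ) (l ξ : ℝ) : ℝ :=
  (l + ξ) / n - (1 - l - ξ) ^ 2 * (1 - 1 / n) / 4 - l * (1 - ξ / 2)

/-- coefficient of `r³` -/
noncomputable def flJ (n : ℕ) (l ξ η : ℝ) : ℝ :=
  -(1 - l - η) / n - (1 - l - ξ) * (1 - l - η) * (1 - 1 / n) / 2 + (1 - l) * (1 - ξ / 2 - η / 2)

/-- coefficient of `r²` -/
noncomputable def flM (n : ℕ) (l t η ν : ℝ) : ℝ :=
  -((1 - l - η) ^ 2 + t * (1 - l - ν) ^ 2) * (1 - 1 / n) / 4 + l * (η + t * ν) / 2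

/-- The boundary quartic of the family, in `r = ± |a| / |b|`. -/
noncomputable def flQuartic (n : ℕ) (l t ξ η ζ ν r : ℝ) : ℝ :=
  flG n l ξ * r ^ 4 + flJ n l ξ η * r ^ 3 + flM n l t η ν * r ^ 2 + t * flJ n l ζ ν * r +
    t * flG n l ζ

/-- The quartic coefficients in the new variables. -/
theorem freeL_quartic (n : ℕ) (l ξ η ζ ν : ℝ) {t : ℝ} (ht : t ≠ 0) :
    cAA n (1 - l) (1 - ξ / 2) = flG n l ξ ∧
    cBB n (1 - l) t (t * (1 - ζ / 2)) = t * flG n l ζ ∧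
    cAC n (1 - l) (1 - ξ / 2) (-η / 2) = flJ n l ξ η ∧
    cBC n (1 - l) t (t * (1 - ζ / 2)) (-(t * ν) / 2) = t * flJ n l ζ ν ∧
    cAB (1 - l) t (-η / 2) (-(t * ν) / 2) + cCC n (1 - l) t (-η / 2) (-(t * ν) / 2) =
      flM n l t η ν := by
  refine ⟨?_, ?_, ?_, ?_, ?_⟩
  · simp only [cAA, flG]; ring
  · simp only [cBB, flG]; field_simp; ring
  · simp only [cAC, flJ]; ring
  · simp only [cBC, flJ]; field_simp; ring
  · simp only [cAB, cCC, flM]; field_simp; ring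

/-- The linear forms in the new variables, at `π₁ = 1/n`, `ψ = t/n`, `χ = -ρ`. -/
theorem freeL_linear {n : ℕ} (hn : (n : ℝ) ≠ 0) (p q l t ξ η ζ ν ρ : ℝ) :
    cPA n (1 - l) (1 - ξ / 2) (1 / n) = ξ * ((n : ℝ) + 2) / (2 * n) ∧
    cPB p (1 - l) (-(t * ν) / 2) ρ = (t * ν + 2 * ρ * (p - l)) / 2 ∧
    cPC n p (1 - l) (-η / 2) (1 / n) ρ = -((((n : ℝ) - 1) * p - η + n * ρ * l) / n) ∧
    cQB n (1 - l) t (t * (1 - ζ / 2)) (t / n) = t * ζ * ((n : ℝ) + 2) / (2 * n) ∧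
    cQA q (1 - l) (-η / 2) (-ρ) = (η - 2 * ρ * (q - l)) / 2 ∧
    cQC n q (1 - l) t (-(t * ν) / 2) (t / n) (-ρ) =
      -((t * (((n : ℝ) - 1) * q - ν) - n * ρ * l) / n) := by
  refine ⟨?_, ?_, ?_, ?_, ?_, ?_⟩
  · simp only [cPA]; field_simp; ring
  · simp only [cPB]; ring
  · simp only [cPC]; field_simp; ring
  · simp only [cQB]; field_simp; ring
  · simp only [cQA]; ring
  · simp only [cQC]; field_simp; ring

/-- **Three conditions.** (0) positive quartic, (I) and (II) strict quadratic inequalities. -/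
theorem hasParams_freeL {n : ℕ} (hn : 3 ≤ n) {p q l t ξ η ζ ν ρ : ℝ}
    (hl0 : -1 < l) (hl1 : l < 1) (hln : l * ((n : ℝ) - 3) ≤ 2) (ht : 0 < t) (hξ : 0 < ξ)
    (hζ : 0 < ζ) (hA : 0 < flG n l ξ) (h0 : ∀ r : ℝ, 0 < flQuartic n l t ξ η ζ ν r)
    (hI : (((n : ℝ) - 1) * p - η + n * ρ * l) ^ 2 <
      n * ((n : ℝ) + 2) * ξ * (t * ν + 2 * ρ * (p - l)))
    (hII : (t * (((n : ℝ) - 1) * q - ν) - n * ρ * l) ^ 2 <
      n * ((n : ℝ) + 2) * (t * ζ) * (η - 2 * ρ * (q - l))) :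
    HasParams n p q := by
  have h3 : (3 : ℝ) ≤ n := by exact_mod_cast hn
  have hn0 : (n : ℝ) ≠ 0 := by linarith
  obtain ⟨eA, eB, eC, eD, eM⟩ := freeL_quartic n l ξ η ζ ν ht.ne'
  obtain ⟨a1, a2, a3, a4, a5, a6⟩ := freeL_linear hn0 p q l t ξ η ζ ν ρ
  set x₁ := 1 - ξ / 2
  set y₁ := -η / 2
  set x₂ := t * (1 - ζ / 2)
  set y₂ := -(t * ν) / 2
  have h4 : 0 < (n : ℝ) * ((n : ℝ) + 2) := by positivity
  have hI' : 0 < t * ν + 2 * ρ * (p - l) :=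
    pos_of_mul_pos_right (lt_of_le_of_lt (sq_nonneg _) hI) (by positivity)
  have hII' : 0 < η - 2 * ρ * (q - l) :=
    pos_of_mul_pos_right (lt_of_le_of_lt (sq_nonneg _) hII) (by positivity)
  -- the perturbation
  set F₁ := fun δ : ℝ => 4 * cPA n (1 - l) x₁ (1 / n - δ) * cPB p (1 - l) y₂ ρ -
    cPC n p (1 - l) y₁ (1 / n - δ) ρ ^ 2 with hF₁
  set F₂ := fun δ : ℝ => 4 * cQB n (1 - l) t x₂ (t / n - δ) * cQA q (1 - l) y₁ (-ρ) -
    cQC n q (1 - l) t y₂ (t / n - δ) (-ρ) ^ 2 with hF₂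
  set F₃ := fun δ : ℝ => cPA n (1 - l) x₁ (1 / n - δ) with hF₃
  set F₄ := fun δ : ℝ => cQB n (1 - l) t x₂ (t / n - δ) with hF₄
  have c1 : 0 < F₁ 0 := by
    simp only [hF₁, sub_zero, a1, a2, a3]
    rw [neg_sq, show 4 * (ξ * ((n : ℝ) + 2) / (2 * n)) * ((t * ν + 2 * ρ * (p - l)) / 2) =
      n * ((n : ℝ) + 2) * ξ * (t * ν + 2 * ρ * (p - l)) / n ^ 2 by field_simp; ring, div_pow,
      ← sub_div]
    exact div_pos (by linarith) (by positivity)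
  have c2 : 0 < F₂ 0 := by
    simp only [hF₂, sub_zero, a4, a5, a6]
    rw [neg_sq, show 4 * (t * ζ * ((n : ℝ) + 2) / (2 * n)) * ((η - 2 * ρ * (q - l)) / 2) =
      n * ((n : ℝ) + 2) * (t * ζ) * (η - 2 * ρ * (q - l)) / n ^ 2 by field_simp; ring, div_pow,
      ← sub_div]
    exact div_pos (by linarith) (by positivity)
  have c3 : 0 < F₃ 0 := by simp only [hF₃, sub_zero, a1]; positivity
  have c4 : 0 < F₄ 0 := by simp only [hF₄, sub_zero, a4]; positivity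
  have hev : ∀ᶠ δ in 𝓝[>] (0 : ℝ), 0 < F₁ δ ∧ 0 < F₂ δ ∧ 0 < F₃ δ ∧ 0 < F₄ δ ∧ (0 : ℝ) < δ := by
    have hc : ∀ {F : ℝ → ℝ}, Continuous F → 0 < F 0 → ∀ᶠ δ in 𝓝[>] (0 : ℝ), 0 < F δ :=
      fun hF h => (hF.continuousAt.eventually_const_lt h).filter_mono nhdsWithin_le_nhds
    filter_upwards [hc (by simp only [hF₁, cPA, cPB, cPC]; fun_prop) c1,
      hc (by simp only [hF₂, cQA, cQB, cQC]; fun_prop) c2,
      hc (by simp only [hF₃, cPA]; fun_prop) c3, hc (by simp only [hF₄, cQB]; fun_prop) c4,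
      self_mem_nhdsWithin] with δ h1 h2 h3 h4 h5 using ⟨h1, h2, h3, h4, h5⟩
  obtain ⟨δ, d1, d2, d3, d4, hδ⟩ := hev.exists
  refine hasParams_of_conditions hn (x₁ := x₁) (y₁ := y₁) (x₂ := x₂) (y₂ := y₂)
    (π₁ := 1 / n - δ) (ρ := ρ) (χ := -ρ) (ψ := t / n - δ) (t := t) (L := 1 - l) (by linarith)
    (by linarith) (by nlinarith) ht (by rw [eA]; exact hA) (fun r => ?_) d3.le ?_ ?_ ?_ d4.le ?_
    (fun z hz _ => ?_)
  · have := h0 r
    rw [eA, eB, eC, eD, eM]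
    simpa [flQuartic] using this
  · rw [a2]; linarith
  · simp only [hF₁] at d1; linarith
  · rw [a5]; linarith
  · simp only [hF₂] at d2; linarith
  · rw [sub_sub_cancel, sub_sub_cancel, add_neg_cancel, zero_mul, sub_zero]
    have := mul_nonneg hδ.le (sq_nonneg z)
    linarith

end Vale.Agent.P100
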