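import Mathlib

/-!
# The polynomials of the strip parameters

With `e = 1/(n-2)`, `u = β/(α+β) ≤ 1/2`, `x = 1 - u`, `w = x - u`, `h = 1/(α+β)` the parameters are
`l = 2ex`, `t = x/u`, `ξ = 1+2ex-g`, `η = 1+2ex+g`, `ζ = 1+2eu-g`, `ν = 1+2eu+g`,
`g = 2ue(1+e)/(1+3e)`, `ρ = (w/2u) (1/s - 2e³/(s²(1+3e))) (1+2euw)`, `s = 1+2e`.
Below are the denominator-free forms of the conditions of `hasParams_freeL`.
-/

noncomputable section

namespace Vale.Agent.P100.Strip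

/-- numerator of the factor `F` of `ρ` -/
def fn (e u : ℝ) : ℝ := ((1 + 2 * e) * (1 + 3 * e) - 2 * e ^ 3) * (1 + 2 * e * u * (1 - 2 * u))

/-- numerator of the shift `g` -/
def gn (e u : ℝ) : ℝ := 2 * u * e * (1 + e)

/-- `(1+3e) ξ` -/
def xiN (e u : ℝ) : ℝ := (1 + 2 * e * (1 - u)) * (1 + 3 * e) - gn e u
/-- `(1+3e) η` -/
def etaN (e u : ℝ) : ℝ := (1 + 2 * e * (1 - u)) * (1 + 3 * e) + gn e u
/-- `(1+3e) ζ` -/
def zetaN (e u : ℝ) : ℝ := (1 + 2 * e * u) * (1 + 3 * e) - gn e u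
/-- `(1+3e) ν` -/
def nuN (e u : ℝ) : ℝ := (1 + 2 * e * u) * (1 + 3 * e) + gn e u

/-- square root part of (I) -/
def lI (e u h : ℝ) : ℝ :=
  (1 + e) * ((1 - u) + 2 * h) * (1 + 2 * e) * (1 + 3 * e) - e * u * etaN e u * (1 + 2 * e) +
    (1 - 2 * u) * fn e u * e * (1 - u)

/-- right side of (I) -/
def rI (e u h : ℝ) : ℝ :=
  (1 + 4 * e) * (1 + 2 * e) * xiN e u *
    ((1 - u) * nuN e u * u * (1 + 2 * e) ^ 2 +
      (1 - 2 * u) * fn e u * ((1 - u) + 2 * h - 2 * e * (1 - u) * u))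

/-- condition (I) -/
def sI (e u h : ℝ) : ℝ := rI e u h - lI e u h ^ 2

/-- square root part of (II) -/
def lII (e u h : ℝ) : ℝ :=
  (1 + e) * (u + 2 * h) * (1 + 2 * e) * (1 + 3 * e) - e * (1 - u) * nuN e u * (1 + 2 * e) -
    (1 - 2 * u) * fn e u * e * (1 - u)

/-- right side of (II) -/
def rII (e u h : ℝ) : ℝ :=
  (1 + 4 * e) * (1 + 2 * e) * zetaN e u *
    ((1 - u) * u * etaN e u * (1 + 2 * e) ^ 2 -
      (1 - 2 * u) * fn e u * (u + 2 * h - 2 * e * (1 - u) * (1 - u)))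

/-- condition (II) -/
def sII (e u h : ℝ) : ℝ := rII e u h - lII e u h ^ 2

/-- `(1+3e)(1-l)` -/
def lN (e u : ℝ) : ℝ := (1 - 2 * e * (1 - u)) * (1 + 3 * e)

/-- `4s(1+3e)² G(z)` in the scaled variable `z` -/
def gP (e u z : ℝ) : ℝ :=
  4 * e * (2 * e * (1 - u) * (1 + 3 * e) + z) * (1 + 3 * e) - (1 + e) * (lN e u - z) ^ 2 -
    4 * (1 + 2 * e) * (2 * e * (1 - u)) * (1 + 3 * e) * ((1 + 3 * e) - z / 2)

/-- `4s(1+3e)² J(z,y)` in the scaled variables -/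
def jP (e u z y : ℝ) : ℝ :=
  -(4 * e * (lN e u - y) * (1 + 3 * e)) - 2 * (1 + e) * (lN e u - z) * (lN e u - y) +
    4 * (1 + 2 * e) * (1 - 2 * e * (1 - u)) * (1 + 3 * e) * ((1 + 3 * e) - (z + y) / 2)

/-- coefficient of `r⁴` -/
def qA (e u : ℝ) : ℝ := u * gP e u (xiN e u)
/-- coefficient of `r³` -/
def qB (e u : ℝ) : ℝ := u * jP e u (xiN e u) (etaN e u)
/-- coefficient of `r²` -/
def qC (e u : ℝ) : ℝ :=
  -((1 + e) * (u * (lN e u - etaN e u) ^ 2 + (1 - u) * (lN e u - nuN e u) ^ 2)) +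
    2 * (1 + 2 * e) * (2 * e * (1 - u)) * (1 + 3 * e) * (u * etaN e u + (1 - u) * nuN e u)
/-- coefficient of `r` -/
def qR (e u : ℝ) : ℝ := (1 - u) * jP e u (zetaN e u) (nuN e u)
/-- coefficient of `1` -/
def qE (e u : ℝ) : ℝ := (1 - u) * gP e u (zetaN e u)
/-- the auxiliary shift of the completed square -/
def qM (e u : ℝ) : ℝ := 4 * e ^ 2 * (1 + 3 * e) ^ 2 * u * (1 + 2 * e) * (1 - 2 * u)
/-- first minor -/
def qQ (e u : ℝ) : ℝ := qA e u * qC e u * 4 - qB e u ^ 2 - 8 * qA e u * qM e u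
/-- linear part -/
def qL (e u : ℝ) : ℝ := qA e u * qR e u - qB e u * qM e u
/-- second minor -/
def qD (e u : ℝ) : ℝ := qQ e u * (qA e u * qE e u - qM e u ^ 2) - qL e u ^ 2

end Vale.Agent.P100.Strip

end
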