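import Mathlib
import Vale.Agent.P100.StripPoly

/-!
# Positivity certificates for the strip parameters (generated; every coefficient is nonnegative)
-/

noncomputable section

namespace Vale.Agent.P100.Strip

/-- coefficient 0 of the certificate -/
def stripDdc0 (e f : ℝ) : ℝ :=
      731834221363200 * e ^ 24 +
      5187990644858880 * f * e ^ 23 +
      17314554075475968 * f ^ 2 * e ^ 22 +
      36300012550470144 * f ^ 3 * e ^ 21 +
      53772395481371520 * f ^ 4 * e ^ 20 +
      59981388262599168 * f ^ 5 * e ^ 19 +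
      52405258261121280 * f ^ 6 * e ^ 18 +
      36813892027600224 * f ^ 7 * e ^ 17 +
      21174223107160800 * f ^ 8 * e ^ 16 +
      10099591375300488 * f ^ 9 * e ^ 15 +
      4030477786148526 * f ^ 10 * e ^ 14 +
      1353689473034916 * f ^ 11 * e ^ 13 +
      383942662005952 * f ^ 12 * e ^ 12 +
      92069119125164 * f ^ 13 * e ^ 11 +
      18649055534054 * f ^ 14 * e ^ 10 +
      3180797350288 * f ^ 15 * e ^ 9 +
      454282442104 * f ^ 16 * e ^ 8 +
      53866377696 * f ^ 17 * e ^ 7 +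
      5237751834 * f ^ 18 * e ^ 6 +
      410338820 * f ^ 19 * e ^ 5 +
      25246816 * f ^ 20 * e ^ 4 +
      1173804 * f ^ 21 * e ^ 3 +
      38738 * f ^ 22 * e ^ 2 +
      808 * f ^ 23 * e +
      8 * f ^ 24

theorem stripDdc0_nonneg {e f : ℝ} (he : 0 < e) (hf : 0 ≤ f) : 0 ≤ stripDdc0 e f := by
  unfold stripDdc0; positivity

/-- coefficient 1 of the certificate -/
def stripDdc1 (e f : ℝ) : ℝ :=
      6119443062374400 * e ^ 24 +
      42537625880002560 * f * e ^ 23 +
      139144149229879296 * f ^ 2 * e ^ 22 +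
      285847939304808192 * f ^ 3 * e ^ 21 +
      414869045592872448 * f ^ 4 * e ^ 20 +
      453389473203435072 * f ^ 5 * e ^ 19 +
      388087579652241024 * f ^ 6 * e ^ 18 +
      267097805482211568 * f ^ 7 * e ^ 17 +
      150512926496541048 * f ^ 8 * e ^ 16 +
      70335932642865468 * f ^ 9 * e ^ 15 +
      27499719770635638 * f ^ 10 * e ^ 14 +
      9048346547367104 * f ^ 11 * e ^ 13 +
      2513980830342476 * f ^ 12 * e ^ 12 +
      590482519315948 * f ^ 13 * e ^ 11 +
      117134003485018 * f ^ 14 * e ^ 10 +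
      19561990761344 * f ^ 15 * e ^ 9 +
      2734969889576 * f ^ 16 * e ^ 8 +
      317374415124 * f ^ 17 * e ^ 7 +
      30191327882 * f ^ 18 * e ^ 6 +
      2313098528 * f ^ 19 * e ^ 5 +
      139115692 * f ^ 20 * e ^ 4 +
      6319108 * f ^ 21 * e ^ 3 +
      203622 * f ^ 22 * e ^ 2 +
      4144 * f ^ 23 * e +
      40 * f ^ 24

theorem stripDdc1_nonneg {e f : ℝ} (he : 0 < e) (hf : 0 ≤ f) : 0 ≤ stripDdc1 e f := by
  unfold stripDdc1; positivity

/-- coefficient 2 of the certificate -/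
def stripDdc2 (e f : ℝ) : ℝ :=
      22484335452364800 * e ^ 24 +
      152686944541624320 * f * e ^ 23 +
      487534126856113152 * f ^ 2 * e ^ 22 +
      977116545114057216 * f ^ 3 * e ^ 21 +
      1382979908185843968 * f ^ 4 * e ^ 20 +
      1473418280631765888 * f ^ 5 * e ^ 19 +
      1229152149344384064 * f ^ 6 * e ^ 18 +
      824216649898027680 * f ^ 7 * e ^ 17 +
      452383825246740432 * f ^ 8 * e ^ 16 +
      205838254645802880 * f ^ 9 * e ^ 15 +
      78329827823761760 * f ^ 10 * e ^ 14 +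
      25074354487598572 * f ^ 11 * e ^ 13 +
      6774379908289396 * f ^ 12 * e ^ 12 +
      1546387395881852 * f ^ 13 * e ^ 11 +
      297936335510260 * f ^ 14 * e ^ 10 +
      48292004760080 * f ^ 15 * e ^ 9 +
      6547777110336 * f ^ 16 * e ^ 8 +
      736228922296 * f ^ 17 * e ^ 7 +
      67796016648 * f ^ 18 * e ^ 6 +
      5022697420 * f ^ 19 * e ^ 5 +
      291766644 * f ^ 20 * e ^ 4 +
      12784396 * f ^ 21 * e ^ 3 +
      396836 * f ^ 22 * e ^ 2 +
      7768 * f ^ 23 * e +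
      72 * f ^ 24

theorem stripDdc2_nonneg {e f : ℝ} (he : 0 < e) (hf : 0 ≤ f) : 0 ≤ stripDdc2 e f := by
  unfold stripDdc2; positivity

/-- coefficient 3 of the certificate -/
def stripDdc3 (e f : ℝ) : ℝ :=
      47801525359104000 * e ^ 24 +
      315803295262771200 * f * e ^ 23 +
      979778647102809600 * f ^ 2 * e ^ 22 +
      1906172125961716224 * f ^ 3 * e ^ 21 +
      2616849289328621184 * f ^ 4 * e ^ 20 +
      2702230523921458944 * f ^ 5 * e ^ 19 +
      2183376080606706720 * f ^ 6 * e ^ 18 +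
      1417007783286587808 * f ^ 7 * e ^ 17 +
      752145289885444104 * f ^ 8 * e ^ 16 +
      330677051192332664 * f ^ 9 * e ^ 15 +
      121468216491430920 * f ^ 10 * e ^ 14 +
      37492488392212168 * f ^ 11 * e ^ 13 +
      9754955765272968 * f ^ 12 * e ^ 12 +
      2141471288559152 * f ^ 13 * e ^ 11 +
      396169941846672 * f ^ 14 * e ^ 10 +
      61552608968816 * f ^ 15 * e ^ 9 +
      7984443730416 * f ^ 16 * e ^ 8 +
      857078771800 * f ^ 17 * e ^ 7 +
      75171234472 * f ^ 18 * e ^ 6 +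
      5290612328 * f ^ 19 * e ^ 5 +
      291140424 * f ^ 20 * e ^ 4 +
      12048000 * f ^ 21 * e ^ 3 +
      352032 * f ^ 22 * e ^ 2 +
      6464 * f ^ 23 * e +
      56 * f ^ 24

theorem stripDdc3_nonneg {e f : ℝ} (he : 0 < e) (hf : 0 ≤ f) : 0 ≤ stripDdc3 e f := by
  unfold stripDdc3; positivity

/-- coefficient 4 of the certificate -/
def stripDdc4 (e f : ℝ) : ℝ :=
      65098010716876800 * e ^ 24 +
      416436237574225920 * f * e ^ 23 +
      1248742503346378752 * f ^ 2 * e ^ 22 +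
      2344676121383067648 * f ^ 3 * e ^ 21 +
      3102526074525825024 * f ^ 4 * e ^ 20 +
      3084193898430916608 * f ^ 5 * e ^ 19 +
      2395999546968025728 * f ^ 6 * e ^ 18 +
      1493093454925416960 * f ^ 7 * e ^ 17 +
      759850825313132624 * f ^ 8 * e ^ 16 +
      319752801002155904 * f ^ 9 * e ^ 15 +
      112208373851030208 * f ^ 10 * e ^ 14 +
      33014488748322864 * f ^ 11 * e ^ 13 +
      8167403689320208 * f ^ 12 * e ^ 12 +
      1699812472412320 * f ^ 13 * e ^ 11 +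
      297121269553712 * f ^ 14 * e ^ 10 +
      43447153049744 * f ^ 15 * e ^ 9 +
      5280089067584 * f ^ 16 * e ^ 8 +
      528175940032 * f ^ 17 * e ^ 7 +
      42897559968 * f ^ 18 * e ^ 6 +
      2774912208 * f ^ 19 * e ^ 5 +
      139086160 * f ^ 20 * e ^ 4 +
      5185056 * f ^ 21 * e ^ 3 +
      134640 * f ^ 22 * e ^ 2 +
      2160 * f ^ 23 * e +
      16 * f ^ 24

theorem stripDdc4_nonneg {e f : ℝ} (he : 0 < e) (hf : 0 ≤ f) : 0 ≤ stripDdc4 e f := by
  unfold stripDdc4; positivity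

/-- coefficient 5 of the certificate -/
def stripDdc5 (e f : ℝ) : ℝ :=
      59298665064652800 * e ^ 24 +
      365319976228945920 * f * e ^ 23 +
      1052287977307871232 * f ^ 2 * e ^ 22 +
      1893932040336463872 * f ^ 3 * e ^ 21 +
      2397681416675778048 * f ^ 4 * e ^ 20 +
      2276193273864422400 * f ^ 5 * e ^ 19 +
      1685433706597783680 * f ^ 6 * e ^ 18 +
      998987183334244736 * f ^ 7 * e ^ 17 +
      482417820618817984 * f ^ 8 * e ^ 16 +
      192109495474033024 * f ^ 9 * e ^ 15 +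
      63594123974724000 * f ^ 10 * e ^ 14 +
      17584193410188704 * f ^ 11 * e ^ 13 +
      4069935552446688 * f ^ 12 * e ^ 12 +
      788244907176384 * f ^ 13 * e ^ 11 +
      127386870173728 * f ^ 14 * e ^ 10 +
      17084596424896 * f ^ 15 * e ^ 9 +
      1885270838016 * f ^ 16 * e ^ 8 +
      169039066240 * f ^ 17 * e ^ 7 +
      12096242272 * f ^ 18 * e ^ 6 +
      673109664 * f ^ 19 * e ^ 5 +
      28011872 * f ^ 20 * e ^ 4 +
      818496 * f ^ 21 * e ^ 3 +
      14944 * f ^ 22 * e ^ 2 +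
      128 * f ^ 23 * e

theorem stripDdc5_nonneg {e f : ℝ} (he : 0 < e) (hf : 0 ≤ f) : 0 ≤ stripDdc5 e f := by
  unfold stripDdc5; positivity

/-- coefficient 6 of the certificate -/
def stripDdc6 (e f : ℝ) : ℝ :=
      36550012995993600 * e ^ 24 +
      215464986606551040 * f * e ^ 23 +
      591783004156944384 * f ^ 2 * e ^ 22 +
      1012592891150106624 * f ^ 3 * e ^ 21 +
      1215474059841988608 * f ^ 4 * e ^ 20 +
      1091237794713888768 * f ^ 5 * e ^ 19 +
      762092243362747904 * f ^ 6 * e ^ 18 +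
      424778327278202880 * f ^ 7 * e ^ 17 +
      192256627091456512 * f ^ 8 * e ^ 16 +
      71478259606637248 * f ^ 9 * e ^ 15 +
      21989304159209664 * f ^ 10 * e ^ 14 +
      5619454299257920 * f ^ 11 * e ^ 13 +
      1194107020116352 * f ^ 12 * e ^ 12 +
      210603285776384 * f ^ 13 * e ^ 11 +
      30683222601728 * f ^ 14 * e ^ 10 +
      3663101897600 * f ^ 15 * e ^ 9 +
      354007437824 * f ^ 16 * e ^ 8 +
      27206113728 * f ^ 17 * e ^ 7 +
      1619989952 * f ^ 18 * e ^ 6 +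
      71855168 * f ^ 19 * e ^ 5 +
      2227328 * f ^ 20 * e ^ 4 +
      42880 * f ^ 21 * e ^ 3 +
      384 * f ^ 22 * e ^ 2

theorem stripDdc6_nonneg {e f : ℝ} (he : 0 < e) (hf : 0 ≤ f) : 0 ≤ stripDdc6 e f := by
  unfold stripDdc6; positivity

/-- coefficient 7 of the certificate -/
def stripDdc7 (e f : ℝ) : ℝ :=
      15025955615539200 * e ^ 24 +
      84095442104647680 * f * e ^ 23 +
      218197236155424768 * f ^ 2 * e ^ 22 +
      351243289907159040 * f ^ 3 * e ^ 21 +
      395171664599341056 * f ^ 4 * e ^ 20 +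
      331342432342544384 * f ^ 5 * e ^ 19 +
      215330897901831680 * f ^ 6 * e ^ 18 +
      111251861740733952 * f ^ 7 * e ^ 17 +
      46469269089992320 * f ^ 8 * e ^ 16 +
      15862825315922816 * f ^ 9 * e ^ 15 +
      4453477226405504 * f ^ 10 * e ^ 14 +
      1031013775264896 * f ^ 11 * e ^ 13 +
      196683984022272 * f ^ 12 * e ^ 12 +
      30793580684160 * f ^ 13 * e ^ 11 +
      3926373122176 * f ^ 14 * e ^ 10 +
      402790099328 * f ^ 15 * e ^ 9 +
      32647733760 * f ^ 16 * e ^ 8 +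
      2035498240 * f ^ 17 * e ^ 7 +
      93713664 * f ^ 18 * e ^ 6 +
      2981376 * f ^ 19 * e ^ 5 +
      57984 * f ^ 20 * e ^ 4 +
      512 * f ^ 21 * e ^ 3

theorem stripDdc7_nonneg {e f : ℝ} (he : 0 < e) (hf : 0 ≤ f) : 0 ≤ stripDdc7 e f := by
  unfold stripDdc7; positivity

/-- coefficient 8 of the certificate -/
def stripDdc8 (e f : ℝ) : ℝ :=
      3932365086720000 * e ^ 24 +
      20682716155084800 * f * e ^ 23 +
      50068526191902720 * f ^ 2 * e ^ 22 +
      74734911680151552 * f ^ 3 * e ^ 21 +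
      77536261925224448 * f ^ 4 * e ^ 20 +
      59643382063611904 * f ^ 5 * e ^ 19 +
      35380849968314368 * f ^ 6 * e ^ 18 +
      16599278694866944 * f ^ 7 * e ^ 17 +
      6260571638365440 * f ^ 8 * e ^ 16 +
      1917307930189312 * f ^ 9 * e ^ 15 +
      479223466636800 * f ^ 10 * e ^ 14 +
      97843805993728 * f ^ 11 * e ^ 13 +
      16267015050752 * f ^ 12 * e ^ 12 +
      2185888523264 * f ^ 13 * e ^ 11 +
      234447207680 * f ^ 14 * e ^ 10 +
      19687249408 * f ^ 15 * e ^ 9 +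
      1257177088 * f ^ 16 * e ^ 8 +
      58354176 * f ^ 17 * e ^ 7 +
      1827072 * f ^ 18 * e ^ 6 +
      33536 * f ^ 19 * e ^ 5 +
      256 * f ^ 20 * e ^ 4

theorem stripDdc8_nonneg {e f : ℝ} (he : 0 < e) (hf : 0 ≤ f) : 0 ≤ stripDdc8 e f := by
  unfold stripDdc8; positivity

/-- coefficient 9 of the certificate -/
def stripDdc9 (e f : ℝ) : ℝ :=
      589062271795200 * e ^ 24 +
      2870920084193280 * f * e ^ 23 +
      6366272672268288 * f ^ 2 * e ^ 22 +
      8614776843501568 * f ^ 3 * e ^ 21 +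
      8024993837817856 * f ^ 4 * e ^ 20 +
      5492649307504640 * f ^ 5 * e ^ 19 +
      2874143541090304 * f ^ 6 * e ^ 18 +
      1179497756424192 * f ^ 7 * e ^ 17 +
      385855626678272 * f ^ 8 * e ^ 16 +
      101586907226112 * f ^ 9 * e ^ 15 +
      21609874494464 * f ^ 10 * e ^ 14 +
      3709442003456 * f ^ 11 * e ^ 13 +
      510315502080 * f ^ 12 * e ^ 12 +
      55513540608 * f ^ 13 * e ^ 11 +
      4669415936 * f ^ 14 * e ^ 10 +
      292909568 * f ^ 15 * e ^ 9 +
      12895744 * f ^ 16 * e ^ 8 +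
      355328 * f ^ 17 * e ^ 7 +
      4608 * f ^ 18 * e ^ 6

theorem stripDdc9_nonneg {e f : ℝ} (he : 0 < e) (hf : 0 ≤ f) : 0 ≤ stripDdc9 e f := by
  unfold stripDdc9; positivity

/-- coefficient 10 of the certificate -/
def stripDdc10 (e f : ℝ) : ℝ :=
      38093193216000 * e ^ 24 +
      168387733094400 * f * e ^ 23 +
      331589562531840 * f ^ 2 * e ^ 22 +
      389769558097920 * f ^ 3 * e ^ 21 +
      307909845155840 * f ^ 4 * e ^ 20 +
      173980333441024 * f ^ 5 * e ^ 19 +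
      72888841658368 * f ^ 6 * e ^ 18 +
      23115655733248 * f ^ 7 * e ^ 17 +
      5606218811392 * f ^ 8 * e ^ 16 +
      1041463516160 * f ^ 9 * e ^ 15 +
      147172152320 * f ^ 10 * e ^ 14 +
      15552546816 * f ^ 11 * e ^ 13 +
      1190765568 * f ^ 12 * e ^ 12 +
      62404608 * f ^ 13 * e ^ 11 +
      2002944 * f ^ 14 * e ^ 10 +
      29696 * f ^ 15 * e ^ 9

theorem stripDdc10_nonneg {e f : ℝ} (he : 0 < e) (hf : 0 ≤ f) : 0 ≤ stripDdc10 e f := by
  unfold stripDdc10; positivity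

theorem stripDdc0_pos {e f : ℝ} (he : 0 < e) (hf : 0 ≤ f) : 0 < stripDdc0 e f := by
  unfold stripDdc0; positivity

/-- positivity certificate (all coefficients nonnegative) -/
def stripDdS (e f w v : ℝ) : ℝ :=
    v ^ 10 * stripDdc0 e f +
    w ^ 1 * v ^ 9 * stripDdc1 e f +
    w ^ 2 * v ^ 8 * stripDdc2 e f +
    w ^ 3 * v ^ 7 * stripDdc3 e f +
    w ^ 4 * v ^ 6 * stripDdc4 e f +
    w ^ 5 * v ^ 5 * stripDdc5 e f +
    w ^ 6 * v ^ 4 * stripDdc6 e f +
    w ^ 7 * v ^ 3 * stripDdc7 e f +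
    w ^ 8 * v ^ 2 * stripDdc8 e f +
    w ^ 9 * v ^ 1 * stripDdc9 e f +
    w ^ 10 * stripDdc10 e f

theorem stripDd_pos {e f w v : ℝ} (he : 0 < e) (hf : 0 ≤ f) (hw : 0 ≤ w) (hv : 0 < v) :
    0 < stripDdS e f w v := by
  have := stripDdc0_pos he hf
  have := stripDdc1_nonneg he hf
  have := stripDdc2_nonneg he hf
  have := stripDdc3_nonneg he hf
  have := stripDdc4_nonneg he hf
  have := stripDdc5_nonneg he hf
  have := stripDdc6_nonneg he hf
  have := stripDdc7_nonneg he hf
  have := stripDdc8_nonneg he hf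
  have := stripDdc9_nonneg he hf
  have := stripDdc10_nonneg he hf
  unfold stripDdS
  positivity

theorem stripDd_eq (e u : ℝ) :
    1 * (1 - 2 * e) ^ 10 * (qD e u) =
      e ^ 5 * (1 - 2 * u) ^ 2 * stripDdS e (1 - 3 * e) (1 - 2 * u) (2 * (u - e)) := by
  simp only [qD, qL, qQ, qA, qB, qC, qR, qE, qM, gP, jP, lN, gn, xiN, etaN, zetaN, nuN, stripDdS, stripDdc0, stripDdc1, stripDdc2, stripDdc3, stripDdc4, stripDdc5, stripDdc6, stripDdc7, stripDdc8, stripDdc9, stripDdc10]
  ring

end Vale.Agent.P100.Strip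

end
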