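import Mathlib
import Vale.Agent.P100.StripPoly

/-!
# Positivity certificates for the strip parameters (generated; every coefficient is nonnegative)
-/

noncomputable section

namespace Vale.Agent.P100.Strip

/-- coefficient 0 of the certificate -/
def stripII_loc0 (e f : ℝ) : ℝ :=
      16439241600 * e ^ 17 +
      78568237440 * f * e ^ 16 +
      176088999384 * f ^ 2 * e ^ 15 +
      245768315292 * f ^ 3 * e ^ 14 +
      239217970356 * f ^ 4 * e ^ 13 +
      172301561532 * f ^ 5 * e ^ 12 +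
      95084053200 * f ^ 6 * e ^ 11 +
      41058175212 * f ^ 7 * e ^ 10 +
      14042888028 * f ^ 8 * e ^ 9 +
      3825529164 * f ^ 9 * e ^ 8 +
      829930968 * f ^ 10 * e ^ 7 +
      142550420 * f ^ 11 * e ^ 6 +
      19144940 * f ^ 12 * e ^ 5 +
      1967988 * f ^ 13 * e ^ 4 +
      149504 * f ^ 14 * e ^ 3 +
      7908 * f ^ 15 * e ^ 2 +
      260 * f ^ 16 * e +
      4 * f ^ 17

theorem stripII_loc0_nonneg {e f : ℝ} (he : 0 < e) (hf : 0 ≤ f) : 0 ≤ stripII_loc0 e f := by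
  unfold stripII_loc0; positivity

/-- coefficient 1 of the certificate -/
def stripII_loc1 (e f : ℝ) : ℝ :=
      126934879680 * e ^ 17 +
      603465663456 * f * e ^ 16 +
      1345334388444 * f ^ 2 * e ^ 15 +
      1867672770768 * f ^ 3 * e ^ 14 +
      1808123437656 * f ^ 4 * e ^ 13 +
      1295278723188 * f ^ 5 * e ^ 12 +
      710885133756 * f ^ 6 * e ^ 11 +
      305270240400 * f ^ 7 * e ^ 10 +
      103826161368 * f ^ 8 * e ^ 9 +
      28123976692 * f ^ 9 * e ^ 8 +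
      6066356436 * f ^ 10 * e ^ 7 +
      1035899024 * f ^ 11 * e ^ 6 +
      138300648 * f ^ 12 * e ^ 5 +
      14130844 * f ^ 13 * e ^ 4 +
      1066900 * f ^ 14 * e ^ 3 +
      56080 * f ^ 15 * e ^ 2 +
      1832 * f ^ 16 * e +
      28 * f ^ 17

theorem stripII_loc1_nonneg {e f : ℝ} (he : 0 < e) (hf : 0 ≤ f) : 0 ≤ stripII_loc1 e f := by
  unfold stripII_loc1; positivity

/-- coefficient 2 of the certificate -/
def stripII_loc2 (e f : ℝ) : ℝ :=
      426501846576 * e ^ 17 +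
      2013886956492 * f * e ^ 16 +
      4458205948005 * f ^ 2 * e ^ 15 +
      6144526217160 * f ^ 3 * e ^ 14 +
      5904583604523 * f ^ 4 * e ^ 13 +
      4197775527198 * f ^ 5 * e ^ 12 +
      2286001743201 * f ^ 6 * e ^ 11 +
      973899423828 * f ^ 7 * e ^ 10 +
      328567928575 * f ^ 8 * e ^ 9 +
      88272367634 * f ^ 9 * e ^ 8 +
      18882141583 * f ^ 10 * e ^ 7 +
      3197174368 * f ^ 11 * e ^ 6 +
      423207937 * f ^ 12 * e ^ 5 +
      42868530 * f ^ 13 * e ^ 4 +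
      3208491 * f ^ 14 * e ^ 3 +
      167172 * f ^ 15 * e ^ 2 +
      5413 * f ^ 16 * e +
      82 * f ^ 17

theorem stripII_loc2_nonneg {e f : ℝ} (he : 0 < e) (hf : 0 ≤ f) : 0 ≤ stripII_loc2 e f := by
  unfold stripII_loc2; positivity

/-- coefficient 3 of the certificate -/
def stripII_loc3 (e f : ℝ) : ℝ :=
      814772209608 * e ^ 17 +
      3815722952856 * f * e ^ 16 +
      8374613649894 * f ^ 2 * e ^ 15 +
      11439499943430 * f ^ 3 * e ^ 14 +
      10891480168908 * f ^ 4 * e ^ 13 +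
      7669622994768 * f ^ 5 * e ^ 12 +
      4135986841250 * f ^ 6 * e ^ 11 +
      1744483233986 * f ^ 7 * e ^ 10 +
      582560941880 * f ^ 8 * e ^ 9 +
      154891835900 * f ^ 9 * e ^ 8 +
      32785143114 * f ^ 10 * e ^ 7 +
      5492364810 * f ^ 11 * e ^ 6 +
      719234252 * f ^ 12 * e ^ 5 +
      72068760 * f ^ 13 * e ^ 4 +
      5335598 * f ^ 14 * e ^ 3 +
      274990 * f ^ 15 * e ^ 2 +
      8808 * f ^ 16 * e +
      132 * f ^ 17

theorem stripII_loc3_nonneg {e f : ℝ} (he : 0 < e) (hf : 0 ≤ f) : 0 ≤ stripII_loc3 e f := by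
  unfold stripII_loc3; positivity

/-- coefficient 4 of the certificate -/
def stripII_loc4 (e f : ℝ) : ℝ :=
      968196986496 * e ^ 17 +
      4491011202156 * f * e ^ 16 +
      9757672037037 * f ^ 2 * e ^ 15 +
      13188677661816 * f ^ 3 * e ^ 14 +
      12419810230304 * f ^ 4 * e ^ 13 +
      8647239186488 * f ^ 5 * e ^ 12 +
      4609121532191 * f ^ 6 * e ^ 11 +
      1920960146924 * f ^ 7 * e ^ 10 +
      633720549610 * f ^ 8 * e ^ 9 +
      166416516188 * f ^ 9 * e ^ 8 +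
      34783786075 * f ^ 10 * e ^ 7 +
      5753411920 * f ^ 11 * e ^ 6 +
      743793580 * f ^ 12 * e ^ 5 +
      73571904 * f ^ 13 * e ^ 4 +
      5376729 * f ^ 14 * e ^ 3 +
      273548 * f ^ 15 * e ^ 2 +
      8650 * f ^ 16 * e +
      128 * f ^ 17

theorem stripII_loc4_nonneg {e f : ℝ} (he : 0 < e) (hf : 0 ≤ f) : 0 ≤ stripII_loc4 e f := by
  unfold stripII_loc4; positivity

/-- coefficient 5 of the certificate -/
def stripII_loc5 (e f : ℝ) : ℝ :=
      732975787152 * e ^ 17 +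
      3363049488204 * f * e ^ 16 +
      7222856694246 * f ^ 2 * e ^ 15 +
      9644525363394 * f ^ 3 * e ^ 14 +
      8967746008512 * f ^ 4 * e ^ 13 +
      6162134309164 * f ^ 5 * e ^ 12 +
      3240220047210 * f ^ 6 * e ^ 11 +
      1331715714718 * f ^ 7 * e ^ 10 +
      433087203156 * f ^ 8 * e ^ 9 +
      112076998608 * f ^ 9 * e ^ 8 +
      23078421338 * f ^ 10 * e ^ 7 +
      3759571006 * f ^ 11 * e ^ 6 +
      478554616 * f ^ 12 * e ^ 5 +
      46596204 * f ^ 13 * e ^ 4 +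
      3351382 * f ^ 14 * e ^ 3 +
      167778 * f ^ 15 * e ^ 2 +
      5220 * f ^ 16 * e +
      76 * f ^ 17

theorem stripII_loc5_nonneg {e f : ℝ} (he : 0 < e) (hf : 0 ≤ f) : 0 ≤ stripII_loc5 e f := by
  unfold stripII_loc5; positivity

/-- coefficient 6 of the certificate -/
def stripII_loc6 (e f : ℝ) : ℝ :=
      345274201008 * e ^ 17 +
      1564880124288 * f * e ^ 16 +
      3317135549561 * f ^ 2 * e ^ 15 +
      4368276930012 * f ^ 3 * e ^ 14 +
      4002980885659 * f ^ 4 * e ^ 13 +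
      2709045543066 * f ^ 5 * e ^ 12 +
      1402062196957 * f ^ 6 * e ^ 11 +
      566804489464 * f ^ 7 * e ^ 10 +
      181190558535 * f ^ 8 * e ^ 9 +
      46057651718 * f ^ 9 * e ^ 8 +
      9308271355 * f ^ 10 * e ^ 7 +
      1486914908 * f ^ 11 * e ^ 6 +
      185402433 * f ^ 12 * e ^ 5 +
      17662662 * f ^ 13 * e ^ 4 +
      1241263 * f ^ 14 * e ^ 3 +
      60624 * f ^ 15 * e ^ 2 +
      1837 * f ^ 16 * e +
      26 * f ^ 17

theorem stripII_loc6_nonneg {e f : ℝ} (he : 0 < e) (hf : 0 ≤ f) : 0 ≤ stripII_loc6 e f := by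
  unfold stripII_loc6; positivity

/-- coefficient 7 of the certificate -/
def stripII_loc7 (e f : ℝ) : ℝ :=
      92528793000 * e ^ 17 +
      413649822588 * f * e ^ 16 +
      863927879056 * f ^ 2 * e ^ 15 +
      1119783129876 * f ^ 3 * e ^ 14 +
      1008945148852 * f ^ 4 * e ^ 13 +
      670644523880 * f ^ 5 * e ^ 12 +
      340503123312 * f ^ 6 * e ^ 11 +
      134856514404 * f ^ 7 * e ^ 10 +
      42164542740 * f ^ 8 * e ^ 9 +
      10461795136 * f ^ 9 * e ^ 8 +
      2058509616 * f ^ 10 * e ^ 7 +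
      319096828 * f ^ 11 * e ^ 6 +
      38446684 * f ^ 12 * e ^ 5 +
      3519704 * f ^ 13 * e ^ 4 +
      235984 * f ^ 14 * e ^ 3 +
      10892 * f ^ 15 * e ^ 2 +
      308 * f ^ 16 * e +
      4 * f ^ 17

theorem stripII_loc7_nonneg {e f : ℝ} (he : 0 < e) (hf : 0 ≤ f) : 0 ≤ stripII_loc7 e f := by
  unfold stripII_loc7; positivity

/-- coefficient 8 of the certificate -/
def stripII_loc8 (e f : ℝ) : ℝ :=
      10799386016 * e ^ 17 +
      47541333688 * f * e ^ 16 +
      97629765684 * f ^ 2 * e ^ 15 +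
      124231285656 * f ^ 3 * e ^ 14 +
      109700714112 * f ^ 4 * e ^ 13 +
      71317105720 * f ^ 5 * e ^ 12 +
      35324214028 * f ^ 6 * e ^ 11 +
      13602580792 * f ^ 7 * e ^ 10 +
      4116515048 * f ^ 8 * e ^ 9 +
      982404712 * f ^ 9 * e ^ 8 +
      184267916 * f ^ 10 * e ^ 7 +
      26874696 * f ^ 11 * e ^ 6 +
      2986736 * f ^ 12 * e ^ 5 +
      244392 * f ^ 13 * e ^ 4 +
      13876 * f ^ 14 * e ^ 3 +
      488 * f ^ 15 * e ^ 2 +
      8 * f ^ 16 * e

theorem stripII_loc8_nonneg {e f : ℝ} (he : 0 < e) (hf : 0 ≤ f) : 0 ≤ stripII_loc8 e f := by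
  unfold stripII_loc8; positivity

theorem stripII_loc0_pos {e f : ℝ} (he : 0 < e) (hf : 0 ≤ f) : 0 < stripII_loc0 e f := by
  unfold stripII_loc0; positivity

/-- positivity certificate (all coefficients nonnegative) -/
def stripII_loS (e f w v : ℝ) : ℝ :=
    v ^ 8 * stripII_loc0 e f +
    w ^ 1 * v ^ 7 * stripII_loc1 e f +
    w ^ 2 * v ^ 6 * stripII_loc2 e f +
    w ^ 3 * v ^ 5 * stripII_loc3 e f +
    w ^ 4 * v ^ 4 * stripII_loc4 e f +
    w ^ 5 * v ^ 3 * stripII_loc5 e f +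
    w ^ 6 * v ^ 2 * stripII_loc6 e f +
    w ^ 7 * v ^ 1 * stripII_loc7 e f +
    w ^ 8 * stripII_loc8 e f

theorem stripII_lo_pos {e f w v : ℝ} (he : 0 < e) (hf : 0 ≤ f) (hw : 0 ≤ w) (hv : 0 < v) :
    0 < stripII_loS e f w v := by
  have := stripII_loc0_pos he hf
  have := stripII_loc1_nonneg he hf
  have := stripII_loc2_nonneg he hf
  have := stripII_loc3_nonneg he hf
  have := stripII_loc4_nonneg he hf
  have := stripII_loc5_nonneg he hf
  have := stripII_loc6_nonneg he hf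
  have := stripII_loc7_nonneg he hf
  have := stripII_loc8_nonneg he hf
  unfold stripII_loS
  positivity

theorem stripII_lo_eq (e u : ℝ) :
    4 * (1 - 2 * e) ^ 8 * (sII e u ((1 - u) * e)) =
      e ^ 1 * stripII_loS e (1 - 3 * e) (1 - 2 * u) (2 * (u - e)) := by
  simp only [sII, rII, lII, fn, gn, zetaN, etaN, nuN, stripII_loS, stripII_loc0, stripII_loc1, stripII_loc2, stripII_loc3, stripII_loc4, stripII_loc5, stripII_loc6, stripII_loc7, stripII_loc8]
  ring

end Vale.Agent.P100.Strip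

end
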