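import Mathlib
import Vale.Agent.P100.StripPoly

/-!
# Positivity certificates for the strip parameters (generated; every coefficient is nonnegative)
-/

noncomputable section

namespace Vale.Agent.P100.Strip

/-- coefficient 0 of the certificate -/
def stripII_upc0 (e f : ℝ) : ℝ :=
      596018736 * e ^ 15 +
      2596980852 * f * e ^ 14 +
      5226685785 * f ^ 2 * e ^ 13 +
      6447935826 * f ^ 3 * e ^ 12 +
      5454563274 * f ^ 4 * e ^ 11 +
      3352372920 * f ^ 5 * e ^ 10 +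
      1546708371 * f ^ 6 * e ^ 9 +
      545594558 * f ^ 7 * e ^ 8 +
      148374476 * f ^ 8 * e ^ 7 +
      31112244 * f ^ 9 * e ^ 6 +
      4989727 * f ^ 10 * e ^ 5 +
      601134 * f ^ 11 * e ^ 4 +
      52666 * f ^ 12 * e ^ 3 +
      3168 * f ^ 13 * e ^ 2 +
      117 * f ^ 14 * e +
      2 * f ^ 15

theorem stripII_upc0_nonneg {e f : ℝ} (he : 0 < e) (hf : 0 ≤ f) : 0 ≤ stripII_upc0 e f := by
  unfold stripII_upc0; positivity

/-- coefficient 1 of the certificate -/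
def stripII_upc1 (e f : ℝ) : ℝ :=
      3129270408 * e ^ 15 +
      13385227320 * f * e ^ 14 +
      26450105310 * f ^ 2 * e ^ 13 +
      32039712918 * f ^ 3 * e ^ 12 +
      26612611614 * f ^ 4 * e ^ 11 +
      16058903274 * f ^ 5 * e ^ 10 +
      7274110304 * f ^ 6 * e ^ 9 +
      2518990556 * f ^ 7 * e ^ 8 +
      672499148 * f ^ 8 * e ^ 7 +
      138436836 * f ^ 9 * e ^ 6 +
      21798310 * f ^ 10 * e ^ 5 +
      2578758 * f ^ 11 * e ^ 4 +
      221902 * f ^ 12 * e ^ 3 +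
      13114 * f ^ 13 * e ^ 2 +
      476 * f ^ 14 * e +
      8 * f ^ 15

theorem stripII_upc1_nonneg {e f : ℝ} (he : 0 < e) (hf : 0 ≤ f) : 0 ≤ stripII_upc1 e f := by
  unfold stripII_upc1; positivity

/-- coefficient 2 of the certificate -/
def stripII_upc2 (e f : ℝ) : ℝ :=
      6752284416 * e ^ 15 +
      28236584988 * f * e ^ 14 +
      54537149421 * f ^ 2 * e ^ 13 +
      64548085398 * f ^ 3 * e ^ 12 +
      52363783895 * f ^ 4 * e ^ 11 +
      30846809072 * f ^ 5 * e ^ 10 +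
      13634044472 * f ^ 6 * e ^ 9 +
      4605045672 * f ^ 7 * e ^ 8 +
      1198677386 * f ^ 8 * e ^ 7 +
      240520452 * f ^ 9 * e ^ 6 +
      36911777 * f ^ 10 * e ^ 5 +
      4256310 * f ^ 11 * e ^ 4 +
      357119 * f ^ 12 * e ^ 3 +
      20592 * f ^ 13 * e ^ 2 +
      730 * f ^ 14 * e +
      12 * f ^ 15

theorem stripII_upc2_nonneg {e f : ℝ} (he : 0 < e) (hf : 0 ≤ f) : 0 ≤ stripII_upc2 e f := by
  unfold stripII_upc2; positivity

/-- coefficient 3 of the certificate -/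
def stripII_upc3 (e f : ℝ) : ℝ :=
      7657412112 * e ^ 15 +
      31160895372 * f * e ^ 14 +
      58532323410 * f ^ 2 * e ^ 13 +
      67328262090 * f ^ 3 * e ^ 12 +
      53043406590 * f ^ 4 * e ^ 11 +
      30320811818 * f ^ 5 * e ^ 10 +
      12992384828 * f ^ 6 * e ^ 9 +
      4249914228 * f ^ 7 * e ^ 8 +
      1070051668 * f ^ 8 * e ^ 7 +
      207389928 * f ^ 9 * e ^ 6 +
      30689458 * f ^ 10 * e ^ 5 +
      3405306 * f ^ 11 * e ^ 4 +
      274270 * f ^ 12 * e ^ 3 +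
      15138 * f ^ 13 * e ^ 2 +
      512 * f ^ 14 * e +
      8 * f ^ 15

theorem stripII_upc3_nonneg {e f : ℝ} (he : 0 < e) (hf : 0 ≤ f) : 0 ≤ stripII_upc3 e f := by
  unfold stripII_upc3; positivity

/-- coefficient 4 of the certificate -/
def stripII_upc4 (e f : ℝ) : ℝ :=
      4802092848 * e ^ 15 +
      18899790600 * f * e ^ 14 +
      34287249521 * f ^ 2 * e ^ 13 +
      38032310846 * f ^ 3 * e ^ 12 +
      28842636390 * f ^ 4 * e ^ 11 +
      15836851464 * f ^ 5 * e ^ 10 +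
      6501193999 * f ^ 6 * e ^ 9 +
      2030507446 * f ^ 7 * e ^ 8 +
      486064452 * f ^ 8 * e ^ 7 +
      89082120 * f ^ 9 * e ^ 6 +
      12381167 * f ^ 10 * e ^ 5 +
      1279562 * f ^ 11 * e ^ 4 +
      95014 * f ^ 12 * e ^ 3 +
      4776 * f ^ 13 * e ^ 2 +
      145 * f ^ 14 * e +
      2 * f ^ 15

theorem stripII_upc4_nonneg {e f : ℝ} (he : 0 < e) (hf : 0 ≤ f) : 0 ≤ stripII_upc4 e f := by
  unfold stripII_upc4; positivity

/-- coefficient 5 of the certificate -/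
def stripII_upc5 (e f : ℝ) : ℝ :=
      1573425000 * e ^ 15 +
      5938272468 * f * e ^ 14 +
      10300413876 * f ^ 2 * e ^ 13 +
      10889879788 * f ^ 3 * e ^ 12 +
      7843628324 * f ^ 4 * e ^ 11 +
      4073479424 * f ^ 5 * e ^ 10 +
      1573677792 * f ^ 6 * e ^ 9 +
      459601224 * f ^ 7 * e ^ 8 +
      102014080 * f ^ 8 * e ^ 7 +
      17133540 * f ^ 9 * e ^ 6 +
      2144612 * f ^ 10 * e ^ 5 +
      194124 * f ^ 11 * e ^ 4 +
      12020 * f ^ 12 * e ^ 3 +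
      456 * f ^ 13 * e ^ 2 +
      8 * f ^ 14 * e

theorem stripII_upc5_nonneg {e f : ℝ} (he : 0 < e) (hf : 0 ≤ f) : 0 ≤ stripII_upc5 e f := by
  unfold stripII_upc5; positivity

/-- coefficient 6 of the certificate -/
def stripII_upc6 (e f : ℝ) : ℝ :=
      209386016 * e ^ 15 +
      748403656 * f * e ^ 14 +
      1222172396 * f ^ 2 * e ^ 13 +
      1208812616 * f ^ 3 * e ^ 12 +
      809053740 * f ^ 4 * e ^ 11 +
      387604632 * f ^ 5 * e ^ 10 +
      137029368 * f ^ 6 * e ^ 9 +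
      36281136 * f ^ 7 * e ^ 8 +
      7213048 * f ^ 8 * e ^ 7 +
      1066200 * f ^ 9 * e ^ 6 +
      114140 * f ^ 10 * e ^ 5 +
      8392 * f ^ 11 * e ^ 4 +
      380 * f ^ 12 * e ^ 3 +
      8 * f ^ 13 * e ^ 2

theorem stripII_upc6_nonneg {e f : ℝ} (he : 0 < e) (hf : 0 ≤ f) : 0 ≤ stripII_upc6 e f := by
  unfold stripII_upc6; positivity

theorem stripII_upc0_pos {e f : ℝ} (he : 0 < e) (hf : 0 ≤ f) : 0 < stripII_upc0 e f := by
  unfold stripII_upc0; positivity

/-- positivity certificate (all coefficients nonnegative) -/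
def stripII_upS (e f w v : ℝ) : ℝ :=
    v ^ 6 * stripII_upc0 e f +
    w ^ 1 * v ^ 5 * stripII_upc1 e f +
    w ^ 2 * v ^ 4 * stripII_upc2 e f +
    w ^ 3 * v ^ 3 * stripII_upc3 e f +
    w ^ 4 * v ^ 2 * stripII_upc4 e f +
    w ^ 5 * v ^ 1 * stripII_upc5 e f +
    w ^ 6 * stripII_upc6 e f

theorem stripII_up_pos {e f w v : ℝ} (he : 0 < e) (hf : 0 ≤ f) (hw : 0 ≤ w) (hv : 0 < v) :
    0 < stripII_upS e f w v := by
  have := stripII_upc0_pos he hf
  have := stripII_upc1_nonneg he hf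
  have := stripII_upc2_nonneg he hf
  have := stripII_upc3_nonneg he hf
  have := stripII_upc4_nonneg he hf
  have := stripII_upc5_nonneg he hf
  have := stripII_upc6_nonneg he hf
  unfold stripII_upS
  positivity

theorem stripII_up_eq (e u : ℝ) :
    4 * (1 - 2 * e) ^ 6 * (sII e u (e * (1 - 2 * u ^ 2 * (1 - 2 * u) ^ 2))) =
      e ^ 1 * (1 - 2 * u) ^ 2 * stripII_upS e (1 - 3 * e) (1 - 2 * u) (2 * (u - e)) := by
  simp only [sII, rII, lII, fn, gn, zetaN, etaN, nuN, stripII_upS, stripII_upc0, stripII_upc1, stripII_upc2, stripII_upc3, stripII_upc4, stripII_upc5, stripII_upc6]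
  ring

end Vale.Agent.P100.Strip

end
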