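import Mathlib
import Vale.Agent.P100.StripPoly

/-!
# Positivity certificates for the strip parameters (generated; every coefficient is nonnegative)
-/

noncomputable section

namespace Vale.Agent.P100.Strip

/-- coefficient 0 of the certificate -/
def stripI_loc0 (e f : ℝ) : ℝ :=
      16439241600 * e ^ 17 +
      78568237440 * f * e ^ 16 +
      176088999384 * f ^ 2 * e ^ 15 +
      245768315292 * f ^ 3 * e ^ 14 +
      239217970356 * f ^ 4 * e ^ 13 +
      172301561532 * f ^ 5 * e ^ 12 +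
      95084053200 * f ^ 6 * e ^ 11 +
      41058175212 * f ^ 7 * e ^ 10 +
      14042888028 * f ^ 8 * e ^ 9 +
      3825529164 * f ^ 9 * e ^ 8 +
      829930968 * f ^ 10 * e ^ 7 +
      142550420 * f ^ 11 * e ^ 6 +
      19144940 * f ^ 12 * e ^ 5 +
      1967988 * f ^ 13 * e ^ 4 +
      149504 * f ^ 14 * e ^ 3 +
      7908 * f ^ 15 * e ^ 2 +
      260 * f ^ 16 * e +
      4 * f ^ 17

theorem stripI_loc0_nonneg {e f : ℝ} (he : 0 < e) (hf : 0 ≤ f) : 0 ≤ stripI_loc0 e f := by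
  unfold stripI_loc0; positivity

/-- coefficient 1 of the certificate -/
def stripI_loc1 (e f : ℝ) : ℝ :=
      127778886720 * e ^ 17 +
      607722230304 * f * e ^ 16 +
      1355129751492 * f ^ 2 * e ^ 15 +
      1881374273280 * f ^ 3 * e ^ 14 +
      1821188645640 * f ^ 4 * e ^ 13 +
      1304293175604 * f ^ 5 * e ^ 12 +
      715540904244 * f ^ 6 * e ^ 11 +
      307105110720 * f ^ 7 * e ^ 10 +
      104382942840 * f ^ 8 * e ^ 9 +
      28254139700 * f ^ 9 * e ^ 8 +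
      6089618476 * f ^ 10 * e ^ 7 +
      1039021088 * f ^ 11 * e ^ 6 +
      138605336 * f ^ 12 * e ^ 5 +
      14151260 * f ^ 13 * e ^ 4 +
      1067740 * f ^ 14 * e ^ 3 +
      56096 * f ^ 15 * e ^ 2 +
      1832 * f ^ 16 * e +
      28 * f ^ 17

theorem stripI_loc1_nonneg {e f : ℝ} (he : 0 < e) (hf : 0 ≤ f) : 0 ≤ stripI_loc1 e f := by
  unfold stripI_loc1; positivity

/-- coefficient 2 of the certificate -/
def stripI_loc2 (e f : ℝ) : ℝ :=
      431941702896 * e ^ 17 +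
      2041005651516 * f * e ^ 16 +
      4519847365317 * f ^ 2 * e ^ 15 +
      6229646746452 * f ^ 3 * e ^ 14 +
      5984682571539 * f ^ 4 * e ^ 13 +
      4252296513150 * f ^ 5 * e ^ 12 +
      2313774975609 * f ^ 6 * e ^ 11 +
      984693078768 * f ^ 7 * e ^ 10 +
      331797252559 * f ^ 8 * e ^ 9 +
      89016636322 * f ^ 9 * e ^ 8 +
      19013262879 * f ^ 10 * e ^ 7 +
      3214521828 * f ^ 11 * e ^ 6 +
      424876809 * f ^ 12 * e ^ 5 +
      42978770 * f ^ 13 * e ^ 4 +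
      3212963 * f ^ 14 * e ^ 3 +
      167256 * f ^ 15 * e ^ 2 +
      5413 * f ^ 16 * e +
      82 * f ^ 17

theorem stripI_loc2_nonneg {e f : ℝ} (he : 0 < e) (hf : 0 ≤ f) : 0 ≤ stripI_loc2 e f := by
  unfold stripI_loc2; positivity

/-- coefficient 3 of the certificate -/
def stripI_loc3 (e f : ℝ) : ℝ :=
      829494918648 * e ^ 17 +
      3887806000464 * f * e ^ 16 +
      8535136985874 * f ^ 2 * e ^ 15 +
      11656136070234 * f ^ 3 * e ^ 14 +
      11090185901136 * f ^ 4 * e ^ 13 +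
      7801069897800 * f ^ 5 * e ^ 12 +
      4200836795006 * f ^ 6 * e ^ 11 +
      1768788230534 * f ^ 7 * e ^ 10 +
      589534923292 * f ^ 8 * e ^ 9 +
      156421613572 * f ^ 9 * e ^ 8 +
      33038755022 * f ^ 10 * e ^ 7 +
      5523355558 * f ^ 11 * e ^ 6 +
      721893048 * f ^ 12 * e ^ 5 +
      72213088 * f ^ 13 * e ^ 4 +
      5339170 * f ^ 14 * e ^ 3 +
      274938 * f ^ 15 * e ^ 2 +
      8804 * f ^ 16 * e +
      132 * f ^ 17

theorem stripI_loc3_nonneg {e f : ℝ} (he : 0 < e) (hf : 0 ≤ f) : 0 ≤ stripI_loc3 e f := by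
  unfold stripI_loc3; positivity

/-- coefficient 4 of the certificate -/
def stripI_loc4 (e f : ℝ) : ℝ :=
      989874938736 * e ^ 17 +
      4594500629244 * f * e ^ 16 +
      9981341723025 * f ^ 2 * e ^ 15 +
      13480124657568 * f ^ 3 * e ^ 14 +
      12676363441508 * f ^ 4 * e ^ 13 +
      8808915661568 * f ^ 5 * e ^ 12 +
      4684388161595 * f ^ 6 * e ^ 11 +
      1947234863212 * f ^ 7 * e ^ 10 +
      640609852582 * f ^ 8 * e ^ 9 +
      167755434044 * f ^ 9 * e ^ 8 +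
      34969489111 * f ^ 10 * e ^ 7 +
      5770020280 * f ^ 11 * e ^ 6 +
      744403144 * f ^ 12 * e ^ 5 +
      73517320 * f ^ 13 * e ^ 4 +
      5367645 * f ^ 14 * e ^ 3 +
      273020 * f ^ 15 * e ^ 2 +
      8638 * f ^ 16 * e +
      128 * f ^ 17

theorem stripI_loc4_nonneg {e f : ℝ} (he : 0 < e) (hf : 0 ≤ f) : 0 ≤ stripI_loc4 e f := by
  unfold stripI_loc4; positivity

/-- coefficient 5 of the certificate -/
def stripI_loc5 (e f : ℝ) : ℝ :=
      751702844592 * e ^ 17 +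
      3449455247412 * f * e ^ 16 +
      7401876413490 * f ^ 2 * e ^ 15 +
      9865907980614 * f ^ 3 * e ^ 14 +
      9150283720188 * f ^ 4 * e ^ 13 +
      6267918361908 * f ^ 5 * e ^ 12 +
      3284251502150 * f ^ 6 * e ^ 11 +
      1344811734930 * f ^ 7 * e ^ 10 +
      435737214512 * f ^ 8 * e ^ 9 +
      112374784168 * f ^ 9 * e ^ 8 +
      23070272062 * f ^ 10 * e ^ 7 +
      3749277930 * f ^ 11 * e ^ 6 +
      476468300 * f ^ 12 * e ^ 5 +
      46357284 * f ^ 13 * e ^ 4 +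
      3334602 * f ^ 14 * e ^ 3 +
      167102 * f ^ 15 * e ^ 2 +
      5208 * f ^ 16 * e +
      76 * f ^ 17

theorem stripI_loc5_nonneg {e f : ℝ} (he : 0 < e) (hf : 0 ≤ f) : 0 ≤ stripI_loc5 e f := by
  unfold stripI_loc5; positivity

/-- coefficient 6 of the certificate -/
def stripI_loc6 (e f : ℝ) : ℝ :=
      354739342608 * e ^ 17 +
      1606584681768 * f * e ^ 16 +
      3398438773493 * f ^ 2 * e ^ 15 +
      4460910838872 * f ^ 3 * e ^ 14 +
      4071043718527 * f ^ 4 * e ^ 13 +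
      2742115612090 * f ^ 5 * e ^ 12 +
      1412091519129 * f ^ 6 * e ^ 11 +
      568044369420 * f ^ 7 * e ^ 10 +
      180764714331 * f ^ 8 * e ^ 9 +
      45774515086 * f ^ 9 * e ^ 8 +
      9225049423 * f ^ 10 * e ^ 7 +
      1471245056 * f ^ 11 * e ^ 6 +
      183391597 * f ^ 12 * e ^ 5 +
      17487990 * f ^ 13 * e ^ 4 +
      1231523 * f ^ 14 * e ^ 3 +
      60316 * f ^ 15 * e ^ 2 +
      1833 * f ^ 16 * e +
      26 * f ^ 17

theorem stripI_loc6_nonneg {e f : ℝ} (he : 0 < e) (hf : 0 ≤ f) : 0 ≤ stripI_loc6 e f := by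
  unfold stripI_loc6; positivity

/-- coefficient 7 of the certificate -/
def stripI_loc7 (e f : ℝ) : ℝ :=
      95107256280 * e ^ 17 +
      424300332444 * f * e ^ 16 +
      882818195776 * f ^ 2 * e ^ 15 +
      1138323103092 * f ^ 3 * e ^ 14 +
      1019279209444 * f ^ 4 * e ^ 13 +
      672928637656 * f ^ 5 * e ^ 12 +
      339333152704 * f ^ 6 * e ^ 11 +
      133539933492 * f ^ 7 * e ^ 10 +
      41528598692 * f ^ 8 * e ^ 9 +
      10263419328 * f ^ 9 * e ^ 8 +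
      2015159680 * f ^ 10 * e ^ 7 +
      312346364 * f ^ 11 * e ^ 6 +
      37708652 * f ^ 12 * e ^ 5 +
      3465672 * f ^ 13 * e ^ 4 +
      233600 * f ^ 14 * e ^ 3 +
      10844 * f ^ 15 * e ^ 2 +
      308 * f ^ 16 * e +
      4 * f ^ 17

theorem stripI_loc7_nonneg {e f : ℝ} (he : 0 < e) (hf : 0 ≤ f) : 0 ≤ stripI_loc7 e f := by
  unfold stripI_loc7; positivity

/-- coefficient 8 of the certificate -/
def stripI_loc8 (e f : ℝ) : ℝ :=
      11088672656 * e ^ 17 +
      48624537616 * f * e ^ 16 +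
      99244173444 * f ^ 2 * e ^ 15 +
      125290071504 * f ^ 3 * e ^ 14 +
      109628415504 * f ^ 4 * e ^ 13 +
      70579097632 * f ^ 5 * e ^ 12 +
      34622238620 * f ^ 6 * e ^ 11 +
      13213635776 * f ^ 7 * e ^ 10 +
      3968562488 * f ^ 8 * e ^ 9 +
      941705232 * f ^ 9 * e ^ 8 +
      176040252 * f ^ 10 * e ^ 7 +
      25658000 * f ^ 11 * e ^ 6 +
      2858272 * f ^ 12 * e ^ 5 +
      235200 * f ^ 13 * e ^ 4 +
      13476 * f ^ 14 * e ^ 3 +
      480 * f ^ 15 * e ^ 2 +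
      8 * f ^ 16 * e

theorem stripI_loc8_nonneg {e f : ℝ} (he : 0 < e) (hf : 0 ≤ f) : 0 ≤ stripI_loc8 e f := by
  unfold stripI_loc8; positivity

theorem stripI_loc0_pos {e f : ℝ} (he : 0 < e) (hf : 0 ≤ f) : 0 < stripI_loc0 e f := by
  unfold stripI_loc0; positivity

/-- positivity certificate (all coefficients nonnegative) -/
def stripI_loS (e f w v : ℝ) : ℝ :=
    v ^ 8 * stripI_loc0 e f +
    w ^ 1 * v ^ 7 * stripI_loc1 e f +
    w ^ 2 * v ^ 6 * stripI_loc2 e f +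
    w ^ 3 * v ^ 5 * stripI_loc3 e f +
    w ^ 4 * v ^ 4 * stripI_loc4 e f +
    w ^ 5 * v ^ 3 * stripI_loc5 e f +
    w ^ 6 * v ^ 2 * stripI_loc6 e f +
    w ^ 7 * v ^ 1 * stripI_loc7 e f +
    w ^ 8 * stripI_loc8 e f

theorem stripI_lo_pos {e f w v : ℝ} (he : 0 < e) (hf : 0 ≤ f) (hw : 0 ≤ w) (hv : 0 < v) :
    0 < stripI_loS e f w v := by
  have := stripI_loc0_pos he hf
  have := stripI_loc1_nonneg he hf
  have := stripI_loc2_nonneg he hf
  have := stripI_loc3_nonneg he hf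
  have := stripI_loc4_nonneg he hf
  have := stripI_loc5_nonneg he hf
  have := stripI_loc6_nonneg he hf
  have := stripI_loc7_nonneg he hf
  have := stripI_loc8_nonneg he hf
  unfold stripI_loS
  positivity

theorem stripI_lo_eq (e u : ℝ) :
    4 * (1 - 2 * e) ^ 8 * (sI e u ((1 - u) * e)) =
      e ^ 1 * stripI_loS e (1 - 3 * e) (1 - 2 * u) (2 * (u - e)) := by
  simp only [sI, rI, lI, fn, gn, xiN, etaN, nuN, stripI_loS, stripI_loc0, stripI_loc1, stripI_loc2, stripI_loc3, stripI_loc4, stripI_loc5, stripI_loc6, stripI_loc7, stripI_loc8]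
  ring

end Vale.Agent.P100.Strip

end
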