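import Mathlib
import Vale.Agent.P100.StripPoly

/-!
# Positivity certificates for the strip parameters (generated; every coefficient is nonnegative)
-/

noncomputable section

namespace Vale.Agent.P100.Strip

/-- coefficient 0 of the certificate -/
def stripI_upc0 (e f : ℝ) : ℝ :=
      1520507376 * e ^ 15 +
      6187708260 * f * e ^ 14 +
      11664618921 * f ^ 2 * e ^ 13 +
      13508804646 * f ^ 3 * e ^ 12 +
      10745628210 * f ^ 4 * e ^ 11 +
      6217354692 * f ^ 5 * e ^ 10 +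
      2702423451 * f ^ 6 * e ^ 9 +
      898337158 * f ^ 7 * e ^ 8 +
      230210268 * f ^ 8 * e ^ 7 +
      45469500 * f ^ 9 * e ^ 6 +
      6864191 * f ^ 10 * e ^ 5 +
      777682 * f ^ 11 * e ^ 4 +
      64002 * f ^ 12 * e ^ 3 +
      3612 * f ^ 13 * e ^ 2 +
      125 * f ^ 14 * e +
      2 * f ^ 15

theorem stripI_upc0_nonneg {e f : ℝ} (he : 0 < e) (hf : 0 ≤ f) : 0 ≤ stripI_upc0 e f := by
  unfold stripI_upc0; positivity

/-- coefficient 1 of the certificate -/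
def stripI_upc1 (e f : ℝ) : ℝ :=
      7919850168 * e ^ 15 +
      31496917392 * f * e ^ 14 +
      58057384554 * f ^ 2 * e ^ 13 +
      65779394922 * f ^ 3 * e ^ 12 +
      51219034398 * f ^ 4 * e ^ 11 +
      29025605646 * f ^ 5 * e ^ 10 +
      12364317380 * f ^ 6 * e ^ 9 +
      4030750468 * f ^ 7 * e ^ 8 +
      1013732348 * f ^ 8 * e ^ 7 +
      196670308 * f ^ 9 * e ^ 6 +
      29191514 * f ^ 10 * e ^ 5 +
      3255562 * f ^ 11 * e ^ 4 +
      264110 * f ^ 12 * e ^ 3 +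
      14718 * f ^ 13 * e ^ 2 +
      504 * f ^ 14 * e +
      8 * f ^ 15

theorem stripI_upc1_nonneg {e f : ℝ} (he : 0 < e) (hf : 0 ≤ f) : 0 ≤ stripI_upc1 e f := by
  unfold stripI_upc1; positivity

/-- coefficient 2 of the certificate -/
def stripI_upc2 (e f : ℝ) : ℝ :=
      16866236016 * e ^ 15 +
      65092576428 * f * e ^ 14 +
      116401571505 * f ^ 2 * e ^ 13 +
      127926907710 * f ^ 3 * e ^ 12 +
      96622850783 * f ^ 4 * e ^ 11 +
      53125643712 * f ^ 5 * e ^ 10 +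
      21967476892 * f ^ 6 * e ^ 9 +
      6957226920 * f ^ 7 * e ^ 8 +
      1701909274 * f ^ 8 * e ^ 7 +
      321690852 * f ^ 9 * e ^ 6 +
      46623197 * f ^ 10 * e ^ 5 +
      5091470 * f ^ 11 * e ^ 4 +
      405879 * f ^ 12 * e ^ 3 +
      22320 * f ^ 13 * e ^ 2 +
      758 * f ^ 14 * e +
      12 * f ^ 15

theorem stripI_upc2_nonneg {e f : ℝ} (he : 0 < e) (hf : 0 ≤ f) : 0 ≤ stripI_upc2 e f := by
  unfold stripI_upc2; positivity

/-- coefficient 3 of the certificate -/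
def stripI_upc3 (e f : ℝ) : ℝ :=
      18808468272 * e ^ 15 +
      69932244564 * f * e ^ 14 +
      120361195782 * f ^ 2 * e ^ 13 +
      127240859286 * f ^ 3 * e ^ 12 +
      92436804438 * f ^ 4 * e ^ 11 +
      48905469398 * f ^ 5 * e ^ 10 +
      19477694976 * f ^ 6 * e ^ 9 +
      5950126668 * f ^ 7 * e ^ 8 +
      1406556804 * f ^ 8 * e ^ 7 +
      257443112 * f ^ 9 * e ^ 6 +
      36202094 * f ^ 10 * e ^ 5 +
      3841942 * f ^ 11 * e ^ 4 +
      297846 * f ^ 12 * e ^ 3 +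
      15918 * f ^ 13 * e ^ 2 +
      524 * f ^ 14 * e +
      8 * f ^ 15

theorem stripI_upc3_nonneg {e f : ℝ} (he : 0 < e) (hf : 0 ≤ f) : 0 ≤ stripI_upc3 e f := by
  unfold stripI_upc3; positivity

/-- coefficient 4 of the certificate -/
def stripI_upc4 (e f : ℝ) : ℝ :=
      11573679888 * e ^ 15 +
      41096378928 * f * e ^ 14 +
      67400488325 * f ^ 2 * e ^ 13 +
      67797729410 * f ^ 3 * e ^ 12 +
      46832491478 * f ^ 4 * e ^ 11 +
      23561654116 * f ^ 5 * e ^ 10 +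
      8929663099 * f ^ 6 * e ^ 9 +
      2598484142 * f ^ 7 * e ^ 8 +
      585642868 * f ^ 8 * e ^ 7 +
      102205944 * f ^ 9 * e ^ 6 +
      13682923 * f ^ 10 * e ^ 5 +
      1376718 * f ^ 11 * e ^ 4 +
      100390 * f ^ 12 * e ^ 3 +
      4980 * f ^ 13 * e ^ 2 +
      149 * f ^ 14 * e +
      2 * f ^ 15

theorem stripI_upc4_nonneg {e f : ℝ} (he : 0 < e) (hf : 0 ≤ f) : 0 ≤ stripI_upc4 e f := by
  unfold stripI_upc4; positivity

/-- coefficient 5 of the certificate -/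
def stripI_upc5 (e f : ℝ) : ℝ :=
      3716564760 * e ^ 15 +
      12451186740 * f * e ^ 14 +
      19166629700 * f ^ 2 * e ^ 13 +
      18013270540 * f ^ 3 * e ^ 12 +
      11580562212 * f ^ 4 * e ^ 11 +
      5404779280 * f ^ 5 * e ^ 10 +
      1894897920 * f ^ 6 * e ^ 9 +
      508718056 * f ^ 7 * e ^ 8 +
      105424112 * f ^ 8 * e ^ 7 +
      16826628 * f ^ 9 * e ^ 6 +
      2039860 * f ^ 10 * e ^ 5 +
      182284 * f ^ 11 * e ^ 4 +
      11348 * f ^ 12 * e ^ 3 +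
      440 * f ^ 13 * e ^ 2 +
      8 * f ^ 14 * e

theorem stripI_upc5_nonneg {e f : ℝ} (he : 0 < e) (hf : 0 ≤ f) : 0 ≤ stripI_upc5 e f := by
  unfold stripI_upc5; positivity

/-- coefficient 6 of the certificate -/
def stripI_upc6 (e f : ℝ) : ℝ :=
      484176656 * e ^ 15 +
      1501366784 * f * e ^ 14 +
      2109998236 * f ^ 2 * e ^ 13 +
      1781413224 * f ^ 3 * e ^ 12 +
      1008381548 * f ^ 4 * e ^ 11 +
      403826848 * f ^ 5 * e ^ 10 +
      117439704 * f ^ 6 * e ^ 9 +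
      25001328 * f ^ 7 * e ^ 8 +
      3866792 * f ^ 8 * e ^ 7 +
      423584 * f ^ 9 * e ^ 6 +
      31180 * f ^ 10 * e ^ 5 +
      1384 * f ^ 11 * e ^ 4 +
      28 * f ^ 12 * e ^ 3

theorem stripI_upc6_nonneg {e f : ℝ} (he : 0 < e) (hf : 0 ≤ f) : 0 ≤ stripI_upc6 e f := by
  unfold stripI_upc6; positivity

theorem stripI_upc0_pos {e f : ℝ} (he : 0 < e) (hf : 0 ≤ f) : 0 < stripI_upc0 e f := by
  unfold stripI_upc0; positivity

/-- positivity certificate (all coefficients nonnegative) -/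
def stripI_upS (e f w v : ℝ) : ℝ :=
    v ^ 6 * stripI_upc0 e f +
    w ^ 1 * v ^ 5 * stripI_upc1 e f +
    w ^ 2 * v ^ 4 * stripI_upc2 e f +
    w ^ 3 * v ^ 3 * stripI_upc3 e f +
    w ^ 4 * v ^ 2 * stripI_upc4 e f +
    w ^ 5 * v ^ 1 * stripI_upc5 e f +
    w ^ 6 * stripI_upc6 e f

theorem stripI_up_pos {e f w v : ℝ} (he : 0 < e) (hf : 0 ≤ f) (hw : 0 ≤ w) (hv : 0 < v) :
    0 < stripI_upS e f w v := by
  have := stripI_upc0_pos he hf
  have := stripI_upc1_nonneg he hf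
  have := stripI_upc2_nonneg he hf
  have := stripI_upc3_nonneg he hf
  have := stripI_upc4_nonneg he hf
  have := stripI_upc5_nonneg he hf
  have := stripI_upc6_nonneg he hf
  unfold stripI_upS
  positivity

theorem stripI_up_eq (e u : ℝ) :
    4 * (1 - 2 * e) ^ 6 * (sI e u (e * (1 - 2 * u ^ 2 * (1 - 2 * u) ^ 2))) =
      e ^ 1 * (1 - 2 * u) ^ 2 * stripI_upS e (1 - 3 * e) (1 - 2 * u) (2 * (u - e)) := by
  simp only [sI, rI, lI, fn, gn, xiN, etaN, nuN, stripI_upS, stripI_upc0, stripI_upc1, stripI_upc2, stripI_upc3, stripI_upc4, stripI_upc5, stripI_upc6]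
  ring

end Vale.Agent.P100.Strip

end
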