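import Mathlib
import Vale.Agent.P100.StripPoly

/-!
# Positivity certificates for the strip parameters (generated; every coefficient is nonnegative)
-/

noncomputable section

namespace Vale.Agent.P100.Strip

/-- coefficient 0 of the certificate -/
def stripA0c0 (e f : ℝ) : ℝ :=
      17712 * e ^ 7 +
      34884 * f * e ^ 6 +
      29178 * f ^ 2 * e ^ 5 +
      13427 * f ^ 3 * e ^ 4 +
      3669 * f ^ 4 * e ^ 3 +
      595 * f ^ 5 * e ^ 2 +
      53 * f ^ 6 * e +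
      2 * f ^ 7

theorem stripA0c0_nonneg {e f : ℝ} (he : 0 < e) (hf : 0 ≤ f) : 0 ≤ stripA0c0 e f := by
  unfold stripA0c0; positivity

/-- coefficient 1 of the certificate -/
def stripA0c1 (e f : ℝ) : ℝ :=
      45144 * e ^ 7 +
      82584 * f * e ^ 6 +
      63282 * f ^ 2 * e ^ 5 +
      26244 * f ^ 3 * e ^ 4 +
      6336 * f ^ 4 * e ^ 3 +
      886 * f ^ 5 * e ^ 2 +
      66 * f ^ 6 * e +
      2 * f ^ 7

theorem stripA0c1_nonneg {e f : ℝ} (he : 0 < e) (hf : 0 ≤ f) : 0 ≤ stripA0c1 e f := by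
  unfold stripA0c1; positivity

/-- coefficient 2 of the certificate -/
def stripA0c2 (e f : ℝ) : ℝ :=
      36576 * e ^ 7 +
      59280 * f * e ^ 6 +
      38592 * f ^ 2 * e ^ 5 +
      12900 * f ^ 3 * e ^ 4 +
      2332 * f ^ 4 * e ^ 3 +
      216 * f ^ 5 * e ^ 2 +
      8 * f ^ 6 * e

theorem stripA0c2_nonneg {e f : ℝ} (he : 0 < e) (hf : 0 ≤ f) : 0 ≤ stripA0c2 e f := by
  unfold stripA0c2; positivity

/-- coefficient 3 of the certificate -/
def stripA0c3 (e f : ℝ) : ℝ :=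
      9568 * e ^ 7 +
      13152 * f * e ^ 6 +
      6728 * f ^ 2 * e ^ 5 +
      1616 * f ^ 3 * e ^ 4 +
      184 * f ^ 4 * e ^ 3 +
      8 * f ^ 5 * e ^ 2

theorem stripA0c3_nonneg {e f : ℝ} (he : 0 < e) (hf : 0 ≤ f) : 0 ≤ stripA0c3 e f := by
  unfold stripA0c3; positivity

theorem stripA0c0_pos {e f : ℝ} (he : 0 < e) (hf : 0 ≤ f) : 0 < stripA0c0 e f := by
  unfold stripA0c0; positivity

/-- positivity certificate (all coefficients nonnegative) -/
def stripA0S (e f w v : ℝ) : ℝ :=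
    v ^ 3 * stripA0c0 e f +
    w ^ 1 * v ^ 2 * stripA0c1 e f +
    w ^ 2 * v ^ 1 * stripA0c2 e f +
    w ^ 3 * stripA0c3 e f

theorem stripA0_pos {e f w v : ℝ} (he : 0 < e) (hf : 0 ≤ f) (hw : 0 ≤ w) (hv : 0 < v) :
    0 < stripA0S e f w v := by
  have := stripA0c0_pos he hf
  have := stripA0c1_nonneg he hf
  have := stripA0c2_nonneg he hf
  have := stripA0c3_nonneg he hf
  unfold stripA0S
  positivity

theorem stripA0_eq (e u : ℝ) :
    2 * (1 - 2 * e) ^ 3 * (qA e u) =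
      e ^ 1 * stripA0S e (1 - 3 * e) (1 - 2 * u) (2 * (u - e)) := by
  simp only [qA, gP, lN, gn, xiN, stripA0S, stripA0c0, stripA0c1, stripA0c2, stripA0c3]
  ring

/-- coefficient 0 of the certificate -/
def stripQ0c0 (e f : ℝ) : ℝ :=
      313714944 * e ^ 14 +
      1235730816 * f * e ^ 13 +
      2250494928 * f ^ 2 * e ^ 12 +
      2511328752 * f ^ 3 * e ^ 11 +
      1918101276 * f ^ 4 * e ^ 10 +
      1060602084 * f ^ 5 * e ^ 9 +
      437781925 * f ^ 6 * e ^ 8 +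
      137017698 * f ^ 7 * e ^ 7 +
      32672095 * f ^ 8 * e ^ 6 +
      5906084 * f ^ 9 * e ^ 5 +
      796647 * f ^ 10 * e ^ 4 +
      77746 * f ^ 11 * e ^ 3 +
      5189 * f ^ 12 * e ^ 2 +
      212 * f ^ 13 * e +
      4 * f ^ 14

theorem stripQ0c0_nonneg {e f : ℝ} (he : 0 < e) (hf : 0 ≤ f) : 0 ≤ stripQ0c0 e f := by
  unfold stripQ0c0; positivity

/-- coefficient 1 of the certificate -/
def stripQ0c1 (e f : ℝ) : ℝ :=
      1525215744 * e ^ 14 +
      5846919552 * f * e ^ 13 +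
      10405509696 * f ^ 2 * e ^ 12 +
      11388494880 * f ^ 3 * e ^ 11 +
      8558411880 * f ^ 4 * e ^ 10 +
      4668485036 * f ^ 5 * e ^ 9 +
      1904904886 * f ^ 6 * e ^ 8 +
      590224012 * f ^ 7 * e ^ 7 +
      139450970 * f ^ 8 * e ^ 6 +
      24985408 * f ^ 9 * e ^ 5 +
      3339706 * f ^ 10 * e ^ 4 +
      322764 * f ^ 11 * e ^ 3 +
      21310 * f ^ 12 * e ^ 2 +
      860 * f ^ 13 * e +
      16 * f ^ 14

theorem stripQ0c1_nonneg {e f : ℝ} (he : 0 < e) (hf : 0 ≤ f) : 0 ≤ stripQ0c1 e f := by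
  unfold stripQ0c1; positivity

/-- coefficient 2 of the certificate -/
def stripQ0c2 (e f : ℝ) : ℝ :=
      2998855872 * e ^ 14 +
      11077770816 * f * e ^ 13 +
      19074723696 * f ^ 2 * e ^ 12 +
      20269707072 * f ^ 3 * e ^ 11 +
      14829058544 * f ^ 4 * e ^ 10 +
      7887802976 * f ^ 5 * e ^ 9 +
      3140329632 * f ^ 6 * e ^ 8 +
      948976924 * f ^ 7 * e ^ 7 +
      218374572 * f ^ 8 * e ^ 6 +
      38023760 * f ^ 9 * e ^ 5 +
      4925020 * f ^ 10 * e ^ 4 +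
      459628 * f ^ 11 * e ^ 3 +
      29188 * f ^ 12 * e ^ 2 +
      1128 * f ^ 13 * e +
      20 * f ^ 14

theorem stripQ0c2_nonneg {e f : ℝ} (he : 0 < e) (hf : 0 ≤ f) : 0 ≤ stripQ0c2 e f := by
  unfold stripQ0c2; positivity

/-- coefficient 3 of the certificate -/
def stripQ0c3 (e f : ℝ) : ℝ :=
      3033998208 * e ^ 14 +
      10649491200 * f * e ^ 13 +
      17489208960 * f ^ 2 * e ^ 12 +
      17776953984 * f ^ 3 * e ^ 11 +
      12457612488 * f ^ 4 * e ^ 10 +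
      6344421344 * f ^ 5 * e ^ 9 +
      2412596688 * f ^ 6 * e ^ 8 +
      693432672 * f ^ 7 * e ^ 7 +
      150885640 * f ^ 8 * e ^ 6 +
      24661664 * f ^ 9 * e ^ 5 +
      2972456 * f ^ 10 * e ^ 4 +
      255520 * f ^ 11 * e ^ 3 +
      14768 * f ^ 12 * e ^ 2 +
      512 * f ^ 13 * e +
      8 * f ^ 14

theorem stripQ0c3_nonneg {e f : ℝ} (he : 0 < e) (hf : 0 ≤ f) : 0 ≤ stripQ0c3 e f := by
  unfold stripQ0c3; positivity

/-- coefficient 4 of the certificate -/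
def stripQ0c4 (e f : ℝ) : ℝ :=
      1649481984 * e ^ 14 +
      5381394432 * f * e ^ 13 +
      8231868544 * f ^ 2 * e ^ 12 +
      7803684992 * f ^ 3 * e ^ 11 +
      5094204560 * f ^ 4 * e ^ 10 +
      2405666464 * f ^ 5 * e ^ 9 +
      841113920 * f ^ 6 * e ^ 8 +
      219479088 * f ^ 7 * e ^ 7 +
      42595504 * f ^ 8 * e ^ 6 +
      6058048 * f ^ 9 * e ^ 5 +
      612784 * f ^ 10 * e ^ 4 +
      41712 * f ^ 11 * e ^ 3 +
      1712 * f ^ 12 * e ^ 2 +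
      32 * f ^ 13 * e

theorem stripQ0c4_nonneg {e f : ℝ} (he : 0 < e) (hf : 0 ≤ f) : 0 ≤ stripQ0c4 e f := by
  unfold stripQ0c4; positivity

/-- coefficient 5 of the certificate -/
def stripQ0c5 (e f : ℝ) : ℝ :=
      449665536 * e ^ 14 +
      1311702016 * f * e ^ 13 +
      1787453440 * f ^ 2 * e ^ 12 +
      1505293824 * f ^ 3 * e ^ 11 +
      868892384 * f ^ 4 * e ^ 10 +
      359833920 * f ^ 5 * e ^ 9 +
      108927680 * f ^ 6 * e ^ 8 +
      24165120 * f ^ 7 * e ^ 7 +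
      3886816 * f ^ 8 * e ^ 6 +
      441344 * f ^ 9 * e ^ 5 +
      33568 * f ^ 10 * e ^ 4 +
      1536 * f ^ 11 * e ^ 3 +
      32 * f ^ 12 * e ^ 2

theorem stripQ0c5_nonneg {e f : ℝ} (he : 0 < e) (hf : 0 ≤ f) : 0 ≤ stripQ0c5 e f := by
  unfold stripQ0c5; positivity

/-- coefficient 6 of the certificate -/
def stripQ0c6 (e f : ℝ) : ℝ :=
      46579712 * e ^ 14 +
      111418368 * f * e ^ 13 +
      119314176 * f ^ 2 * e ^ 12 +
      75284992 * f ^ 3 * e ^ 11 +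
      30721728 * f ^ 4 * e ^ 10 +
      8349056 * f ^ 5 * e ^ 9 +
      1500672 * f ^ 6 * e ^ 8 +
      171136 * f ^ 7 * e ^ 7 +
      11200 * f ^ 8 * e ^ 6 +
      320 * f ^ 9 * e ^ 5

theorem stripQ0c6_nonneg {e f : ℝ} (he : 0 < e) (hf : 0 ≤ f) : 0 ≤ stripQ0c6 e f := by
  unfold stripQ0c6; positivity

theorem stripQ0c0_pos {e f : ℝ} (he : 0 < e) (hf : 0 ≤ f) : 0 < stripQ0c0 e f := by
  unfold stripQ0c0; positivity

/-- positivity certificate (all coefficients nonnegative) -/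
def stripQ0S (e f w v : ℝ) : ℝ :=
    v ^ 6 * stripQ0c0 e f +
    w ^ 1 * v ^ 5 * stripQ0c1 e f +
    w ^ 2 * v ^ 4 * stripQ0c2 e f +
    w ^ 3 * v ^ 3 * stripQ0c3 e f +
    w ^ 4 * v ^ 2 * stripQ0c4 e f +
    w ^ 5 * v ^ 1 * stripQ0c5 e f +
    w ^ 6 * stripQ0c6 e f

theorem stripQ0_pos {e f w v : ℝ} (he : 0 < e) (hf : 0 ≤ f) (hw : 0 ≤ w) (hv : 0 < v) :
    0 < stripQ0S e f w v := by
  have := stripQ0c0_pos he hf
  have := stripQ0c1_nonneg he hf
  have := stripQ0c2_nonneg he hf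
  have := stripQ0c3_nonneg he hf
  have := stripQ0c4_nonneg he hf
  have := stripQ0c5_nonneg he hf
  have := stripQ0c6_nonneg he hf
  unfold stripQ0S
  positivity

theorem stripQ0_eq (e u : ℝ) :
    1 * (1 - 2 * e) ^ 6 * (qQ e u) =
      e ^ 2 * stripQ0S e (1 - 3 * e) (1 - 2 * u) (2 * (u - e)) := by
  simp only [qQ, qA, qB, qC, qM, gP, jP, lN, gn, xiN, etaN, nuN, stripQ0S, stripQ0c0, stripQ0c1, stripQ0c2, stripQ0c3, stripQ0c4, stripQ0c5, stripQ0c6]
  ring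

end Vale.Agent.P100.Strip

end
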