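import Mathlib
import Vale.Agent.P100.StripPoly

/-!
# The diagonal `α = β`: the quartic after a small shift `τ` of `ξ` and `ζ`
-/

noncomputable section

namespace Vale.Agent.P100.Strip

/-- A symmetric quartic is positive under three elementary conditions. -/
theorem sym_quartic_pos {G J M : ℝ} (hG : 0 < G) (h1 : 0 < 2 * G + 2 * J + M)
    (h2 : 0 < 2 * G - 2 * J + M) (h3 : 0 ≤ 4 * G + J) (h4 : 0 ≤ 4 * G - J) (r : ℝ) :
    0 < G * r ^ 4 + J * r ^ 3 + M * r ^ 2 + J * r + G := by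
  rcases eq_or_ne r 0 with rfl | hr
  · norm_num; exact hG
  have hr2 : 0 < r ^ 2 := by positivity
  rcases lt_or_gt_of_ne hr with hr' | hr'
  · have e : G * r ^ 4 + J * r ^ 3 + M * r ^ 2 + J * r + G = G * ((r + 1) ^ 2) ^ 2 +
        (4 * G - J) * (r + 1) ^ 2 * (-r) + (2 * G - 2 * J + M) * r ^ 2 := by ring
    rw [e]
    have : 0 ≤ (4 * G - J) * (r + 1) ^ 2 * (-r) := by
      have : 0 ≤ -r := by linarith
      positivity
    have : 0 ≤ G * ((r + 1) ^ 2) ^ 2 := by positivity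
    linarith [mul_pos h2 hr2]
  · have e : G * r ^ 4 + J * r ^ 3 + M * r ^ 2 + J * r + G = G * ((r - 1) ^ 2) ^ 2 +
        (4 * G + J) * (r - 1) ^ 2 * r + (2 * G + 2 * J + M) * r ^ 2 := by ring
    rw [e]
    have : 0 ≤ (4 * G + J) * (r - 1) ^ 2 * r := by positivity
    have : 0 ≤ G * ((r - 1) ^ 2) ^ 2 := by positivity
    linarith [mul_pos h1 hr2]

/-- The shifted diagonal quartic is positive for `0 < τ ≤ e/8`. -/
theorem diag_quartic_pos {e τ : ℝ} (he : 0 < e) (he3 : 3 * e ≤ 1) (hτ : 0 < τ) (hτe : 8 * τ ≤ e)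
    (r : ℝ) :
    0 < gP e (1 / 2) (xiN e (1 / 2) - τ) * r ^ 4 +
      jP e (1 / 2) (xiN e (1 / 2) - τ) (etaN e (1 / 2)) * r ^ 3 + 2 * qC e (1 / 2) * r ^ 2 +
      jP e (1 / 2) (xiN e (1 / 2) - τ) (etaN e (1 / 2)) * r +
      gP e (1 / 2) (xiN e (1 / 2) - τ) := by
  set E := 2 * e + 11 * e ^ 2 + 19 * e ^ 3 + 9 * e ^ 4 - e ^ 5 with hE
  set S := 4 * e + 10 * e ^ 2 + 2 * e ^ 3 with hS
  set T := 2 + 14 * e + 22 * e ^ 2 + 2 * e ^ 3 with hT
  have hG : gP e (1 / 2) (xiN e (1 / 2) - τ) = E - τ * S - τ ^ 2 * (1 + e) := by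
    simp only [gP, lN, xiN, gn, hE, hS]; ring
  have hJ : jP e (1 / 2) (xiN e (1 / 2) - τ) (etaN e (1 / 2)) = -(2 * E) + τ * T := by
    simp only [jP, lN, xiN, etaN, gn, hE, hT]; ring
  have hM : 2 * qC e (1 / 2) = 2 * E := by
    simp only [qC, lN, etaN, nuN, gn, hE]; ring
  rw [hG, hJ, hM]
  have he1 : e ≤ 1 / 3 := by linarith
  have hE2 : 2 * e ≤ E := by
    have : e ^ 5 ≤ e ^ 4 := pow_le_pow_of_le_one he.le (by linarith) (by norm_num)
    have : 0 ≤ e ^ 2 := by positivity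
    have : 0 ≤ e ^ 3 := by positivity
    have : 0 ≤ e ^ 4 := by positivity
    linarith [hE.le, hE.ge]
  have hS3 : S ≤ 3 := by
    rw [hS]
    nlinarith [pow_le_pow_left₀ he.le he1 2, pow_le_pow_left₀ he.le he1 3]
  have hT3 : T ≤ 10 := by
    rw [hT]
    nlinarith [pow_le_pow_left₀ he.le he1 2, pow_le_pow_left₀ he.le he1 3]
  have hT0 : 0 ≤ T := by rw [hT]; positivity
  have hS0 : 0 ≤ S := by rw [hS]; positivity
  have t1 : τ * S ≤ τ * 3 := mul_le_mul_of_nonneg_left hS3 hτ.le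
  have t2 : τ ^ 2 * (1 + e) ≤ τ * (1 / 8) := by
    have : τ * (1 + e) ≤ 1 / 8 := by nlinarith
    have := mul_le_mul_of_nonneg_left this hτ.le
    linarith
  have t3 : τ * T ≤ τ * 10 := mul_le_mul_of_nonneg_left hT3 hτ.le
  have t4 : 0 ≤ τ * T := by positivity
  have t5 : 0 ≤ τ * S := by positivity
  have t6 : 0 ≤ τ ^ 2 * (1 + e) := by positivity
  refine sym_quartic_pos (by linarith) ?_ (by linarith) (by linarith) (by linarith) r
  have e1 : 0 < τ * (4 + 20 * e + 24 * e ^ 2 - τ * (2 + 2 * e)) := by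
    refine mul_pos hτ ?_
    nlinarith
  rw [hS, hT]
  linarith [e1]

end Vale.Agent.P100.Strip

end
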