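import Mathlib
import Vale.Agent.P100.FreeL
import Vale.Agent.P100.StripCertIUp
import Vale.Agent.P100.StripCertILo
import Vale.Agent.P100.StripCertIIUp
import Vale.Agent.P100.StripCertIILo
import Vale.Agent.P100.StripCertQ
import Vale.Agent.P100.StripCertD
import Vale.Agent.P100.StripDiag

/-!
# Parameters on the strip `α, β ≤ n - 3` below a layer vanishing quadratically on the diagonal
-/

noncomputable section

namespace Vale.Agent.P100.Strip

/-- An affine minus a squared affine function is concave. -/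
theorem affine_sub_sq_pos {R L : ℝ → ℝ} (hR : ∀ z, R z = R 0 + (R 1 - R 0) * z)
    (hL : ∀ z, L z = L 0 + (L 1 - L 0) * z) {lo up z : ℝ} (h0 : 0 < R lo - L lo ^ 2)
    (h1 : 0 ≤ R up - L up ^ 2) (hz0 : lo ≤ z) (hz1 : z < up) : 0 < R z - L z ^ 2 := by
  rw [hR, hL] at h0 h1 ⊢
  refine pos_of_mul_pos_right (a := up - lo) ?_ (by linarith)
  have e : (up - lo) * (R 0 + (R 1 - R 0) * z - (L 0 + (L 1 - L 0) * z) ^ 2) =
      (up - z) * (R 0 + (R 1 - R 0) * lo - (L 0 + (L 1 - L 0) * lo) ^ 2) +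
      (z - lo) * (R 0 + (R 1 - R 0) * up - (L 0 + (L 1 - L 0) * up) ^ 2) +
      (z - lo) * (up - z) * (up - lo) * (L 1 - L 0) ^ 2 := by ring
  rw [e]
  have a1 : 0 ≤ z - lo := by linarith
  have a2 : 0 < up - z := by linarith
  have a3 : 0 ≤ up - lo := by linarith
  positivity

/-- Unfold a certificate. -/
theorem pos_of_cert {P S e C : ℝ} {d : ℕ} (hC : 0 < C) (he : 3 * e ≤ 1) (hS : 0 < S)
    (h : C * (1 - 2 * e) ^ d * P = S) : 0 < P := by
  refine pos_of_mul_pos_right (h ▸ hS) ?_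
  have : 0 ≤ 1 - 2 * e := by linarith
  positivity

theorem nonneg_of_cert {P S e C : ℝ} {d : ℕ} (hC : 0 < C) (he : 3 * e ≤ 1) (hS : 0 ≤ S)
    (h : C * (1 - 2 * e) ^ d * P = S) : 0 ≤ P := by
  have hh : 0 < C * (1 - 2 * e) ^ d := by
    have : 0 < 1 - 2 * e := by linarith
    positivity
  exact nonneg_of_mul_nonneg_right (h ▸ hS) hh

variable {e u h : ℝ}

theorem sI_pos (he : 0 < e) (he3 : 3 * e ≤ 1) (hu : e < u) (hu2 : 2 * u ≤ 1)
    (hlo : (1 - u) * e ≤ h) (hup : h ≤ e * (1 - 2 * u ^ 2 * (1 - 2 * u) ^ 2)) (hhe : h < e) :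
    0 < sI e u h := by
  have hf : 0 ≤ 1 - 3 * e := by linarith
  have hw : 0 ≤ 1 - 2 * u := by linarith
  have hv : 0 < 2 * (u - e) := by linarith
  have hS := stripI_up_pos he hf hw hv
  rcases eq_or_lt_of_le hup with rfl | hlt
  · rcases eq_or_lt_of_le hw with hw0 | hw0
    · exfalso; rw [← hw0] at hhe; nlinarith
    · exact pos_of_cert (by norm_num) he3 (by positivity) (stripI_up_eq e u)
  · exact affine_sub_sq_pos (R := rI e u) (L := lI e u) (fun z => by simp only [rI]; ring)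
      (fun z => by simp only [lI]; ring)
      (pos_of_cert (by norm_num) he3 (by have := stripI_lo_pos he hf hw hv; positivity)
        (stripI_lo_eq e u))
      (nonneg_of_cert (by norm_num) he3 (by positivity) (stripI_up_eq e u)) hlo hlt

theorem sII_pos (he : 0 < e) (he3 : 3 * e ≤ 1) (hu : e < u) (hu2 : 2 * u ≤ 1)
    (hlo : (1 - u) * e ≤ h) (hup : h ≤ e * (1 - 2 * u ^ 2 * (1 - 2 * u) ^ 2)) (hhe : h < e) :
    0 < sII e u h := by
  have hf : 0 ≤ 1 - 3 * e := by linarith
  have hw : 0 ≤ 1 - 2 * u := by linarith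
  have hv : 0 < 2 * (u - e) := by linarith
  have hS := stripII_up_pos he hf hw hv
  rcases eq_or_lt_of_le hup with rfl | hlt
  · rcases eq_or_lt_of_le hw with hw0 | hw0
    · exfalso; rw [← hw0] at hhe; nlinarith
    · exact pos_of_cert (by norm_num) he3 (by positivity) (stripII_up_eq e u)
  · exact affine_sub_sq_pos (R := rII e u) (L := lII e u) (fun z => by simp only [rII]; ring)
      (fun z => by simp only [lII]; ring)
      (pos_of_cert (by norm_num) he3 (by have := stripII_lo_pos he hf hw hv; positivity)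
        (stripII_lo_eq e u))
      (nonneg_of_cert (by norm_num) he3 (by positivity) (stripII_up_eq e u)) hlo hlt

theorem quartic_pos (he : 0 < e) (he3 : 3 * e ≤ 1) (hu : e < u) (hu2 : 2 * u < 1) :
    0 < qA e u ∧ ∀ r : ℝ,
      0 < qA e u * r ^ 4 + qB e u * r ^ 3 + qC e u * r ^ 2 + qR e u * r + qE e u := by
  have hf : 0 ≤ 1 - 3 * e := by linarith
  have hw : 0 < 1 - 2 * u := by linarith
  have hv : 0 < 2 * (u - e) := by linarith
  have hA : 0 < qA e u := pos_of_cert (by norm_num) he3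
    (by have := stripA0_pos he hf hw.le hv; positivity) (stripA0_eq e u)
  have hQ : 0 < qQ e u := pos_of_cert (by norm_num) he3
    (by have := stripQ0_pos he hf hw.le hv; positivity) (stripQ0_eq e u)
  have hD : 0 < qD e u := pos_of_cert (by norm_num) he3
    (by have := stripDd_pos he hf hw.le hv; positivity) (stripDd_eq e u)
  refine ⟨hA, fun r => ?_⟩
  refine pos_of_mul_pos_right (a := 4 * qA e u * qQ e u) ?_ (by positivity)
  have key : 4 * qA e u * qQ e u *
      (qA e u * r ^ 4 + qB e u * r ^ 3 + qC e u * r ^ 2 + qR e u * r + qE e u) =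
      qQ e u * (2 * qA e u * r ^ 2 + qB e u * r + 2 * qM e u) ^ 2 +
        (qQ e u * r + 2 * qL e u) ^ 2 + 4 * qD e u := by
    simp only [qD, qL, qQ]; ring
  rw [key]
  positivity

/-- Parameters in the coordinates `(e, u, h)`. -/
theorem hasParams_coords {n : ℕ} (hn : 5 ≤ n) {p q : ℝ} (hne : (n : ℝ) = (1 + 2 * e) / e)
    (hpe : p = ((1 - u) + 2 * h) / u) (hqe : q = (u + 2 * h) / (1 - u))
    (he : 0 < e) (he3 : 3 * e ≤ 1) (hu : e < u) (hu2 : 2 * u ≤ 1)
    (hlo : (1 - u) * e ≤ h) (hup : h ≤ e * (1 - 2 * u ^ 2 * (1 - 2 * u) ^ 2)) (hhe : h < e) :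
    HasParams n p q := by
  have hI := sI_pos he he3 hu hu2 hlo hup hhe
  have hII := sII_pos he he3 hu hu2 hlo hup hhe
  have hu0 : 0 < u := he.trans hu
  have hx : 0 < 1 - u := by linarith
  have hm : 0 < 1 + 3 * e := by linarith
  have hs : 0 < 1 + 2 * e := by linarith
  have hln : 2 * e * (1 - u) * ((n : ℝ) - 3) ≤ 2 := by
    rw [hne, show 2 * e * (1 - u) * ((1 + 2 * e) / e - 3) = 2 * (1 - u) * (1 - e) by
      field_simp; ring]
    nlinarith
  have hl1 : 2 * e * (1 - u) < 1 := by nlinarith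
  have hl0 : -1 < 2 * e * (1 - u) := by
    have : 0 < 2 * e * (1 - u) := by positivity
    linarith
  have hxi : 0 < xiN e u := by
    simp only [xiN, gn]
    have : u * e * (1 + e) * 2 < 1 := by nlinarith [mul_le_mul_of_nonneg_left hu2 he.le]
    have : 1 ≤ (1 + 2 * e * (1 - u)) * (1 + 3 * e) := by nlinarith [mul_pos he hx]
    linarith
  have hzeta : 0 < zetaN e u := by
    simp only [zetaN, gn]
    have : u * e * (1 + e) * 2 < 1 := by nlinarith [mul_le_mul_of_nonneg_left hu2 he.le]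
    have : 1 ≤ (1 + 2 * e * u) * (1 + 3 * e) := by nlinarith [mul_pos he hu0]
    linarith
  set D := (e * u * (1 + 2 * e) * (1 + 3 * e)) ^ 2 with hDdef
  have hD : 0 < D := by positivity
  rcases lt_or_eq_of_le hu2 with hu2' | hu2'
  · -- off the diagonal
    obtain ⟨hA, hq4⟩ := quartic_pos he he3 hu hu2'
    refine hasParams_freeL (by omega) (l := 2 * e * (1 - u)) (t := (1 - u) / u)
      (ξ := xiN e u / (1 + 3 * e)) (η := etaN e u / (1 + 3 * e))
      (ζ := zetaN e u / (1 + 3 * e)) (ν := nuN e u / (1 + 3 * e))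
      (ρ := (1 - 2 * u) * fn e u / (2 * u * (1 + 2 * e) ^ 2 * (1 + 3 * e)))
      hl0 hl1 hln (by positivity) (by positivity) (by positivity) ?_ (fun r => ?_) ?_ ?_
    · have : flG n (2 * e * (1 - u)) (xiN e u / (1 + 3 * e)) =
          qA e u / (4 * (1 + 2 * e) * (1 + 3 * e) ^ 2 * u) := by
        simp only [flG, qA, gP, lN, hne]; field_simp; ring
      rw [this]; positivity
    · have : flQuartic n (2 * e * (1 - u)) ((1 - u) / u) (xiN e u / (1 + 3 * e))
          (etaN e u / (1 + 3 * e)) (zetaN e u / (1 + 3 * e)) (nuN e u / (1 + 3 * e)) r =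
          (qA e u * r ^ 4 + qB e u * r ^ 3 + qC e u * r ^ 2 + qR e u * r + qE e u) /
            (4 * (1 + 2 * e) * (1 + 3 * e) ^ 2 * u) := by
        simp only [flQuartic, flG, flJ, flM, qA, qB, qC, qR, qE, gP, jP, lN, hne]
        field_simp; ring
      rw [this]; exact div_pos (hq4 r) (by positivity)
    · rw [← sub_pos]
      refine lt_of_lt_of_eq (div_pos hI hD) ?_
      simp only [sI, rI, lI, hDdef, hne, hpe]
      field_simp; ring
    · rw [← sub_pos]
      refine lt_of_lt_of_eq (div_pos hII hD) ?_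
      simp only [sII, rII, lII, hDdef, hne, hqe]
      field_simp; ring
  · -- the diagonal
    have hu' : u = 1 / 2 := by linarith
    subst hu'
    set K := (1 + 4 * e) * (1 + 2 * e) * (1 / 4 * nuN e (1 / 2) * (1 + 2 * e) ^ 2) with hK
    have hnu : 0 < nuN e (1 / 2) := by simp only [nuN, gn]; positivity
    have hKp : 0 < K := by positivity
    obtain ⟨τ, hτ, hτe, hτI, hτII, hτx⟩ : ∃ τ : ℝ, 0 < τ ∧ 8 * τ ≤ e ∧
        τ * K < sI e (1 / 2) h ∧ τ * K < sII e (1 / 2) h ∧ τ < xiN e (1 / 2) := by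
      refine ⟨min (e / 8) (min (sI e (1 / 2) h / (2 * K))
        (min (sII e (1 / 2) h / (2 * K)) (xiN e (1 / 2) / 2))), ?_, ?_, ?_, ?_, ?_⟩
      · exact lt_min (by positivity) (lt_min (by positivity) (lt_min (by positivity)
          (by positivity)))
      · linarith [min_le_left (e / 8) (min (sI e (1 / 2) h / (2 * K))
          (min (sII e (1 / 2) h / (2 * K)) (xiN e (1 / 2) / 2)))]
      · have := (min_le_right (e / 8) _).trans (min_le_left (sI e (1 / 2) h / (2 * K))
          (min (sII e (1 / 2) h / (2 * K)) (xiN e (1 / 2) / 2)))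
        rw [le_div_iff₀ (by positivity)] at this
        linarith
      · have := ((min_le_right (e / 8) _).trans (min_le_right (sI e (1 / 2) h / (2 * K)) _)).trans
          (min_le_left (sII e (1 / 2) h / (2 * K)) (xiN e (1 / 2) / 2))
        rw [le_div_iff₀ (by positivity)] at this
        linarith
      · have := ((min_le_right (e / 8) _).trans (min_le_right (sI e (1 / 2) h / (2 * K)) _)).trans
          (min_le_right (sII e (1 / 2) h / (2 * K)) (xiN e (1 / 2) / 2))
        linarith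
    have hq4 := diag_quartic_pos he he3 hτ hτe
    have hG : 0 < gP e (1 / 2) (xiN e (1 / 2) - τ) := by simpa using hq4 0
    have hpos : 0 < (xiN e (1 / 2) - τ) / (1 + 3 * e) := div_pos (by linarith) hm
    refine hasParams_freeL (by omega) (l := e) (t := 1)
      (ξ := (xiN e (1 / 2) - τ) / (1 + 3 * e)) (η := etaN e (1 / 2) / (1 + 3 * e))
      (ζ := (xiN e (1 / 2) - τ) / (1 + 3 * e)) (ν := etaN e (1 / 2) / (1 + 3 * e)) (ρ := 0)
      (by linarith) (by linarith) (by linarith) one_pos hpos hpos ?_ (fun r => ?_) ?_ ?_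
    · have : flG n e ((xiN e (1 / 2) - τ) / (1 + 3 * e)) =
          gP e (1 / 2) (xiN e (1 / 2) - τ) / (4 * (1 + 2 * e) * (1 + 3 * e) ^ 2) := by
        simp only [flG, gP, lN, hne]; field_simp; ring
      rw [this]; positivity
    · have : flQuartic n e 1 ((xiN e (1 / 2) - τ) / (1 + 3 * e)) (etaN e (1 / 2) / (1 + 3 * e))
          ((xiN e (1 / 2) - τ) / (1 + 3 * e)) (etaN e (1 / 2) / (1 + 3 * e)) r =
          (gP e (1 / 2) (xiN e (1 / 2) - τ) * r ^ 4 +
            jP e (1 / 2) (xiN e (1 / 2) - τ) (etaN e (1 / 2)) * r ^ 3 + 2 * qC e (1 / 2) * r ^ 2 +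
            jP e (1 / 2) (xiN e (1 / 2) - τ) (etaN e (1 / 2)) * r +
            gP e (1 / 2) (xiN e (1 / 2) - τ)) / (4 * (1 + 2 * e) * (1 + 3 * e) ^ 2) := by
        simp only [flQuartic, flG, flJ, flM, qC, gP, jP, lN, hne, etaN, nuN, gn]
        field_simp; ring
      rw [this]; exact div_pos (hq4 r) (by positivity)
    · rw [← sub_pos]
      refine lt_of_lt_of_eq (div_pos (sub_pos.2 hτI) hD) ?_
      simp only [sI, rI, lI, hK, hDdef, hne, hpe, xiN, etaN, nuN, gn]
      field_simp; ring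
    · rw [← sub_pos]
      refine lt_of_lt_of_eq (div_pos (sub_pos.2 hτII) hD) ?_
      simp only [sII, rII, lII, hK, hDdef, hne, hqe, xiN, etaN, nuN, zetaN, gn]
      field_simp; ring

/-- Parameters for `q ≤ p`, `α ≤ n - 3` and `σ - (n-2) ≥ 2 β²(α-β)²/σ³`, `σ = α + β`. -/
theorem hasParams_strip {n : ℕ} (hn : 5 ≤ n) {p q : ℝ} (hq : 0 < q) (hqp : q ≤ p)
    (hpq : 1 < p * q) (hα : 2 * (p + 1) / (p * q - 1) ≤ (n : ℝ) - 3)
    (hsub : (n : ℝ) - 2 < 2 * (p + 1) / (p * q - 1) + 2 * (q + 1) / (p * q - 1))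
    (hσ : 2 * (2 * (q + 1) / (p * q - 1)) ^ 2 *
        (2 * (p + 1) / (p * q - 1) - 2 * (q + 1) / (p * q - 1)) ^ 2 /
        (2 * (p + 1) / (p * q - 1) + 2 * (q + 1) / (p * q - 1)) ^ 3 ≤
      2 * (p + 1) / (p * q - 1) + 2 * (q + 1) / (p * q - 1) - ((n : ℝ) - 2)) :
    HasParams n p q := by
  have hd : 0 < p * q - 1 := by linarith
  have hd0 := hd.ne'
  set α := 2 * (p + 1) / (p * q - 1) with hαdef
  set β := 2 * (q + 1) / (p * q - 1) with hβdef
  have hβα : β ≤ α := by rw [hαdef, hβdef]; gcongr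
  have hα0 : 0 < α := by have : 0 < p := hq.trans_le hqp; positivity
  have hβ0 : 0 < β := by positivity
  have hσ0 : 0 < α + β := by linarith
  have hpα : p * β = α + 2 := by
    rw [hαdef, hβdef, mul_div_assoc', div_add' _ _ _ hd0]; congr 1; ring
  have hqα : q * α = β + 2 := by
    rw [hαdef, hβdef, mul_div_assoc', div_add' _ _ _ hd0]; congr 1; ring
  clear_value α β
  have h5 : (5 : ℝ) ≤ n := by exact_mod_cast hn
  have hn2 : 0 < (n : ℝ) - 2 := by linarith
  refine hasParams_coords (e := 1 / ((n : ℝ) - 2)) (u := β / (α + β)) (h := 1 / (α + β)) hn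
    ?_ ?_ ?_ (by positivity) ?_ ?_ ?_ ?_ ?_ ?_
  · field_simp; ring
  · rw [show 1 - β / (α + β) = α / (α + β) by field_simp; ring, mul_one_div, ← add_div,
      div_div_div_cancel_right₀ hσ0.ne', ← hpα, mul_div_cancel_right₀ _ hβ0.ne']
  · rw [show 1 - β / (α + β) = α / (α + β) by field_simp; ring, mul_one_div, ← add_div,
      div_div_div_cancel_right₀ hσ0.ne', ← hqα, mul_div_cancel_right₀ _ hα0.ne']
  · rw [mul_one_div, div_le_one hn2]; linarith
  · rw [div_lt_div_iff₀ hn2 hσ0]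
    nlinarith
  · rw [mul_div_assoc', div_le_one hσ0]; linarith
  · rw [show (1 - β / (α + β)) * (1 / ((n : ℝ) - 2)) = α / (α + β) * (1 / ((n : ℝ) - 2)) by
      field_simp; ring, div_mul_div_comm, mul_one, div_le_div_iff₀ (by positivity) hσ0]
    nlinarith
  · have e1 : 1 / ((n : ℝ) - 2) * (1 - 2 * (β / (α + β)) ^ 2 * (1 - 2 * (β / (α + β))) ^ 2) =
        ((α + β) - 2 * β ^ 2 * (α - β) ^ 2 / (α + β) ^ 3) / (((n : ℝ) - 2) * (α + β)) := by
      field_simp; ring
    rw [e1, div_le_div_iff₀ hσ0 (by positivity)]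
    nlinarith
  · rw [one_div_lt_one_div hσ0 hn2]; exact hsub

end Vale.Agent.P100.Strip

end
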