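import Vale.Agent.P100.EighthNearPosII

/-!
# Condition (I) at the corner and its slope
-/

namespace Vale.Agent.P100.Near

open Pack

theorem lPIa_chk : chkP ⟨19, 41, 20, 3, 1⟩ (lPI (.var 0) (.var 1)) = true := by
  decide +kernel

theorem ePIa_pos {N s : ℝ} (hN : 3 ≤ N) (h1 : 19 / 20 ≤ s) (h2 : s ≤ 2) : 0 < ePI N s :=
  pos_of_chkP ⟨19, 41, 20, 3, 1⟩ ev_lPI lPIa_chk (by norm_num) (by norm_num) (by norm_num; linarith)
    (by norm_num; linarith) (by norm_num; linarith)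

theorem lPIb_chk : chkP ⟨57, 134, 60, 11, 3⟩ (lPI (.var 0) (.var 1)) = true := by
  decide +kernel

theorem ePIb_pos {N s : ℝ} (hN : 11 / 3 ≤ N) (h1 : 19 / 20 ≤ s) (h2 : s ≤ 20 / 9) : 0 < ePI N s :=
  pos_of_chkP ⟨57, 134, 60, 11, 3⟩ ev_lPI lPIb_chk (by norm_num) (by norm_num) (by norm_num; linarith)
    (by norm_num; linarith) (by norm_num; linarith)

theorem lM_chk : chkP ⟨95, 101, 100, 3, 1⟩ (lM (.var 0) (.var 1)) = true := by
  decide +kernel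

theorem eM_pos {N s : ℝ} (hN : 3 ≤ N) (h1 : 19 / 20 ≤ s) (h2 : s ≤ 1) : 0 < eM N s :=
  pos_of_chkP ⟨95, 101, 100, 3, 1⟩ ev_lM lM_chk (by norm_num) (by norm_num) (by norm_num; linarith)
    (by norm_num; linarith) (by norm_num; linarith)

theorem ePI_pos {N s : ℝ} (hN : 3 ≤ N) (h1 : 19 / 20 ≤ s) (h2 : s ≤ 20 / 9)
    (hr : s ≤ 2 ∨ 11 / 3 ≤ N) : 0 < ePI N s :=
  hr.elim (fun h => ePIa_pos hN h1 h) (fun h => ePIb_pos h h1 h2)

end Vale.Agent.P100.Near
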