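import Mathlib

/-!
# The one-parameter region of the reduced certificates

`Plo n s` and `Qlo n s` are rational lower bounds for the largest exponents covered by the
certificate with parameter `s`. Along this curve the distance to the critical hyperbola is less
than `Plo n s / (2 n (n + 8))`.
-/

namespace Vale.Agent.P100

/-- rational lower bound for the square root of `n (n + 2)` -/
noncomputable def rootLo (n : ℝ) : ℝ := (2 * n ^ 2 + 2 * n - 1) / (2 * n)

/-- rational lower bound for a square root of the form `√(1 - x)` -/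
noncomputable def facP (n s : ℝ) : ℝ :=
  ((n - 1) * s * ((n - 3) * s + (n - 1)) - 2 * (n - 3) * (s - 1)) /
    ((n - 1) * s * ((n - 3) * s + (n - 1)) - (n - 3) * (s - 1))

/-- rational lower bound for a square root of the form `√(1 + x)` -/
noncomputable def facQ (n s : ℝ) : ℝ :=
  (2 * ((n - 1) * ((n - 1) * s + (n - 3))) + 3 * (n - 3) * s * (s - 1)) /
    (2 * ((n - 1) * ((n - 1) * s + (n - 3))) + (n - 3) * s * (s - 1))

/-- first exponent on the curve -/
noncomputable def Plo (n s : ℝ) : ℝ :=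
  (2 * s + (n - 3) + (n - 1) * s * rootLo n * facP n s) / ((n - 1) * (n - 2))

/-- second exponent on the curve -/
noncomputable def Qlo (n s : ℝ) : ℝ :=
  (2 / s + (n - 3) + (n - 1) / s * rootLo n * facQ n s) / ((n - 1) * (n - 2))

variable {n s : ℝ}

theorem rootLo_pos (hn : 3 ≤ n) : 0 < rootLo n := by
  unfold rootLo
  exact div_pos (by nlinarith) (by linarith)

theorem rootLo_sq_lt (hn : 3 ≤ n) : rootLo n ^ 2 < n * (n + 2) := by
  unfold rootLo
  rw [div_pow, div_lt_iff₀ (by positivity)]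
  nlinarith

theorem facP_den (hn : 3 ≤ n) (hs : 1 ≤ s) :
    0 < (n - 1) * s * ((n - 3) * s + (n - 1)) - (n - 3) * (s - 1) := by
  nlinarith [mul_nonneg (show (0:ℝ) ≤ n - 3 by linarith) (show (0:ℝ) ≤ s - 1 by linarith),
    mul_nonneg (mul_nonneg (show (0:ℝ) ≤ n - 1 by linarith) (show (0:ℝ) ≤ n - 3 by linarith))
      (sq_nonneg s)]

theorem facP_num (hn : 3 ≤ n) (hs : 1 ≤ s) :
    0 < (n - 1) * s * ((n - 3) * s + (n - 1)) - 2 * (n - 3) * (s - 1) := by
  nlinarith [mul_nonneg (show (0:ℝ) ≤ n - 3 by linarith) (show (0:ℝ) ≤ s - 1 by linarith),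
    mul_nonneg (mul_nonneg (show (0:ℝ) ≤ n - 1 by linarith) (show (0:ℝ) ≤ n - 3 by linarith))
      (sq_nonneg s), mul_nonneg (sq_nonneg (n - 2)) (show (0:ℝ) ≤ s - 1 by linarith)]

theorem facQ_den (hn : 3 ≤ n) (hs : 1 ≤ s) :
    0 < 2 * ((n - 1) * ((n - 1) * s + (n - 3))) + (n - 3) * s * (s - 1) := by
  have h1 : 0 ≤ (n - 3) * s * (s - 1) :=
    mul_nonneg (mul_nonneg (by linarith) (by linarith)) (by linarith)
  have h2 : 0 < (n - 1) * ((n - 1) * s + (n - 3)) :=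
    mul_pos (by linarith) (add_pos_of_pos_of_nonneg (mul_pos (by linarith) (by linarith))
      (by linarith))
  linarith

theorem facP_pos (hn : 3 ≤ n) (hs : 1 ≤ s) : 0 < facP n s :=
  div_pos (facP_num hn hs) (facP_den hn hs)

theorem facQ_pos (hn : 3 ≤ n) (hs : 1 ≤ s) : 0 < facQ n s := by
  refine div_pos ?_ (facQ_den hn hs)
  have h1 : 0 ≤ (n - 3) * s * (s - 1) :=
    mul_nonneg (mul_nonneg (by linarith) (by linarith)) (by linarith)
  linarith [facQ_den hn hs]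

/-- `s facP` is at least one. -/
theorem one_le_mul_facP (hn : 3 ≤ n) (hs : 1 ≤ s) : 1 ≤ s * facP n s := by
  unfold facP
  rw [mul_div_assoc', le_div_iff₀ (facP_den hn hs), one_mul]
  nlinarith [mul_nonneg (show (0:ℝ) ≤ n - 3 by linarith) (show (0:ℝ) ≤ s - 1 by linarith),
    mul_nonneg (mul_nonneg (show (0:ℝ) ≤ n - 3 by linarith) (show (0:ℝ) ≤ n - 2 by linarith))
      (mul_nonneg (show (0:ℝ) ≤ s by linarith) (mul_nonneg (show (0:ℝ) ≤ s by linarith)
        (show (0:ℝ) ≤ s - 1 by linarith))),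
    mul_nonneg (mul_nonneg (show (0:ℝ) ≤ n - 3 by linarith) (show (0:ℝ) ≤ s - 1 by linarith))
      (sq_nonneg (s - 1)),
    mul_nonneg (sq_nonneg (n - 1)) (mul_nonneg (show (0:ℝ) ≤ s by linarith)
      (show (0:ℝ) ≤ s - 1 by linarith))]

theorem Plo_le_of_one_le (hn : 3 ≤ n) (hs : 1 ≤ s) : Plo n 1 ≤ Plo n s := by
  have hM : 0 < (n - 1) * (n - 2) := mul_pos (by linarith) (by linarith)
  have h1 : facP n 1 = 1 := by
    unfold facP; exact div_eq_one_iff_eq (facP_den hn le_rfl).ne' |>.2 (by ring)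
  unfold Plo
  rw [h1, div_le_div_iff_of_pos_right hM]
  have := mul_le_mul_of_nonneg_left (one_le_mul_facP hn hs)
    (mul_nonneg (show (0:ℝ) ≤ n - 1 by linarith) (rootLo_pos hn).le)
  nlinarith

theorem Plo_pos (hn : 3 ≤ n) (hs : 1 ≤ s) : 0 < Plo n s := by
  have hM : 0 < (n - 1) * (n - 2) := mul_pos (by linarith) (by linarith)
  exact div_pos (add_pos_of_pos_of_nonneg (by linarith) (mul_nonneg (mul_nonneg
    (mul_nonneg (by linarith) (by linarith)) (rootLo_pos hn).le) (facP_pos hn hs).le)) hM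

theorem Qlo_pos (hn : 3 ≤ n) (hs : 1 ≤ s) : 0 < Qlo n s := by
  have hM : 0 < (n - 1) * (n - 2) := mul_pos (by linarith) (by linarith)
  have : 0 < 2 / s := div_pos two_pos (by linarith)
  exact div_pos (add_pos_of_pos_of_nonneg (by linarith) (mul_nonneg (mul_nonneg
    (div_nonneg (by linarith) (by linarith)) (rootLo_pos hn).le) (facQ_pos hn hs).le)) hM

/-- coefficient of `u ^ 0` in the polynomial behind `curve_bound` -/
noncomputable def curveCoeff0 (m : ℝ) : ℝ :=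
  31646720 + 245127168 * m + 868077312 * m ^ 2 + 1864177408 * m ^ 3 + 2714571456 * m ^ 4 +
  2838949632 * m ^ 5 + 2202702992 * m ^ 6 + 1291213488 * m ^ 7 + 576780432 * m ^ 8 +
  196532464 * m ^ 9 + 50776608 * m ^ 10 + 9810144 * m ^ 11 + 1382336 * m ^ 12 +
  135744 * m ^ 13 + 8448 * m ^ 14 + 256 * m ^ 15

theorem curveCoeff0_pos {m : ℝ} (hm : 0 ≤ m) : 0 < curveCoeff0 m := by
  unfold curveCoeff0; positivity

/-- coefficient of `u ^ 1` in the polynomial behind `curve_bound` -/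
noncomputable def curveCoeff1 (m : ℝ) : ℝ :=
  162964480 + 1261713792 * m + 4479234240 * m ^ 2 + 9671493696 * m ^ 3 +
  14202447072 * m ^ 4 + 15023942072 * m ^ 5 + 11827141404 * m ^ 6 + 7056470184 * m ^ 7 +
  3218590420 * m ^ 8 + 1123440472 * m ^ 9 + 298206024 * m ^ 10 + 59315344 * m ^ 11 +
  8605712 * m ^ 12 + 866976 * m ^ 13 + 54848 * m ^ 14 + 1664 * m ^ 15

theorem curveCoeff1_pos {m : ℝ} (hm : 0 ≤ m) : 0 < curveCoeff1 m := by
  unfold curveCoeff1; positivity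

/-- coefficient of `u ^ 2` in the polynomial behind `curve_bound` -/
noncomputable def curveCoeff2 (m : ℝ) : ℝ :=
  293519360 + 2291943808 * m + 8206759040 * m ^ 2 + 17875485120 * m ^ 3 +
  26490519936 * m ^ 4 + 28300221848 * m ^ 5 + 22526122904 * m ^ 6 + 13613904136 * m ^ 7 +
  6306073624 * m ^ 8 + 2242916744 * m ^ 9 + 609225888 * m ^ 10 + 124597768 * m ^ 11 +
  18674864 * m ^ 12 + 1950064 * m ^ 13 + 127872 * m ^ 14 + 4000 * m ^ 15

theorem curveCoeff2_pos {m : ℝ} (hm : 0 ≤ m) : 0 < curveCoeff2 m := by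
  unfold curveCoeff2; positivity

/-- coefficient of `u ^ 3` in the polynomial behind `curve_bound` -/
noncomputable def curveCoeff3 (m : ℝ) : ℝ :=
  224405504 + 1840522240 * m + 6848027328 * m ^ 2 + 15369020800 * m ^ 3 +
  23317762320 * m ^ 4 + 25387644096 * m ^ 5 + 20540112692 * m ^ 6 + 12609681336 * m ^ 7 +
  5942376855 * m ^ 8 + 2158663172 * m ^ 9 + 602556818 * m ^ 10 + 127646084 * m ^ 11 +
  19982652 * m ^ 12 + 2193912 * m ^ 13 + 151600 * m ^ 14 + 4976 * m ^ 15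

theorem curveCoeff3_pos {m : ℝ} (hm : 0 ≤ m) : 0 < curveCoeff3 m := by
  unfold curveCoeff3; positivity

/-- coefficient of `u ^ 4` in the polynomial behind `curve_bound` -/
noncomputable def curveCoeff4 (m : ℝ) : ℝ :=
  67044352 + 668908800 * m + 2800788800 * m ^ 2 + 6766559360 * m ^ 3 + 10745743104 * m ^ 4 +
  12024004944 * m ^ 5 + 9885871216 * m ^ 6 + 6136057356 * m ^ 7 + 2926717577 * m ^ 8 +
  1083964740 * m ^ 9 + 312478682 * m ^ 10 + 69470428 * m ^ 11 + 11587984 * m ^ 12 +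
  1368688 * m ^ 13 + 101824 * m ^ 14 + 3568 * m ^ 15

theorem curveCoeff4_pos {m : ℝ} (hm : 0 ≤ m) : 0 < curveCoeff4 m := by
  unfold curveCoeff4; positivity

/-- coefficient of `u ^ 5` in the polynomial behind `curve_bound` -/
noncomputable def curveCoeff5 (m : ℝ) : ℝ :=
  10007552 + 152033152 * m + 755485184 * m ^ 2 + 1976701984 * m ^ 3 + 3233053392 * m ^ 4 +
  3602526912 * m ^ 5 + 2879599784 * m ^ 6 + 1712392082 * m ^ 7 + 781284182 * m ^ 8 +
  281538560 * m ^ 9 + 81948066 * m ^ 10 + 19289796 * m ^ 11 + 3542352 * m ^ 12 +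
  468456 * m ^ 13 + 38824 * m ^ 14 + 1488 * m ^ 15

theorem curveCoeff5_pos {m : ℝ} (hm : 0 ≤ m) : 0 < curveCoeff5 m := by
  unfold curveCoeff5; positivity

/-- coefficient of `u ^ 6` in the polynomial behind `curve_bound` -/
noncomputable def curveCoeff6 (m : ℝ) : ℝ :=
  5167104 + 54102400 * m + 253020480 * m ^ 2 + 658701920 * m ^ 3 + 1068259232 * m ^ 4 +
  1153870512 * m ^ 5 + 864089592 * m ^ 6 + 459837578 * m ^ 7 + 177426906 * m ^ 8 +
  51351262 * m ^ 9 + 12053996 * m ^ 10 + 2576116 * m ^ 11 + 509368 * m ^ 12 +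
  79200 * m ^ 13 + 7712 * m ^ 14 + 336 * m ^ 15

theorem curveCoeff6_pos {m : ℝ} (hm : 0 ≤ m) : 0 < curveCoeff6 m := by
  unfold curveCoeff6; positivity

/-- coefficient of `u ^ 7` in the polynomial behind `curve_bound` -/
noncomputable def curveCoeff7 (m : ℝ) : ℝ :=
  5812992 * m + 47836544 * m ^ 2 + 162348384 * m ^ 3 + 309025968 * m ^ 4 +
  373494800 * m ^ 5 + 304997824 * m ^ 6 + 173663334 * m ^ 7 + 69803155 * m ^ 8 +
  19780178 * m ^ 9 + 3920442 * m ^ 10 + 549184 * m ^ 11 + 60532 * m ^ 12 + 6568 * m ^ 13 +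
  640 * m ^ 14 + 32 * m ^ 15

theorem curveCoeff7_nonneg {m : ℝ} (hm : 0 ≤ m) : 0 ≤ curveCoeff7 m := by
  unfold curveCoeff7; positivity

/-- coefficient of `u ^ 8` in the polynomial behind `curve_bound` -/
noncomputable def curveCoeff8 (m : ℝ) : ℝ :=
  1937664 * m ^ 2 + 13332576 * m ^ 3 + 36771344 * m ^ 4 + 56707568 * m ^ 5 +
  55742424 * m ^ 6 + 37229430 * m ^ 7 + 17430621 * m ^ 8 + 5780194 * m ^ 9 +
  1347490 * m ^ 10 + 214776 * m ^ 11 + 22072 * m ^ 12 + 1296 * m ^ 13 + 32 * m ^ 14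

theorem curveCoeff8_nonneg {m : ℝ} (hm : 0 ≤ m) : 0 ≤ curveCoeff8 m := by
  unfold curveCoeff8; positivity

/-- coefficient of `u ^ 9` in the polynomial behind `curve_bound` -/
noncomputable def curveCoeff9 (m : ℝ) : ℝ :=
  161472 * m ^ 3 + 844480 * m ^ 4 + 1871744 * m ^ 5 + 2382144 * m ^ 6 + 1961340 * m ^ 7 +
  1106140 * m ^ 8 + 438382 * m ^ 9 + 122538 * m ^ 10 + 23736 * m ^ 11 + 3040 * m ^ 12 +
  232 * m ^ 13 + 8 * m ^ 14

theorem curveCoeff9_nonneg {m : ℝ} (hm : 0 ≤ m) : 0 ≤ curveCoeff9 m := by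
  unfold curveCoeff9; positivity

theorem curve_poly {m u : ℝ} {D1 F1 E1 D2 F2 E2 Pn Pd Qn Qd : ℝ} (hm : 0 ≤ m) (hu : 0 ≤ u)
    (hD1 : D1 = (m + 2) * (u + 1) * (m * (u + 1) + (m + 2))) (hF1 : F1 = D1 - 2 * m * u)
    (hE1 : E1 = D1 - m * u) (hD2 : D2 = (m + 2) * ((m + 2) * (u + 1) + m))
    (hF2 : F2 = 2 * D2 + 3 * m * (u + 1) * u) (hE2 : E2 = 2 * D2 + m * (u + 1) * u)
    (hPn : Pn = (2 * (u + 1) + m) * (2 * (m + 3)) * E1 +
      (m + 2) * (u + 1) * (2 * (m + 3) ^ 2 + 2 * (m + 3) - 1) * F1)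
    (hPd : Pd = (m + 2) * (m + 1) * (2 * (m + 3)) * E1)
    (hQn : Qn = (2 + m * (u + 1)) * (2 * (m + 3)) * E2 +
      (m + 2) * (2 * (m + 3) ^ 2 + 2 * (m + 3) - 1) * F2)
    (hQd : Qd = (m + 2) * (m + 1) * (u + 1) * (2 * (m + 3)) * E2) :
    0 < 2 * (m + 11) * (m + 1) * (Pn + Pd) * Pd * (Qn + Qd) + Pn * (Pn + Pd) * (Qn + Qd) -
      2 * (m + 3) * (m + 11) * Pd ^ 2 * (Qn + Qd) - 2 * (m + 3) * (m + 11) * Qd * (Pn + Pd) * Pd := by
  have key : 2 * (m + 11) * (m + 1) * (Pn + Pd) * Pd * (Qn + Qd) +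
      Pn * (Pn + Pd) * (Qn + Qd) - 2 * (m + 3) * (m + 11) * Pd ^ 2 * (Qn + Qd) -
      2 * (m + 3) * (m + 11) * Qd * (Pn + Pd) * Pd =
      curveCoeff0 m + curveCoeff1 m * u + curveCoeff2 m * u ^ 2 + curveCoeff3 m * u ^ 3 + curveCoeff4 m * u ^ 4 + curveCoeff5 m * u ^ 5 + curveCoeff6 m * u ^ 6 + curveCoeff7 m * u ^ 7 + curveCoeff8 m * u ^ 8 + curveCoeff9 m * u ^ 9 := by
    subst hQd hQn hPd hPn hE2 hF2 hD2 hE1 hF1 hD1
    simp only [curveCoeff0, curveCoeff1, curveCoeff2, curveCoeff3, curveCoeff4, curveCoeff5,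
      curveCoeff6, curveCoeff7, curveCoeff8, curveCoeff9]
    ring
  rw [key]
  have h0 := curveCoeff0_pos hm
  have h1 := curveCoeff1_pos hm
  have h2 := curveCoeff2_pos hm
  have h3 := curveCoeff3_pos hm
  have h4 := curveCoeff4_pos hm
  have h5 := curveCoeff5_pos hm
  have h6 := curveCoeff6_pos hm
  have h7 := curveCoeff7_nonneg hm
  have h8 := curveCoeff8_nonneg hm
  have h9 := curveCoeff9_nonneg hm
  positivity

/-- Along the curve the distance to the critical hyperbola is less than `Plo n s / (2 n (n + 8))`. -/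
theorem curve_bound (hn : 3 ≤ n) (hs : 1 ≤ s) :
    1 / (Plo n s + 1) + 1 / (Qlo n s + 1) < (n - 2) / n + Plo n s / (2 * n * (n + 8)) := by
  obtain ⟨m, hm, rfl⟩ : ∃ m, 0 ≤ m ∧ n = m + 3 := ⟨n - 3, by linarith, by ring⟩
  obtain ⟨u, hu, rfl⟩ : ∃ u, 0 ≤ u ∧ s = u + 1 := ⟨s - 1, by linarith, by ring⟩
  set D1 := (m + 2) * (u + 1) * (m * (u + 1) + (m + 2)) with hD1
  set D2 := (m + 2) * ((m + 2) * (u + 1) + m) with hD2
  set E1 := D1 - m * u with hE1
  set F1 := D1 - 2 * m * u with hF1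
  set E2 := 2 * D2 + m * (u + 1) * u with hE2
  set F2 := 2 * D2 + 3 * m * (u + 1) * u with hF2
  set Pn := (2 * (u + 1) + m) * (2 * (m + 3)) * E1 +
    (m + 2) * (u + 1) * (2 * (m + 3) ^ 2 + 2 * (m + 3) - 1) * F1 with hPn
  set Pd := (m + 2) * (m + 1) * (2 * (m + 3)) * E1 with hPd
  set Qn := (2 + m * (u + 1)) * (2 * (m + 3)) * E2 +
    (m + 2) * (2 * (m + 3) ^ 2 + 2 * (m + 3) - 1) * F2 with hQn
  set Qd := (m + 2) * (m + 1) * (u + 1) * (2 * (m + 3)) * E2 with hQd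
  have e1 : 0 < E1 := by
    have h := facP_den (n := m + 3) (s := u + 1) hn hs
    simp only [hE1, hD1]; linear_combination h
  have e2 : 0 < E2 := by
    have h := facQ_den (n := m + 3) (s := u + 1) hn hs
    simp only [hE2, hD2]; linear_combination h
  have hPd0 : 0 < Pd := by rw [hPd]; positivity
  have hQd0 : 0 < Qd := by rw [hQd]; positivity
  have fP : facP (m + 3) (u + 1) = F1 / E1 := by
    unfold facP; simp only [hF1, hE1, hD1]; congr 1 <;> ring
  have fQ : facQ (m + 3) (u + 1) = F2 / E2 := by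
    unfold facQ; simp only [hF2, hE2, hD2]; congr 1 <;> ring
  have hP : Plo (m + 3) (u + 1) = Pn / Pd := by
    unfold Plo rootLo
    rw [fP, hPn, hPd, show m + 3 - 3 = m by ring, show m + 3 - 1 = m + 2 by ring,
      show m + 3 - 2 = m + 1 by ring]
    field_simp
    try ring
  have hQ : Qlo (m + 3) (u + 1) = Qn / Qd := by
    unfold Qlo rootLo
    rw [fQ, hQn, hQd, show m + 3 - 3 = m by ring, show m + 3 - 1 = m + 2 by ring,
      show m + 3 - 2 = m + 1 by ring]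
    field_simp
    try ring
  have hPn0 : 0 < Pn := by
    have := Plo_pos (n := m + 3) (s := u + 1) hn hs
    rw [hP] at this
    exact (div_pos_iff_of_pos_right hPd0).1 this
  have hQn0 : 0 < Qn := by
    have := Qlo_pos (n := m + 3) (s := u + 1) hn hs
    rw [hQ] at this
    exact (div_pos_iff_of_pos_right hQd0).1 this
  have key := curve_poly (m := m) (u := u) hm hu hD1 hF1 hE1 hD2 hF2 hE2 hPn hPd hQn hQd
  rw [hP, hQ, ← sub_pos]
  have : (m + 3 - 2) / (m + 3) + Pn / Pd / (2 * (m + 3) * (m + 3 + 8)) -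
      (1 / (Pn / Pd + 1) + 1 / (Qn / Qd + 1)) =
      (2 * (m + 11) * (m + 1) * (Pn + Pd) * Pd * (Qn + Qd) + Pn * (Pn + Pd) * (Qn + Qd) -
        2 * (m + 3) * (m + 11) * Pd ^ 2 * (Qn + Qd) - 2 * (m + 3) * (m + 11) * Qd * (Pn + Pd) * Pd) /
      (2 * (m + 3) * (m + 11) * Pd * (Pn + Pd) * (Qn + Qd)) := by
    clear_value Pn Pd Qn Qd
    field_simp
    ring
  rw [this]
  positivity

end Vale.Agent.P100
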