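import Vale.Agent.P100.EighthNearPoly
import Vale.Agent.P100.Pack.Expr

/-!
# The near-diagonal polynomials as expressions

Each expression is built from two expressions standing for `N` and `s` in the same way as the
polynomial from `N` and `s`, so its value is the polynomial at the two values.
-/

set_option linter.unusedSimpArgs false
set_option linter.unreachableTactic false
set_option linter.unusedTactic false

namespace Vale.Agent.P100.Near

open Pack

/-- The expression of `eG`. -/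
def lG (A B : Ex) : Ex :=
    .sub (.add (.sub (.add (.mul (.pow A 2) (.add B (.num 1))) (.mul A (.pow B 2))) (.mul A
    B)) (.mul (.num 2) (.pow B 2))) (.mul (.num 4) B)

theorem ev_lG (x : ℕ → ℝ) (A B : Ex) :
    (lG A B).eval x = eG (A.eval x) (B.eval x) := by
  simp only [lG, eG, Ex.eval] <;>
    push_cast <;> ring

/-- The expression of `ePhi`. -/
def lPhi (A B : Ex) : Ex :=
    .sub (.mul (.sub (.mul (.add (.mul A (.add B (.num 1))) (.mul (.num 2) B)) (.add A B))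
    (.mul (.mul (.num 4) B) A)) (.add A B)) (.mul (.mul (.mul (.num 4) A) (.add A (.num
    1))) (.pow B 2))

theorem ev_lPhi (x : ℕ → ℝ) (A B : Ex) :
    (lPhi A B).eval x = ePhi (A.eval x) (B.eval x) := by
  simp only [lPhi, ePhi, Ex.eval] <;>
    push_cast <;> ring

/-- The expression of `ePsi`. -/
def lPsi (A B : Ex) : Ex :=
    .add (lPhi A B) (.mul (.mul (.mul (.add A (.num 2)) (.sub (.mul A (.add B (.num 1)))
    (.mul (.num 2) B))) (.pow B 2)) (.add A B))

theorem ev_lPsi (x : ℕ → ℝ) (A B : Ex) :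
    (lPsi A B).eval x = ePsi (A.eval x) (B.eval x) := by
  simp only [lPsi, ePsi, Ex.eval, ev_lPhi] <;>
    push_cast <;> ring

/-- The expression of `eNu`. -/
def lNu (A B : Ex) : Ex :=
    .add (.mul (.mul (.mul (.sub (.mul A (.add B (.num 1))) (.mul (.num 2) B)) B) (.add A
    B)) (lG A B)) (.mul (.num 4) (lPsi A B))

theorem ev_lNu (x : ℕ → ℝ) (A B : Ex) :
    (lNu A B).eval x = eNu (A.eval x) (B.eval x) := by
  simp only [lNu, eNu, Ex.eval, ev_lG, ev_lPsi] <;>
    push_cast <;> ring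

/-- The expression of `eDen`. -/
def lDen (A B : Ex) : Ex :=
    .add (.add (.add (.add (.add (.add (.add (.add (.add (.add (.add (.add (.add (.add (.add
    (.add (.add (.add (.add (.add (.add (.add (.add (.add (.add (.add (.add (.add (.add (.add
    (.add (.add (.add (.add (.add (.add (.add (.add (.add (.add (.add (.add (.add (.add (.add
    (.add (.add (.add (.add (.add (.add (.add (.add (.add (.add (.mul (.num 16) (.pow B 6))
    (.mul (.num 16) (.pow B 7))) (.mul (.num (-16)) (.pow B 8))) (.mul (.num (-16)) (.pow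
    B 9))) (.mul (.mul (.num (-16)) A) (.pow B 5))) (.mul (.mul (.num 16) A) (.pow B 6)))
    (.mul (.mul (.num (-8)) A) (.pow B 7))) (.mul (.mul (.num (-56)) A) (.pow B 8))) (.mul
    (.mul (.num (-16)) A) (.pow B 9))) (.mul (.mul (.num (-12)) (.pow A 2)) (.pow B 4)))
    (.mul (.mul (.num (-52)) (.pow A 2)) (.pow B 5))) (.mul (.mul (.num (-28)) (.pow A 2))
    (.pow B 6))) (.mul (.mul (.num (-32)) (.pow A 2)) (.pow B 7))) (.mul (.mul (.num (-44))
    (.pow A 2)) (.pow B 8))) (.mul (.mul (.num 16) (.pow A 3)) (.pow B 3))) (.mul (.mul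
    (.num (-4)) (.pow A 3)) (.pow B 4))) (.mul (.mul (.num (-30)) (.pow A 3)) (.pow B 5)))
    (.mul (.mul (.num (-26)) (.pow A 3)) (.pow B 6))) (.mul (.mul (.num (-14)) (.pow A 3))
    (.pow B 7))) (.mul (.mul (.num 6) (.pow A 3)) (.pow B 8))) (.mul (.mul (.num 4) (.pow A
    3)) (.pow B 9))) (.mul (.mul (.num (-8)) (.pow A 4)) (.pow B 2))) (.mul (.mul (.num 32)
    (.pow A 4)) (.pow B 3))) (.mul (.mul (.num 17) (.pow A 4)) (.pow B 4))) (.mul (.mul
    (.num (-20)) (.pow A 4)) (.pow B 5))) (.mul (.mul (.num 11) (.pow A 4)) (.pow B 6)))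
    (.mul (.mul (.num 23) (.pow A 4)) (.pow B 7))) (.mul (.mul (.num 16) (.pow A 4)) (.pow B
    8))) (.mul (.mul (.num 1) (.pow A 4)) (.pow B 9))) (.mul (.mul (.num (-16)) (.pow A 5))
    (.pow B 2))) (.mul (.mul (.num (-4)) (.pow A 5)) (.pow B 3))) (.mul (.mul (.num 4) (.pow
    A 5)) (.pow B 4))) (.mul (.mul (.num 4) (.pow A 5)) (.pow B 5))) (.mul (.mul (.num 32)
    (.pow A 5)) (.pow B 6))) (.mul (.mul (.num 24) (.pow A 5)) (.pow B 7))) (.mul (.mul
    (.num 4) (.pow A 5)) (.pow B 8))) (.mul (.num 4) (.pow A 6))) (.mul (.mul (.num 4)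
    (.pow A 6)) B)) (.mul (.mul (.num (-6)) (.pow A 6)) (.pow B 2))) (.mul (.mul (.num 18)
    (.pow A 6)) (.pow B 4))) (.mul (.mul (.num 26) (.pow A 6)) (.pow B 5))) (.mul (.mul
    (.num 20) (.pow A 6)) (.pow B 6))) (.mul (.mul (.num 6) (.pow A 6)) (.pow B 7))) (.mul
    (.num 4) (.pow A 7))) (.mul (.mul (.num 10) (.pow A 7)) B)) (.mul (.mul (.num 14)
    (.pow A 7)) (.pow B 2))) (.mul (.mul (.num 18) (.pow A 7)) (.pow B 3))) (.mul (.mul
    (.num 18) (.pow A 7)) (.pow B 4))) (.mul (.mul (.num 12) (.pow A 7)) (.pow B 5))) (.mul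
    (.mul (.num 4) (.pow A 7)) (.pow B 6))) (.mul (.num 1) (.pow A 8))) (.mul (.mul (.num
    4) (.pow A 8)) B)) (.mul (.mul (.num 7) (.pow A 8)) (.pow B 2))) (.mul (.mul (.num 7)
    (.pow A 8)) (.pow B 3))) (.mul (.mul (.num 4) (.pow A 8)) (.pow B 4))) (.mul (.mul (.num
    1) (.pow A 8)) (.pow B 5))

theorem ev_lDen (x : ℕ → ℝ) (A B : Ex) :
    (lDen A B).eval x = eDen (A.eval x) (B.eval x) := by
  simp only [lDen, eDen, Ex.eval] <;>
    push_cast <;> ring

/-- The expression of `eT`. -/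
def lT (A B : Ex) : Ex :=
    .mul (.mul (.mul (.mul A (.pow B 3)) (.add B (.num 1))) (.pow (.add A B) 2)) (.pow (lG A
    B) 2)

theorem ev_lT (x : ℕ → ℝ) (A B : Ex) :
    (lT A B).eval x = eT (A.eval x) (B.eval x) := by
  simp only [lT, eT, Ex.eval, ev_lG] <;>
    push_cast <;> ring

/-- The expression of `eD3`. -/
def lD3 (B : Ex) : Ex :=
    .add (.add (.pow B 2) B) (.num 1)

theorem ev_lD3 (x : ℕ → ℝ) (B : Ex) :
    (lD3 B).eval x = eD3 (B.eval x) := by
  simp only [lD3, eD3, Ex.eval] <;>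
    push_cast <;> ring

/-- The expression of `eK`. -/
def lK (A B : Ex) : Ex :=
    .mul (.mul (.mul (.num 5) (.add B (.num 1))) (lD3 B)) A

theorem ev_lK (x : ℕ → ℝ) (A B : Ex) :
    (lK A B).eval x = eK (A.eval x) (B.eval x) := by
  simp only [lK, eK, Ex.eval, ev_lD3] <;>
    push_cast <;> ring

/-- The expression of `eQ1`. -/
def lQ1 (A B : Ex) : Ex :=
    .mul (lK A B) (lDen A B)

theorem ev_lQ1 (x : ℕ → ℝ) (A B : Ex) :
    (lQ1 A B).eval x = eQ1 (A.eval x) (B.eval x) := by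
  simp only [lQ1, eQ1, Ex.eval, ev_lDen, ev_lK] <;>
    push_cast <;> ring

/-- The expression of `eR`. -/
def lR (A B : Ex) : Ex :=
    .add (.sub (.mul (.mul (.mul (.mul (.mul (.num 5) (.add B (.num 1))) (lD3 B)) A) (.add A
    (.num 2))) (.sub (.mul (.pow B 2) (lDen A B)) (.mul (.add A (.num 2)) (lT A B)))) (.mul
    (.mul (.mul (.mul (.num 10) B) (.add A (.num 2))) (.add (.mul (.num 3) B) (.num 1)))
    (lDen A B))) (.mul (.mul (.mul (.mul (.mul (.num 2) B) (.add B (.num 1))) (lD3 B)) (.sub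
    (.num 16) (.mul (.num 6) B))) (lDen A B))

theorem ev_lR (x : ℕ → ℝ) (A B : Ex) :
    (lR A B).eval x = eR (A.eval x) (B.eval x) := by
  simp only [lR, eR, Ex.eval, ev_lD3, ev_lDen, ev_lT] <;>
    push_cast <;> ring

/-- The expression of `eC`. -/
def lC (A B : Ex) : Ex :=
    .sub (.sub (.mul (.mul (.mul (.add A (.num 1)) (.add A (.num 4))) B) (.add B (.num
    1))) (.mul A (.add B (.num 1)))) (.mul (.num 2) B)

theorem ev_lC (x : ℕ → ℝ) (A B : Ex) :
    (lC A B).eval x = eC (A.eval x) (B.eval x) := by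
  simp only [lC, eC, Ex.eval] <;>
    push_cast <;> ring

/-- The expression of `eB1`. -/
def lB1 (A B : Ex) : Ex :=
    .add (.mul (.mul (.mul (.mul (.mul (.mul (.pow (.add A (.num 2)) 2) (.pow B 2)) (.add A
    B)) (lG A B)) (lNu A B)) (lK A B)) (.mul A (.add B (.num 1)))) (.mul (lR A B) (.sub (.mul
    (.add A (.num 4)) (.add B (.num 1))) (.num 2)))

theorem ev_lB1 (x : ℕ → ℝ) (A B : Ex) :
    (lB1 A B).eval x = eB1 (A.eval x) (B.eval x) := by
  simp only [lB1, eB1, Ex.eval, ev_lG, ev_lK, ev_lNu, ev_lR] <;>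
    push_cast <;> ring

/-- The expression of `ePI`. -/
def lPI (A B : Ex) : Ex :=
    .sub (.mul (.mul (.mul (.add A (.num 4)) (.add (.mul A (.add B (.num 1))) (.mul (.num
    2) B))) (lQ1 A B)) (lB1 A B)) (.pow (.add (.mul (lC A B) (lQ1 A B)) (lR A B)) 2)

theorem ev_lPI (x : ℕ → ℝ) (A B : Ex) :
    (lPI A B).eval x = ePI (A.eval x) (B.eval x) := by
  simp only [lPI, ePI, Ex.eval, ev_lB1, ev_lC, ev_lQ1, ev_lR] <;>
    push_cast <;> ring

/-- The expression of `eZ`. -/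
def lZ (A B : Ex) : Ex :=
    .sub (.mul (.add (.mul A (.add B (.num 1))) (.mul (.num 2) B)) (.add A B)) (.mul (.mul
    (.num 4) B) A)

theorem ev_lZ (x : ℕ → ℝ) (A B : Ex) :
    (lZ A B).eval x = eZ (A.eval x) (B.eval x) := by
  simp only [lZ, eZ, Ex.eval] <;>
    push_cast <;> ring

/-- The expression of `eA2`. -/
def lA2 (A B C D : Ex) : Ex :=
    .sub (.sub (.mul (.mul (.mul (.mul (.mul (.add A (.num 1)) C) (.add A (.num 2))) (lT A
    B)) (lK A B)) (.mul A (.add B (.num 1)))) (.mul (.mul (.mul (.mul (.mul (.mul (.mul (.add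
    A (.num 2)) (.pow B 2)) (.add A B)) (lG A B)) (lNu A B)) (lK A B)) (.mul A (.add B (.num
    1)))) D)) (.mul (lR A B) D)

theorem ev_lA2 (x : ℕ → ℝ) (A B C D : Ex) :
    (lA2 A B C D).eval x = eA2 (A.eval x) (B.eval x) (C.eval x) (D.eval x) := by
  simp only [lA2, eA2, Ex.eval, ev_lG, ev_lK, ev_lNu, ev_lR, ev_lT] <;>
    push_cast <;> ring

/-- The expression of `eB2`. -/
def lB2 (A B C D : Ex) : Ex :=
    .add (.mul (.mul (.mul (.mul (.add (.mul A (.add B (.num 1))) (.mul (.num 2) B)) B)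
    (.add A (.num 2))) (lQ1 A B)) D) (.mul (lR A B) (.sub (.mul (.mul (.num 2) B) D) (.mul C
    (.mul A (.add B (.num 1))))))

theorem ev_lB2 (x : ℕ → ℝ) (A B C D : Ex) :
    (lB2 A B C D).eval x = eB2 (A.eval x) (B.eval x) (C.eval x) (D.eval x) := by
  simp only [lB2, eB2, Ex.eval, ev_lQ1, ev_lR] <;>
    push_cast <;> ring

/-- The expression of `ePII`. -/
def lPII (A B C D : Ex) : Ex :=
    .sub (.mul (.mul (.mul (.mul (.mul (.mul (.add A (.num 2)) (.add A (.num 4))) (.mul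
    (.mul (.mul (.mul A (.pow B 2)) (.add B (.num 1))) (.add A B)) (.pow (lG A B) 2))) (lK A
    B)) (lZ A B)) D) (lB2 A B C D)) (.pow (lA2 A B C D) 2)

theorem ev_lPII (x : ℕ → ℝ) (A B C D : Ex) :
    (lPII A B C D).eval x = ePII (A.eval x) (B.eval x) (C.eval x) (D.eval x) := by
  simp only [lPII, ePII, Ex.eval, ev_lA2, ev_lB2, ev_lG, ev_lK, ev_lZ] <;>
    push_cast <;> ring

/-- The expression of `eQn`. -/
def lQn (A B : Ex) : Ex :=
    .add (.mul (.mul (.num 16) B) (.add A (.num 4))) (.mul A (.add (.mul (.num 8) A)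
    (.num 33)))

theorem ev_lQn (x : ℕ → ℝ) (A B : Ex) :
    (lQn A B).eval x = eQn (A.eval x) (B.eval x) := by
  simp only [lQn, eQn, Ex.eval] <;>
    push_cast <;> ring

/-- The expression of `eQd`. -/
def lQd (A B : Ex) : Ex :=
    .sub (.mul (.mul (.add (.mul (.num 8) A) (.num 1)) B) (.add A (.num 4))) (.mul (.num
    16) A)

theorem ev_lQd (x : ℕ → ℝ) (A B : Ex) :
    (lQd A B).eval x = eQd (A.eval x) (B.eval x) := by
  simp only [lQd, eQd, Ex.eval] <;>
    push_cast <;> ring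

/-- The expression of `ePIIc`. -/
def lPIIc (A B : Ex) : Ex :=
    lPII A B (lQn A B) (lQd A B)

theorem ev_lPIIc (x : ℕ → ℝ) (A B : Ex) :
    (lPIIc A B).eval x = ePIIc (A.eval x) (B.eval x) := by
  simp only [lPIIc, ePIIc, Ex.eval, ev_lPII, ev_lQd, ev_lQn] <;>
    push_cast <;> ring

/-- The expression of `ePIIz`. -/
def lPIIz (A B : Ex) : Ex :=
    lPII A B (.num 0) (.num 1)

theorem ev_lPIIz (x : ℕ → ℝ) (A B : Ex) :
    (lPIIz A B).eval x = ePIIz (A.eval x) (B.eval x) := by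
  simp only [lPIIz, ePIIz, Ex.eval, ev_lPII] <;>
    push_cast <;> ring

/-- The expression of `eC1`. -/
def lC1 (A B : Ex) : Ex :=
    .sub (.mul A (.mul A (.add B (.num 1)))) (.mul (.num 2) B)

theorem ev_lC1 (x : ℕ → ℝ) (A B : Ex) :
    (lC1 A B).eval x = eC1 (A.eval x) (B.eval x) := by
  simp only [lC1, eC1, Ex.eval] <;>
    push_cast <;> ring

/-- The expression of `eM`. -/
def lM (A B : Ex) : Ex :=
    .sub (.mul (.mul (.mul (.num 2) B) (.add A (.num 1))) (.add (.mul (lC1 A B) (lQ1 A B))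
    (lR A B))) (.mul (.mul (.add A (.num 4)) (.add (.mul A (.add B (.num 1))) (.mul (.num
    2) B))) (lR A B))

theorem ev_lM (x : ℕ → ℝ) (A B : Ex) :
    (lM A B).eval x = eM (A.eval x) (B.eval x) := by
  simp only [lM, eM, Ex.eval, ev_lC1, ev_lQ1, ev_lR] <;>
    push_cast <;> ring

end Vale.Agent.P100.Near
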