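import Mathlib

/-!
# The polynomials of the near-diagonal parameters

`N = n - 2`, `l = 2s/(N(s+1))`, `ξ = η = 1+l`, `ζ = 1+l-z`, `z = 4s/((s+1)(N+s))`,
`ν = eNu/(N s (s+1)(N+s) eG)`, `t = (N+2) eT/eDen`,
`ρ = (s-t/s)/2 - (3s+1)/((s+1)(s²+s+1)N) + (16-6s)/(5N(N+2)) = eR/(2 s (N+2) eQ1)`, `p = s(N+4)/N`.
-/

noncomputable section

namespace Vale.Agent.P100.Near

/-- `Γ` -/
def eG (N s : ℝ) : ℝ := N ^ 2 * (s + 1) + N * s ^ 2 - N * s + 2 * s ^ 2 - 4 * s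

/-- `N(s+1)²(N+s)² g₀` -/
def ePhi (N s : ℝ) : ℝ :=
  ((N * (s + 1) + 2 * s) * (N + s) - 4 * s * N) * (N + s) - 4 * N * (N + 1) * s ^ 2

/-- numerator of `-V/4` -/
def ePsi (N s : ℝ) : ℝ := ePhi N s + (N + 2) * (N * (s + 1) - 2 * s) * s ^ 2 * (N + s)

/-- numerator of `ν` -/
def eNu (N s : ℝ) : ℝ := (N * (s + 1) - 2 * s) * s * (N + s) * eG N s + 4 * ePsi N s

/-- `DEN / (s - 1)`, the denominator of `t` -/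
def eDen (N s : ℝ) : ℝ :=
    16 * s ^ 6 + 16 * s ^ 7 + (-16) * s ^ 8 + (-16) * s ^ 9 + (-16) * N * s ^ 5 + 16 * N * s ^ 6
      + (-8) * N * s ^ 7 + (-56) * N * s ^ 8 + (-16) * N * s ^ 9 + (-12) * N ^ 2 * s ^ 4
      + (-52) * N ^ 2 * s ^ 5 + (-28) * N ^ 2 * s ^ 6 + (-32) * N ^ 2 * s ^ 7
      + (-44) * N ^ 2 * s ^ 8 + 16 * N ^ 3 * s ^ 3 + (-4) * N ^ 3 * s ^ 4 + (-30) * N ^ 3 * s ^ 5
      + (-26) * N ^ 3 * s ^ 6 + (-14) * N ^ 3 * s ^ 7 + 6 * N ^ 3 * s ^ 8 + 4 * N ^ 3 * s ^ 9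
      + (-8) * N ^ 4 * s ^ 2 + 32 * N ^ 4 * s ^ 3 + 17 * N ^ 4 * s ^ 4 + (-20) * N ^ 4 * s ^ 5
      + 11 * N ^ 4 * s ^ 6 + 23 * N ^ 4 * s ^ 7 + 16 * N ^ 4 * s ^ 8 + 1 * N ^ 4 * s ^ 9
      + (-16) * N ^ 5 * s ^ 2 + (-4) * N ^ 5 * s ^ 3 + 4 * N ^ 5 * s ^ 4 + 4 * N ^ 5 * s ^ 5
      + 32 * N ^ 5 * s ^ 6 + 24 * N ^ 5 * s ^ 7 + 4 * N ^ 5 * s ^ 8 + 4 * N ^ 6 + 4 * N ^ 6 * s
      + (-6) * N ^ 6 * s ^ 2 + 18 * N ^ 6 * s ^ 4 + 26 * N ^ 6 * s ^ 5 + 20 * N ^ 6 * s ^ 6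
      + 6 * N ^ 6 * s ^ 7 + 4 * N ^ 7 + 10 * N ^ 7 * s + 14 * N ^ 7 * s ^ 2 + 18 * N ^ 7 * s ^ 3
      + 18 * N ^ 7 * s ^ 4 + 12 * N ^ 7 * s ^ 5 + 4 * N ^ 7 * s ^ 6 + 1 * N ^ 8 + 4 * N ^ 8 * s
      + 7 * N ^ 8 * s ^ 2 + 7 * N ^ 8 * s ^ 3 + 4 * N ^ 8 * s ^ 4 + 1 * N ^ 8 * s ^ 5

/-- `t eDen/(N+2)` -/
def eT (N s : ℝ) : ℝ := N * s ^ 3 * (s + 1) * (N + s) ^ 2 * eG N s ^ 2

/-- `s² + s + 1` -/
def eD3 (s : ℝ) : ℝ := s ^ 2 + s + 1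

/-- a common factor of denominators -/
def eK (N s : ℝ) : ℝ := 5 * (s + 1) * eD3 s * N

/-- denominator -/
def eQ1 (N s : ℝ) : ℝ := eK N s * eDen N s

/-- numerator of `ρ` -/
def eR (N s : ℝ) : ℝ :=
  5 * (s + 1) * eD3 s * N * (N + 2) * (s ^ 2 * eDen N s - (N + 2) * eT N s) -
    10 * s * (N + 2) * (3 * s + 1) * eDen N s + 2 * s * (s + 1) * eD3 s * (16 - 6 * s) * eDen N s

/-- numerator of `(n-1)p - η` -/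
def eC (N s : ℝ) : ℝ := (N + 1) * (N + 4) * s * (s + 1) - N * (s + 1) - 2 * s

/-- numerator of `tν + 2ρ(p-l)` -/
def eB1 (N s : ℝ) : ℝ :=
  (N + 2) ^ 2 * s ^ 2 * (N + s) * eG N s * eNu N s * eK N s * (N * (s + 1)) +
    eR N s * ((N + 4) * (s + 1) - 2)

/-- (I) at `p = s(N+4)/N` -/
def ePI (N s : ℝ) : ℝ :=
  (N + 4) * (N * (s + 1) + 2 * s) * eQ1 N s * eB1 N s - (eC N s * eQ1 N s + eR N s) ^ 2

/-- numerator of `ζ` -/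
def eZ (N s : ℝ) : ℝ := (N * (s + 1) + 2 * s) * (N + s) - 4 * s * N

/-- numerator of `t((n-1)q-ν) - nlρ` at `q = qn/qd` -/
def eA2 (N s qn qd : ℝ) : ℝ :=
  (N + 1) * qn * (N + 2) * eT N s * eK N s * (N * (s + 1)) -
    (N + 2) * s ^ 2 * (N + s) * eG N s * eNu N s * eK N s * (N * (s + 1)) * qd - eR N s * qd

/-- numerator of `η + 2ρ(l-q)` -/
def eB2 (N s qn qd : ℝ) : ℝ :=
  (N * (s + 1) + 2 * s) * s * (N + 2) * eQ1 N s * qd + eR N s * (2 * s * qd - qn * (N * (s + 1)))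

/-- (II) at `q = qn/qd` -/
def ePII (N s qn qd : ℝ) : ℝ :=
  (N + 2) * (N + 4) * (N * s ^ 2 * (s + 1) * (N + s) * eG N s ^ 2) * eK N s * eZ N s * qd *
      eB2 N s qn qd - eA2 N s qn qd ^ 2

/-- numerator of the corner `q = (2p+4+K)/(Kp-2)`, `K = N + 1/8` -/
def eQn (N s : ℝ) : ℝ := 16 * s * (N + 4) + N * (8 * N + 33)

/-- denominator of the corner -/
def eQd (N s : ℝ) : ℝ := (8 * N + 1) * s * (N + 4) - 16 * N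

/-- (II) at the corner -/
def ePIIc (N s : ℝ) : ℝ := ePII N s (eQn N s) (eQd N s)

/-- (II) at `q = 0` -/
def ePIIz (N s : ℝ) : ℝ := ePII N s 0 1

/-- numerator of `(n-1)·1 - η` -/
def eC1 (N s : ℝ) : ℝ := N * (N * (s + 1)) - 2 * s

/-- numerator of minus the `p`-derivative of (I) at `p = 1` -/
def eM (N s : ℝ) : ℝ :=
  2 * s * (N + 1) * (eC1 N s * eQ1 N s + eR N s) - (N + 4) * (N * (s + 1) + 2 * s) * eR N s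

end Vale.Agent.P100.Near
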