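import Vale.Agent.P100.EighthNearExpr

/-!
# Positivity on a half-strip `c / cb ≤ N`, `a₀ / b ≤ s < a₁ / b` by the packed checker
-/

namespace Vale.Agent.P100.Near

open Pack

/-- The parameters of a half-strip. -/
structure Strip where
  a₀ : ℤ
  a₁ : ℤ
  b : ℤ
  c : ℤ
  cb : ℤ

/-- The charts of a half-strip. -/
def Strip.charts (C : Strip) : ℕ → Pack.Chart
  | 0 => ⟨C.c, 1, C.cb, 0⟩
  | _ => ⟨C.a₀, C.a₁, C.b, C.b⟩

/-- The expression is positive on the half-strip, by one packed evaluation. -/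
def chkP (C : Strip) (e : Ex) : Bool := check C.charts 2 500 e

/-- A checked expression is positive on the half-strip. -/
theorem pos_of_chkP (C : Strip) {L : Ex → Ex → Ex} {f : ℝ → ℝ → ℝ}
    (hev : ∀ x A B, (L A B).eval x = f (A.eval x) (B.eval x))
    (h : chkP C (L (.var 0) (.var 1)) = true) (hb : (0 : ℝ) < C.b) (hcb : (0 : ℝ) < C.cb)
    {N s : ℝ} (hN : (C.c : ℝ) ≤ C.cb * N) (h1 : (C.a₀ : ℝ) ≤ C.b * s)
    (h2 : (C.b : ℝ) * s < C.a₁) : 0 < f N s := by
  have hp := pos_of_check C.charts 2 h (x := fun i => if i = 0 then N else s) (fun i hi => ?_)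
  · rw [hev] at hp; simpa [Ex.eval] using hp
  · rcases i with - | i
    · exact ⟨C.cb * N - C.c, by linarith, by simp [Strip.charts]; exact_mod_cast hcb,
        by simp [Strip.charts]; ring⟩
    · exact mem_chart (c := C.charts (i + 1)) (x := s)
        (show 0 < C.b by exact_mod_cast hb) (show 0 < C.b by exact_mod_cast hb)
        (by simp [Strip.charts]; linarith) (by simp [Strip.charts]; linarith)

end Vale.Agent.P100.Near
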