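import Vale.Agent.P100.EighthNearPos

/-!
# Condition (II) at both ends, and the denominators
-/

namespace Vale.Agent.P100.Near

open Pack

theorem lDen_chk : chkP ⟨19, 45, 20, 3, 1⟩ (lDen (.var 0) (.var 1)) = true := by
  decide +kernel

theorem eDen_pos {N s : ℝ} (hN : 3 ≤ N) (h1 : 19 / 20 ≤ s) (h2 : s ≤ 20 / 9) : 0 < eDen N s :=
  pos_of_chkP ⟨19, 45, 20, 3, 1⟩ ev_lDen lDen_chk (by norm_num) (by norm_num) (by norm_num; linarith)
    (by norm_num; linarith) (by norm_num; linarith)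

theorem lPhi_chk : chkP ⟨19, 45, 20, 3, 1⟩ (lPhi (.var 0) (.var 1)) = true := by
  decide +kernel

theorem ePhi_pos {N s : ℝ} (hN : 3 ≤ N) (h1 : 19 / 20 ≤ s) (h2 : s ≤ 20 / 9) : 0 < ePhi N s :=
  pos_of_chkP ⟨19, 45, 20, 3, 1⟩ ev_lPhi lPhi_chk (by norm_num) (by norm_num) (by norm_num; linarith)
    (by norm_num; linarith) (by norm_num; linarith)

theorem lPIIc_chk : chkP ⟨19, 45, 20, 3, 1⟩ (lPIIc (.var 0) (.var 1)) = true := by
  decide +kernel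

theorem ePIIc_pos {N s : ℝ} (hN : 3 ≤ N) (h1 : 19 / 20 ≤ s) (h2 : s ≤ 20 / 9) : 0 < ePIIc N s :=
  pos_of_chkP ⟨19, 45, 20, 3, 1⟩ ev_lPIIc lPIIc_chk (by norm_num) (by norm_num) (by norm_num; linarith)
    (by norm_num; linarith) (by norm_num; linarith)

theorem lPIIz_chk : chkP ⟨19, 45, 20, 3, 1⟩ (lPIIz (.var 0) (.var 1)) = true := by
  decide +kernel

theorem ePIIz_pos {N s : ℝ} (hN : 3 ≤ N) (h1 : 19 / 20 ≤ s) (h2 : s ≤ 20 / 9) : 0 < ePIIz N s :=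
  pos_of_chkP ⟨19, 45, 20, 3, 1⟩ ev_lPIIz lPIIz_chk (by norm_num) (by norm_num) (by norm_num; linarith)
    (by norm_num; linarith) (by norm_num; linarith)

end Vale.Agent.P100.Near
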