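import Vale.Agent.P100.FreeL
import Vale.Agent.P100.Eighth.Pos

/-!
# The layer of width one eighth, away from the diagonal

For `N = n - 2` and `s = p N/(N+4) ≥ 20/9` the weights `l = 2s/((s+1)N)`, `ξ = η = 1 + l`,
`ζ = 1 + l - 4s/((s+1)(N+s))` make the quartic a sum of squares. The two quadratic conditions
then hold whenever `α ≤ N - 1` and `α + β ≥ N + 1/8`.
-/

open Filter Topology

namespace Vale.Agent.P100

namespace Eighth

/-- The value `t` at which the remainder of the quartic vanishes. -/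
noncomputable def eT (N s : ℝ) : ℝ := s ^ 3 * N * (N + s) * eDE N s ^ 2 / eM N s

/-- The weight `l`. -/
noncomputable def eL (N s : ℝ) : ℝ := 2 * s / (N * (s + 1))

/-- The shift `ξ = η`. -/
noncomputable def eXi (N s : ℝ) : ℝ := eOp N s / (N * (s + 1))

/-- The shift `ζ`. -/
noncomputable def eZeta (N s : ℝ) : ℝ := eZe N s / (N * (s + 1) * (N + s))

/-- The shift `ν`. -/
noncomputable def eNuV (N s : ℝ) : ℝ :=
  eNu N s / (s * N * (s + 1) * (N + s) * eDE N s)

/-- The parameter `ρ` as a function of `t`. -/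
noncomputable def eRho (N s t : ℝ) : ℝ :=
  (s - t / s - 2 * (3 * s + 1) / ((s + 1) * (s ^ 2 + s + 1) * N) + 2 / (3 * N ^ 2)) / 2

/-- Twice the gap in condition (I). -/
noncomputable def eF1 (N s p t : ℝ) : ℝ :=
  (N + 2) * (N + 4) * eXi N s * (t * eNuV N s + 2 * eRho N s t * (p - eL N s)) -
    ((N + 1) * p - eXi N s + (N + 2) * eRho N s t * eL N s) ^ 2

/-- The gap in condition (II). -/
noncomputable def eF2 (N s q t : ℝ) : ℝ :=
  (N + 2) * (N + 4) * (t * eZeta N s) * (eXi N s - 2 * eRho N s t * (q - eL N s)) -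
    (t * ((N + 1) * q - eNuV N s) - (N + 2) * eRho N s t * eL N s) ^ 2

variable {N s : ℝ}

theorem signs (hu : 20 ≤ 9 * s) (hv : 9 * s ≤ 8 * N - 12) :
    0 < eM N s ∧ 0 < eDE N s ∧ 0 < eG0 N s ∧ 0 < eZe N s ∧ 0 < eI N s ∧ 0 < eII N s ∧
      0 < eII0 N s := by
  have e1 : (32 + (9 * s - 20) + (8 * N - 12 - 9 * s)) / 8 = N := by ring
  have e2 : (20 + (9 * s - 20)) / 9 = s := by ring
  have h : ∀ f : ℝ → ℝ → ℝ, (∀ v u : ℝ, 0 ≤ v → 0 ≤ u → 0 < f ((32 + u + v) / 8) ((20 + u) / 9)) →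
      0 < f N s := fun f hf => by
    have := hf (8 * N - 12 - 9 * s) (9 * s - 20) (by linarith) (by linarith)
    rwa [e1, e2] at this
  exact ⟨h eM fun v u a b => eM_pos a b, h eDE fun v u a b => eDE_pos a b,
    h eG0 fun v u a b => eG0_pos a b, h eZe fun v u a b => eZe_pos a b,
    h eI fun v u a b => eI_pos a b, h eII fun v u a b => eII_pos a b,
    h eII0 fun v u a b => eII0_pos a b⟩

/-- A concave quadratic positive at both ends is positive between them. -/
theorem pos_between {a b c hi x : ℝ} (ha : a ≤ 0) (h0 : 0 < c)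
    (h1 : 0 < a * hi ^ 2 + b * hi + c) (hx0 : 0 ≤ x) (hx1 : x ≤ hi) :
    0 < a * x ^ 2 + b * x + c := by
  by_contra hcon
  push Not at hcon
  rcases eq_or_lt_of_le hx0 with h | h
  · subst h; linarith
  have e : hi * (a * x ^ 2 + b * x + c) =
      (hi - x) * c + x * (a * hi ^ 2 + b * hi + c) - a * hi * (x * (hi - x)) := by ring
  have n0 : hi * (a * x ^ 2 + b * x + c) ≤ 0 :=
    mul_nonpos_of_nonneg_of_nonpos (by linarith) hcon
  have n1 := mul_nonneg (sub_nonneg.2 hx1) h0.le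
  have n2 := mul_pos h h1
  have n3 : a * hi * (x * (hi - x)) ≤ 0 := mul_nonpos_of_nonpos_of_nonneg
    (mul_nonpos_of_nonpos_of_nonneg ha (by linarith)) (mul_nonneg h.le (sub_nonneg.2 hx1))
  linarith

/-- Conditions (I) and (II) at the critical value of `t`. -/
theorem gaps_pos (hN : 0 < N) (hu : 20 ≤ 9 * s) (hv : 9 * s ≤ 8 * N - 12) {q : ℝ} (hq : 0 ≤ q)
    (hQ : q * eQd N s ≤ eQn N s) (hd : 0 < eQd N s) :
    0 < eF1 N s (s * (N + 4) / N) (eT N s) ∧ 0 < eF2 N s q (eT N s) := by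
  obtain ⟨hM, hDE, -, -, hI, hII, hII0⟩ := signs hu hv
  have hs : 0 < s := by linarith
  set D := (s + 1) ^ 2 * (s ^ 2 + s + 1) * N ^ 3 * eM N s with hD
  have hD0 : 0 < D := by positivity
  have a1 : eF1 N s (s * (N + 4) / N) (eT N s) = eI N s / D ^ 2 := by
    simp only [hD, eF1, eT, eXi, eNuV, eRho, eL, eI, eLI, eLI0, eRI, eR, eTV, eC]
    field_simp
    ring
  have a2 : eF2 N s (eQn N s / eQd N s) (eT N s) = eII N s / (D * eQd N s) ^ 2 := by
    simp only [hD, eF2, eT, eXi, eZeta, eNuV, eRho, eL, eII, eLII, eLII0, eRII, eR, eTV, eC]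
    field_simp
    ring
  have a3 : eF2 N s 0 (eT N s) = eII0 N s / D ^ 2 := by
    simp only [hD, eF2, eT, eXi, eZeta, eNuV, eRho, eL, eII0, eLII0, eRII0, eR, eTV, eC]
    field_simp
    ring
  refine ⟨a1 ▸ div_pos hI (by positivity), ?_⟩
  have h2 : 0 < eF2 N s (eQn N s / eQd N s) (eT N s) := a2 ▸ div_pos hII (by positivity)
  have h3 : 0 < eF2 N s 0 (eT N s) := a3 ▸ div_pos hII0 (by positivity)
  set t := eT N s
  set A := -(t * (N + 1)) ^ 2
  set B := -(N + 2) * (N + 4) * (t * eZeta N s) * (2 * eRho N s t) +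
    2 * t * (N + 1) * (t * eNuV N s + (N + 2) * eRho N s t * eL N s)
  have e : ∀ x, eF2 N s x t = A * x ^ 2 + B * x + eF2 N s 0 t := fun x => by
    simp only [eF2, A, B]; ring
  rw [e] at h2
  rw [e]
  exact pos_between (neg_nonpos.2 (sq_nonneg _)) h3 h2 hq ((le_div_iff₀ hd).2 hQ)

/-- The quartic is a sum of squares plus `τ` times a positive multiple of `r²`. -/
theorem quarticE_pos {n : ℕ} (hn : (n : ℝ) = N + 2) (hN : 0 < N) (hu : 20 ≤ 9 * s)
    (hv : 9 * s ≤ 8 * N - 12) {τ : ℝ} (hτ : 0 < τ) (r : ℝ) :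
    0 < flQuartic n (eL N s) (eT N s + τ) (eXi N s) (eXi N s) (eZeta N s) (eNuV N s) r := by
  obtain ⟨hM, hDE, hG0, hZe, -, -, -⟩ := signs hu hv
  have hs : 1 < s := by linarith
  have hs0 : 0 < s := by linarith
  have hn0 : (0 : ℝ) < n := by linarith
  have g1 : flG n (eL N s) (eXi N s) = eOp N s / ((N + 2) * N * (s + 1) ^ 2) := by
    simp only [flG, hn, eL, eXi, eOp]; field_simp; ring
  have g2 : flG n (eL N s) (eZeta N s) = eG0 N s / ((N + 2) * N * (s + 1) ^ 2 * (N + s) ^ 2) := by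
    simp only [flG, hn, eL, eZeta, eZe, eG0]; field_simp; ring
  have j1 : flJ n (eL N s) (eXi N s) (eXi N s) = -2 * s * flG n (eL N s) (eXi N s) := by
    simp only [flG, flJ, hn, eL, eXi, eOp]; field_simp; ring
  have j2 : flJ n (eL N s) (eZeta N s) (eNuV N s) = -2 * flG n (eL N s) (eZeta N s) / s := by
    simp only [flG, flJ, hn, eL, eZeta, eNuV, eZe, eNu]; field_simp; simp only [eDE]; ring
  set K := (s - 1) * eM N s / (s ^ 2 * N ^ 2 * (s + 1) * (N + s) * eDE N s ^ 2) with hK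
  have m1 : flM n (eL N s) (eT N s + τ) (eXi N s) (eNuV N s) =
      flG n (eL N s) (eXi N s) * s ^ 2 + (eT N s + τ) * flG n (eL N s) (eZeta N s) / s ^ 2 +
        τ * K := by
    rw [g1, g2, hK]
    simp only [flM, hn, eL, eXi, eNuV, eT]
    field_simp
    simp only [eM, eDE, eNu, eG0, eOp]
    ring
  have hK0 : 0 < K := by
    have : 0 < s - 1 := by linarith
    positivity
  have hT : 0 < eT N s + τ := by
    have : 0 < eT N s := by unfold eT; positivity
    linarith
  have hOp : 0 < eOp N s := by unfold eOp; positivity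
  have G1 : 0 < flG n (eL N s) (eXi N s) := g1 ▸ div_pos hOp (by positivity)
  have G2 : 0 < flG n (eL N s) (eZeta N s) := g2 ▸ div_pos hG0 (by positivity)
  rw [flQuartic, m1, j1, j2]
  generalize flG n (eL N s) (eXi N s) = a at G1 ⊢
  generalize flG n (eL N s) (eZeta N s) = b at G2 ⊢
  generalize eT N s + τ = T at hT ⊢
  rw [show a * r ^ 4 + -2 * s * a * r ^ 3 + (a * s ^ 2 + T * b / s ^ 2 + τ * K) * r ^ 2 +
      T * (-2 * b / s) * r + T * b =
      a * (r * (r - s)) ^ 2 + T * b * (r / s - 1) ^ 2 + τ * K * r ^ 2 by field_simp; ring]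
  rcases eq_or_ne r 0 with rfl | hr
  · norm_num
    linarith [mul_pos hT G2]
  · positivity

end Eighth

open Eighth

/-- **The layer of width one eighth.** For `p ≥ (20/9)(n+2)/(n-2)` parameters exist as soon as
`α ≤ n - 3` and `α + β ≥ n - 2 + 1/8`. -/
theorem hasParams_eighth {n : ℕ} (hn : 5 ≤ n) {p q : ℝ} (hq : 0 < q) (hpq : 1 < p * q)
    (hp : 20 * ((n : ℝ) + 2) ≤ 9 * ((n : ℝ) - 2) * p)
    (ha : 2 * (p + 1) / (p * q - 1) ≤ (n : ℝ) - 3)
    (hab : (n : ℝ) - 2 + 1 / 8 ≤ 2 * (p + 1) / (p * q - 1) + 2 * (q + 1) / (p * q - 1)) :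
    HasParams n p q := by
  have h5 : (5 : ℝ) ≤ n := by exact_mod_cast hn
  obtain ⟨N, hN⟩ : ∃ N, N = (n : ℝ) - 2 := ⟨_, rfl⟩
  have hn2 : (n : ℝ) = N + 2 := by linarith
  have hp0 : 0 < p := pos_of_mul_pos_left (by linarith) hq.le
  rw [div_le_iff₀ (by linarith), hn2] at ha
  rw [← add_div, le_div_iff₀ (by linarith), hn2] at hab
  rw [hn2] at hp
  have hN0 : 0 < N := by linarith
  have hKp : 0 < p * (8 * N + 1) - 16 := by
    have : 20 / 9 * N ≤ p * N := by linarith
    have : 20 / 9 < p := by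
      by_contra hc; push Not at hc
      have := mul_le_mul_of_nonneg_right hc hN0.le
      linarith
    have := mul_le_mul this.le (by linarith : (25 : ℝ) ≤ 8 * N + 1) (by norm_num) hp0.le
    linarith
  -- upper bound for p
  have hp1 : 9 * p ≤ 8 * (N + 1) := by
    by_contra hc; push Not at hc
    have h1 : 0 ≤ N - 1 := by linarith
    have e1 := mul_le_mul_of_nonneg_left hab (by positivity : (0 : ℝ) ≤ 8 * (N - 1) * p)
    have e2 := mul_le_mul_of_nonneg_left ha hKp.le
    have e3 := mul_pos (sub_pos.2 hc) (by linarith : (0 : ℝ) < p + 1)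
    linarith
  have hN4 : 4 ≤ N := by
    by_contra hc; push Not at hc
    have := mul_le_mul_of_nonneg_left hp1 hN0.le
    have := mul_pos (by linarith : (0 : ℝ) < 2 * N + 5) (sub_pos.2 hc)
    linarith
  set s := p * N / (N + 4) with hs
  have hs4 : s * (N + 4) = p * N := by rw [hs]; field_simp
  have hu : 20 ≤ 9 * s := le_of_mul_le_mul_right (by linarith) (by linarith : 0 < N + 4)
  have hv : 9 * s ≤ 8 * N - 12 := by
    refine le_of_mul_le_mul_right ?_ (by linarith : 0 < N + 4)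
    have := mul_le_mul_of_nonneg_right hp1 hN0.le
    linarith
  have hP : s * (N + 4) / N = p := by rw [hs4]; field_simp
  have hQd : eQd N s = N * (p * (8 * N + 1) - 16) := by unfold eQd; linear_combination (8 * N + 1) * hs4
  have hQn : eQn N s = N * (16 * p + 32 + 8 * N + 1) := by unfold eQn; linear_combination 16 * hs4
  obtain ⟨c1, c2⟩ := gaps_pos hN0 hu hv hq.le
    (by rw [hQd, hQn]
        have := mul_le_mul_of_nonneg_left hab (by linarith : (0 : ℝ) ≤ 8 * N)
        linarith)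
    (by rw [hQd]; positivity)
  rw [hP] at c1
  have hev : ∀ᶠ τ in 𝓝[>] (0 : ℝ),
      0 < eF1 N s p (eT N s + τ) ∧ 0 < eF2 N s q (eT N s + τ) ∧ (0 : ℝ) < τ := by
    have hc : ∀ {F : ℝ → ℝ}, Continuous F → 0 < F 0 → ∀ᶠ δ in 𝓝[>] (0 : ℝ), 0 < F δ :=
      fun hF h => (hF.continuousAt.eventually_const_lt h).filter_mono nhdsWithin_le_nhds
    filter_upwards [hc (F := fun τ => eF1 N s p (eT N s + τ)) (by simp only [eF1, eRho]; fun_prop)
        (by simpa using c1),
      hc (F := fun τ => eF2 N s q (eT N s + τ)) (by simp only [eF2, eRho]; fun_prop)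
        (by simpa using c2),
      self_mem_nhdsWithin] with τ h1 h2 h3 using ⟨h1, h2, h3⟩
  obtain ⟨τ, d1, d2, hτ⟩ := hev.exists
  obtain ⟨hM, hDE, -, hZe, -, -, -⟩ := signs hu hv
  have hs0 : 0 < s := by linarith
  have hOp : 0 < eOp N s := by unfold eOp; positivity
  have hT : 0 < eT N s + τ := by
    have : 0 < eT N s := by unfold eT; positivity
    linarith
  refine hasParams_freeL (l := eL N s) (t := eT N s + τ) (ξ := eXi N s) (η := eXi N s)
    (ζ := eZeta N s) (ν := eNuV N s) (ρ := eRho N s (eT N s + τ)) (by omega) ?_ ?_ ?_ hT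
    (by unfold eXi; positivity) (by unfold eZeta; positivity) ?_
    (quarticE_pos hn2 hN0 hu hv hτ) ?_ ?_
  · have : 0 < eL N s := by unfold eL; positivity
    linarith
  · rw [eL, div_lt_one (by positivity)]
    have := mul_le_mul_of_nonneg_right hN4 hs0.le
    linarith
  · rw [eL, hn2, div_mul_eq_mul_div, div_le_iff₀ (by positivity)]
    linarith [mul_pos hN0 hs0]
  · rw [show flG n (eL N s) (eXi N s) = eOp N s / ((N + 2) * N * (s + 1) ^ 2) by
      simp only [flG, hn2, eL, eXi, eOp]; field_simp; ring]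
    positivity
  · rw [hn2]
    simp only [eF1] at d1
    ring_nf at d1 ⊢
    linarith
  · rw [hn2]
    simp only [eF2] at d2
    ring_nf at d2 ⊢
    linarith

end Vale.Agent.P100
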