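import Mathlib
import Vale.Agent.P100.Decoupled
import Vale.Agent.P100.Curve

/-!
# Closed-form parameters

With `e = 1/(n-2)`, `L = 1 - e` and a parameter `s > 1` the certificate covers every pair with
`p ≤ Plo n s`, `q < Qlo n s`.
-/

open Filter Topology Set

namespace Vale.Agent.P100

theorem facP_sq_le {n s : ℝ} (hn : 3 ≤ n) (hs : 1 ≤ s) :
    facP n s ^ 2 * ((n - 1) * s * ((n - 3) * s + (n - 1))) ≤
      (n - 1) * s * ((n - 3) * s + (n - 1)) - 2 * (n - 3) * (s - 1) := by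
  have hE := facP_den hn hs
  have hF := facP_num hn hs
  unfold facP
  set D := (n - 1) * s * ((n - 3) * s + (n - 1))
  set X := (n - 3) * (s - 1) with hX
  rw [show 2 * (n - 3) * (s - 1) = 2 * X by rw [hX]; ring] at hF ⊢
  rw [div_pow, div_mul_eq_mul_div, div_le_iff₀ (pow_pos hE 2), sq, mul_assoc]
  refine mul_le_mul_of_nonneg_left ?_ hF.le
  linarith [mul_self_nonneg X, show (D - X) ^ 2 = (D - 2 * X) * D + X * X by ring]

theorem facQ_sq_le {n s : ℝ} (hn : 3 ≤ n) (hs : 1 ≤ s) :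
    facQ n s ^ 2 * ((n - 1) * ((n - 1) * s + (n - 3))) ≤
      (n - 1) * ((n - 1) * s + (n - 3)) + 2 * (n - 3) * s * (s - 1) := by
  have hE := facQ_den hn hs
  unfold facQ
  set D := (n - 1) * ((n - 1) * s + (n - 3))
  set X := (n - 3) * s * (s - 1) with hX
  rw [show 3 * (n - 3) * s * (s - 1) = 3 * X by rw [hX]; ring,
    show 2 * (n - 3) * s * (s - 1) = 2 * X by rw [hX]; ring,
    div_pow, div_mul_eq_mul_div, div_le_iff₀ (pow_pos hE 2)]
  have hX0 : 0 ≤ X := mul_nonneg (mul_nonneg (by linarith) (by linarith)) (by linarith)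
  linarith [pow_nonneg hX0 3, show (D + 2 * X) * (2 * D + X) ^ 2 =
    (2 * D + 3 * X) ^ 2 * D + 2 * X ^ 3 by ring]

section coefficients

variable {n : ℕ} {p q s t δ : ℝ}

theorem cAA_param (hn : 4 ≤ n) :
    cAA n (1 - 1 / ((n : ℝ) - 2)) ((1 - 1 / ((n : ℝ) - 2)) / 2) =
      ((n : ℝ) - 1) / (2 * n * ((n : ℝ) - 2)) := by
  have h4 : (4 : ℝ) ≤ n := by exact_mod_cast hn
  have : (n : ℝ) ≠ 0 := by linarith
  have : (n : ℝ) - 2 ≠ 0 := by linarith
  unfold cAA
  field_simp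
  ring

theorem quartic_param (hn : 4 ≤ n) (hs : s ≠ 0) (ht : t ≠ 0) (r : ℝ) :
    let L := 1 - 1 / ((n : ℝ) - 2)
    let y₁ := -(2 * s / ((n : ℝ) - 2) + L) / 2
    let y₂ := -t * (2 / (s * ((n : ℝ) - 2)) + L) / 2
    cAA n L (L / 2) * r ^ 4 + cAC n L (L / 2) y₁ * r ^ 3 +
      (cAB L t y₁ y₂ + cCC n L t y₁ y₂) * r ^ 2 + cBC n L t (t * L / 2) y₂ * r +
      cBB n L t (t * L / 2) =
    ((n : ℝ) - 1) / (2 * n * ((n : ℝ) - 2)) * ((r - s) ^ 2 * (r ^ 2 + t / s ^ 2) +
      (n : ℝ) / (((n : ℝ) - 1) * ((n : ℝ) - 2)) * (s - 1) *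
        (t / s ^ 2 * (((n : ℝ) - 3) * s + ((n : ℝ) - 1)) -
          (((n : ℝ) - 1) * s + ((n : ℝ) - 3))) * r ^ 2) := by
  have h4 : (4 : ℝ) ≤ n := by exact_mod_cast hn
  have : (n : ℝ) ≠ 0 := by linarith
  have : (n : ℝ) - 1 ≠ 0 := by linarith
  have : (n : ℝ) - 2 ≠ 0 := by linarith
  simp only [cAA, cAC, cAB, cCC, cBC, cBB]
  field_simp
  ring

theorem cPA_param (hn : 4 ≤ n) :
    cPA n (1 - 1 / ((n : ℝ) - 2)) ((1 - 1 / ((n : ℝ) - 2)) / 2) (1 / (n : ℝ)) =
      ((n : ℝ) - 1) * ((n : ℝ) + 2) / (2 * n * ((n : ℝ) - 2)) := by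
  have h4 : (4 : ℝ) ≤ n := by exact_mod_cast hn
  have : (n : ℝ) ≠ 0 := by linarith
  have : (n : ℝ) - 2 ≠ 0 := by linarith
  unfold cPA
  field_simp
  ring

theorem cPB_param (hn : 4 ≤ n) (hs : s ≠ 0) :
    cPB p (1 - 1 / ((n : ℝ) - 2))
      (-t * (2 / (s * ((n : ℝ) - 2)) + (1 - 1 / ((n : ℝ) - 2))) / 2) 0 =
      t * (2 / s + ((n : ℝ) - 3)) / (2 * ((n : ℝ) - 2)) := by
  have h4 : (4 : ℝ) ≤ n := by exact_mod_cast hn
  have : (n : ℝ) - 2 ≠ 0 := by linarith
  unfold cPB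
  field_simp
  ring

theorem cPC_param (hn : 4 ≤ n) :
    cPC n p (1 - 1 / ((n : ℝ) - 2))
      (-(2 * s / ((n : ℝ) - 2) + (1 - 1 / ((n : ℝ) - 2))) / 2) (1 / (n : ℝ)) 0 =
      -(p * (((n : ℝ) - 1) * ((n : ℝ) - 2)) - (2 * s + ((n : ℝ) - 3))) /
        ((n : ℝ) * ((n : ℝ) - 2)) := by
  have h4 : (4 : ℝ) ≤ n := by exact_mod_cast hn
  have : (n : ℝ) ≠ 0 := by linarith
  have : (n : ℝ) - 2 ≠ 0 := by linarith
  unfold cPC
  field_simp
  ring

theorem cQA_param (hn : 4 ≤ n) :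
    cQA q (1 - 1 / ((n : ℝ) - 2))
      (-(2 * s / ((n : ℝ) - 2) + (1 - 1 / ((n : ℝ) - 2))) / 2) 0 =
      (2 * s + ((n : ℝ) - 3)) / (2 * ((n : ℝ) - 2)) := by
  have h4 : (4 : ℝ) ≤ n := by exact_mod_cast hn
  have : (n : ℝ) - 2 ≠ 0 := by linarith
  unfold cQA
  field_simp
  ring

theorem cQB_param (hn : 4 ≤ n) :
    cQB n (1 - 1 / ((n : ℝ) - 2)) t (t * (1 - 1 / ((n : ℝ) - 2)) / 2) (t / (n : ℝ) - δ) =
      t * (((n : ℝ) - 1) * ((n : ℝ) + 2)) / (2 * n * ((n : ℝ) - 2)) +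
        δ * ((n : ℝ) - 1) / ((n : ℝ) - 2) := by
  have h4 : (4 : ℝ) ≤ n := by exact_mod_cast hn
  have : (n : ℝ) ≠ 0 := by linarith
  have : (n : ℝ) - 2 ≠ 0 := by linarith
  unfold cQB
  field_simp
  ring

theorem cQC_param (hn : 4 ≤ n) (hs : s ≠ 0) {R : ℝ}
    (hδ : δ * (q + (1 - 1 / ((n : ℝ) - 2))) =
      (R + (2 / s + ((n : ℝ) - 3)) - q * (((n : ℝ) - 1) * ((n : ℝ) - 2))) * t /
        ((n : ℝ) * ((n : ℝ) - 2))) :
    cQC n q (1 - 1 / ((n : ℝ) - 2)) t
      (-t * (2 / (s * ((n : ℝ) - 2)) + (1 - 1 / ((n : ℝ) - 2))) / 2) (t / (n : ℝ) - δ) 0 =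
      -(t * R) / ((n : ℝ) * ((n : ℝ) - 2)) := by
  have h4 : (4 : ℝ) ≤ n := by exact_mod_cast hn
  have : (n : ℝ) ≠ 0 := by linarith
  have : (n : ℝ) - 2 ≠ 0 := by linarith
  unfold cQC
  rw [sub_mul (t / (n : ℝ)), hδ]
  field_simp
  ring

end coefficients

/-- The parameters at `s` cover `p ≤ Plo n s`, `q < Qlo n s`. -/
theorem hasParams_of_curve {n : ℕ} (hn : 4 ≤ n) {p q s : ℝ} (hq : 0 < q) (hs : 1 < s)
    (hp1 : p ≤ Plo n s)
    (hp2 : 2 * s + ((n : ℝ) - 3) - ((n : ℝ) - 1) * s * rootLo n * facP n s ≤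
      p * (((n : ℝ) - 1) * ((n : ℝ) - 2)))
    (hq1 : q < Qlo n s) : HasParams n p q := by
  have h4 : (4 : ℝ) ≤ n := by exact_mod_cast hn
  have h3 : (3 : ℝ) ≤ n := by linarith
  set N := (n : ℝ) with hN
  have hM : 0 < (N - 1) * (N - 2) := mul_pos (by linarith) (by linarith)
  have hs0 : 0 < s := by linarith
  have hB : 0 < (N - 3) * s + (N - 1) := by
    linarith [mul_nonneg (show (0:ℝ) ≤ N - 3 by linarith) hs0.le]
  have hAl : 0 < (N - 1) * s + (N - 3) := by
    linarith [mul_pos (show (0:ℝ) < N - 1 by linarith) hs0]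
  have hr := rootLo_pos h3
  have hr2 := rootLo_sq_lt h3
  -- the parameter t
  set T := s ^ 2 * ((N - 1) * s + (N - 3)) / ((N - 3) * s + (N - 1)) with hT
  have hT0 : 0 < T := by rw [hT]; positivity
  set t := T * (N * (N + 2)) / rootLo N ^ 2 with ht
  have hTt : T < t := by
    rw [ht, lt_div_iff₀ (pow_pos hr 2)]
    exact mul_lt_mul_of_pos_left hr2 hT0
  have ht0 : 0 < t := hT0.trans hTt
  set U := 2 * s + (N - 3) with hU
  set V := 2 / s + (N - 3) with hV
  have hU0 : 0 < U := by linarith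
  have hV0 : 0 < V := by linarith [div_pos two_pos hs0]
  set RP := (N - 1) * s * rootLo N * facP N s with hRP
  set RQ := (N - 1) / s * rootLo N * facQ N s with hRQ
  have hIcore : RP ^ 2 ≤ N * (N - 1) * (N + 2) * t * V := by
    have h := facP_sq_le h3 hs.le
    calc RP ^ 2 = (N - 1) * s * rootLo N ^ 2 / ((N - 3) * s + (N - 1)) *
          (facP N s ^ 2 * ((N - 1) * s * ((N - 3) * s + (N - 1)))) := by
            rw [div_mul_eq_mul_div, eq_div_iff hB.ne', hRP]; ring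
      _ ≤ (N - 1) * s * rootLo N ^ 2 / ((N - 3) * s + (N - 1)) *
          ((N - 1) * s * ((N - 3) * s + (N - 1)) - 2 * (N - 3) * (s - 1)) :=
            mul_le_mul_of_nonneg_left h (div_nonneg (mul_nonneg (mul_nonneg (by linarith) hs0.le)
              (sq_nonneg _)) hB.le)
      _ = rootLo N ^ 2 * (N - 1) * T * V := by
            rw [hT, hV]; field_simp; ring
      _ ≤ N * (N + 2) * (N - 1) * t * V := by
            refine mul_le_mul_of_nonneg_right (mul_le_mul (mul_le_mul_of_nonneg_right hr2.le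
              (by linarith)) hTt.le hT0.le ?_) hV0.le
            exact mul_nonneg (by positivity) (by linarith)
      _ = N * (N - 1) * (N + 2) * t * V := by ring
  have hIIcore : t * RQ ^ 2 ≤ N * (N - 1) * (N + 2) * U := by
    have h := facQ_sq_le h3 hs.le
    calc t * RQ ^ 2 = N * (N + 2) * (N - 1) / ((N - 3) * s + (N - 1)) *
          (facQ N s ^ 2 * ((N - 1) * ((N - 1) * s + (N - 3)))) := by
            rw [hRQ, ht, hT]; field_simp
      _ ≤ N * (N + 2) * (N - 1) / ((N - 3) * s + (N - 1)) *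
          ((N - 1) * ((N - 1) * s + (N - 3)) + 2 * (N - 3) * s * (s - 1)) :=
            mul_le_mul_of_nonneg_left h (div_nonneg (mul_nonneg (by positivity) (by linarith))
              hB.le)
      _ = N * (N - 1) * (N + 2) * U := by
            rw [hU]; field_simp; ring
  -- the exponents
  have hPlo : Plo N s * ((N - 1) * (N - 2)) = U + RP := div_mul_cancel₀ _ hM.ne'
  have hQlo : Qlo N s * ((N - 1) * (N - 2)) = V + RQ := div_mul_cancel₀ _ hM.ne'
  set dq := RQ + V - q * ((N - 1) * (N - 2)) with hdq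
  have hdq0 : 0 < dq := by linarith [mul_lt_mul_of_pos_right hq1 hM]
  have hpabs : (p * ((N - 1) * (N - 2)) - U) ^ 2 ≤ RP ^ 2 := by
    have := mul_le_mul_of_nonneg_right hp1 hM.le
    exact sq_le_sq' (by linarith) (by linarith)
  set L := 1 - 1 / (N - 2) with hL
  have hqL : 0 < q + L := by
    have : 1 / (N - 2) ≤ 1 := (div_le_one (by linarith)).2 (by linarith)
    linarith
  set δ := dq * t / (N * (N - 2) * (q + L)) with hδ
  have hN2 : 0 < N - 2 := by linarith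
  have hδ0 : 0 < δ := by
    rw [hδ]; exact div_pos (mul_pos hdq0 ht0) (mul_pos (mul_pos (by linarith) hN2) hqL)
  refine hasParams_of_conditions (L := L) (t := t) (x₁ := L / 2)
    (y₁ := -(2 * s / (N - 2) + L) / 2) (x₂ := t * L / 2)
    (y₂ := -t * (2 / (s * (N - 2)) + L) / 2) (π₁ := 1 / N) (ρ := 0) (χ := 0) (ψ := t / N - δ)
    (by omega) ?_ ?_ ?_ ht0 ?_ ?_ ?_ ?_ ?_ ?_ ?_ ?_ ?_
  · have : 1 / (N - 2) < 1 := (div_lt_one hN2).2 (by linarith)
    linarith
  · have : 0 < 1 / (N - 2) := by positivity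
    linarith
  · rw [hL, show (1 - 1 / (N - 2)) * (N - 3) = (N - 3) ^ 2 / (N - 2) by field_simp; ring,
      le_div_iff₀ hN2]
    linarith [show (N - 3) ^ 2 - (N - 5) * (N - 2) = N - 1 by ring]
  · rw [hL, hN, cAA_param hn, ← hN]
    exact div_pos (by linarith) (by positivity)
  · intro r
    rw [hL, hN, quartic_param hn hs0.ne' ht0.ne', ← hN]
    refine mul_pos (div_pos (by linarith) (by positivity)) ?_
    have hex : 0 < t / s ^ 2 * ((N - 3) * s + (N - 1)) - ((N - 1) * s + (N - 3)) := by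
      rw [sub_pos, div_mul_eq_mul_div, lt_div_iff₀ (pow_pos hs0 2)]
      calc ((N - 1) * s + (N - 3)) * s ^ 2 = T * ((N - 3) * s + (N - 1)) := by
            rw [hT, div_mul_cancel₀ _ hB.ne']; ring
        _ < t * ((N - 3) * s + (N - 1)) := mul_lt_mul_of_pos_right hTt hB
    have hc : 0 < N / ((N - 1) * (N - 2)) * (s - 1) *
        (t / s ^ 2 * ((N - 3) * s + (N - 1)) - ((N - 1) * s + (N - 3))) :=
      mul_pos (mul_pos (div_pos (by linarith) hM) (by linarith)) hex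
    rcases eq_or_ne r 0 with h | h
    · subst h; simp; positivity
    · exact add_pos_of_nonneg_of_pos (by positivity) (mul_pos hc (by positivity))
  · rw [hL, hN, cPA_param hn, ← hN]
    exact div_nonneg (mul_nonneg (by linarith) (by linarith)) (by positivity)
  · rw [hL, hN, cPB_param hn hs0.ne', ← hN, ← hV]
    positivity
  · rw [hL, hN, cPA_param hn, cPB_param hn hs0.ne', cPC_param hn, ← hN, ← hV, ← hU, div_pow,
      neg_sq]
    calc (p * ((N - 1) * (N - 2)) - U) ^ 2 / (N * (N - 2)) ^ 2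
        ≤ N * (N - 1) * (N + 2) * t * V / (N * (N - 2)) ^ 2 :=
          div_le_div_of_nonneg_right (hpabs.trans hIcore) (sq_nonneg _)
      _ = _ := by field_simp; ring
  · rw [hL, hN, cQA_param hn, ← hN, ← hU]
    positivity
  · rw [hL, hN, cQB_param hn, ← hN]
    have : 0 ≤ N - 1 := by linarith
    positivity
  · have hqne : q + L ≠ 0 := hqL.ne'
    have hδe : δ * (q + L) = (RQ + V - q * ((N - 1) * (N - 2))) * t / (N * (N - 2)) := by
      rw [hδ, ← hdq, div_mul_eq_mul_div, mul_div_mul_right _ _ hqne]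
    rw [hL, hN, cQB_param hn, cQA_param hn, cQC_param hn hs0.ne' (R := RQ) hδe, ← hN, ← hU,
      div_pow, neg_sq]
    calc (t * RQ) ^ 2 / (N * (N - 2)) ^ 2 = t * (t * RQ ^ 2) / (N * (N - 2)) ^ 2 := by ring
      _ ≤ t * (N * (N - 1) * (N + 2) * U) / (N * (N - 2)) ^ 2 :=
          div_le_div_of_nonneg_right (mul_le_mul_of_nonneg_left hIIcore ht0.le) (sq_nonneg _)
      _ = 4 * (t * ((N - 1) * (N + 2)) / (2 * N * (N - 2))) * (U / (2 * (N - 2))) := by
          field_simp; ring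
      _ ≤ _ := by
          refine mul_le_mul_of_nonneg_right (mul_le_mul_of_nonneg_left ?_ (by norm_num))
            (by positivity)
          have : 0 ≤ N - 1 := by linarith
          exact le_add_of_nonneg_right (by positivity)
  · intro z _ _
    rw [← hN, show (1 / N - 1 / N) * z ^ 2 - (0 + 0) * z + (t / N - (t / N - δ)) = δ by ring]
    exact hδ0

theorem continuousOn_Plo {n : ℝ} (hn : 3 ≤ n) : ContinuousOn (Plo n) (Ici 1) := by
  unfold Plo facP
  refine ContinuousOn.div_const (ContinuousOn.add (by fun_prop) (ContinuousOn.mul (by fun_prop)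
    (ContinuousOn.div (by fun_prop) (by fun_prop) fun s hs => (facP_den hn hs).ne'))) _

theorem continuousOn_Qlo {n : ℝ} (hn : 3 ≤ n) : ContinuousOn (Qlo n) (Ici 1) := by
  unfold Qlo facQ
  refine ContinuousOn.div_const (ContinuousOn.add ?_ (ContinuousOn.mul ?_
    (ContinuousOn.div (by fun_prop) (by fun_prop) fun s hs => (facQ_den hn hs).ne'))) _
  · exact ((continuousOn_const.div continuousOn_id fun s hs => (zero_lt_one.trans_le hs).ne').add
      continuousOn_const)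
  · exact (continuousOn_const.div continuousOn_id fun s hs => (zero_lt_one.trans_le hs).ne').mul
      continuousOn_const

theorem Plo_one_eq_Qlo_one (n : ℝ) (hn : 3 ≤ n) : Plo n 1 = Qlo n 1 := by
  have h1 : facP n 1 = 1 := by
    unfold facP; exact (div_eq_one_iff_eq (facP_den hn le_rfl).ne').2 (by ring)
  have h2 : facQ n 1 = 1 := by
    unfold facQ; exact (div_eq_one_iff_eq (facQ_den hn le_rfl).ne').2 (by ring)
  unfold Plo Qlo
  rw [h1, h2]; ring

/-- Parameters for every pair `q ≤ p` at distance at least `p / (2 n (n + 8))` from the critical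
hyperbola. -/
theorem hasParams_of_gap {n : ℕ} (hn : 4 ≤ n) {p q : ℝ} (hq : 0 < q) (hqp : q ≤ p)
    (hgap : ((n : ℝ) - 2) / n + p / (2 * (n : ℝ) * ((n : ℝ) + 8)) ≤ 1 / (p + 1) + 1 / (q + 1)) :
    HasParams n p q := by
  have h4 : (4 : ℝ) ≤ n := by exact_mod_cast hn
  have h3 : (3 : ℝ) ≤ n := by linarith
  have hM : 0 < ((n : ℝ) - 1) * ((n : ℝ) - 2) := mul_pos (by linarith) (by linarith)
  have hp : 0 < p := hq.trans_le hqp
  rcases le_or_gt p (Plo n 1) with hp1 | hp1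
  · -- near the diagonal
    have hq1 : q < Qlo n 1 := by
      rw [← Plo_one_eq_Qlo_one _ h3]
      refine lt_of_le_of_ne (hqp.trans hp1) fun h => ?_
      have hpe : p = Plo n 1 := le_antisymm hp1 (h ▸ hqp)
      have hk := curve_bound h3 (le_refl (1 : ℝ))
      rw [← Plo_one_eq_Qlo_one _ h3] at hk
      rw [hpe, h] at hgap
      linarith
    have hc : Tendsto (Qlo (n : ℝ)) (𝓝[Ici 1] 1) (𝓝 (Qlo n 1)) :=
      continuousOn_Qlo h3 1 self_mem_Ici
    obtain ⟨η, hη, hball⟩ := Metric.mem_nhdsWithin_iff.1 (hc (Ioi_mem_nhds hq1))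
    set s := 1 + min (1 / 2) (η / 2) with hs
    have hmin : 0 < min (1 / 2) (η / 2) := lt_min (by norm_num) (by linarith)
    have hs1 : 1 < s := by linarith
    have hs2 : s ≤ 3 / 2 := by linarith [min_le_left (1 / 2 : ℝ) (η / 2)]
    have hqs : q < Qlo n s := hball ⟨by
      rw [Metric.mem_ball, Real.dist_eq, abs_of_pos (by linarith)]
      linarith [min_le_right (1 / 2 : ℝ) (η / 2)], hs1.le⟩
    refine hasParams_of_curve hn hq hs1 (hp1.trans (Plo_le_of_one_le h3 hs1.le)) ?_ hqs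
    have h1 := one_le_mul_facP h3 hs1.le
    have h2 : (n : ℝ) + 1 / 2 ≤ rootLo n := by
      unfold rootLo
      rw [le_div_iff₀ (by linarith)]
      linarith
    have h7 : ((n : ℝ) - 1) * ((n : ℝ) + 1 / 2) * 1 ≤
        ((n : ℝ) - 1) * rootLo n * (s * facP n s) :=
      mul_le_mul (mul_le_mul_of_nonneg_left h2 (by linarith)) h1 zero_le_one
        (mul_nonneg (by linarith) (rootLo_pos h3).le)
    have h5 : 0 ≤ ((n : ℝ) - 3) * ((n : ℝ) + 1 / 2) :=
      mul_nonneg (by linarith) (by linarith)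
    linarith [mul_nonneg hp.le hM.le]
  · -- on the curve
    have hgrow : ∀ s : ℝ, 1 ≤ s → 2 * s / (((n : ℝ) - 1) * ((n : ℝ) - 2)) ≤ Plo n s := by
      intro s hs
      unfold Plo
      rw [div_le_div_iff_of_pos_right hM]
      have : 0 ≤ ((n : ℝ) - 1) * s * rootLo n * facP n s :=
        mul_nonneg (mul_nonneg (mul_nonneg (by linarith) (by linarith)) (rootLo_pos h3).le)
          (facP_pos h3 hs).le
      linarith
    set S := p * (((n : ℝ) - 1) * ((n : ℝ) - 2)) + 1 with hS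
    have hS1 : 1 ≤ S := by linarith [mul_nonneg hp.le hM.le]
    have hpS : p ≤ Plo n S := by
      refine le_trans ?_ (hgrow S hS1)
      rw [le_div_iff₀ hM]
      linarith [mul_nonneg hp.le hM.le]
    obtain ⟨s, hs, hse⟩ := intermediate_value_Icc hS1 ((continuousOn_Plo h3).mono
      Icc_subset_Ici_self) ⟨hp1.le, hpS⟩
    have hs1 : 1 < s := lt_of_le_of_ne hs.1 fun h => by subst h; linarith
    refine hasParams_of_curve hn hq hs1 hse.ge ?_ ?_
    · have h6 : p * (((n : ℝ) - 1) * ((n : ℝ) - 2)) =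
          2 * s + ((n : ℝ) - 3) + ((n : ℝ) - 1) * s * rootLo n * facP n s := by
        rw [← hse]; exact div_mul_cancel₀ _ hM.ne'
      have : 0 ≤ ((n : ℝ) - 1) * s * rootLo n * facP n s :=
        mul_nonneg (mul_nonneg (mul_nonneg (by linarith) (by linarith)) (rootLo_pos h3).le)
          (facP_pos h3 hs.1).le
      linarith
    · by_contra hcon
      push Not at hcon
      have hk := curve_bound h3 hs.1
      rw [hse] at hk
      have : 1 / (q + 1) ≤ 1 / (Qlo n s + 1) :=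
        one_div_le_one_div_of_le (by linarith [Qlo_pos h3 hs.1]) (by linarith)
      linarith

/-- No positive entire solution of the Lane–Emden system when the distance to the critical
hyperbola is at least `max p q / (2 n (n + 8))`. -/
theorem no_entire_solution_near_critical {n : ℕ} (hn : 4 ≤ n) {p q : ℝ} (hp : 0 < p) (hq : 0 < q)
    (hgap : ((n : ℝ) - 2) / n + max p q / (2 * (n : ℝ) * ((n : ℝ) + 8)) ≤ 1 / (p + 1) + 1 / (q + 1)) :
    ¬ ∃ u v : EuclideanSpace ℝ (Fin n) → ℝ,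
      Continuous u ∧ Continuous v ∧ ContDiffOn ℝ 2 u {0}ᶜ ∧ ContDiffOn ℝ 2 v {0}ᶜ ∧
      (∀ x, 0 < u x) ∧ (∀ x, 0 < v x) ∧ (∀ x, x ≠ 0 → Laplacian.laplacian u x = -(v x) ^ p) ∧
      (∀ x, x ≠ 0 → Laplacian.laplacian v x = -(u x) ^ q) := by
  have h2 : (2 : ℝ) ≤ n := by exact_mod_cast (show 2 ≤ n by omega)
  have hsub : ((n : ℝ) - 2) < (n : ℝ) / (p + 1) + (n : ℝ) / (q + 1) := by
    have h1 : 0 < max p q / (2 * (n : ℝ) * ((n : ℝ) + 8)) :=
      div_pos (hp.trans_le (le_max_left _ _)) (by positivity)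
    have h4 : ((n : ℝ) - 2) / n < 1 / (p + 1) + 1 / (q + 1) := by linarith
    rw [div_lt_iff₀ (by linarith)] at h4
    calc ((n : ℝ) - 2) < (1 / (p + 1) + 1 / (q + 1)) * n := h4
      _ = _ := by ring
  refine no_entire_solution_of_params (by omega) (S := fun a b => ((n : ℝ) - 2) / n +
    max a b / (2 * (n : ℝ) * ((n : ℝ) + 8)) ≤ 1 / (a + 1) + 1 / (b + 1)) ?_ ?_ hp hq hsub hgap
  · intro a b h; rw [max_comm]; linarith
  · intro _ a b hb hba _ _ _ h
    rw [max_eq_left hba] at h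
    exact hasParams_of_gap hn hb hba h

end Vale.Agent.P100
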