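import Mathlib
import Vale.Agent.P100.ConeForm

/-!
# Unequal weights on top of the Bochner inequality of a common weight

If `w₁`, `w₂` are not the common weight `w`, the rows get two terms linear in `z·a`, `z·b`. They
are absorbed by the squares that the Bochner inequality of dimension `N` drops, at a cost that is
a quadratic form in the five scalars.
-/

open Finset

namespace Vale.Agent.P100

variable {n : ℕ}

/-- **Bochner inequality of dimension `N` with a term linear in `z·a`.** The square that `hessN_le`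
drops absorbs `F (z·a)`. -/
theorem hessN_le_lin (hn : 3 ≤ n) {g N s : ℝ} (hg0' : 0 < g) (hg2 : g < 2)
    (hN : N = 2 * ((n : ℝ) - g) / (2 - g)) (hs : 0 < s) (X Y F : ℝ) (a b z : Fin n → ℝ)
    (H : Fin n → Fin n → ℝ) (hH : ∀ i j, H i j = H j i) {T : ℝ} (hT : ∑ i, H i i = -T) :
    hessN N s X Y (dotv a a) (dotv a b) (dotv b b) T -
        2 * F / (2 - g) * (T - (X * dotv a a + Y * dotv a b) / (2 * s)) / N -
        n * (2 * F / (2 - g)) ^ 2 / (4 * s * N * (N - n)) ≤
      F * dotv z a + s * coneGamma g a z H T +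
        X * (dotv (mulv H a) a + g / 2 * (dotv a a * dotv z a)) +
        Y * (dotv (mulv H a) b + g / 2 * (dotv a a * dotv z b)) := by
  have h3 : (3 : ℝ) ≤ n := by exact_mod_cast hn
  have hg : 0 ≤ g := hg0'.le
  have hg0 : (0 : ℝ) < 2 - g := by linarith
  have hD : (N - n) * (2 - g) = g * ((n : ℝ) - 2) := by
    rw [hN, sub_mul, div_mul_cancel₀ _ hg0.ne']; ring
  have hNn : 0 ≤ N - n := nonneg_of_mul_nonneg_left
    (hD ▸ mul_nonneg hg (by linarith)) hg0
  have hN0 : 0 < N := by linarith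
  have hc := coneHc_frob g a z H hH hT
  have hsym : ∀ i j, coneHc g a z H i j = coneHc g a z H j i := fun i j => by
    rcases eq_or_ne i j with h | h
    · rw [h]
    · simp only [coneHc, if_neg h, if_neg h.symm, hH i j]; ring
  set A := dotv a a with hA
  set B := dotv b b
  set C := dotv a b with hC
  set d := dotv z a with hd
  set h := (2 - g) / 2 * d with hh
  have htr : ∑ i, coneHc g a z H i i = -(T + (N - n) * h) := by
    rw [coneHc_trace, hT, hh, ← mul_assoc, mul_div_assoc', hD, ← hd]; ring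
  have hq := hessQ_le (n := n) (by omega) hs X Y a b (coneHc g a z H) hsym htr
  rw [coneHc_mulv, coneHc_mulv, dotv_comm z b] at hq
  set u := T - (X * A + Y * C) / (2 * s) with hu
  have key : hessN N s X Y A C B T = hessQ n s X Y A C B (T + (N - n) * h) +
      s * ((N - n) * h ^ 2) - s * ((N - n) * (u + N * h) ^ 2 / (n * N)) := by
    have hn0 : (n : ℝ) ≠ 0 := by linarith
    simp only [hessN, hessQ, hu]
    field_simp
    ring
  have hdef : s * (frob (coneHc g a z H) (coneHc g a z H) + (N - n) * h ^ 2) ≤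
      s * coneGamma g a z H T := by
    refine mul_le_mul_of_nonneg_left ?_ hs.le
    have e : coneGamma g a z H T - (frob (coneHc g a z H) (coneHc g a z H) + (N - n) * h ^ 2) =
        g * ((n : ℝ) - 2) / 2 * (A * dotv z z - d ^ 2) := by
      rw [hc, hh, show (N - n) * ((2 - g) / 2 * d) ^ 2 = (N - n) * (2 - g) * ((2 - g) / 4) * d ^ 2
        by ring, hD]
      simp only [coneGamma, hA, hd]; ring
    have : 0 ≤ g * ((n : ℝ) - 2) / 2 * (A * dotv z z - d ^ 2) :=
      mul_nonneg (div_nonneg (mul_nonneg hg (by linarith)) (by norm_num))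
        (sub_nonneg.2 ((sq_dotv_le z a).trans_eq (mul_comm _ _)))
    linarith
  have hsq : 0 ≤ s * ((N - n) * (u + N * h) ^ 2 / (n * N)) + F * d +
      (2 * F / (2 - g) * u / N + n * (2 * F / (2 - g)) ^ 2 / (4 * s * N * (N - n))) := by
    have hNn' : 0 < N - n :=
      pos_of_mul_pos_left (hD ▸ mul_pos hg0' (by linarith)) hg0.le
    set G := 2 * F / (2 - g) with hG
    have e : s * ((N - n) * (u + N * h) ^ 2 / (n * N)) + F * d +
        (G * u / N + n * G ^ 2 / (4 * s * N * (N - n))) =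
        (2 * s * (N - n) * (u + N * h) + n * G) ^ 2 / (4 * s * n * N * (N - n)) := by
      rw [show F * d = G * h by simp only [hG, hh]; field_simp]
      field_simp
      ring
    rw [e]
    positivity
  rw [key]
  rw [← hd, ← hA, ← hC, dotv_comm b z] at hq
  linarith

/-- The coefficient of `z·a` produced by raising the weights from `w` to `w₁`, `w₂`. -/
def shiftA (w w₁ w₂ π₁ χ P Q : ℝ) : ℝ := (w₁ - w) * (π₁ - 1) * P + (w₂ - w) * χ * Q

/-- The coefficient of `z·b` produced by raising the weights from `w` to `w₁`, `w₂`. -/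
def shiftB (w w₁ w₂ t ρ ψ P Q : ℝ) : ℝ := (w₁ - w) * ρ * P + (w₂ - w) * (ψ - t) * Q

/-- The real-dimension scalar form minus the cost of unequal weights. -/
noncomputable def redFormU (n : ℕ) (N p q w w₁ w₂ lam mu t x₁ y₁ x₂ y₂ π₁ ρ χ ψ ε A B C P Q : ℝ) : ℝ :=
  redFormN N p q lam mu t x₁ y₁ x₂ y₂ π₁ ρ χ ψ ε A B C P Q -
  2 * shiftA w w₁ w₂ π₁ χ P Q / (2 + w) *
      (A + P - ((lam - 2 + 2 * x₁) * A + (mu + 2 * y₁) * C) / (2 * (1 - ε))) / N -
  n * (2 * shiftA w w₁ w₂ π₁ χ P Q / (2 + w)) ^ 2 / (4 * (1 - ε) * N * (N - n)) -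
  2 * shiftB w w₁ w₂ t ρ ψ P Q / (2 + w) *
      (B + Q - ((t * (mu - 2) + 2 * x₂) * B + (t * lam + 2 * y₂) * C) / (2 * (t - ε))) / N -
  n * (2 * shiftB w w₁ w₂ t ρ ψ P Q / (2 + w)) ^ 2 / (4 * (t - ε) * N * (N - n))

/-- **Certificate for unequal weights from the scalar form.** -/
theorem certG_of_redFormU (hn : 3 ≤ n) {w w₁ w₂ N : ℝ} (hw : -2 < w) (hw0' : w < 0)
    (hN : N = 2 * ((n : ℝ) + w) / (2 + w))
    {p q r₁ r₂ lam mu t x₁ y₁ x₂ y₂ π₁ ρ χ ψ ε : ℝ} (hε : 0 < ε) (hε1 : ε < 1) (hεt : ε < t)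
    (h₁ : 0 ≤ r₁) (h₂ : 0 ≤ r₂) (hlam : lam = -2 * r₁ + 2 * q * r₂)
    (hmu : mu = 2 * p * r₁ - 2 * r₂)
    (hform : ∀ A B C P Q : ℝ, 0 ≤ A → 0 ≤ B → C ^ 2 ≤ A * B → 0 < P → 0 < Q →
      0 ≤ redFormU n N p q w w₁ w₂ lam mu t x₁ y₁ x₂ y₂ π₁ ρ χ ψ ε A B C P Q) :
    ∃ ε' : ℝ, CertG n p q w₁ w₂ (-w) r₁ r₂ (redCoeff t x₁ y₁ x₂ y₂ π₁ ρ χ ψ)
      ![-w / 2, -t * w / 2, 0, 0] ε' := by
  have h3 : (3 : ℝ) ≤ n := by exact_mod_cast hn
  have hw0 : w ≤ 0 := hw0'.le
  set g := -w with hg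
  have hg0 : 0 ≤ g := by linarith
  have hg2 : g < 2 := by linarith
  have hN' : N = 2 * ((n : ℝ) - g) / (2 - g) := by rw [hN, hg]; ring
  set Kc := 2 + 2 * g * n / (((n : ℝ) - 2) * (2 - g)) with hKc
  have hKc2 : 2 ≤ Kc := by
    have : 0 ≤ 2 * g * n / (((n : ℝ) - 2) * (2 - g)) :=
      div_nonneg (by positivity) (mul_nonneg (by linarith) (by linarith))
    linarith
  have hK0 : 0 < Kc := by linarith
  refine ⟨ε / Kc, div_pos hε hK0, hg0, h₁, h₂, fun a b z P Q H K hH hK tH tK hP hQ => ?_⟩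
  rw [← hlam, ← hmu, rowG, rowW, rowR_redCoeff]
  have h0 := hform _ _ _ P Q (dotv_self_nonneg a) (dotv_self_nonneg b) (sq_dotv_le a b) hP hQ
  have k1 := hessN_le_lin hn (by linarith) hg2 hN' (sub_pos.2 hε1) (lam - 2 + 2 * x₁) (mu + 2 * y₁)
    (shiftA w w₁ w₂ π₁ χ P Q) a b z H hH tH
  have k2 := hessN_le_lin hn (by linarith) hg2 hN' (sub_pos.2 hεt) (t * (mu - 2) + 2 * x₂)
    (t * lam + 2 * y₂) (shiftB w w₁ w₂ t ρ ψ P Q) b a z K hK tK
  have f1 := mul_le_mul_of_nonneg_left (frob_le_coneGamma hn hg0 hg2 a z H hH tH)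
    (div_pos hε hK0).le
  have f2 := mul_le_mul_of_nonneg_left (frob_le_coneGamma hn hg0 hg2 b z K hK tK)
    (div_pos hε hK0).le
  rw [← hKc, ← mul_assoc, div_mul_cancel₀ _ hK0.ne'] at f1 f2
  have hle : ε / Kc ≤ ε := (div_le_iff₀ hK0).2 (by
    linarith [mul_le_mul_of_nonneg_left hKc2 hε.le])
  have f3 := mul_le_mul_of_nonneg_right hle (show (0 : ℝ) ≤
    dotv a a ^ 2 + dotv b b ^ 2 + P ^ 2 + Q ^ 2 by positivity)
  rw [dotv_comm b a] at k2
  have lin : ∀ x : Fin n → ℝ,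
      ∑ l, (lam * a l + mu * b l) * x l = lam * dotv x a + mu * dotv x b := fun x => by
    simp only [dotv, mul_sum, ← sum_add_distrib]
    exact sum_congr rfl fun i _ => by ring
  have sc : ∀ (r : ℝ) (x y : Fin n → ℝ), dotv (fun i => r * x i) y = r * dotv x y := fun r x y => by
    simp only [dotv, mul_sum]; exact sum_congr rfl fun i _ => by ring
  have flux : dotv z (fluxW (redCoeff t x₁ y₁ x₂ y₂ π₁ ρ χ ψ) ![g / 2, t * g / 2, 0, 0]
      a b z P Q H K) = dotv (mulv H a) z + t * dotv (mulv K b) z +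
      x₁ * (dotv a a * dotv z a) + y₁ * (dotv a a * dotv z b) +
      y₂ * (dotv b b * dotv z a) + x₂ * (dotv b b * dotv z b) +
      π₁ * (P * dotv z a) + ρ * (P * dotv z b) + χ * (Q * dotv z a) + ψ * (Q * dotv z b) +
      g / 2 * (dotv a a * dotv z z) + t * g / 2 * (dotv b b * dotv z z) := by
    rw [dotv_comm (mulv H a), dotv_comm (mulv K b)]
    have hfl : ∀ i, fluxW (redCoeff t x₁ y₁ x₂ y₂ π₁ ρ χ ψ) ![g / 2, t * g / 2, 0, 0]
        a b z P Q H K i = mulv H a i + t * mulv K b i + x₁ * (dotv a a * a i) +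
        y₁ * (dotv a a * b i) + y₂ * (dotv b b * a i) + x₂ * (dotv b b * b i) +
        π₁ * (P * a i) + ρ * (P * b i) + χ * (Q * a i) + ψ * (Q * b i) +
        g / 2 * (dotv a a * z i) + t * g / 2 * (dotv b b * z i) := fun i => by
      simp only [fluxW, fld, fldX, redCoeff, Fin.sum_univ_succ, Fin.sum_univ_zero,
        Matrix.cons_val_zero, Matrix.cons_val_succ, zero_mul, add_zero, zero_add, one_mul]
      ring
    generalize dotv a a = A, dotv b b = B at hfl ⊢
    simp only [dotv, hfl, mul_sum, ← sum_add_distrib]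
    exact sum_congr rfl fun i _ => by ring
  rw [show ![-w / 2, -t * w / 2, (0 : ℝ), 0] = ![g / 2, t * g / 2, 0, 0] by
    rw [hg, show -t * w / 2 = t * -w / 2 by ring], flux]
  rw [show (2 : ℝ) - g = 2 + w by rw [hg]; ring] at k1 k2
  simp only [redFormU, redFormN] at h0
  simp only [shiftA, shiftB] at h0 k1 k2
  simp only [coneGamma] at k1 k2 f1 f2
  simp only [divWt, divX, fldX, redCoeff, Fin.sum_univ_succ, Fin.sum_univ_zero,
    Matrix.cons_val_zero, Matrix.cons_val_succ, lin, sc, nrm]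
  linarith

end Vale.Agent.P100
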