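import Mathlib
import Vale.Agent.P100.UnequalForm
import Vale.Agent.P100.AssemblyG
import Vale.Agent.P100.RealDim.Decoupled

/-!
# Decoupled conditions for unequal weights

At `ε = 0` the cost of unequal weights changes the linear forms multiplying `P` and `Q` and the
`(P, Q)` form; the quartic is that of the equal-weight family.
-/

open Filter Topology Set

namespace Vale.Agent.P100.RealDim

theorem redFormU_smul (n : ℕ) (N p q w w₁ w₂ lam mu t x₁ y₁ x₂ y₂ π₁ ρ χ ψ ε s A B C P Q : ℝ) :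
    redFormU n N p q w w₁ w₂ lam mu t x₁ y₁ x₂ y₂ π₁ ρ χ ψ ε (s * A) (s * B) (s * C) (s * P)
        (s * Q) =
      s ^ 2 * redFormU n N p q w w₁ w₂ lam mu t x₁ y₁ x₂ y₂ π₁ ρ χ ψ ε A B C P Q := by
  simp only [redFormU, shiftA, shiftB, redFormN, hessN]; ring

/-- Strict positivity at `ε = 0` gives a small positive `ε`. -/
theorem exists_eps_of_redFormU_pos {n : ℕ} {N p q w w₁ w₂ lam mu t x₁ y₁ x₂ y₂ π₁ ρ χ ψ : ℝ}
    (hN : 0 < N) (hNn : (n : ℝ) < N) (hw : -2 < w) (ht : 0 < t)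
    (hpos : ∀ x ∈ scalSimplexW, 0 < redFormU n N p q w w₁ w₂ lam mu t x₁ y₁ x₂ y₂ π₁ ρ χ ψ 0
      x.1 x.2.1 x.2.2.1 x.2.2.2.1 x.2.2.2.2) :
    ∃ ε : ℝ, 0 < ε ∧ ε < 1 ∧ ε < t ∧ ∀ A B C P Q : ℝ, 0 ≤ A → 0 ≤ B → C ^ 2 ≤ A * B → 0 < P →
      0 < Q → 0 ≤ redFormU n N p q w w₁ w₂ lam mu t x₁ y₁ x₂ y₂ π₁ ρ χ ψ ε A B C P Q := by
  set F : ℝ × (ℝ × ℝ × ℝ × ℝ × ℝ) → ℝ := fun z => redFormU n N p q w w₁ w₂ lam mu t x₁ y₁ x₂ y₂ π₁ ρ χ ψ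
    z.1 z.2.1 z.2.2.1 z.2.2.2.1 z.2.2.2.2.1 z.2.2.2.2.2 with hF
  have hev : ∀ᶠ ε in 𝓝 (0 : ℝ), ∀ x ∈ scalSimplexW, 0 < F (ε, x) := by
    refine isCompact_scalSimplexW.eventually_forall_of_forall_eventually fun x hx => ?_
    refine ContinuousAt.eventually_lt continuousAt_const ?_ (hpos x hx)
    simp only [hF, redFormU, shiftA, shiftB, redFormN, hessN]
    have hN0 : N ≠ 0 := hN.ne'
    have hNn0 : N - (n : ℝ) ≠ 0 := (sub_pos.2 hNn).ne'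
    have hw0 : 2 + w ≠ 0 := by linarith
    have ht0 : t ≠ 0 := ht.ne'
    fun_prop (disch := (simp [hN0, hNn0, hw0, ht0]))
  obtain ⟨δ, hδ, hball⟩ := Metric.eventually_nhds_iff.1 hev
  set ε := min (δ / 2) (min (1 / 2) (t / 2)) with hε
  have hε0 : 0 < ε := lt_min (by linarith) (lt_min (by norm_num) (by linarith))
  have hεδ : ε ≤ δ / 2 := min_le_left _ _
  have hε2 : ε ≤ 1 / 2 ∧ ε ≤ t / 2 :=
    ⟨(min_le_right _ _).trans (min_le_left _ _), (min_le_right _ _).trans (min_le_right _ _)⟩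
  refine ⟨ε, hε0, by linarith, by linarith, fun A B C P Q hA hB hC hP hQ => ?_⟩
  set S := A + B + P + Q with hS
  have hS0 : 0 < S := by linarith
  have hmem : (A / S, B / S, C / S, P / S, Q / S) ∈ scalSimplexW := by
    refine ⟨by positivity, by positivity, ?_, by positivity, by positivity, ?_⟩ <;> simp only
    · rw [div_pow, div_mul_div_comm, ← sq S]; gcongr
    · field_simp; rw [hS]
  have h := hball (y := ε) (by rw [Real.dist_eq, sub_zero, abs_of_pos hε0]; linarith) _ hmem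
  have e := redFormU_smul n N p q w w₁ w₂ lam mu t x₁ y₁ x₂ y₂ π₁ ρ χ ψ ε S (A / S) (B / S) (C / S) (P / S)
    (Q / S)
  simp only [mul_div_cancel₀ _ hS0.ne'] at e
  rw [e]
  exact mul_nonneg (sq_nonneg S) h.le

/-- `2 (w' - w) / ((2 + w) N)`. -/
noncomputable def gain (N w w' : ℝ) : ℝ := 2 * (w' - w) / ((2 + w) * N)

/-- The factor of the squared shifts in the cost. -/
noncomputable def lossM (n : ℕ) (N w : ℝ) : ℝ := n / ((2 + w) ^ 2 * N * (N - n))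

/-- coefficient of `P |a|²` -/
noncomputable def uPA (N w w₁ L x₁ π₁ : ℝ) : ℝ :=
  cPA N L x₁ π₁ + gain N w w₁ * (1 - π₁) * (1 - (L - 2 + 2 * x₁) / 2)

/-- coefficient of `P (a·b)` -/
noncomputable def uPC (N w w₁ p L t y₁ y₂ π₁ ρ : ℝ) : ℝ :=
  cPC N p L y₁ π₁ ρ +
    gain N w w₁ * (ρ * ((t * L + 2 * y₂) / (2 * t)) - (1 - π₁) * ((L + 2 * y₁) / 2))

/-- coefficient of `P |b|²` -/
noncomputable def uPB (N w w₁ p L t x₂ y₂ ρ : ℝ) : ℝ :=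
  cPB p L y₂ ρ - gain N w w₁ * ρ * (1 - (t * (L - 2) + 2 * x₂) / (2 * t))

/-- coefficient of `Q |b|²` -/
noncomputable def uQB (N w w₂ L t x₂ ψ : ℝ) : ℝ :=
  cQB N L t x₂ ψ + gain N w w₂ * (t - ψ) * (1 - (t * (L - 2) + 2 * x₂) / (2 * t))

/-- coefficient of `Q (a·b)` -/
noncomputable def uQC (N w w₂ q L t y₁ y₂ ψ χ : ℝ) : ℝ :=
  cQC N q L t y₂ ψ χ +
    gain N w w₂ * (χ * ((L + 2 * y₁) / 2) - (t - ψ) * ((t * L + 2 * y₂) / (2 * t)))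

/-- coefficient of `Q |a|²` -/
noncomputable def uQA (N w w₂ q L x₁ y₁ χ : ℝ) : ℝ :=
  cQA q L y₁ χ - gain N w w₂ * χ * (1 - (L - 2 + 2 * x₁) / 2)

/-- coefficient of `P²` -/
noncomputable def uPP (n : ℕ) (N w w₁ t π₁ ρ : ℝ) : ℝ :=
  1 / N - π₁ + gain N w w₁ * (1 - π₁) -
    lossM n N w * (w₁ - w) ^ 2 * ((1 - π₁) ^ 2 + ρ ^ 2 / t)

/-- coefficient of `P Q` -/
noncomputable def uPQ (N w w₁ w₂ ρ χ : ℝ) : ℝ :=
  -(ρ + χ) - gain N w w₁ * ρ - gain N w w₂ * χ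

/-- coefficient of `Q²` -/
noncomputable def uQQ (n : ℕ) (N w w₂ t χ ψ : ℝ) : ℝ :=
  t / N - ψ + gain N w w₂ * (t - ψ) - lossM n N w * (w₂ - w) ^ 2 * (χ ^ 2 + (t - ψ) ^ 2 / t)

theorem redFormU_split (n : ℕ) {N w w₁ w₂ : ℝ} (p q L : ℝ) {t : ℝ} (x₁ y₁ x₂ y₂ π₁ ρ χ ψ A B C P Q : ℝ)
    (hN : N ≠ 0) (hNn : N - n ≠ 0) (hw : 2 + w ≠ 0) (ht : t ≠ 0)
    (h0 : (w₁ - w) * (w₂ - w) = 0) :
    redFormU n N p q w w₁ w₂ L L t x₁ y₁ x₂ y₂ π₁ ρ χ ψ 0 A B C P Q =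
      (cAA N L x₁ * A ^ 2 + cBB N L t x₂ * B ^ 2 + cAC N L x₁ y₁ * (A * C) +
        cBC N L t x₂ y₂ * (B * C) + cAB L t y₁ y₂ * (A * B) + cCC N L t y₁ y₂ * C ^ 2) +
      P * (uPA N w w₁ L x₁ π₁ * A + uPC N w w₁ p L t y₁ y₂ π₁ ρ * C +
        uPB N w w₁ p L t x₂ y₂ ρ * B) +
      Q * (uQB N w w₂ L t x₂ ψ * B + uQC N w w₂ q L t y₁ y₂ ψ χ * C +
        uQA N w w₂ q L x₁ y₁ χ * A) +
      (uPP n N w w₁ t π₁ ρ * P ^ 2 + uPQ N w w₁ w₂ ρ χ * (P * Q) +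
        uQQ n N w w₂ t χ ψ * Q ^ 2) := by
  have e : redFormU n N p q w w₁ w₂ L L t x₁ y₁ x₂ y₂ π₁ ρ χ ψ 0 A B C P Q =
      (cAA N L x₁ * A ^ 2 + cBB N L t x₂ * B ^ 2 + cAC N L x₁ y₁ * (A * C) +
        cBC N L t x₂ y₂ * (B * C) + cAB L t y₁ y₂ * (A * B) + cCC N L t y₁ y₂ * C ^ 2) +
      P * (uPA N w w₁ L x₁ π₁ * A + uPC N w w₁ p L t y₁ y₂ π₁ ρ * C +
        uPB N w w₁ p L t x₂ y₂ ρ * B) +
      Q * (uQB N w w₂ L t x₂ ψ * B + uQC N w w₂ q L t y₁ y₂ ψ χ * C +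
        uQA N w w₂ q L x₁ y₁ χ * A) +
      (uPP n N w w₁ t π₁ ρ * P ^ 2 + uPQ N w w₁ w₂ ρ χ * (P * Q) +
        uQQ n N w w₂ t χ ψ * Q ^ 2) -
      2 * lossM n N w * ((w₁ - w) * (w₂ - w)) *
        ((π₁ - 1) * χ + ρ * (ψ - t) / t) * (P * Q) := by
    simp only [redFormU, shiftA, shiftB, sub_zero]
    rw [redFormN_split N p q L t x₁ y₁ x₂ y₂ π₁ ρ χ ψ A B C P Q hN ht]
    simp only [uPA, uPC, uPB, uQB, uQC, uQA, uPP, uPQ, uQQ, gain, lossM]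
    field_simp
    ring
  rw [e, h0]; ring

/-- A parameter choice for the weights `w₁, w₂` on top of the common weight `w`. -/
def HasParamsU (n : ℕ) (N p q w w₁ w₂ : ℝ) : Prop :=
  ∃ L t x₁ y₁ x₂ y₂ π₁ ρ χ ψ ε : ℝ, 0 ≤ L ∧
    (N - 4) * (p * q - 1) < L * (2 * (p + q + 2)) ∧ 0 < ε ∧ ε < 1 ∧ ε < t ∧
    ∀ A B C P Q : ℝ, 0 ≤ A → 0 ≤ B → C ^ 2 ≤ A * B → 0 < P → 0 < Q →
      0 ≤ redFormU n N p q w w₁ w₂ L L t x₁ y₁ x₂ y₂ π₁ ρ χ ψ ε A B C P Q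

/-- **Decoupled conditions for unequal weights.** -/
theorem hasParamsU_of_conditions {n : ℕ} {N p q w w₁ w₂ L t x₁ y₁ x₂ y₂ π₁ ρ χ ψ : ℝ}
    (hN : 3 ≤ N) (hNn : (n : ℝ) < N) (hw : -2 < w) (h0w : (w₁ - w) * (w₂ - w) = 0)
    (hL : 0 ≤ L) (hexp : (N - 4) * (p * q - 1) < L * (2 * (p + q + 2))) (ht : 0 < t)
    (h0A : 0 < cAA N L x₁)
    (h0 : ∀ r : ℝ, 0 < cAA N L x₁ * r ^ 4 + cAC N L x₁ y₁ * r ^ 3 +
      (cAB L t y₁ y₂ + cCC N L t y₁ y₂) * r ^ 2 + cBC N L t x₂ y₂ * r + cBB N L t x₂)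
    (hIa : 0 ≤ uPA N w w₁ L x₁ π₁) (hIb : 0 ≤ uPB N w w₁ p L t x₂ y₂ ρ)
    (hIg : uPC N w w₁ p L t y₁ y₂ π₁ ρ ^ 2 ≤
      4 * uPA N w w₁ L x₁ π₁ * uPB N w w₁ p L t x₂ y₂ ρ)
    (hIIa : 0 ≤ uQA N w w₂ q L x₁ y₁ χ) (hIIb : 0 ≤ uQB N w w₂ L t x₂ ψ)
    (hIIg : uQC N w w₂ q L t y₁ y₂ ψ χ ^ 2 ≤
      4 * uQB N w w₂ L t x₂ ψ * uQA N w w₂ q L x₁ y₁ χ)
    (hP : 0 < uPP n N w w₁ t π₁ ρ) (hQ : 0 < uQQ n N w w₂ t χ ψ)
    (hPQ : 0 ≤ uPQ N w w₁ w₂ ρ χ) :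
    HasParamsU n N p q w w₁ w₂ := by
  have hk : cCC N L t y₁ y₂ ≤ 0 := by
    have : (1 : ℝ) / N ≤ 1 / 3 := by gcongr
    refine mul_nonpos_of_nonpos_of_nonneg ?_ (by linarith)
    have : 0 ≤ (L + 2 * y₁) ^ 2 / 4 + (t * L + 2 * y₂) ^ 2 / (4 * t) := by positivity
    linarith
  obtain ⟨ε, hε, hε1, hεt, hf⟩ := exists_eps_of_redFormU_pos (n := n) (N := N) (p := p) (q := q)
    (w := w) (w₁ := w₁) (w₂ := w₂) (lam := L) (mu := L) (x₁ := x₁) (y₁ := y₁) (x₂ := x₂)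
    (y₂ := y₂) (π₁ := π₁) (ρ := ρ) (χ := χ) (ψ := ψ) (by linarith) hNn hw ht (by
      rintro ⟨A, B, C, P, Q⟩ ⟨hA, hB, hC, hP0, hQ0, h1⟩
      simp only at hA hB hC hP0 hQ0 h1 ⊢
      rw [redFormU_split n p q L x₁ y₁ x₂ y₂ π₁ ρ χ ψ A B C P Q (by linarith) (by linarith)
        (by linarith) ht.ne' h0w]
      have t1 := mul_nonneg hP0 (cross_nonneg hIa hIb hIg hA hB hC)
      have t2 := mul_nonneg hQ0 (cross_nonneg hIIb hIIa hIIg hB hA (by rwa [mul_comm]))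
      have u1 := mul_nonneg hP.le (sq_nonneg P)
      have u2 := mul_nonneg hQ.le (sq_nonneg Q)
      have u3 := mul_nonneg hPQ (mul_nonneg hP0 hQ0)
      rcases eq_or_lt_of_le (add_nonneg hA hB) with h0' | h0'
      · have hA0 : A = 0 := by linarith
        have hB0 : B = 0 := by linarith
        subst hA0 hB0
        rw [mul_zero] at hC
        have hC0 : C = 0 := pow_eq_zero_iff two_ne_zero |>.1 (le_antisymm hC (sq_nonneg C))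
        subst hC0
        simp only [mul_zero, zero_pow two_ne_zero, add_zero, zero_add] at *
        rcases eq_or_lt_of_le hP0 with h | h
        · have hQ1 : Q = 1 := by linarith
          subst h hQ1
          linarith
        · have := mul_pos hP (pow_pos h 2)
          linarith
      · have := quartic_pos hk h0A h0 hA hB hC h0'
        linarith)
  exact ⟨L, t, x₁, y₁, x₂, y₂, π₁, ρ, χ, ψ, ε, hL, hexp, hε, hε1, hεt, hf⟩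

/-- Parameters on top of a common weight rule out solutions. -/
theorem no_solutionU_of_params {n : ℕ} (hn : 5 ≤ n) {w w₁ w₂ : ℝ} (hw : -2 < w) (hw0 : w < 0)
    (h₁ : w ≤ w₁) (h₂ : w ≤ w₂) {p q : ℝ} (hp : 0 < p) (hq : 0 < q) (hpq : 1 < p * q)
    (h : HasParamsU n (coneDim n w) p q w w₁ w₂) :
    ¬ ∃ u v : EuclideanSpace ℝ (Fin n) → ℝ,
      Continuous u ∧ Continuous v ∧ ContDiffOn ℝ 2 u {0}ᶜ ∧ ContDiffOn ℝ 2 v {0}ᶜ ∧
      (∀ x, 0 < u x) ∧ (∀ x, 0 < v x) ∧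
      (∀ x, x ≠ 0 → Laplacian.laplacian u x = -(‖x‖ ^ w₁ * v x ^ p)) ∧
      (∀ x, x ≠ 0 → Laplacian.laplacian v x = -(‖x‖ ^ w₂ * u x ^ q)) := by
  obtain ⟨L, t, x₁, y₁, x₂, y₂, π₁, ρ, χ, ψ, ε, hL0, hexp, hε, hε1, hεt, hform⟩ := h
  have hd : 0 < p * q - 1 := by linarith
  have hw2 : 0 < 2 + w := by linarith
  set r₁ : ℝ := L * (1 + q) / (2 * (p * q - 1)) with hr₁
  set r₂ : ℝ := L * (1 + p) / (2 * (p * q - 1)) with hr₂
  have e1 : L = -2 * r₁ + 2 * q * r₂ := by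
    rw [hr₁, hr₂, show -2 * (L * (1 + q) / (2 * (p * q - 1))) + 2 * q * (L * (1 + p) /
      (2 * (p * q - 1))) = L * (p * q - 1) / (p * q - 1) by rw [← div_div, ← div_div]; ring,
      mul_div_cancel_right₀ _ hd.ne']
  have e2 : L = 2 * p * r₁ - 2 * r₂ := by
    rw [hr₁, hr₂, show 2 * p * (L * (1 + q) / (2 * (p * q - 1))) - 2 * (L * (1 + p) /
      (2 * (p * q - 1))) = L * (p * q - 1) / (p * q - 1) by rw [← div_div, ← div_div]; ring,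
      mul_div_cancel_right₀ _ hd.ne']
  obtain ⟨ε', hC⟩ := certG_of_redFormU (n := n) (r₁ := r₁) (r₂ := r₂) (by omega) hw hw0 rfl hε hε1
    hεt (by rw [hr₁]; positivity) (by rw [hr₂]; positivity) e1 e2 hform
  refine no_solution_of_certG hn hC ?_
  have e3 : (n : ℝ) + -w - 4 * (1 + r₁ + r₂) - 2 * (w * r₁ + w * r₂) =
      (2 + w) / (2 * (p * q - 1)) *
        ((coneDim n w - 4) * (p * q - 1) - L * (2 * (p + q + 2))) := by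
    have hN4 : coneDim n w - 4 = 2 * ((n : ℝ) - 4 - w) / (2 + w) := by
      rw [coneDim]; field_simp; ring
    rw [hr₁, hr₂, hN4]
    generalize hdd : p * q - 1 = d at hd
    field_simp
    ring
  have hr₁0 : 0 ≤ r₁ := by rw [hr₁]; positivity
  have hr₂0 : 0 ≤ r₂ := by rw [hr₂]; positivity
  have m1 := mul_le_mul_of_nonneg_right h₁ hr₁0
  have m2 := mul_le_mul_of_nonneg_right h₂ hr₂0
  have m3 : (2 + w) / (2 * (p * q - 1)) *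
      ((coneDim n w - 4) * (p * q - 1) - L * (2 * (p + q + 2))) < 0 :=
    mul_neg_of_pos_of_neg (div_pos hw2 (by linarith)) (by linarith)
  linarith

end Vale.Agent.P100.RealDim
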