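import Mathlib
import Vale.Agent.P100.RealDim.FreeL
import Vale.Agent.P100.UnequalDecoupled

/-!
# The free-weight family with one weight raised

`c` is `2 (w' - w) / ((2 + w) N)` for the raised weight `w'`. If the second weight is raised the
parameters are those of the equal case; if the first is raised `ρ` becomes `ρ / (1 + c)`.
-/

open Filter Topology Set

namespace Vale.Agent.P100.RealDim

/-- The cost of the squared shift is below the gain. -/
noncomputable def shiftOK (n : ℕ) (N w d t ρ : ℝ) : Prop :=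
  lossM n N w * d * ((1 - 1 / N) ^ 2 + ρ ^ 2 / t) < 2 / ((2 + w) * N) * (1 - 1 / N)

/-- Continuity at `δ = 0` of finitely many strict inequalities. -/
theorem eventually_pos {F : ℝ → ℝ} (hF : Continuous F) (h : 0 < F 0) :
    ∀ᶠ δ in 𝓝[>] (0 : ℝ), 0 < F δ :=
  (hF.continuousAt.eventually_const_lt h).filter_mono nhdsWithin_le_nhds

/-- **The second weight raised.** -/
theorem hasParamsU_freeL_right {n : ℕ} {N p q w w₂ l t ξ η ζ ν ρ : ℝ} (hN : 3 ≤ N)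
    (hNn : (n : ℝ) < N) (hw : -2 < w) (hw₂ : w ≤ w₂) (hl1 : l < 1) (hl : 0 ≤ l)
    (hexp : (N - 4) * (p * q - 1) < (1 - l) * (2 * (p + q + 2))) (ht : 0 < t)
    (hξ : 0 < ξ) (hζ : 0 < ζ) (hρ : 0 ≤ ρ)
    (hη : 1 - l ≤ η) (hν : 1 - l ≤ ν) (hA : 0 < flG N l ξ)
    (h0 : ∀ r : ℝ, 0 < flQuartic N l t ξ η ζ ν r)
    (hI : ((N - 1) * p - η + N * ρ * l) ^ 2 < N * (N + 2) * ξ * (t * ν + 2 * ρ * (p - l)))
    (hII : (t * ((N - 1) * q - ν) - N * ρ * l) ^ 2 <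
      N * (N + 2) * (t * ζ) * (η - 2 * ρ * (q - l)))
    (hG : N * gain N w w₂ * (ρ * (η + l - 1) + t * (ν + l - 1)) ≤
      4 * (t * ((N - 1) * q - ν) - N * ρ * l))
    (hk : shiftOK n N w (w₂ - w) t ρ) :
    HasParamsU n N p q w w w₂ := by
  have hN0 : N ≠ 0 := by linarith
  have hwN : 0 < (2 + w) * N := mul_pos (by linarith) (by linarith)
  obtain ⟨eA, eB, eC, eD, eM⟩ := freeL_quartic N l ξ η ζ ν ht.ne'
  obtain ⟨a1, a2, a3, a4, a5, a6⟩ := freeL_linear hN0 p q l t ξ η ζ ν ρ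
  set c := gain N w w₂ with hc
  have hc0 : 0 ≤ c := div_nonneg (by linarith) hwN.le
  have hg0 : gain N w w = 0 := by simp [gain]
  set x₁ := 1 - ξ / 2
  set y₁ := -η / 2
  set x₂ := t * (1 - ζ / 2)
  set y₂ := -(t * ν) / 2
  have hx : 0 ≤ 1 - 1 / N := by rw [sub_nonneg, div_le_one (by linarith)]; linarith
  have h4 : 0 < N * (N + 2) := mul_pos (by linarith) (by linarith)
  have hI' : 0 < t * ν + 2 * ρ * (p - l) :=
    pos_of_mul_pos_right (lt_of_le_of_lt (sq_nonneg _) hI) (by positivity)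
  have hII' : 0 < η - 2 * ρ * (q - l) :=
    pos_of_mul_pos_right (lt_of_le_of_lt (sq_nonneg _) hII) (by positivity)
  set G := (t * ((N - 1) * q - ν) - N * ρ * l) / N with hGdef
  set D := c * (ρ * (η + l - 1) + t * (1 - 1 / N) * (ν + l - 1)) / 2 with hD
  have hD0 : 0 ≤ D := by
    have : 0 ≤ η + l - 1 := by linarith
    have : 0 ≤ ν + l - 1 := by linarith
    positivity
  have hD2 : D ≤ 2 * G := by
    rw [hGdef, ← mul_div_assoc, le_div_iff₀ (by linarith)]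
    have h' : t * (1 - 1 / N) * (ν + l - 1) ≤ t * (ν + l - 1) := by
      refine mul_le_mul_of_nonneg_right (mul_le_of_le_one_right ht.le ?_) (by linarith)
      have : 0 < 1 / N := one_div_pos.2 (by linarith)
      linarith
    have := mul_le_mul_of_nonneg_left h' (mul_nonneg (by linarith : (0 : ℝ) ≤ N) hc0)
    rw [hD]
    linarith
  set F₂ := fun δ : ℝ => 4 * uQB N w w₂ (1 - l) t x₂ (t / N - δ) *
      uQA N w w₂ q (1 - l) x₁ y₁ (-ρ) -
    uQC N w w₂ q (1 - l) t y₁ y₂ (t / N - δ) (-ρ) ^ 2 with hF₂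
  set F₁ := fun δ : ℝ => 4 * cPA N (1 - l) x₁ (1 / N - δ) * cPB p (1 - l) y₂ ρ -
    cPC N p (1 - l) y₁ (1 / N - δ) ρ ^ 2 with hF₁
  set F₃ := fun δ : ℝ => cPA N (1 - l) x₁ (1 / N - δ) with hF₃
  set F₄ := fun δ : ℝ => uQB N w w₂ (1 - l) t x₂ (t / N - δ) with hF₄
  set F₅ := fun δ : ℝ => 2 / ((2 + w) * N) * (t - (t / N - δ)) -
    lossM n N w * (w₂ - w) * (ρ ^ 2 + (t - (t / N - δ)) ^ 2 / t) with hF₅
  have c1 : 0 < F₁ 0 := by
    simp only [hF₁, sub_zero, a1, a2, a3]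
    rw [neg_sq, show 4 * (ξ * (N + 2) / (2 * N)) * ((t * ν + 2 * ρ * (p - l)) / 2) =
      N * (N + 2) * ξ * (t * ν + 2 * ρ * (p - l)) / N ^ 2 by field_simp; ring, div_pow,
      ← sub_div]
    exact div_pos (by linarith) (by positivity)
  have eB2 : uQB N w w₂ (1 - l) t x₂ (t / N) =
      t * ζ * (N + 2) / (2 * N) + c * (t * (1 - 1 / N)) * ((1 + l + ζ) / 2) := by
    simp only [uQB, a4, ← hc, x₂]; field_simp; ring
  have eA2 : uQA N w w₂ q (1 - l) x₁ y₁ (-ρ) =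
      (η - 2 * ρ * (q - l)) / 2 + c * ρ * ((1 + l + ξ) / 2) := by
    simp only [uQA, a5, ← hc, x₁]; ring
  have eC2 : uQC N w w₂ q (1 - l) t y₁ y₂ (t / N) (-ρ) = -G + D := by
    simp only [uQC, a6, ← hc, y₁, y₂, hD, hGdef]; field_simp; ring
  have c2 : 0 < F₂ 0 := by
    simp only [hF₂, sub_zero, eB2, eA2, eC2]
    have p1 : 0 ≤ c * (t * (1 - 1 / N)) * ((1 + l + ζ) / 2) := by
      have : 0 ≤ 1 + l + ζ := by linarith
      positivity
    have p2 : 0 ≤ c * ρ * ((1 + l + ξ) / 2) := by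
      have : 0 ≤ 1 + l + ξ := by linarith
      positivity
    have b1 : 0 < t * ζ * (N + 2) / (2 * N) := by positivity
    have s1 : (-G + D) ^ 2 ≤ G ^ 2 := by
      linarith [mul_nonneg hD0 (sub_nonneg.2 hD2)]
    have s2 : G ^ 2 < 4 * (t * ζ * (N + 2) / (2 * N)) * ((η - 2 * ρ * (q - l)) / 2) := by
      rw [show 4 * (t * ζ * (N + 2) / (2 * N)) * ((η - 2 * ρ * (q - l)) / 2) =
        N * (N + 2) * (t * ζ) * (η - 2 * ρ * (q - l)) / N ^ 2 by field_simp; ring, hGdef,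
        div_pow]
      exact div_lt_div_of_pos_right hII (by positivity)
    have s3 := mul_le_mul (le_add_of_nonneg_right (a := t * ζ * (N + 2) / (2 * N)) p1)
      (le_add_of_nonneg_right (a := (η - 2 * ρ * (q - l)) / 2) p2) (by linarith)
      (by linarith)
    linarith
  have c3 : 0 < F₃ 0 := by simp only [hF₃, sub_zero, a1]; positivity
  have c4 : 0 < F₄ 0 := by
    simp only [hF₄, sub_zero, eB2]
    have : 0 ≤ 1 + l + ζ := by linarith
    have : 0 < t * ζ * (N + 2) / (2 * N) := by positivity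
    positivity
  have c5 : 0 < F₅ 0 := by
    refine lt_of_lt_of_eq (mul_pos ht (sub_pos.2 hk)) ?_
    simp only [hF₅, sub_zero]; field_simp; ring
  obtain ⟨δ, d1, d2, d3, d4, d5, hδ⟩ : ∃ δ, 0 < F₁ δ ∧ 0 < F₂ δ ∧ 0 < F₃ δ ∧ 0 < F₄ δ ∧
      0 < F₅ δ ∧ 0 < δ := by
    refine Eventually.exists (f := 𝓝[>] (0 : ℝ)) ?_
    filter_upwards [eventually_pos (by simp only [hF₁, cPA, cPB, cPC]; fun_prop) c1,
      eventually_pos (by simp only [hF₂, uQA, uQB, uQC, cQA, cQB, cQC]; fun_prop) c2,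
      eventually_pos (by simp only [hF₃, cPA]; fun_prop) c3,
      eventually_pos (by simp only [hF₄, uQB, cQB]; fun_prop) c4,
      eventually_pos (by simp only [hF₅]; fun_prop) c5, self_mem_nhdsWithin]
      with δ h1 h2 h3 h4 h5 h6 using ⟨h1, h2, h3, h4, h5, h6⟩
  refine hasParamsU_of_conditions hN hNn hw (by simp) (L := 1 - l) (t := t) (x₁ := x₁) (y₁ := y₁)
    (x₂ := x₂) (y₂ := y₂) (π₁ := 1 / N - δ) (ρ := ρ) (χ := -ρ) (ψ := t / N - δ) (by linarith)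
    hexp ht (by rw [eA]; exact hA) (fun r => ?_) ?_ ?_ ?_ ?_ d4.le ?_ ?_ ?_ ?_
  · have := h0 r
    rw [eA, eB, eC, eD, eM]
    simpa [flQuartic] using this
  · simp only [uPA, hg0, zero_mul, add_zero]; exact d3.le
  · simp only [uPB, hg0, zero_mul, sub_zero, a2]; linarith
  · simp only [uPA, uPB, uPC, hg0, zero_mul, add_zero, sub_zero]
    simp only [hF₁] at d1; linarith
  · rw [eA2]
    have : 0 ≤ 1 + l + ξ := by linarith
    have : 0 ≤ η - 2 * ρ * (q - l) := hII'.le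
    positivity
  · simp only [hF₂] at d2; linarith
  · simp only [uPP, hg0, zero_mul, add_zero, sub_self, zero_pow two_ne_zero, mul_zero, sub_zero]
    linarith
  · have e : uQQ n N w w₂ t (-ρ) (t / N - δ) = δ + (w₂ - w) * F₅ δ := by
      simp only [uQQ, gain, hF₅, neg_sq]; ring
    rw [e]
    exact lt_of_lt_of_le hδ (le_add_of_nonneg_right (mul_nonneg (by linarith) d5.le))
  · simp only [uPQ, hg0, zero_mul, sub_zero, ← hc]
    linarith [mul_nonneg hc0 hρ]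

/-- The discriminant survives raising the first weight. -/
theorem disc_left {a k c b bb G D X : ℝ} (hc : 0 ≤ c) (ha : 0 < a) (hak : a ≤ k) (hX : 0 ≤ X)
    (hXb : X ≤ b) (hbb : bb = b + c * X) (hG : G ^ 2 < 4 * a * bb) (hD : 0 ≤ D) (hD2 : D ≤ 2 * G) :
    0 < 4 * (a + c * k) * b - (-G + D) ^ 2 := by
  have s1 : (-G + D) ^ 2 ≤ G ^ 2 := by linarith [mul_nonneg hD (sub_nonneg.2 hD2)]
  have s4 := mul_le_mul_of_nonneg_left (mul_le_mul hak hXb hX (ha.le.trans hak)) hc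
  subst hbb
  linarith

/-- The coefficients multiplying `P` when the first weight is raised. -/
theorem left_coeff (N w w₁ p l ξ η ζ ν ρ' : ℝ) {t : ℝ} (hN : N ≠ 0) (ht : t ≠ 0) :
    uPA N w w₁ (1 - l) (1 - ξ / 2) (1 / N) =
      ξ * (N + 2) / (2 * N) + gain N w w₁ * ((1 - 1 / N) * ((1 + l + ξ) / 2)) ∧
    uPB N w w₁ p (1 - l) t (t * (1 - ζ / 2)) (-(t * ν) / 2) ρ' =
      t * ν / 2 + ρ' * (p - l) - gain N w w₁ * ρ' * ((1 + l + ζ) / 2) ∧
    uPC N w w₁ p (1 - l) t (-η / 2) (-(t * ν) / 2) (1 / N) ρ' =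
      -(((N - 1) * p - η + N * (ρ' * (1 + gain N w w₁)) * l) / N) +
        gain N w w₁ * (ρ' * (l + 1 - ν) + (1 - 1 / N) * (η + l - 1)) / 2 := by
  refine ⟨?_, ?_, ?_⟩
  · simp only [uPA, cPA]; field_simp; ring
  · simp only [uPB, cPB]; field_simp; ring
  · simp only [uPC, cPC]; field_simp; ring

/-- **The first weight raised.** -/
theorem hasParamsU_freeL_left {n : ℕ} {N p q w w₁ l t ξ η ζ ν ρ : ℝ} (hN : 3 ≤ N)
    (hNn : (n : ℝ) < N) (hw : -2 < w) (hw₁ : w ≤ w₁) (hl1 : l < 1) (hl : 0 ≤ l)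
    (hexp : (N - 4) * (p * q - 1) < (1 - l) * (2 * (p + q + 2))) (ht : 0 < t)
    (hξ : 0 < ξ) (hζ : 0 < ζ) (hρ : 0 ≤ ρ) (hpl : l ≤ p) (hA : 0 < flG N l ξ)
    (h0 : ∀ r : ℝ, 0 < flQuartic N l t ξ η ζ ν r)
    (hI : ((N - 1) * p - η + N * ρ * l) ^ 2 < N * (N + 2) * ξ * (t * ν + 2 * ρ * (p - l)))
    (hII : (t * ((N - 1) * q - ν) - N * ρ * l) ^ 2 <
      N * (N + 2) * (t * ζ) * (η - 2 * ρ * (q - l)))
    (hρν : ρ * (1 + l + ζ) ≤ t * ν)
    (hξl : ξ * (N + 2) ≤ (N - 1) * (1 + l + ξ))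
    (hlow : 0 ≤ ρ / (1 + gain N w w₁) * (l + 1 - ν) + (1 - 1 / N) * (η + l - 1))
    (hup : N * gain N w w₁ *
        (ρ / (1 + gain N w w₁) * (l + 1 - ν) + (1 - 1 / N) * (η + l - 1)) ≤
      4 * ((N - 1) * p - η + N * ρ * l))
    (hk : shiftOK n N w (w₁ - w) t ρ) :
    HasParamsU n N p q w w₁ w := by
  have hN0 : N ≠ 0 := by linarith
  have hwN : 0 < (2 + w) * N := mul_pos (by linarith) (by linarith)
  set c := gain N w w₁ with hc
  have hc0 : 0 ≤ c := div_nonneg (by linarith) hwN.le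
  have hg0 : gain N w w = 0 := by simp [gain]
  set ρ' := ρ / (1 + c) with hρ'
  have hρ'0 : 0 ≤ ρ' := by positivity
  have hρρ : ρ = ρ' * (1 + c) := by rw [hρ']; field_simp
  obtain ⟨eA, eB, eC, eD, eM⟩ := freeL_quartic N l ξ η ζ ν ht.ne'
  obtain ⟨a1, a2, a3, a4, a5, a6⟩ := freeL_linear hN0 p q l t ξ η ζ ν ρ
  set x₁ := 1 - ξ / 2
  set y₁ := -η / 2
  set x₂ := t * (1 - ζ / 2)
  set y₂ := -(t * ν) / 2
  have hx : 0 ≤ 1 - 1 / N := by rw [sub_nonneg, div_le_one (by linarith)]; linarith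
  have hI' : 0 < t * ν + 2 * ρ * (p - l) :=
    pos_of_mul_pos_right (lt_of_le_of_lt (sq_nonneg _) hI)
      (mul_nonneg (mul_nonneg (by linarith) (by linarith)) hξ.le)
  have hII' : 0 < η - 2 * ρ * (q - l) :=
    pos_of_mul_pos_right (lt_of_le_of_lt (sq_nonneg _) hII)
      (mul_nonneg (mul_nonneg (by linarith) (by linarith)) (by positivity))
  set G := ((N - 1) * p - η + N * ρ * l) / N with hGdef
  set D := c * (ρ' * (l + 1 - ν) + (1 - 1 / N) * (η + l - 1)) / 2 with hD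
  have hD0 : 0 ≤ D := by rw [hD]; exact div_nonneg (mul_nonneg hc0 hlow) (by norm_num)
  have hD2 : D ≤ 2 * G := by
    rw [hGdef, ← mul_div_assoc, le_div_iff₀ (by linarith), hD]
    linarith
  set F₁ := fun δ : ℝ => 4 * uPA N w w₁ (1 - l) x₁ (1 / N - δ) *
      uPB N w w₁ p (1 - l) t x₂ y₂ ρ' -
    uPC N w w₁ p (1 - l) t y₁ y₂ (1 / N - δ) ρ' ^ 2 with hF₁
  set F₂ := fun δ : ℝ => 4 * cQB N (1 - l) t x₂ (t / N - δ) * cQA q (1 - l) y₁ (-ρ) -
    cQC N q (1 - l) t y₂ (t / N - δ) (-ρ) ^ 2 with hF₂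
  set F₃ := fun δ : ℝ => uPA N w w₁ (1 - l) x₁ (1 / N - δ) with hF₃
  set F₄ := fun δ : ℝ => cQB N (1 - l) t x₂ (t / N - δ) with hF₄
  set F₅ := fun δ : ℝ => 2 / ((2 + w) * N) * (1 - (1 / N - δ)) -
    lossM n N w * (w₁ - w) * ((1 - (1 / N - δ)) ^ 2 + ρ' ^ 2 / t) with hF₅
  obtain ⟨eA1, eB1, eC1⟩ := left_coeff N w w₁ p l ξ η ζ ν ρ' hN0 ht.ne'
  rw [← hc, ← hρρ] at eC1
  rw [← hc] at eA1 eB1
  set X := ρ' * (p - l + (1 + l + ζ) / 2) with hX
  have hb0 : 0 ≤ X := mul_nonneg hρ'0 (by linarith)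
  have hb' : X ≤ t * ν / 2 + ρ' * (p - l) - c * ρ' * ((1 + l + ζ) / 2) := by
    have : ρ' * (1 + c) * (1 + l + ζ) ≤ t * ν := by rw [← hρρ]; exact hρν
    rw [hX]; linarith
  have ha : 0 < ξ * (N + 2) / (2 * N) := div_pos (mul_pos hξ (by linarith)) (by linarith)
  have hak : ξ * (N + 2) / (2 * N) ≤ (1 - 1 / N) * ((1 + l + ξ) / 2) := by
    rw [show (1 - 1 / N) * ((1 + l + ξ) / 2) = (N - 1) * (1 + l + ξ) / (2 * N) by field_simp]
    exact div_le_div_of_nonneg_right hξl (by linarith)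
  have hbb : (t * ν + 2 * ρ * (p - l)) / 2 =
      t * ν / 2 + ρ' * (p - l) - c * ρ' * ((1 + l + ζ) / 2) + c * X := by rw [hX, hρρ]; ring
  have c1 : 0 < F₁ 0 := by
    simp only [hF₁, sub_zero, x₁, x₂, y₁, y₂, eA1, eB1, eC1]
    refine disc_left hc0 ha hak hb0 hb' hbb ?_ hD0 hD2
    rw [show 4 * (ξ * (N + 2) / (2 * N)) * ((t * ν + 2 * ρ * (p - l)) / 2) =
      N * (N + 2) * ξ * (t * ν + 2 * ρ * (p - l)) / N ^ 2 by field_simp; ring, div_pow]
    exact div_lt_div_of_pos_right hI (by positivity)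
  have c2 : 0 < F₂ 0 := by
    simp only [hF₂, sub_zero, a4, a5, a6]
    rw [neg_sq, show 4 * (t * ζ * (N + 2) / (2 * N)) * ((η - 2 * ρ * (q - l)) / 2) =
      N * (N + 2) * (t * ζ) * (η - 2 * ρ * (q - l)) / N ^ 2 by field_simp; ring, div_pow,
      ← sub_div]
    exact div_pos (by linarith) (by positivity)
  have c3 : 0 < F₃ 0 := by
    simp only [hF₃, sub_zero, x₁, eA1]
    linarith [mul_nonneg hc0 (ha.le.trans hak)]
  have c4 : 0 < F₄ 0 := by simp only [hF₄, sub_zero, a4]; positivity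
  have hd : 0 ≤ w₁ - w := by linarith
  have hM : 0 ≤ lossM n N w := div_nonneg (Nat.cast_nonneg n)
    (mul_nonneg (mul_nonneg (sq_nonneg _) (by linarith)) (by linarith))
  have c5 : 0 < F₅ 0 := by
    simp only [hF₅, sub_zero]
    have : ρ' ^ 2 / t ≤ ρ ^ 2 / t := by
      refine div_le_div_of_nonneg_right (pow_le_pow_left₀ hρ'0 ?_ 2) ht.le
      rw [hρρ]; exact le_mul_of_one_le_right hρ'0 (by linarith)
    have := mul_le_mul_of_nonneg_left
      (add_le_add le_rfl this : (1 - 1 / N) ^ 2 + ρ' ^ 2 / t ≤ (1 - 1 / N) ^ 2 + ρ ^ 2 / t)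
      (mul_nonneg hM hd)
    unfold shiftOK at hk
    linarith
  obtain ⟨δ, d1, d2, d3, d4, d5, hδ⟩ : ∃ δ, 0 < F₁ δ ∧ 0 < F₂ δ ∧ 0 < F₃ δ ∧ 0 < F₄ δ ∧
      0 < F₅ δ ∧ 0 < δ := by
    refine Eventually.exists (f := 𝓝[>] (0 : ℝ)) ?_
    filter_upwards [eventually_pos (by simp only [hF₁, uPA, uPB, uPC, cPA, cPB, cPC]; fun_prop) c1,
      eventually_pos (by simp only [hF₂, cQA, cQB, cQC]; fun_prop) c2,
      eventually_pos (by simp only [hF₃, uPA, cPA]; fun_prop) c3,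
      eventually_pos (by simp only [hF₄, cQB]; fun_prop) c4,
      eventually_pos (by simp only [hF₅]; fun_prop) c5, self_mem_nhdsWithin]
      with δ h1 h2 h3 h4 h5 h6 using ⟨h1, h2, h3, h4, h5, h6⟩
  refine hasParamsU_of_conditions hN hNn hw (by simp) (L := 1 - l) (t := t) (x₁ := x₁) (y₁ := y₁)
    (x₂ := x₂) (y₂ := y₂) (π₁ := 1 / N - δ) (ρ := ρ') (χ := -ρ) (ψ := t / N - δ) (by linarith)
    hexp ht (by rw [eA]; exact hA) (fun r => ?_) d3.le ?_ ?_ ?_ ?_ ?_ ?_ ?_ ?_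
  · have := h0 r
    rw [eA, eB, eC, eD, eM]
    simpa [flQuartic] using this
  · rw [eB1]; exact hb0.trans hb'
  · simp only [hF₁] at d1; linarith
  · simp only [uQA, hg0, zero_mul, sub_zero, a5]; linarith
  · simp only [uQB, hg0, zero_mul, add_zero]; exact d4.le
  · simp only [uQA, uQB, uQC, hg0, zero_mul, add_zero, sub_zero]
    simp only [hF₂] at d2; linarith
  · have e : uPP n N w w₁ t (1 / N - δ) ρ' = δ + (w₁ - w) * F₅ δ := by
      simp only [uPP, gain, hF₅]; ring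
    rw [e]
    exact lt_of_lt_of_le hδ (le_add_of_nonneg_right (mul_nonneg hd d5.le))
  · simp only [uQQ, hg0, zero_mul, add_zero, sub_self, zero_pow two_ne_zero, mul_zero, sub_zero]
    linarith
  · simp only [uPQ, hg0, zero_mul, sub_zero, ← hc]
    rw [hρρ]; linarith

end Vale.Agent.P100.RealDim
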