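import Mathlib
import Vale.Agent.P100.RealDim.StripRange
import Vale.Agent.P100.UnequalFree

/-!
# The strip parameters with one weight raised
-/

open Filter Topology Set

noncomputable section

namespace Vale.Agent.P100.RealDim

open Strip

variable {N : ℝ} {e u h : ℝ}

/-- `η` of the strip parameters. -/
def etaS (e u : ℝ) : ℝ := etaN e u / (1 + 3 * e)

/-- `ν` of the strip parameters. -/
def nuS (e u : ℝ) : ℝ := nuN e u / (1 + 3 * e)

/-- `ρ` of the strip parameters. -/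
def rhoS (e u : ℝ) : ℝ := (1 - 2 * u) * fn e u / (2 * u * (1 + 2 * e) ^ 2 * (1 + 3 * e))

/-- The strip conditions, with the two coefficients that the diagonal shifts. -/
theorem strip_data {N : ℝ} (hn : 5 ≤ N) {p q : ℝ} (hne : N = (1 + 2 * e) / e)
    (hpe : p = ((1 - u) + 2 * h) / u) (hqe : q = (u + 2 * h) / (1 - u))
    (he : 0 < e) (he3 : 3 * e ≤ 1) (hu : e < u) (hu2 : 2 * u ≤ 1)
    (hlo : (1 - u) * e ≤ h) (hup : h ≤ e * (1 - 2 * u ^ 2 * (1 - 2 * u) ^ 2)) (hhe : h < e) :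
    ∃ ξ ζ : ℝ, 0 < ξ ∧ ξ ≤ 1 + 2 * e * (1 - u) ∧ 0 < ζ ∧ ζ ≤ 1 + 2 * e * u ∧
      0 < flG N (2 * e * (1 - u)) ξ ∧
      (∀ r : ℝ, 0 < flQuartic N (2 * e * (1 - u)) ((1 - u) / u) ξ (etaS e u) ζ (nuS e u) r) ∧
      ((N - 1) * p - etaS e u + N * rhoS e u * (2 * e * (1 - u))) ^ 2 <
        N * (N + 2) * ξ * ((1 - u) / u * nuS e u + 2 * rhoS e u * (p - 2 * e * (1 - u))) ∧
      ((1 - u) / u * ((N - 1) * q - nuS e u) - N * rhoS e u * (2 * e * (1 - u))) ^ 2 <
        N * (N + 2) * ((1 - u) / u * ζ) * (etaS e u - 2 * rhoS e u * (q - 2 * e * (1 - u))) := by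
  have hg0 : 0 ≤ gn e u := by
    simp only [gn]
    have : 0 < u := he.trans hu
    positivity
  have hI := sI_pos he he3 hu hu2 hlo hup hhe
  have hII := sII_pos he he3 hu hu2 hlo hup hhe
  have hu0 : 0 < u := he.trans hu
  have hx : 0 < 1 - u := by linarith
  have hm : 0 < 1 + 3 * e := by linarith
  have hs : 0 < 1 + 2 * e := by linarith
  have hln : 2 * e * (1 - u) * (N - 2) ≤ 2 := by
    rw [hne, show 2 * e * (1 - u) * ((1 + 2 * e) / e - 2) = 2 * (1 - u) by
      field_simp; ring]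
    nlinarith
  have hl1 : 2 * e * (1 - u) < 1 := by nlinarith
  have hl0 : -1 < 2 * e * (1 - u) := by
    have : 0 < 2 * e * (1 - u) := by positivity
    linarith
  have hxi : 0 < xiN e u := by
    simp only [xiN, gn]
    have : u * e * (1 + e) * 2 < 1 := by nlinarith [mul_le_mul_of_nonneg_left hu2 he.le]
    have : 1 ≤ (1 + 2 * e * (1 - u)) * (1 + 3 * e) := by nlinarith [mul_pos he hx]
    linarith
  have hzeta : 0 < zetaN e u := by
    simp only [zetaN, gn]
    have : u * e * (1 + e) * 2 < 1 := by nlinarith [mul_le_mul_of_nonneg_left hu2 he.le]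
    have : 1 ≤ (1 + 2 * e * u) * (1 + 3 * e) := by nlinarith [mul_pos he hu0]
    linarith
  set D := (e * u * (1 + 2 * e) * (1 + 3 * e)) ^ 2 with hDdef
  have hD : 0 < D := by positivity
  rcases lt_or_eq_of_le hu2 with hu2' | hu2'
  · -- off the diagonal
    obtain ⟨hA, hq4⟩ := Strip.quartic_pos he he3 hu hu2'
    refine ⟨xiN e u / (1 + 3 * e), zetaN e u / (1 + 3 * e), by positivity, ?_, by positivity, ?_,
      ?_, fun r => ?_, ?_, ?_⟩
    · rw [div_le_iff₀ hm, xiN]; linarith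
    · rw [div_le_iff₀ hm, zetaN]; linarith
    · have : flG N (2 * e * (1 - u)) (xiN e u / (1 + 3 * e)) =
          qA e u / (4 * (1 + 2 * e) * (1 + 3 * e) ^ 2 * u) := by
        simp only [flG, qA, gP, lN, hne]; field_simp; ring
      rw [this]; positivity
    · have : flQuartic N (2 * e * (1 - u)) ((1 - u) / u) (xiN e u / (1 + 3 * e))
          (etaN e u / (1 + 3 * e)) (zetaN e u / (1 + 3 * e)) (nuN e u / (1 + 3 * e)) r =
          (qA e u * r ^ 4 + qB e u * r ^ 3 + qC e u * r ^ 2 + qR e u * r + qE e u) /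
            (4 * (1 + 2 * e) * (1 + 3 * e) ^ 2 * u) := by
        simp only [flQuartic, flG, flJ, flM, qA, qB, qC, qR, qE, gP, jP, lN, hne]
        field_simp; ring
      simp only [etaS, nuS]
      rw [this]; exact div_pos (hq4 r) (by positivity)
    · rw [← sub_pos]
      refine lt_of_lt_of_eq (div_pos hI hD) ?_
      simp only [etaS, nuS, rhoS, sI, rI, lI, hDdef, hne, hpe]
      field_simp; ring
    · rw [← sub_pos]
      refine lt_of_lt_of_eq (div_pos hII hD) ?_
      simp only [etaS, nuS, rhoS, sII, rII, lII, hDdef, hne, hqe]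
      field_simp; ring
  · -- the diagonal
    have hu' : u = 1 / 2 := by linarith
    subst hu'
    set K := (1 + 4 * e) * (1 + 2 * e) * (1 / 4 * nuN e (1 / 2) * (1 + 2 * e) ^ 2) with hK
    have hnu : 0 < nuN e (1 / 2) := by simp only [nuN, gn]; positivity
    have hKp : 0 < K := by positivity
    obtain ⟨τ, hτ, hτe, hτI, hτII, hτx⟩ : ∃ τ : ℝ, 0 < τ ∧ 8 * τ ≤ e ∧
        τ * K < sI e (1 / 2) h ∧ τ * K < sII e (1 / 2) h ∧ τ < xiN e (1 / 2) := by
      refine ⟨min (e / 8) (min (sI e (1 / 2) h / (2 * K))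
        (min (sII e (1 / 2) h / (2 * K)) (xiN e (1 / 2) / 2))), ?_, ?_, ?_, ?_, ?_⟩
      · exact lt_min (by positivity) (lt_min (by positivity) (lt_min (by positivity)
          (by positivity)))
      · linarith [min_le_left (e / 8) (min (sI e (1 / 2) h / (2 * K))
          (min (sII e (1 / 2) h / (2 * K)) (xiN e (1 / 2) / 2)))]
      · have := (min_le_right (e / 8) _).trans (min_le_left (sI e (1 / 2) h / (2 * K))
          (min (sII e (1 / 2) h / (2 * K)) (xiN e (1 / 2) / 2)))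
        rw [le_div_iff₀ (by positivity)] at this
        linarith
      · have := ((min_le_right (e / 8) _).trans (min_le_right (sI e (1 / 2) h / (2 * K)) _)).trans
          (min_le_left (sII e (1 / 2) h / (2 * K)) (xiN e (1 / 2) / 2))
        rw [le_div_iff₀ (by positivity)] at this
        linarith
      · have := ((min_le_right (e / 8) _).trans (min_le_right (sI e (1 / 2) h / (2 * K)) _)).trans
          (min_le_right (sII e (1 / 2) h / (2 * K)) (xiN e (1 / 2) / 2))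
        linarith
    have hq4 := diag_quartic_pos he he3 hτ hτe
    have hG : 0 < gP e (1 / 2) (xiN e (1 / 2) - τ) := by simpa using hq4 0
    have hpos : 0 < (xiN e (1 / 2) - τ) / (1 + 3 * e) := div_pos (by linarith) hm
    rw [show 2 * e * (1 - 1 / 2) = e by ring, show (1 - 1 / 2 : ℝ) / (1 / 2) = 1 by norm_num]
    simp only [etaS, nuS, show rhoS e (1 / 2) = 0 by norm_num [rhoS],
      show nuN e (1 / 2) = etaN e (1 / 2) by simp only [nuN, etaN]; ring]
    refine ⟨(xiN e (1 / 2) - τ) / (1 + 3 * e), (xiN e (1 / 2) - τ) / (1 + 3 * e), hpos, ?_, hpos,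
      ?_, ?_, fun r => ?_, ?_, ?_⟩
    · rw [div_le_iff₀ hm, xiN]; linarith
    · rw [div_le_iff₀ hm, xiN]; linarith
    · have : flG N e ((xiN e (1 / 2) - τ) / (1 + 3 * e)) =
          gP e (1 / 2) (xiN e (1 / 2) - τ) / (4 * (1 + 2 * e) * (1 + 3 * e) ^ 2) := by
        simp only [flG, gP, lN, hne]; field_simp; ring
      rw [this]; positivity
    · have : flQuartic N e 1 ((xiN e (1 / 2) - τ) / (1 + 3 * e)) (etaN e (1 / 2) / (1 + 3 * e))
          ((xiN e (1 / 2) - τ) / (1 + 3 * e)) (etaN e (1 / 2) / (1 + 3 * e)) r =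
          (gP e (1 / 2) (xiN e (1 / 2) - τ) * r ^ 4 +
            jP e (1 / 2) (xiN e (1 / 2) - τ) (etaN e (1 / 2)) * r ^ 3 + 2 * qC e (1 / 2) * r ^ 2 +
            jP e (1 / 2) (xiN e (1 / 2) - τ) (etaN e (1 / 2)) * r +
            gP e (1 / 2) (xiN e (1 / 2) - τ)) / (4 * (1 + 2 * e) * (1 + 3 * e) ^ 2) := by
        simp only [flQuartic, flG, flJ, flM, qC, gP, jP, lN, hne, etaN, nuN, gn]
        field_simp; ring
      rw [this]; exact div_pos (hq4 r) (by positivity)
    · rw [← sub_pos]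
      refine lt_of_lt_of_eq (div_pos (sub_pos.2 hτI) hD) ?_
      simp only [sI, rI, lI, hK, hDdef, hne, hpe, xiN, etaN, nuN, gn]
      field_simp; ring
    · rw [← sub_pos]
      refine lt_of_lt_of_eq (div_pos (sub_pos.2 hτII) hD) ?_
      simp only [sII, rII, lII, hK, hDdef, hne, hqe, xiN, etaN, nuN, zetaN, gn]
      field_simp; ring


/-- Elementary bounds for the strip parameters. -/
theorem strip_bounds (he : 0 < e) (he3 : 3 * e ≤ 1) (hu : e < u) (hu2 : 2 * u ≤ 1) :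
    1 + 2 * e * (1 - u) ≤ etaS e u ∧ etaS e u ≤ 1 + 2 * e * (1 - u) + 2 * u * e ∧
    1 + 2 * e * u ≤ nuS e u ∧ nuS e u ≤ 1 + 4 * (e * u) ∧
    0 ≤ rhoS e u ∧ rhoS e u * (2 * u) ≤ 1 - 2 * u ∧
    rhoS e u * (2 * u) * (1 + 2 * e) ≤ (1 - 2 * u) * (1 + 2 * e * u * (1 - 2 * u)) := by
  have hu0 : 0 < u := he.trans hu
  have hm : 0 < 1 + 3 * e := by linarith
  have hue : 0 ≤ e * u := by positivity
  have hw : 0 ≤ 1 - 2 * u := by linarith
  have hW : 0 < 1 + 2 * e * u * (1 - 2 * u) := by positivity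
  have hp : 0 ≤ (1 + 2 * e) * (1 + 3 * e) - 2 * e ^ 3 := by
    nlinarith [mul_nonneg (sq_nonneg e) (sub_nonneg.2 he3)]
  have key : rhoS e u * (2 * u) * (1 + 2 * e) ≤ (1 - 2 * u) * (1 + 2 * e * u * (1 - 2 * u)) := by
    have e1 : rhoS e u * (2 * u) * (1 + 2 * e) = (1 - 2 * u) * (1 + 2 * e * u * (1 - 2 * u)) *
        (((1 + 2 * e) * (1 + 3 * e) - 2 * e ^ 3) / ((1 + 2 * e) * (1 + 3 * e))) := by
      simp only [rhoS, fn]; field_simp
    rw [e1]
    refine mul_le_of_le_one_right (by positivity) ?_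
    rw [div_le_one (by positivity)]
    linarith [pow_nonneg he.le 3]
  refine ⟨?_, ?_, ?_, ?_, ?_, ?_, key⟩
  · rw [etaS, le_div_iff₀ hm, etaN, gn]; linarith [mul_nonneg hue he.le]
  · rw [etaS, div_le_iff₀ hm, etaN, gn]; linarith [mul_nonneg hue he.le]
  · rw [nuS, le_div_iff₀ hm, nuN, gn]; linarith [mul_nonneg hue he.le]
  · rw [nuS, div_le_iff₀ hm, nuN, gn]; linarith [mul_nonneg hue he.le]
  · simp only [rhoS, fn]
    exact div_nonneg (mul_nonneg hw (mul_nonneg hp hW.le)) (by positivity)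
  · refine le_of_mul_le_mul_right (key.trans (mul_le_mul_of_nonneg_left ?_ hw))
      (by linarith : 0 < 1 + 2 * e)
    have h1 : u * (1 - 2 * u) ≤ 1 := mul_le_one₀ (by linarith) hw (by linarith)
    linarith [mul_le_mul_of_nonneg_left h1 he.le]

/-- The cost of the squared shift for the strip parameters. -/
theorem shiftOK_strip {n : ℕ} {w d : ℝ} (hn : 5 ≤ n) (hw : -2 < w) (hw0 : w < 0) (hd : 0 ≤ d)
    (hNdef : N = 2 * ((n : ℝ) + w) / (2 + w))
    (he : 0 < e) (he3 : 3 * e ≤ 1) (hu : e < u) (hu2 : 2 * u ≤ 1)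
    (hd2 : n * d * (1 + 5 * (1 - 2 * u) ^ 2 / (16 * u * (1 - u))) < 2 * (-w) * ((n : ℝ) - 2)) :
    shiftOK n N w d ((1 - u) / u) (rhoS e u) := by
  obtain ⟨-, -, -, -, hρ0, hρ, -⟩ := strip_bounds he he3 hu hu2
  have h5 : (5 : ℝ) ≤ n := by exact_mod_cast hn
  have hu0 : 0 < u := he.trans hu
  have hx : 0 < 1 - u := by linarith
  have h2w : 0 < 2 + w := by linarith
  have hwn : 0 < (-w) * ((n : ℝ) - 2) := mul_pos (by linarith) (by linarith)
  have hNn : N - n = (-w) * ((n : ℝ) - 2) / (2 + w) := by rw [hNdef]; field_simp; ring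
  have hN5 : 5 ≤ N := by
    have : 0 < N - n := by rw [hNn]; positivity
    linarith
  set X := 1 - 1 / N with hX
  have hX1 : 4 / 5 ≤ X ∧ X ≤ 1 := by
    have h1 : 1 / N ≤ 1 / 5 := one_div_le_one_div_of_le (by norm_num) hN5
    have h2 : 0 < 1 / N := one_div_pos.2 (by linarith)
    constructor <;> linarith
  set K := (1 - 2 * u) ^ 2 / (4 * u * (1 - u)) with hK
  have hKρ : rhoS e u ^ 2 / ((1 - u) / u) ≤ K := by
    have h1 := pow_le_pow_left₀ (by positivity) hρ 2
    rw [hK, div_le_div_iff₀ (by positivity) (by positivity)]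
    calc rhoS e u ^ 2 * (4 * u * (1 - u)) = (rhoS e u * (2 * u)) ^ 2 * ((1 - u) / u) := by
          field_simp; ring
      _ ≤ _ := by gcongr
  have hK5 : 5 * (1 - 2 * u) ^ 2 / (16 * u * (1 - u)) = 5 / 4 * K := by
    rw [hK]; field_simp; ring
  have hK0 : 0 ≤ K := by positivity
  rw [hK5] at hd2
  have hin : X ^ 2 + rhoS e u ^ 2 / ((1 - u) / u) ≤ X * (1 + 5 / 4 * K) := by
    have h1 := mul_le_mul_of_nonneg_right hX1.1 hK0
    have h2 := mul_le_of_le_one_right (by linarith : (0 : ℝ) ≤ X) hX1.2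
    linarith
  unfold shiftOK
  refine lt_of_le_of_lt (mul_le_mul_of_nonneg_left hin ?_) ?_
  · refine mul_nonneg (div_nonneg (Nat.cast_nonneg n) ?_) hd
    exact mul_nonneg (mul_nonneg (sq_nonneg _) (by linarith)) (by rw [hNn]; positivity)
  · have e1 : lossM n N w * d * (X * (1 + 5 / 4 * K)) = X / ((2 + w) * N) *
        (n * d * (1 + 5 / 4 * K) / ((-w) * ((n : ℝ) - 2))) := by
      rw [lossM, hNn]; field_simp
    rw [e1, show 2 / ((2 + w) * N) * X = X / ((2 + w) * N) * 2 by ring]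
    refine mul_lt_mul_of_pos_left ?_ (div_pos (by linarith) (by positivity))
    rw [div_lt_iff₀ hwn]
    linarith

/-- The side conditions for raising the second weight. -/
theorem right_cond {c q : ℝ} (hne : N = (1 + 2 * e) / e) (hqe : q = (u + 2 * h) / (1 - u))
    (hlo : (1 - u) * e ≤ h) (he : 0 < e) (he3 : 3 * e ≤ 1) (hu : e < u) (hu2 : 2 * u ≤ 1)
    (hc : 0 ≤ c) (hc3 : c ≤ 2 / 3) :
    N * c * (rhoS e u * (etaS e u + 2 * e * (1 - u) - 1) +
        (1 - u) / u * (nuS e u + 2 * e * (1 - u) - 1)) ≤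
      4 * ((1 - u) / u * ((N - 1) * q - nuS e u) - N * rhoS e u * (2 * e * (1 - u))) := by
  obtain ⟨hη1, hη, hν1, hν, hρ0, hρ, hρ'⟩ := strip_bounds he he3 hu hu2
  have hu0 : 0 < u := he.trans hu
  have hx : 0 < 1 - u := by linarith
  have hw : 0 ≤ 1 - 2 * u := by linarith
  set E := e * (1 - u) / u with hE
  have hE0 : 0 ≤ E := by positivity
  have hE1 : E ≤ 1 := by rw [hE, div_le_one hu0]; nlinarith
  have hN : 0 < N := by rw [hne]; positivity
  have hρx : rhoS e u ≤ (1 - u) / (2 * u) := by rw [le_div_iff₀ (by positivity)]; linarith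
  have hL : rhoS e u * (etaS e u + 2 * e * (1 - u) - 1) +
      (1 - u) / u * (nuS e u + 2 * e * (1 - u) - 1) ≤ 9 / 2 * E := by
    have h1 : 0 ≤ e * (1 - u) := by positivity
    have h2 := mul_le_mul hρx (sub_le_sub_right (add_le_add_right hη (2 * e * (1 - u))) 1)
      (by linarith) (by positivity)
    have h3 := mul_le_mul_of_nonneg_left
      (sub_le_sub_right (add_le_add_right hν (2 * e * (1 - u))) 1)
      (by positivity : 0 ≤ (1 - u) / u)
    have e1 : (1 - u) / (2 * u) * (1 + 2 * e * (1 - u) + 2 * u * e + 2 * e * (1 - u) - 1) =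
        E * (2 - u) := by rw [hE]; field_simp; ring
    have e2 : (1 - u) / u * (1 + 4 * (e * u) + 2 * e * (1 - u) - 1) = E * (2 + 2 * u) := by
      rw [hE]; field_simp; ring
    have h4 : E * (4 + u) ≤ E * (9 / 2) := mul_le_mul_of_nonneg_left (by linarith) hE0
    linarith
  have hR : (1 + e) / e ≤
      (1 - u) / u * ((N - 1) * q - nuS e u) - N * rhoS e u * (2 * e * (1 - u)) := by
    have e3 : e * ((1 - u) / u * ((N - 1) * q - nuS e u) - N * rhoS e u * (2 * e * (1 - u))) =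
        (1 + e) * (1 + 2 * h / u) - E * nuS e u -
          E * (rhoS e u * (2 * u) * (1 + 2 * e)) := by
      rw [hne, hqe, hE]; field_simp; ring
    have h5 : 2 * E ≤ 2 * h / u := by
      rw [hE, mul_div_assoc']; gcongr; linarith
    rw [div_le_iff₀ he]
    have h6 : E * (nuS e u + rhoS e u * (2 * u) * (1 + 2 * e)) ≤
        E * (2 * (1 + e)) := by
      refine mul_le_mul_of_nonneg_left ?_ hE0
      have h7 : e * u * (1 - 2 * u) ^ 2 ≤ e * u :=
        mul_le_of_le_one_right (by positivity) (pow_le_one₀ hw (by linarith))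
      have h8 : 3 * e * u ≤ 1 * u := mul_le_mul_of_nonneg_right he3 hu0.le
      linarith
    have := mul_le_mul_of_nonneg_left h5 (by linarith : (0 : ℝ) ≤ 1 + e)
    linarith
  have hNE : N * c * (9 / 2 * E) ≤ 4 * ((1 + e) / e) := by
    have h8 : c * E ≤ 2 / 3 * 1 := mul_le_mul hc3 hE1 hE0 (by norm_num)
    have h9 : N * (c * E) ≤ N * (2 / 3) := mul_le_mul_of_nonneg_left (by linarith) hN.le
    have h10 : 3 * N ≤ 4 * ((1 + e) / e) := by
      rw [hne, mul_div_assoc', mul_div_assoc']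
      exact div_le_div_of_nonneg_right (by linarith) he.le
    linarith
  calc _ ≤ N * c * (9 / 2 * E) := mul_le_mul_of_nonneg_left hL (mul_nonneg hN.le hc)
    _ ≤ 4 * ((1 + e) / e) := hNE
    _ ≤ _ := by linarith

/-- The side conditions for raising the first weight. -/
theorem left_cond {c p ξ ζ : ℝ} (hne : N = (1 + 2 * e) / e) (hpe : p = ((1 - u) + 2 * h) / u)
    (hlo : (1 - u) * e ≤ h) (he : 0 < e) (he3 : 3 * e ≤ 1) (hu : e < u) (hu2 : 2 * u ≤ 1)
    (hξ : ξ ≤ 1 + 2 * e * (1 - u)) (hζ : ζ ≤ 1 + 2 * e * u) (hc : 0 ≤ c) (hc3 : c ≤ 2 / 3) :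
    2 * e * (1 - u) ≤ p ∧
    rhoS e u * (1 + 2 * e * (1 - u) + ζ) ≤ (1 - u) / u * nuS e u ∧
    ξ * (N + 2) ≤ (N - 1) * (1 + 2 * e * (1 - u) + ξ) ∧
    0 ≤ rhoS e u / (1 + c) * (2 * e * (1 - u) + 1 - nuS e u) +
      (1 - 1 / N) * (etaS e u + 2 * e * (1 - u) - 1) ∧
    N * c * (rhoS e u / (1 + c) * (2 * e * (1 - u) + 1 - nuS e u) +
        (1 - 1 / N) * (etaS e u + 2 * e * (1 - u) - 1)) ≤
      4 * ((N - 1) * p - etaS e u + N * rhoS e u * (2 * e * (1 - u))) := by
  obtain ⟨hη1, hη, hν1, hν, hρ0, hρ, hρ'⟩ := strip_bounds he he3 hu hu2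
  have hu0 : 0 < u := he.trans hu
  have hx : 0 < 1 - u := by linarith
  have hw : 0 ≤ 1 - 2 * u := by linarith
  have hN5 : 5 ≤ N := by rw [hne, le_div_iff₀ he]; linarith
  have hp : 1 ≤ p := by
    rw [hpe, le_div_iff₀ hu0]
    linarith [mul_nonneg hx.le he.le]
  have hex : 2 * e * (1 - u) ≤ 1 := by
    linarith [mul_le_mul_of_nonneg_left (by linarith : 1 - u ≤ 1) he.le]
  have hρx : rhoS e u * (2 * u) ≤ 1 - u := by linarith
  refine ⟨hex.trans hp, ?_, ?_, ?_, ?_⟩
  · rw [div_mul_eq_mul_div, le_div_iff₀ hu0]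
    have h2 : u * (1 - 2 * u) ^ 2 * e * 2 ≤ u := by
      have : (1 - 2 * u) ^ 2 * e * 2 ≤ 1 := by
        have := mul_le_mul (pow_le_one₀ hw (by linarith) : (1 - 2 * u) ^ 2 ≤ 1)
          (by linarith : e ≤ 1 / 3) he.le zero_le_one
        linarith
      linarith [mul_le_mul_of_nonneg_left this hu0.le]
    have h3 : rhoS e u * (2 * u) * (1 + 2 * e) ≤ 1 - u := by linarith
    calc rhoS e u * (1 + 2 * e * (1 - u) + ζ) * u
        ≤ rhoS e u * (2 + 2 * e) * u :=
          mul_le_mul_of_nonneg_right (mul_le_mul_of_nonneg_left (by linarith) hρ0) hu0.le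
      _ = rhoS e u * (2 * u) * (1 + e) := by ring
      _ ≤ rhoS e u * (2 * u) * (1 + 2 * e) := by gcongr; linarith
      _ ≤ 1 - u := h3
      _ ≤ (1 - u) * nuS e u := le_mul_of_one_le_right hx.le (by linarith [mul_pos he hu0])
  · have h4 : 4 * (1 + 2 * e * (1 - u)) ≤ (N - 1) * (1 + 2 * e * (1 - u)) :=
      mul_le_mul_of_nonneg_right (by linarith) (by linarith [mul_pos he hx])
    linarith [mul_pos he hx]
  · set r := rhoS e u / (1 + c) with hr
    have hr0 : 0 ≤ r := div_nonneg hρ0 (by linarith)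
    have hr1 : r ≤ rhoS e u := div_le_self hρ0 (by linarith)
    have h5 : r * (2 * e * u) ≤ (1 - u) * e := by
      have := mul_le_mul_of_nonneg_right ((mul_le_mul_of_nonneg_right hr1 (by linarith :
        (0 : ℝ) ≤ 2 * u)).trans hρx) he.le
      linarith
    have h6 : -(4 * (e * u)) ≤ 2 * e * (1 - u) + 1 - nuS e u := by linarith [mul_pos he hx]
    have h7 : r * -(4 * (e * u)) ≤ r * (2 * e * (1 - u) + 1 - nuS e u) :=
      mul_le_mul_of_nonneg_left h6 hr0
    have h8 : 4 / 5 * (4 * (e * (1 - u))) ≤ (1 - 1 / N) * (etaS e u + 2 * e * (1 - u) - 1) := by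
      refine mul_le_mul ?_ (by linarith) (by positivity) ?_
      · have := one_div_le_one_div_of_le (by norm_num) hN5
        linarith
      · have := one_div_le_one_div_of_le (by norm_num) hN5
        linarith
    linarith [mul_pos he hx]
  · have h1 : rhoS e u / (1 + c) * (2 * e * (1 - u) + 1 - nuS e u) ≤ 1 := by
      have h0 : 2 * e * (1 - u) + 1 - nuS e u ≤ 2 * e := by linarith [mul_pos he hu0]
      refine (mul_le_mul_of_nonneg_left h0 (div_nonneg hρ0 (by linarith))).trans ?_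
      have h9 : rhoS e u * (2 * e) ≤ rhoS e u * (2 * u) :=
        mul_le_mul_of_nonneg_left (by linarith) hρ0
      have := mul_le_mul_of_nonneg_right (div_le_self hρ0 (by linarith : 1 ≤ 1 + c))
        (by linarith : (0 : ℝ) ≤ 2 * e)
      linarith
    have h2 : (1 - 1 / N) * (etaS e u + 2 * e * (1 - u) - 1) ≤ 4 / 3 := by
      refine (mul_le_of_le_one_left ?_ ?_).trans ?_
      · linarith [mul_pos he hx]
      · have : 0 < 1 / N := one_div_pos.2 (by linarith)
        linarith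
      · linarith [mul_pos he hu0]
    have h3 : N * c * (rhoS e u / (1 + c) * (2 * e * (1 - u) + 1 - nuS e u) +
        (1 - 1 / N) * (etaS e u + 2 * e * (1 - u) - 1)) ≤ N * c * (7 / 3) :=
      mul_le_mul_of_nonneg_left (by linarith) (mul_nonneg (by linarith) hc)
    have h4 : N * c ≤ N * (2 / 3) := mul_le_mul_of_nonneg_left hc3 (by linarith)
    have h5 : N - 1 ≤ (N - 1) * p := le_mul_of_one_le_right (by linarith) hp
    have h6 : 0 ≤ N * rhoS e u * (2 * e * (1 - u)) := by positivity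
    have h7 : etaS e u ≤ 5 / 3 := by linarith
    linarith

/-- **The strip range with one weight raised.** -/
theorem hasParamsU_coords {n : ℕ} (hn : 5 ≤ n) {p q w w₁ w₂ : ℝ} (hw : -2 < w) (hw0 : w < 0)
    (h₁ : w ≤ w₁) (h₂ : w ≤ w₂) (h12 : w₁ = w ∨ w₂ = w) (hw₁0 : w₁ ≤ 0) (hw₂0 : w₂ ≤ 0)
    (hNdef : N = 2 * ((n : ℝ) + w) / (2 + w))
    (hne : N = (1 + 2 * e) / e) (hpe : p = ((1 - u) + 2 * h) / u)
    (hqe : q = (u + 2 * h) / (1 - u))
    (he : 0 < e) (he3 : 3 * e ≤ 1) (hu : e < u) (hu2 : 2 * u ≤ 1)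
    (hlo : (1 - u) * e ≤ h) (hup : h ≤ e * (1 - 2 * u ^ 2 * (1 - 2 * u) ^ 2)) (hhe : h < e)
    (hexp : (N - 4) * (p * q - 1) < (1 - 2 * e * (1 - u)) * (2 * (p + q + 2)))
    (hd : n * |w₁ - w₂| * (1 + 5 * (1 - 2 * u) ^ 2 / (16 * u * (1 - u))) <
      2 * (-w) * ((n : ℝ) - 2)) :
    HasParamsU n N p q w w₁ w₂ := by
  have h5 : (5 : ℝ) ≤ n := by exact_mod_cast hn
  have hu0 : 0 < u := he.trans hu
  have hx : 0 < 1 - u := by linarith
  have h2w : 0 < 2 + w := by linarith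
  have hnw : 0 < (n : ℝ) + w := by linarith
  have hNn : (n : ℝ) < N := by
    rw [hNdef, lt_div_iff₀ h2w]
    linarith [mul_pos (neg_pos.2 hw0) (by linarith : (0 : ℝ) < (n : ℝ) - 2)]
  have hgain : ∀ w' : ℝ, w ≤ w' → w' ≤ 0 → 0 ≤ gain N w w' ∧ gain N w w' ≤ 2 / 3 := by
    intro w' h h0
    have : gain N w w' = (w' - w) / ((n : ℝ) + w) := by
      rw [gain, hNdef]; field_simp
    rw [this]
    exact ⟨div_nonneg (by linarith) hnw.le, by rw [div_le_iff₀ hnw]; linarith⟩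
  obtain ⟨ξ, ζ, hξ, hξ1, hζ, hζ1, hA, h0, hI, hII⟩ :=
    strip_data (by linarith : 5 ≤ N) hne hpe hqe he he3 hu hu2 hlo hup hhe
  obtain ⟨hη1, hη, hν1, hν, hρ0, -, -⟩ := strip_bounds he he3 hu hu2
  have hl0 : 0 ≤ 2 * e * (1 - u) := by positivity
  have hl1 : 2 * e * (1 - u) < 1 := by
    linarith [mul_lt_of_lt_one_right (by linarith : (0 : ℝ) < 2 * e)
      (by linarith : 1 - u < 1)]
  have ht : 0 < (1 - u) / u := by positivity
  have hue : 0 ≤ e * u := by positivity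
  rcases h12 with rfl | rfl
  · have hk := shiftOK_strip hn hw hw0 (sub_nonneg.2 h₂) hNdef he he3 hu hu2
      (by rwa [abs_sub_comm, abs_of_nonneg (sub_nonneg.2 h₂)] at hd)
    exact hasParamsU_freeL_right (by linarith) hNn hw h₂ hl1 hl0 hexp ht hξ hζ hρ0 (by linarith)
      (by linarith) hA h0 hI hII
      (right_cond hne hqe hlo he he3 hu hu2 (hgain _ h₂ hw₂0).1 (hgain _ h₂ hw₂0).2) hk
  · have hk := shiftOK_strip hn hw hw0 (sub_nonneg.2 h₁) hNdef he he3 hu hu2
      (by rwa [abs_of_nonneg (sub_nonneg.2 h₁)] at hd)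
    obtain ⟨k1, k2, k3, k4, k5⟩ :=
      left_cond hne hpe hlo he he3 hu hu2 hξ1 hζ1 (hgain _ h₁ hw₁0).1 (hgain _ h₁ hw₁0).2
    exact hasParamsU_freeL_left (by linarith) hNn hw h₁ hl1 hl0 hexp ht hξ hζ hρ0 k1 hA h0 hI hII
      k2 k3 k4 k5 hk

end Vale.Agent.P100.RealDim

end
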