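import Mathlib
import Vale.Agent.P100.AssemblyG
import Vale.Agent.P100.UnequalStrip
import Vale.Agent.P100.RealDim.Range

/-!
# Nonexistence for two weights: the layer range at the smaller weight

With `w = min w₁ w₂` and `N = 2 (n + w) / (2 + w)`, the strip range of the dimension `N` is free of
solutions for the weights `w₁, w₂` as soon as the weights are equal or
`n |w₁ - w₂| (1 + 5 (α - β)² / (16 α β)) < 2 |w| (n - 2)`.
-/

open Laplacian

namespace Vale.Agent.P100.RealDim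

/-- The coordinates `(e, u, h)` of a point of the strip range. -/
theorem strip_coords {N : ℝ} (hn : 5 ≤ N) {p q α β : ℝ} (hβα : β ≤ α) (hβ0 : 0 < β)
    (hpα : p * β = α + 2) (hqα : q * α = β + 2) (hαN : α ≤ N - 2) (hk : α < (N - 3) * β)
    (hsub : N - 2 < α + β)
    (hσ : 2 * β ^ 2 * (α - β) ^ 2 / (α + β) ^ 3 ≤ α + β - (N - 2)) :
    ∃ e u h : ℝ, e = 1 / (N - 2) ∧ u = β / (α + β) ∧ N = (1 + 2 * e) / e ∧
      p = ((1 - u) + 2 * h) / u ∧ q = (u + 2 * h) / (1 - u) ∧ 0 < e ∧ 3 * e ≤ 1 ∧ e < u ∧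
      2 * u ≤ 1 ∧ (1 - u) * e ≤ h ∧ h ≤ e * (1 - 2 * u ^ 2 * (1 - 2 * u) ^ 2) ∧ h < e := by
  have hα0 : 0 < α := hβ0.trans_le hβα
  have hσ0 : 0 < α + β := by linarith
  have hn2 : 0 < N - 2 := by linarith
  refine ⟨1 / (N - 2), β / (α + β), 1 / (α + β), rfl, rfl, ?_, ?_, ?_, by positivity, ?_, ?_, ?_,
    ?_, ?_, ?_⟩
  · field_simp; ring
  · rw [show 1 - β / (α + β) = α / (α + β) by field_simp; ring, mul_one_div, ← add_div,
      div_div_div_cancel_right₀ hσ0.ne', ← hpα, mul_div_cancel_right₀ _ hβ0.ne']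
  · rw [show 1 - β / (α + β) = α / (α + β) by field_simp; ring, mul_one_div, ← add_div,
      div_div_div_cancel_right₀ hσ0.ne', ← hqα, mul_div_cancel_right₀ _ hα0.ne']
  · rw [mul_one_div, div_le_one hn2]; linarith
  · rw [div_lt_div_iff₀ hn2 hσ0]; linarith
  · rw [mul_div_assoc', div_le_one hσ0]; linarith
  · rw [show (1 - β / (α + β)) * (1 / (N - 2)) = α / (α + β) * (1 / (N - 2)) by
      field_simp; ring, div_mul_div_comm, mul_one, div_le_div_iff₀ (by positivity) hσ0]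
    linarith [mul_le_mul_of_nonneg_right hαN hσ0.le]
  · have e1 : 1 / (N - 2) * (1 - 2 * (β / (α + β)) ^ 2 * (1 - 2 * (β / (α + β))) ^ 2) =
        ((α + β) - 2 * β ^ 2 * (α - β) ^ 2 / (α + β) ^ 3) / ((N - 2) * (α + β)) := by
      field_simp; ring
    rw [e1, div_le_div_iff₀ hσ0 (by positivity)]
    linarith [mul_le_mul_of_nonneg_right hσ hσ0.le]
  · rw [one_div_lt_one_div hσ0 hn2]; exact hsub

/-- The main case: `q ≤ p`, outside the elementary ranges, `w = min w₁ w₂`. -/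
theorem no_solution_unequal_ordered {n : ℕ} (hn : 5 ≤ n) {w w₁ w₂ : ℝ} (hw : -2 < w)
    (hw₁ : w₁ ≤ 0) (hw₂ : w₂ ≤ 0) (hwmin : w = min w₁ w₂) {p q : ℝ} (hq : 0 < q) (hqp : q ≤ p)
    (hpq : 1 < p * q) {α β : ℝ} (hα : α = 2 * (p + 1) / (p * q - 1))
    (hβ : β = 2 * (q + 1) / (p * q - 1)) (hαN : α ≤ coneDim n w - 2)
    (hk : α < (coneDim n w - 3) * β) (hsub : coneDim n w - 2 < α + β)
    (hσ : 2 * β ^ 2 * (α - β) ^ 2 / (α + β) ^ 3 ≤ α + β - (coneDim n w - 2))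
    (hd : w₁ = w₂ ∨ n * |w₁ - w₂| * (1 + 5 * (α - β) ^ 2 / (16 * α * β)) <
      2 * (-w) * ((n : ℝ) - 2)) :
    ¬ ∃ u v : EuclideanSpace ℝ (Fin n) → ℝ,
      Continuous u ∧ Continuous v ∧ ContDiffOn ℝ 2 u {0}ᶜ ∧ ContDiffOn ℝ 2 v {0}ᶜ ∧
      (∀ x, 0 < u x) ∧ (∀ x, 0 < v x) ∧ (∀ x, x ≠ 0 → Δ u x = -(‖x‖ ^ w₁ * v x ^ p)) ∧
      (∀ x, x ≠ 0 → Δ v x = -(‖x‖ ^ w₂ * u x ^ q)) := by
  have h₁ : w ≤ w₁ := hwmin.trans_le (min_le_left _ _)
  have h₂ : w ≤ w₂ := hwmin.trans_le (min_le_right _ _)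
  have hp : 0 < p := hq.trans_le hqp
  have h5 : (5 : ℝ) ≤ n := by exact_mod_cast hn
  have hN5 : 5 ≤ coneDim n w := h5.trans (natCast_le_coneDim (by omega) hw (h₁.trans hw₁))
  have hd' : 0 < p * q - 1 := by linarith
  have hβα : β ≤ α := by rw [hα, hβ]; gcongr
  have hβ0 : 0 < β := by rw [hβ]; positivity
  have hpα : p * β = α + 2 := by
    rw [hα, hβ, mul_div_assoc', div_add' _ _ _ hd'.ne']; congr 1; ring
  have hqα : q * α = β + 2 := by
    rw [hα, hβ, mul_div_assoc', div_add' _ _ _ hd'.ne']; congr 1; ring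
  obtain ⟨e, u, h, he', hu', hne, hpe, hqe, he, he3, hu, hu2, hlo, hup, hhe⟩ :=
    strip_coords hN5 hβα hβ0 hpα hqα hαN hk hsub hσ
  have hsub' : coneDim n w - 2 < 2 * (p + 1) / (p * q - 1) + 2 * (q + 1) / (p * q - 1) := by
    rw [← hα, ← hβ]; exact hsub
  by_cases heq : w₁ = w₂
  · subst heq
    obtain rfl : w = w₁ := by rw [hwmin, min_self]
    exact no_solutionG_of_params hn hw hw₁ hp hq hpq (hasParamsN_of_hasParamsR hpq hsub'
      (hasParamsR_coords hN5 hne hpe hqe he he3 hu hu2 hlo hup hhe))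
  have hd2 := hd.resolve_left heq
  have h12 : w₁ = w ∨ w₂ = w := by
    rcases min_choice w₁ w₂ with h | h <;> rw [h] at hwmin
    · exact Or.inl hwmin.symm
    · exact Or.inr hwmin.symm
  have hw0 : w < 0 := by
    rcases h12 with rfl | rfl
    · exact lt_of_lt_of_le (lt_of_le_of_ne h₂ heq) hw₂
    · exact lt_of_lt_of_le (lt_of_le_of_ne h₁ (Ne.symm heq)) hw₁
  have hexp : (coneDim n w - 4) * (p * q - 1) < (1 - 2 * e * (1 - u)) * (2 * (p + q + 2)) := by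
    have hl : coneDim n w - 4 ≤ (1 - 2 * e * (1 - u)) * (coneDim n w - 2) := by
      have h1 : e * (coneDim n w - 2) = 1 := by rw [he', div_mul_cancel₀]; linarith
      linarith [mul_nonneg (he.trans hu).le (mul_nonneg he.le (by linarith :
        (0 : ℝ) ≤ coneDim n w - 2))]
    rw [← add_div, lt_div_iff₀ hd'] at hsub'
    have hl0 : 0 < 1 - 2 * e * (1 - u) := by
      linarith [mul_lt_of_lt_one_right (by linarith : (0 : ℝ) < 2 * e)
        (by linarith : 1 - u < 1)]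
    calc (coneDim n w - 4) * (p * q - 1)
        ≤ (1 - 2 * e * (1 - u)) * (coneDim n w - 2) * (p * q - 1) := by gcongr
      _ = (1 - 2 * e * (1 - u)) * ((coneDim n w - 2) * (p * q - 1)) := by ring
      _ < (1 - 2 * e * (1 - u)) * (2 * (p + 1) + 2 * (q + 1)) := by gcongr
      _ = _ := by ring
  refine no_solutionU_of_params hn hw hw0 h₁ h₂ hp hq hpq
    (hasParamsU_coords hn hw hw0 h₁ h₂ h12 hw₁ hw₂ rfl hne hpe hqe he he3 hu hu2 hlo hup hhe hexp
      (lt_of_le_of_lt (le_of_eq ?_) hd2))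
  have hσ0 : α + β ≠ 0 := by linarith
  have hα0 : α ≠ 0 := by linarith
  have hβ1 : β ≠ 0 := hβ0.ne'
  rw [hu', show 1 - β / (α + β) = α / (α + β) by field_simp; ring,
    show 1 - 2 * (β / (α + β)) = (α - β) / (α + β) by field_simp; ring]
  congr 2
  field_simp

/-- **Nonexistence for two weights in the layer range at the smaller weight.** -/
theorem no_solution_unequal {n : ℕ} (hn : 5 ≤ n) {w₁ w₂ : ℝ} (hw₁ : w₁ ≤ 0) (hw₂ : w₂ ≤ 0)
    {p q : ℝ} (hp : 0 < p) (hq : 0 < q) {w α β : ℝ} (hw : w = min w₁ w₂)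
    (hα : α = 2 * (p + 1) / (p * q - 1)) (hβ : β = 2 * (q + 1) / (p * q - 1))
    (h : w ≤ -2 ∨ p * q ≤ 1 ∨ (coneDim n w - 2 < α + β ∧
      max α β < (coneDim n w - 3) * min α β ∧
      2 * min α β ^ 2 * (α - β) ^ 2 / (α + β) ^ 3 ≤ α + β - (coneDim n w - 2) ∧
      (w₁ = w₂ ∨ n * |w₁ - w₂| * (1 + 5 * (α - β) ^ 2 / (16 * α * β)) <
        2 * (-w) * ((n : ℝ) - 2)))) :
    ¬ ∃ u v : EuclideanSpace ℝ (Fin n) → ℝ,
      Continuous u ∧ Continuous v ∧ ContDiffOn ℝ 2 u {0}ᶜ ∧ ContDiffOn ℝ 2 v {0}ᶜ ∧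
      (∀ x, 0 < u x) ∧ (∀ x, 0 < v x) ∧ (∀ x, x ≠ 0 → Δ u x = -(‖x‖ ^ w₁ * v x ^ p)) ∧
      (∀ x, x ≠ 0 → Δ v x = -(‖x‖ ^ w₂ * u x ^ q)) := by
  rintro ⟨u, v, huc, hvc, hu, hv, hup, hvp, equ, eqv⟩
  have h₁ : w ≤ w₁ := hw.trans_le (min_le_left _ _)
  have h₂ : w ≤ w₂ := hw.trans_le (min_le_right _ _)
  have triv := fun hc => no_solutionW_trivial (by omega) hp hq hw₁ hw₂ hc huc hvc hu hv hup hvp
    equ eqv
  rcases le_or_gt w (-2) with hw2 | hw2
  · rcases min_choice w₁ w₂ with h' | h' <;> rw [h'] at hw <;> subst hw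
    · exact triv (Or.inl hw2)
    · exact triv (Or.inr (Or.inl hw2))
  rcases le_or_gt (p * q) 1 with hpq | hpq
  · exact triv (Or.inr (Or.inr (Or.inl hpq)))
  obtain ⟨hsub, hk, hσ, hd⟩ := (h.resolve_left hw2.not_ge).resolve_left hpq.not_ge
  have hw0 : 0 < 2 + w := by linarith
  have hd' : 0 < p * q - 1 := by linarith
  have hN : coneDim n w - 2 = 2 * ((n : ℝ) - 2) / (2 + w) := by rw [coneDim]; field_simp; ring
  have key : ∀ a : ℝ, 2 + w + (2 + w) * a ≤ ((n : ℝ) - 2) * (p * q - 1) →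
      2 * (a + 1) / (p * q - 1) ≤ coneDim n w - 2 := by
    intro a ha
    rw [hN, div_le_div_iff₀ hd' hw0]
    linarith
  have m1 := mul_le_mul_of_nonneg_right h₁ hq.le
  have m2 := mul_le_mul_of_nonneg_right h₂ hp.le
  have hαN : α ≤ coneDim n w - 2 := by
    rw [hα]
    by_contra hc
    refine triv (Or.inr (Or.inr (Or.inr (Or.inl ?_))))
    by_contra hle
    exact hc (key p (by linarith))
  have hβN : β ≤ coneDim n w - 2 := by
    rw [hβ]
    by_contra hc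
    refine triv (Or.inr (Or.inr (Or.inr (Or.inr ?_))))
    by_contra hle
    exact hc (key q (by linarith))
  rcases le_total q p with hqp | hqp
  · have hβα : β ≤ α := by rw [hα, hβ]; gcongr
    rw [max_eq_left hβα, min_eq_right hβα] at hk
    rw [min_eq_right hβα] at hσ
    exact no_solution_unequal_ordered hn hw2 hw₁ hw₂ hw hq hqp hpq hα hβ hαN hk hsub hσ hd
      ⟨u, v, huc, hvc, hu, hv, hup, hvp, equ, eqv⟩
  · have hαβ : α ≤ β := by rw [hα, hβ]; gcongr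
    rw [max_eq_right hαβ, min_eq_left hαβ] at hk
    rw [min_eq_left hαβ, sub_sq_comm, add_comm α β] at hσ
    exact no_solution_unequal_ordered hn hw2 hw₂ hw₁ (hw.trans (min_comm _ _)) hp hqp
      (by rwa [mul_comm]) (by rw [hβ, mul_comm q p]) (by rw [hα, mul_comm q p]) hβN hk
      (by rwa [add_comm β α]) hσ
      (hd.imp Eq.symm fun hd => by
        rwa [abs_sub_comm, sub_sq_comm, show 16 * β * α = 16 * α * β by ring])
      ⟨v, u, hvc, huc, hv, hu, hvp, hup, eqv, equ⟩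

end Vale.Agent.P100.RealDim
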