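import Vale.Agent.P100.Cert

/-!
# The family without the Hessian of `log u`

For `F = Kb + x |b|² b + y |b|² a + (a₁ P + a₂ Q) a + (b₁ P + b₂ Q) b` the certificate reduces,
after minimising over `K`, to a quartic form in `A = |a|²`, `B = |b|²`, `C = a·b`, `P`, `Q`.
-/

open Finset

namespace Vale.Agent.P100

variable {n : ℕ}

/-- Coefficients of the family without `D² log u`. -/
def vCoef (x y a₁ a₂ b₁ b₂ : ℝ) : Fin 14 → ℝ :=
  ![0, 0, 0, 1, 0, 0, 0, 0, y, x, a₁, b₁, a₂, b₂]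

/-- The quartic quantity controlled by this family. -/
noncomputable def vNrm (d : Data n) : ℝ :=
  dotv d.2.1 d.2.1 ^ 2 + dotv d.1 d.1 * dotv d.2.1 d.2.1 + d.2.2.1 ^ 2 + d.2.2.2.1 ^ 2 +
    (|d.2.2.1| + |d.2.2.2.1|) * (dotv d.1 d.1 + dotv d.2.1 d.2.1) + frob d.2.2.2.2.2 d.2.2.2.2.2

/-- The form left after minimising over `K`, with share `t` of `|K|²`. -/
noncomputable def vForm (N : ℕ) (t p q lam mu x y a₁ a₂ b₁ b₂ A B C P Q : ℝ) : ℝ :=
  ((2 * t * -(B + Q) + (mu + 2 * x - 2) * B + (lam + 2 * y) * C) ^ 2 / N -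
      ((mu + 2 * x - 2) ^ 2 * B ^ 2 + 2 * (mu + 2 * x - 2) * (lam + 2 * y) * (B * C) +
        (lam + 2 * y) ^ 2 * ((A * B + C ^ 2) / 2))) / (4 * t) +
    Q * (B - q * C) +
    x * (B * (-(B + Q)) + B * (lam * C + mu * B)) +
    y * (B * (-(A + P)) + B * (lam * A + mu * C)) +
    a₁ * (P * (-(A + P)) + P * (p * C - A) + P * (lam * A + mu * C)) +
    b₁ * (P * (-(B + Q)) + P * (p * B - C) + P * (lam * C + mu * B)) +
    a₂ * (Q * (-(A + P)) + Q * (q * A - C) + Q * (lam * A + mu * C)) +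
    b₂ * (Q * (-(B + Q)) + Q * (q * C - B) + Q * (lam * C + mu * B))

lemma dotv_self_nonneg (a : Fin n → ℝ) : 0 ≤ dotv a a :=
  sum_nonneg fun i _ => mul_self_nonneg _

lemma dotv_comm (a b : Fin n → ℝ) : dotv a b = dotv b a :=
  sum_congr rfl fun i _ => mul_comm _ _

lemma dotv_sq_le (a b : Fin n → ℝ) : dotv a b ^ 2 ≤ dotv a a * dotv b b := by
  have := sum_mul_sq_le_sq_mul_sq univ a b
  simpa [dotv, sq] using this

lemma frob_self_nonneg (K : Fin n → Fin n → ℝ) : 0 ≤ frob K K :=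
  sum_nonneg fun i _ => sum_nonneg fun j _ => mul_self_nonneg _

/-- Minimisation over `K` with prescribed trace. -/
lemma frob_min (hn : 0 < n) {t : ℝ} (ht : 0 < t) (a b : Fin n → ℝ) (K : Fin n → Fin n → ℝ)
    (hK : ∀ i j, K i j = K j i) (X Y : ℝ) :
    ((2 * t * (∑ i, K i i) + X * dotv b b + Y * dotv a b) ^ 2 / n -
        (X ^ 2 * dotv b b ^ 2 + 2 * X * Y * (dotv b b * dotv a b) +
          Y ^ 2 * ((dotv a a * dotv b b + dotv a b ^ 2) / 2))) / (4 * t) ≤
      t * frob K K + X * dotv (mulv K b) b + Y * dotv (mulv K b) a := by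
  set s := ∑ i, K i i
  set ν := (2 * t * s + X * dotv b b + Y * dotv a b) / n with hν
  let M : Fin n → Fin n → ℝ := fun i j => X * (b i * b j) + Y / 2 * (a i * b j + b i * a j)
  let d : Fin n → Fin n → ℝ := fun i j => if i = j then ν else 0
  have h0 : 0 ≤ ∑ i, ∑ j, (2 * t * K i j + M i j - d i j) ^ 2 :=
    sum_nonneg fun i _ => sum_nonneg fun j _ => sq_nonneg _
  have e : ∀ i j, (2 * t * K i j + M i j - d i j) ^ 2 = 4 * t ^ 2 * (K i j * K i j) +
      4 * t * (K i j * M i j) + M i j * M i j - (if i = j then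
        2 * ν * (2 * t * K i j + M i j) - ν ^ 2 else 0) := by
    intro i j
    simp only [d]
    split_ifs <;> ring
  simp only [e, sum_sub_distrib, sum_add_distrib, sum_ite_eq, mem_univ, if_true, ← mul_sum] at h0
  have hswap : ∑ i, ∑ j, K i j * (b i * a j) = ∑ i, ∑ j, K i j * (a i * b j) := by
    rw [sum_comm]
    exact sum_congr rfl fun i _ => sum_congr rfl fun j _ => by rw [hK j i]; ring
  have hKM : ∑ i, ∑ j, K i j * M i j = X * dotv (mulv K b) b + Y * dotv (mulv K b) a := by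
    have h1 : ∀ i j, K i j * M i j = X * (K i j * (b i * b j)) +
        (Y / 2 * (K i j * (a i * b j)) + Y / 2 * (K i j * (b i * a j))) := fun i j => by
      simp only [M]; ring
    have hb : ∀ z : Fin n → ℝ, dotv (mulv K b) z = ∑ i, ∑ j, K i j * (z i * b j) := fun z => by
      simp only [dotv, mulv, sum_mul]
      exact sum_congr rfl fun i _ => sum_congr rfl fun j _ => by ring
    simp only [h1, sum_add_distrib, ← mul_sum, hswap, ← hb]
    ring
  have hMM : ∑ i, ∑ j, M i j * M i j = X ^ 2 * dotv b b ^ 2 + 2 * X * Y * (dotv b b * dotv a b) +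
      Y ^ 2 * ((dotv a a * dotv b b + dotv a b ^ 2) / 2) := by
    have prod : ∀ f g : Fin n → ℝ, ∑ i, ∑ j, f i * g j = (∑ i, f i) * ∑ j, g j := fun f g => by
      rw [sum_mul_sum]
    have h1 : ∀ i j, M i j * M i j = X ^ 2 * ((b i * b i) * (b j * b j)) +
        X * Y * ((a i * b i) * (b j * b j)) + X * Y * ((b i * b i) * (a j * b j)) +
        Y ^ 2 / 4 * ((a i * a i) * (b j * b j)) + Y ^ 2 / 4 * ((b i * b i) * (a j * a j)) +
        Y ^ 2 / 2 * ((a i * b i) * (a j * b j)) := fun i j => by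
      simp only [M]; ring
    simp only [h1, sum_add_distrib, ← mul_sum, ← sum_mul, dotv]
    ring
  have hdiag : ∑ i, (2 * ν * (2 * t * K i i + M i i) - ν ^ 2) =
      2 * ν * (2 * t * s + X * dotv b b + Y * dotv a b) - n * ν ^ 2 := by
    have hM : ∀ i, M i i = X * (b i * b i) + Y * (a i * b i) := fun i => by simp only [M]; ring
    simp only [hM, sum_sub_distrib, mul_add, sum_add_distrib, sum_const, card_univ,
      Fintype.card_fin, nsmul_eq_mul, ← mul_sum, dotv, s]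
    ring
  simp only [hKM, hMM, ← frob.eq_def] at h0
  simp only [sum_sub_distrib, ← mul_sum, sum_add_distrib, mul_add] at hdiag h0
  have hn' : (0 : ℝ) < n := Nat.cast_pos.2 hn
  rw [div_le_iff₀ (by positivity)]
  have hfin : (2 * t * s + X * dotv b b + Y * dotv a b) ^ 2 / n =
      2 * ν * (2 * t * s + X * dotv b b + Y * dotv a b) - n * ν ^ 2 := by
    rw [hν]; field_simp; ring
  nlinarith [h0, hdiag, hfin]

/-- The row expression of this family. -/
lemma rowR_vCoef (p q lam mu x y a₁ a₂ b₁ b₂ : ℝ) (a b : Fin n → ℝ) (P Q : ℝ)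
    (H K : Fin n → Fin n → ℝ) :
    rowR p q lam mu (vCoef x y a₁ a₂ b₁ b₂) a b P Q H K = frob K K +
      (mu + 2 * x - 2) * dotv (mulv K b) b + (lam + 2 * y) * dotv (mulv K b) a +
      (Q * (dotv b b - q * dotv a b) +
      x * (dotv b b * (-(dotv b b + Q)) + dotv b b * (lam * dotv a b + mu * dotv b b)) +
      y * (dotv b b * (-(dotv a a + P)) + dotv b b * (lam * dotv a a + mu * dotv a b)) +
      a₁ * (P * (-(dotv a a + P)) + P * (p * dotv a b - dotv a a) +
        P * (lam * dotv a a + mu * dotv a b)) +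
      b₁ * (P * (-(dotv b b + Q)) + P * (p * dotv b b - dotv a b) +
        P * (lam * dotv a b + mu * dotv b b)) +
      a₂ * (Q * (-(dotv a a + P)) + Q * (q * dotv a a - dotv a b) +
        Q * (lam * dotv a a + mu * dotv a b)) +
      b₂ * (Q * (-(dotv b b + Q)) + Q * (q * dotv a b - dotv b b) +
        Q * (lam * dotv a b + mu * dotv b b))) := by
  have hg : dotv (gradLapV q a b Q K) b =
      -2 * dotv (mulv K b) b - Q * (q * dotv a b - dotv b b) := by
    simp only [dotv, gradLapV, mul_sum, ← sum_sub_distrib]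
    exact sum_congr rfl fun i _ => by ring
  have hl : ∀ z : Fin n → ℝ, ∑ i, (lam * a i + mu * b i) * z i =
      lam * dotv z a + mu * dotv z b := fun z => by
    simp only [dotv, mul_sum, ← sum_add_distrib]
    exact sum_congr rfl fun i _ => by ring
  have hls : ∀ (c : ℝ) (z : Fin n → ℝ), ∑ i, (lam * a i + mu * b i) * (c * z i) =
      c * (lam * dotv z a + mu * dotv z b) := fun c z => by
    rw [← hl, mul_sum]
    exact sum_congr rfl fun i _ => by ring
  have hsm : ∀ (c : ℝ) (z w : Fin n → ℝ), dotv (fun i => c * z i) w = c * dotv z w :=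
    fun c z w => by simp only [dotv, mul_sum, mul_assoc]
  have heta : (fun i => mulv K b i) = mulv K b := rfl
  simp [rowR, Fin.sum_univ_succ, vCoef, divT, fld, hg, hl, hls, hsm, heta, dotv_comm b a]
  ring

/-- The flux of this family is controlled by `vNrm`. -/
lemma vOnly_flux (a b : Fin n → ℝ) (P Q : ℝ) (H K : Fin n → Fin n → ℝ) (x y a₁ a₂ b₁ b₂ : ℝ)
    (i : Fin n) :
    |∑ j, vCoef x y a₁ a₂ b₁ b₂ j * fld a b P Q H K j i| ≤
      ((n + 1) * (1 + |x| + |y| + |a₁| + |a₂| + |b₁| + |b₂|)) *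
        vNrm (a, b, P, Q, H, K) ^ (3 / 4 : ℝ) := by
  set N := vNrm (a, b, P, Q, H, K) with hNdef
  have hA := dotv_self_nonneg a
  have hB := dotv_self_nonneg b
  have hKn := frob_self_nonneg K
  have hN : 0 ≤ N := by rw [hNdef, vNrm]; positivity
  set s : ℝ := N ^ (1 / 4 : ℝ) with hsdef
  have hs : 0 ≤ s := Real.rpow_nonneg hN _
  have h4 : s ^ 4 = N := by
    rw [hsdef, ← Real.rpow_natCast, ← Real.rpow_mul hN]; norm_num
  have h3 : N ^ (3 / 4 : ℝ) = s ^ 3 := by
    rw [hsdef, ← Real.rpow_natCast, ← Real.rpow_mul hN]; norm_num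
  have hAB : 0 ≤ dotv a a * dotv b b := mul_nonneg hA hB
  have hPA : 0 ≤ |P| * dotv a a := mul_nonneg (abs_nonneg _) hA
  have hQA : 0 ≤ |Q| * dotv a a := mul_nonneg (abs_nonneg _) hA
  have hPB : 0 ≤ |P| * dotv b b := mul_nonneg (abs_nonneg _) hB
  have hQB : 0 ≤ |Q| * dotv b b := mul_nonneg (abs_nonneg _) hB
  have hsum : N = dotv b b ^ 2 + dotv a a * dotv b b + P ^ 2 + Q ^ 2 +
      (|P| * dotv a a + |P| * dotv b b + |Q| * dotv a a + |Q| * dotv b b) + frob K K := by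
    rw [hNdef, vNrm]; ring
  have two : ∀ z : ℝ, z ^ 2 ≤ N → |z| ≤ s ^ 2 := fun z hz =>
    abs_le_of_sq_le_sq (by nlinarith [h4, hz]) (by positivity)
  have hb2 : |dotv b b| ≤ s ^ 2 := two _ (by linarith [sq_nonneg P, sq_nonneg Q])
  have hP2 : |P| ≤ s ^ 2 := two _ (by linarith [sq_nonneg (dotv b b), sq_nonneg Q])
  have hQ2 : |Q| ≤ s ^ 2 := two _ (by linarith [sq_nonneg (dotv b b), sq_nonneg P])
  have coord : ∀ (z : Fin n → ℝ) l, z l * z l ≤ dotv z z := fun z l =>
    single_le_sum (f := fun m => z m * z m) (fun m _ => mul_self_nonneg _) (mem_univ l)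
  have hbl : ∀ l, |b l| ≤ s := fun l =>
    abs_le_of_sq_le_sq (by nlinarith [coord b l, (le_abs_self _).trans hb2]) hs
  have small : ∀ (g : ℝ) (z : Fin n → ℝ), |g| ≤ s ^ 2 → |g| * dotv z z ≤ N →
      |g * z i| ≤ s ^ 3 := by
    intro g z hg hgz
    refine abs_le_of_sq_le_sq ?_ (by positivity)
    calc (g * z i) ^ 2 = |g| * (|g| * (z i * z i)) := by rw [← mul_assoc, abs_mul_abs_self]; ring
      _ ≤ s ^ 2 * N := mul_le_mul hg ((mul_le_mul_of_nonneg_left (coord z i) (abs_nonneg _)).trans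
          hgz) (mul_nonneg (abs_nonneg _) (mul_self_nonneg _)) (by positivity)
      _ = (s ^ 3) ^ 2 := by rw [← h4]; ring
  have hn1 : (1 : ℝ) ≤ n + 1 := by simp
  have up : ∀ z : ℝ, |z| ≤ s ^ 3 → |z| ≤ (n + 1) * s ^ 3 := fun z hz =>
    hz.trans (le_mul_of_one_le_left (by positivity) hn1)
  have hKb : |mulv K b i| ≤ (n + 1) * s ^ 3 := by
    refine (abs_sum_le_sum_abs _ _).trans
      (le_trans (sum_le_sum (g := fun _ => s ^ 3) fun l _ => ?_) ?_)
    · rw [abs_mul, show s ^ 3 = s ^ 2 * s by ring]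
      refine mul_le_mul (two _ ?_) (hbl l) (abs_nonneg _) (by positivity)
      have : K i l * K i l ≤ frob K K :=
        le_trans (single_le_sum (f := fun m => K i m * K i m) (fun m _ => mul_self_nonneg _)
          (mem_univ l)) (single_le_sum (f := fun u => ∑ m, K u m * K u m)
          (fun u _ => sum_nonneg fun m _ => mul_self_nonneg _) (mem_univ i))
      linarith [sq_nonneg (dotv b b), sq_nonneg P, sq_nonneg Q, sq (K i l)]
    · simp only [sum_const, card_univ, Fintype.card_fin, nsmul_eq_mul]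
      nlinarith [pow_nonneg hs 3]
  have hBb := up _ (small _ b hb2 (by
    rw [abs_of_nonneg hB]; linarith [sq_nonneg P, sq_nonneg Q, sq (dotv b b)]))
  have hBa := up _ (small _ a hb2 (by
    rw [abs_of_nonneg hB, mul_comm]; linarith [sq_nonneg P, sq_nonneg Q, sq_nonneg (dotv b b)]))
  have hPa := up _ (small _ a hP2 (by linarith [sq_nonneg P, sq_nonneg Q, sq_nonneg (dotv b b)]))
  have hPb := up _ (small _ b hP2 (by linarith [sq_nonneg P, sq_nonneg Q, sq_nonneg (dotv b b)]))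
  have hQa := up _ (small _ a hQ2 (by linarith [sq_nonneg P, sq_nonneg Q, sq_nonneg (dotv b b)]))
  have hQb := up _ (small _ b hQ2 (by linarith [sq_nonneg P, sq_nonneg Q, sq_nonneg (dotv b b)]))
  have hexp : ∑ j, vCoef x y a₁ a₂ b₁ b₂ j * fld a b P Q H K j i =
      mulv K b i + x * (dotv b b * b i) + y * (dotv b b * a i) + a₁ * (P * a i) +
        b₁ * (P * b i) + a₂ * (Q * a i) + b₂ * (Q * b i) := by
    simp [Fin.sum_univ_succ, vCoef, fld]
    ring
  rw [hexp, h3]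
  have m : ∀ c z : ℝ, |z| ≤ (n + 1) * s ^ 3 → |c * z| ≤ |c| * ((n + 1) * s ^ 3) := fun c z hz =>
    by rw [abs_mul]; exact mul_le_mul_of_nonneg_left hz (abs_nonneg _)
  have := abs_add_le (mulv K b i + x * (dotv b b * b i) + y * (dotv b b * a i) + a₁ * (P * a i) +
        b₁ * (P * b i) + a₂ * (Q * a i)) (b₂ * (Q * b i))
  have := abs_add_le (mulv K b i + x * (dotv b b * b i) + y * (dotv b b * a i) + a₁ * (P * a i) +
        b₁ * (P * b i)) (a₂ * (Q * a i))
  have := abs_add_le (mulv K b i + x * (dotv b b * b i) + y * (dotv b b * a i) + a₁ * (P * a i))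
    (b₁ * (P * b i))
  have := abs_add_le (mulv K b i + x * (dotv b b * b i) + y * (dotv b b * a i)) (a₁ * (P * a i))
  have := abs_add_le (mulv K b i + x * (dotv b b * b i)) (y * (dotv b b * a i))
  have := abs_add_le (mulv K b i) (x * (dotv b b * b i))
  have := m x _ hBb
  have := m y _ hBa
  have := m a₁ _ hPa
  have := m b₁ _ hPb
  have := m a₂ _ hQa
  have := m b₂ _ hQb
  rw [show (n + 1 : ℝ) * (1 + |x| + |y| + |a₁| + |a₂| + |b₁| + |b₂|) * s ^ 3 =
    (n + 1) * s ^ 3 + |x| * ((n + 1) * s ^ 3) + |y| * ((n + 1) * s ^ 3) +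
      |a₁| * ((n + 1) * s ^ 3) + |a₂| * ((n + 1) * s ^ 3) + |b₁| * ((n + 1) * s ^ 3) +
      |b₂| * ((n + 1) * s ^ 3) by ring]
  linarith

lemma rowZ_const (p q lam mu : ℝ) (c : Fin 14 → ℝ) (a b : Fin n → ℝ) (P Q : ℝ)
    (H K : Fin n → Fin n → ℝ) :
    rowZ p q lam mu (fun j _ => c j) a b P Q H K = rowR p q lam mu c a b P Q H K := by
  simp [rowZ, rowR]

/-- A quartic-form inequality gives a certificate of the family without `D² log u`. -/
theorem certZ_vOnly (hn : 0 < n) {p q κ r₁ r₂ lam mu ε x y a₁ a₂ b₁ b₂ : ℝ} (hε : 0 < ε)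
    (hε1 : ε < 1) (h₁ : 0 ≤ r₁) (h₂ : 0 ≤ r₂) (hlam : lam = -2 * r₁ + 2 * q * r₂)
    (hmu : mu = 2 * p * r₁ - 2 * r₂)
    (hform : ∀ A B C P Q : ℝ, 0 ≤ A → 0 ≤ B → C ^ 2 ≤ A * B → 0 < P → 0 < Q → P ≤ κ * Q →
      ε * (B ^ 2 + A * B + P ^ 2 + Q ^ 2 + (P + Q) * (A + B)) ≤
        vForm n (1 - ε) p q lam mu x y a₁ a₂ b₁ b₂ A B C P Q) :
    CertZ n p q κ r₁ r₂ (fun j _ => vCoef x y a₁ a₂ b₁ b₂ j) vNrm ε
      ((n + 1) * (1 + |x| + |y| + |a₁| + |a₂| + |b₁| + |b₂|)) where
  eps_pos := hε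
  flux_nonneg := by positivity
  r₁_nonneg := h₁
  r₂_nonneg := h₂
  smooth j := contDiff_const
  cont := by unfold vNrm dotv frob; fun_prop
  sqP a b P Q H K := by
    have := dotv_self_nonneg a
    have := dotv_self_nonneg b
    have := frob_self_nonneg K
    simp only [vNrm]
    nlinarith [sq_nonneg Q, sq_nonneg (dotv b b), mul_nonneg ‹0 ≤ dotv a a› ‹0 ≤ dotv b b›,
      mul_nonneg (add_nonneg (abs_nonneg P) (abs_nonneg Q))
        (add_nonneg ‹0 ≤ dotv a a› ‹0 ≤ dotv b b›)]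
  sqQ a b P Q H K := by
    have := dotv_self_nonneg a
    have := dotv_self_nonneg b
    have := frob_self_nonneg K
    simp only [vNrm]
    nlinarith [sq_nonneg P, sq_nonneg (dotv b b), mul_nonneg ‹0 ≤ dotv a a› ‹0 ≤ dotv b b›,
      mul_nonneg (add_nonneg (abs_nonneg P) (abs_nonneg Q))
        (add_nonneg ‹0 ≤ dotv a a› ‹0 ≤ dotv b b›)]
  flux a b P Q H K _ _ _ i := vOnly_flux a b P Q H K x y a₁ a₂ b₁ b₂ i
  bound a b P Q H K _ hK _ htrK hP hQ hPQ := by
    rw [← hlam, ← hmu, rowZ_const, rowR_vCoef]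
    have h := hform (dotv a a) (dotv b b) (dotv a b) P Q (dotv_self_nonneg a) (dotv_self_nonneg b)
      (dotv_sq_le a b) hP hQ hPQ
    have hm := frob_min hn (show (0 : ℝ) < 1 - ε by linarith) a b K hK (mu + 2 * x - 2)
      (lam + 2 * y)
    rw [htrK] at hm
    simp only [vForm] at h
    simp only [vNrm, abs_of_pos hP, abs_of_pos hQ]
    nlinarith [h, hm]

end Vale.Agent.P100
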